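import Mathlib

/-!
Row 331, leaf [ANOVA], array level (helper927).

For probability weights `p` on `I` and `q` on `J` the maps
`JA : ℓ²(I×I) → ℓ²((I×J)×(I×J))`, `(JA y)((i,j),(i',j')) = δ_{jj'} √q_j y(i,i')` and
`JB : ℓ²(J×J) → ℓ²((I×J)×(I×J))`, `(JB z)((i,j),(i',j')) = δ_{ii'} √p_i z(j,j')`
are isometries with `⟪JA y, JB z⟫ = ⟪y, ΩA⟫ ⟪ΩB, z⟫`. Hence for centred `ξ`
`‖JA† ξ‖² + ‖JB† ξ‖² ≤ ‖ξ‖²` (ANOVA).
-/

set_option autoImplicit false

open scoped InnerProductSpace ENNReal ComplexConjugate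

noncomputable section

namespace Crest.Agent.R331.Anova927

/-! ### Abstract ANOVA -/

section Abstract

variable {K : Type*} [NormedAddCommGroup K] [InnerProductSpace ℂ K]
variable {KA KB : Type*} [NormedAddCommGroup KA] [InnerProductSpace ℂ KA]
  [NormedAddCommGroup KB] [InnerProductSpace ℂ KB]

/-- Centred ANOVA for two isometries whose ranges are orthogonal apart from one common direction. -/
theorem anova_centred (JA : KA →ₗᵢ[ℂ] K) (JB : KB →ₗᵢ[ℂ] K) (ΩA : KA) (ΩB : KB)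
    (hov : ∀ y z, ⟪JA y, JB z⟫_ℂ = ⟪y, ΩA⟫_ℂ * ⟪ΩB, z⟫_ℂ)
    (ξ : K) (α : KA) (β : KB)
    (hα : ∀ y, ⟪JA y, ξ⟫_ℂ = ⟪y, α⟫_ℂ) (hβ : ∀ z, ⟪JB z, ξ⟫_ℂ = ⟪z, β⟫_ℂ)
    (hc : ⟪ΩA, α⟫_ℂ = 0) :
    ‖α‖ ^ 2 + ‖β‖ ^ 2 ≤ ‖ξ‖ ^ 2 := by
  have hαΩ : ⟪α, ΩA⟫_ℂ = 0 := by
    rw [← inner_conj_symm, hc, map_zero]
  have hAB : ⟪JA α, JB β⟫_ℂ = 0 := by rw [hov, hαΩ, zero_mul]
  have hBA : ⟪JB β, JA α⟫_ℂ = 0 := by
    rw [← inner_conj_symm, hAB, map_zero]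
  have h1 : ‖JA α + JB β‖ ^ 2 = ‖α‖ ^ 2 + ‖β‖ ^ 2 := by
    have h := norm_add_sq (𝕜 := ℂ) (JA α) (JB β)
    rw [hAB] at h
    rw [h, JA.norm_map, JB.norm_map]
    simp
  have h2 : (⟪JA α + JB β, ξ⟫_ℂ).re = ‖α‖ ^ 2 + ‖β‖ ^ 2 := by
    rw [inner_add_left, hα, hβ, inner_self_eq_norm_sq_to_K, inner_self_eq_norm_sq_to_K]
    norm_cast
  have h3 : (⟪JA α + JB β, ξ⟫_ℂ).re ≤ ‖JA α + JB β‖ * ‖ξ‖ :=
    (Complex.re_le_norm _).trans (norm_inner_le_norm _ _)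
  rw [h2] at h3
  set t := ‖JA α + JB β‖ with ht
  have h4 : t ^ 2 ≤ t * ‖ξ‖ := by rw [h1]; exact h3
  have ht0 : 0 ≤ t := norm_nonneg _
  have hξ0 : 0 ≤ ‖ξ‖ := norm_nonneg _
  rw [← h1]
  by_cases h5 : t = 0
  · rw [h5]; nlinarith [sq_nonneg ‖ξ‖]
  · have h6 : 0 < t := lt_of_le_of_ne ht0 (Ne.symm h5)
    have h7 : t ≤ ‖ξ‖ := by
      by_contra hlt
      rw [not_le] at hlt
      nlinarith
    exact pow_le_pow_left₀ ht0 h7 2

end Abstract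

/-! ### Concrete isometries -/

section Concrete

variable {I J : Type*}

/-- Square-summable arrays. -/
abbrev Arr (S : Type*) : Type _ := lp (fun _ : S × S => ℂ) 2

open Classical in
/-- `(jA q y)((i,j),(i',j')) = δ_{jj'} √q_j y(i,i')`. -/
def jA (q : J → ℝ) (y : I × I → ℂ) : (I × J) × (I × J) → ℂ := fun s =>
  if s.1.2 = s.2.2 then ((Real.sqrt (q s.1.2) : ℝ) : ℂ) * y (s.1.1, s.2.1) else 0

open Classical in
/-- `(jB p z)((i,j),(i',j')) = δ_{ii'} √p_i z(j,j')`. -/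
def jB (p : I → ℝ) (z : J × J → ℂ) : (I × J) × (I × J) → ℂ := fun s =>
  if s.1.1 = s.2.1 then ((Real.sqrt (p s.1.1) : ℝ) : ℂ) * z (s.1.2, s.2.2) else 0

/-- The embedding `((i,i'),j) ↦ ((i,j),(i',j))`. -/
def embA (I J : Type*) : (I × I) × J → (I × J) × (I × J) := fun s => ((s.1.1, s.2), (s.1.2, s.2))

/-- The embedding `((j,j'),i) ↦ ((i,j),(i,j'))`. -/
def embB (I J : Type*) : (J × J) × I → (I × J) × (I × J) := fun s => ((s.2, s.1.1), (s.2, s.1.2))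

theorem embA_inj : Function.Injective (embA I J) := by
  rintro ⟨⟨a, b⟩, c⟩ ⟨⟨a', b'⟩, c'⟩ h
  simp only [embA, Prod.mk.injEq] at h
  obtain ⟨⟨h1, h2⟩, h3, h4⟩ := h
  subst h1; subst h2; subst h3; rfl

theorem embB_inj : Function.Injective (embB I J) := by
  rintro ⟨⟨a, b⟩, c⟩ ⟨⟨a', b'⟩, c'⟩ h
  simp only [embB, Prod.mk.injEq] at h
  obtain ⟨⟨h1, h2⟩, h3, h4⟩ := h
  subst h1; subst h2; subst h4; rfl

theorem jA_emb (q : J → ℝ) (y : I × I → ℂ) (s : (I × I) × J) :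
    jA q y (embA I J s) = ((Real.sqrt (q s.2) : ℝ) : ℂ) * y s.1 := by
  simp [jA, embA]

theorem jB_emb (p : I → ℝ) (z : J × J → ℂ) (s : (J × J) × I) :
    jB p z (embB I J s) = ((Real.sqrt (p s.2) : ℝ) : ℂ) * z s.1 := by
  simp [jB, embB]

theorem jA_out (q : J → ℝ) (y : I × I → ℂ) (s : (I × J) × (I × J)) (hs : s ∉ Set.range (embA I J)) :
    jA q y s = 0 := by
  unfold jA
  rw [if_neg]
  intro h
  apply hs
  exact ⟨((s.1.1, s.2.1), s.1.2), by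
    obtain ⟨⟨a, b⟩, ⟨c, d⟩⟩ := s
    simp only at h
    subst h
    rfl⟩

theorem jB_out (p : I → ℝ) (z : J × J → ℂ) (s : (I × J) × (I × J)) (hs : s ∉ Set.range (embB I J)) :
    jB p z s = 0 := by
  unfold jB
  rw [if_neg]
  intro h
  apply hs
  exact ⟨((s.1.2, s.2.2), s.1.1), by
    obtain ⟨⟨a, b⟩, ⟨c, d⟩⟩ := s
    simp only at h
    subst h
    rfl⟩

theorem hasSum_normSq_lp {S : Type*} (y : lp (fun _ : S => ℂ) 2) :
    HasSum (fun s => ‖y s‖ ^ 2) (‖y‖ ^ 2) := by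
  have h := lp.hasSum_norm (p := 2) (by norm_num) y
  simpa using h

theorem memlp_of_summable {S : Type*} {y : S → ℂ} (h : Summable fun s => ‖y s‖ ^ 2) :
    Memℓp y 2 := by
  apply memℓp_gen
  simpa using h

theorem hasSum_prod_of_nonneg {S T : Type*} {f : S → ℝ} {g : T → ℝ} {a b : ℝ}
    (hf : HasSum f a) (hg : HasSum g b) (hf0 : ∀ s, 0 ≤ f s) (hg0 : ∀ t, 0 ≤ g t) :
    HasSum (fun x : S × T => f x.1 * g x.2) (a * b) :=
  hf.mul hg (hf.summable.mul_of_nonneg hg.summable hf0 hg0)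

theorem hasSum_jA {q : J → ℝ} (hq0 : ∀ j, 0 ≤ q j) (hq : HasSum q 1) {y : I × I → ℂ} {a : ℝ}
    (hy : HasSum (fun s => ‖y s‖ ^ 2) a) : HasSum (fun s => ‖jA q y s‖ ^ 2) a := by
  rw [← (embA_inj (I := I) (J := J)).hasSum_iff
    (fun s hs => by rw [jA_out q y s hs]; simp)]
  have h := hasSum_prod_of_nonneg hy hq (fun s => by positivity) hq0
  rw [mul_one] at h
  convert h using 2 with s
  simp only [Function.comp_apply, jA_emb, norm_mul, mul_pow, Complex.norm_real, Real.norm_eq_abs,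
    abs_of_nonneg (Real.sqrt_nonneg _), Real.sq_sqrt (hq0 _)]
  ring

theorem hasSum_jB {p : I → ℝ} (hp0 : ∀ i, 0 ≤ p i) (hp : HasSum p 1) {z : J × J → ℂ} {a : ℝ}
    (hz : HasSum (fun s => ‖z s‖ ^ 2) a) : HasSum (fun s => ‖jB p z s‖ ^ 2) a := by
  rw [← (embB_inj (I := I) (J := J)).hasSum_iff
    (fun s hs => by rw [jB_out p z s hs]; simp)]
  have h := hasSum_prod_of_nonneg hz hp (fun s => by positivity) hp0
  rw [mul_one] at h
  convert h using 2 with s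
  simp only [Function.comp_apply, jB_emb, norm_mul, mul_pow, Complex.norm_real, Real.norm_eq_abs,
    abs_of_nonneg (Real.sqrt_nonneg _), Real.sq_sqrt (hp0 _)]
  ring

/-- The isometry `JA`. -/
def JA (q : J → ℝ) (hq0 : ∀ j, 0 ≤ q j) (hq : HasSum q 1) : Arr I →ₗᵢ[ℂ] Arr (I × J) where
  toFun y := ⟨jA q y, memlp_of_summable (hasSum_jA hq0 hq (hasSum_normSq_lp y)).summable⟩
  map_add' y z := by
    ext s
    simp only [jA, lp.coeFn_add, Pi.add_apply]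
    split_ifs <;> simp [mul_add]
  map_smul' c y := by
    ext s
    simp only [jA, lp.coeFn_smul, Pi.smul_apply, smul_eq_mul, RingHom.id_apply]
    split_ifs <;> simp [mul_left_comm]
  norm_map' y := by
    have h1 := hasSum_jA (I := I) hq0 hq (hasSum_normSq_lp y)
    have h2 := hasSum_normSq_lp (⟨jA q y, memlp_of_summable h1.summable⟩ : Arr (I × J))
    have h3 : ‖(⟨jA q y, memlp_of_summable h1.summable⟩ : Arr (I × J))‖ ^ 2 = ‖y‖ ^ 2 :=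
      h2.unique h1
    exact (sq_eq_sq₀ (norm_nonneg _) (norm_nonneg _)).1 h3

/-- The isometry `JB`. -/
def JB (p : I → ℝ) (hp0 : ∀ i, 0 ≤ p i) (hp : HasSum p 1) : Arr J →ₗᵢ[ℂ] Arr (I × J) where
  toFun z := ⟨jB p z, memlp_of_summable (hasSum_jB hp0 hp (hasSum_normSq_lp z)).summable⟩
  map_add' y z := by
    ext s
    simp only [jB, lp.coeFn_add, Pi.add_apply]
    split_ifs <;> simp [mul_add]
  map_smul' c y := by
    ext s
    simp only [jB, lp.coeFn_smul, Pi.smul_apply, smul_eq_mul, RingHom.id_apply]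
    split_ifs <;> simp [mul_left_comm]
  norm_map' z := by
    have h1 := hasSum_jB (J := J) hp0 hp (hasSum_normSq_lp z)
    have h2 := hasSum_normSq_lp (⟨jB p z, memlp_of_summable h1.summable⟩ : Arr (I × J))
    have h3 : ‖(⟨jB p z, memlp_of_summable h1.summable⟩ : Arr (I × J))‖ ^ 2 = ‖z‖ ^ 2 :=
      h2.unique h1
    exact (sq_eq_sq₀ (norm_nonneg _) (norm_nonneg _)).1 h3

theorem JA_apply (q : J → ℝ) (hq0 : ∀ j, 0 ≤ q j) (hq : HasSum q 1) (y : Arr I)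
    (s : (I × J) × (I × J)) : (JA q hq0 hq y : (I × J) × (I × J) → ℂ) s = jA q y s := rfl

theorem JB_apply (p : I → ℝ) (hp0 : ∀ i, 0 ≤ p i) (hp : HasSum p 1) (z : Arr J)
    (s : (I × J) × (I × J)) : (JB p hp0 hp z : (I × J) × (I × J) → ℂ) s = jB p z s := rfl

open Classical in
/-- The unit vector `Ω(i,i') = δ_{ii'} √p_i`. -/
def om (p : I → ℝ) : I × I → ℂ := fun s => if s.1 = s.2 then ((Real.sqrt (p s.1) : ℝ) : ℂ) else 0

theorem diag_inj : Function.Injective (fun i : I => (i, i)) := fun _ _ h => (Prod.ext_iff.1 h).1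

theorem om_diag (p : I → ℝ) (i : I) : om p (i, i) = ((Real.sqrt (p i) : ℝ) : ℂ) := by
  simp [om]

theorem om_out (p : I → ℝ) (s : I × I) (hs : s ∉ Set.range (fun i : I => (i, i))) :
    om p s = 0 := by
  unfold om
  rw [if_neg]
  intro h
  exact hs ⟨s.1, by ext <;> simp [h]⟩

theorem hasSum_om {p : I → ℝ} (hp0 : ∀ i, 0 ≤ p i) (hp : HasSum p 1) :
    HasSum (fun s => ‖om p s‖ ^ 2) 1 := by
  rw [← (diag_inj (I := I)).hasSum_iff (fun s hs => by rw [om_out p s hs]; simp)]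
  have e : ((fun s => ‖om p s‖ ^ 2) ∘ fun i : I => (i, i)) = p := by
    funext i
    simp only [Function.comp_apply, om_diag, Complex.norm_real, Real.norm_eq_abs,
      abs_of_nonneg (Real.sqrt_nonneg _), Real.sq_sqrt (hp0 _)]
  rw [e]
  exact hp

/-- `Ω` as a vector of `ℓ²(I×I)`. -/
def Om (p : I → ℝ) (hp0 : ∀ i, 0 ≤ p i) (hp : HasSum p 1) : Arr I :=
  ⟨om p, memlp_of_summable (hasSum_om hp0 hp).summable⟩

theorem hasSum_inner {S : Type*} (x y : lp (fun _ : S => ℂ) 2) :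
    HasSum (fun s => conj (x s) * y s) ⟪x, y⟫_ℂ := by
  have h := lp.hasSum_inner (𝕜 := ℂ) x y
  have e : (fun s => conj (x s) * y s) = fun s => ⟪x s, y s⟫_ℂ := by
    funext s
    rw [RCLike.inner_apply]
    ring
  rw [e]
  exact h

theorem hasSum_inner_Om {p : I → ℝ} (hp0 : ∀ i, 0 ≤ p i) (hp : HasSum p 1) (y : Arr I) :
    HasSum (fun i => ((Real.sqrt (p i) : ℝ) : ℂ) * y (i, i)) ⟪Om p hp0 hp, y⟫_ℂ := by
  have h := hasSum_inner (Om p hp0 hp) y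
  rw [← (diag_inj (I := I)).hasSum_iff (fun s hs => by
    change conj (om p s) * _ = 0
    rw [om_out p s hs]; simp)] at h
  convert h using 2 with i
  change _ = conj (om p (i, i)) * _
  rw [om_diag]
  simp

theorem hasSum_inner_Om' {p : I → ℝ} (hp0 : ∀ i, 0 ≤ p i) (hp : HasSum p 1) (y : Arr I) :
    HasSum (fun i => conj (y (i, i)) * ((Real.sqrt (p i) : ℝ) : ℂ)) ⟪y, Om p hp0 hp⟫_ℂ := by
  have h := (hasSum_inner_Om hp0 hp y).star
  rw [← starRingEnd_apply, inner_conj_symm] at h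
  convert h using 2 with i
  simp [mul_comm]

/-- `⟪JA y, ξ⟫` as a sum. -/
theorem hasSum_inner_JA {q : J → ℝ} (hq0 : ∀ j, 0 ≤ q j) (hq : HasSum q 1) (y : Arr I)
    (ξ : Arr (I × J)) :
    HasSum (fun s : (I × I) × J => conj (y s.1) * (((Real.sqrt (q s.2) : ℝ) : ℂ) *
      ξ ((s.1.1, s.2), (s.1.2, s.2)))) ⟪JA q hq0 hq y, ξ⟫_ℂ := by
  have h := hasSum_inner (JA q hq0 hq y) ξ
  rw [← (embA_inj (I := I) (J := J)).hasSum_iff (fun s hs => by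
    rw [JA_apply, jA_out q y s hs]; simp)] at h
  convert h using 2 with s
  simp only [Function.comp_apply, JA_apply, jA_emb, map_mul, Complex.conj_ofReal]
  simp only [embA]
  ring

/-- `⟪JB z, ξ⟫` as a sum. -/
theorem hasSum_inner_JB {p : I → ℝ} (hp0 : ∀ i, 0 ≤ p i) (hp : HasSum p 1) (z : Arr J)
    (ξ : Arr (I × J)) :
    HasSum (fun s : (J × J) × I => conj (z s.1) * (((Real.sqrt (p s.2) : ℝ) : ℂ) *
      ξ ((s.2, s.1.1), (s.2, s.1.2)))) ⟪JB p hp0 hp z, ξ⟫_ℂ := by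
  have h := hasSum_inner (JB p hp0 hp z) ξ
  rw [← (embB_inj (I := I) (J := J)).hasSum_iff (fun s hs => by
    rw [JB_apply, jB_out p z s hs]; simp)] at h
  convert h using 2 with s
  simp only [Function.comp_apply, JB_apply, jB_emb, map_mul, Complex.conj_ofReal]
  simp only [embB]
  ring

theorem emb3_inj : Function.Injective (fun s : I × J => (((s.1, s.1), s.2) : (I × I) × J)) := by
  rintro ⟨a, b⟩ ⟨c, d⟩ h
  simp only [Prod.mk.injEq] at h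
  obtain ⟨⟨h1, _⟩, h2⟩ := h
  subst h1; subst h2; rfl

theorem jB_diag (p : I → ℝ) (z : J × J → ℂ) (i : I) (j j' : J) :
    jB p z ((i, j), (i, j')) = ((Real.sqrt (p i) : ℝ) : ℂ) * z (j, j') := by
  simp [jB]

theorem jB_offdiag (p : I → ℝ) (z : J × J → ℂ) (i i' : I) (j j' : J) (h : i ≠ i') :
    jB p z ((i, j), (i', j')) = 0 := by
  simp [jB, h]

/-- The summand of `⟪JA y, JB z⟫`. -/
def ovF (p : I → ℝ) (q : J → ℝ) (y : I × I → ℂ) (z : J × J → ℂ) : (I × I) × J → ℂ := fun s =>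
  conj (y s.1) * (((Real.sqrt (q s.2) : ℝ) : ℂ) * jB p z ((s.1.1, s.2), (s.1.2, s.2)))

theorem ovF_out (p : I → ℝ) (q : J → ℝ) (y : I × I → ℂ) (z : J × J → ℂ) (s : (I × I) × J)
    (hs : s ∉ Set.range (fun s : I × J => (((s.1, s.1), s.2) : (I × I) × J))) :
    ovF p q y z s = 0 := by
  obtain ⟨⟨a, b⟩, c⟩ := s
  have hab : a ≠ b := by
    intro h
    subst h
    exact hs ⟨(a, c), rfl⟩
  unfold ovF
  rw [jB_offdiag p z a b c c hab, mul_zero, mul_zero]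

theorem ovF_comp (p : I → ℝ) (q : J → ℝ) (y : I × I → ℂ) (z : J × J → ℂ) :
    (ovF p q y z ∘ fun s : I × J => (((s.1, s.1), s.2) : (I × I) × J))
      = fun s : I × J => (conj (y (s.1, s.1)) * ((Real.sqrt (p s.1) : ℝ) : ℂ)) *
        (((Real.sqrt (q s.2) : ℝ) : ℂ) * z (s.2, s.2)) := by
  funext s
  simp only [Function.comp_apply, ovF]
  rw [jB_diag]
  ring

theorem hasSum_ovF {p : I → ℝ} (hp0 : ∀ i, 0 ≤ p i) (hp : HasSum p 1)
    {q : J → ℝ} (hq0 : ∀ j, 0 ≤ q j) (hq : HasSum q 1) (y : Arr I) (z : Arr J) :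
    HasSum (ovF p q y z) ⟪JA q hq0 hq y, JB p hp0 hp z⟫_ℂ :=
  hasSum_inner_JA hq0 hq y (JB p hp0 hp z)

theorem hasSum_prodC {S T : Type*} {f : S → ℂ} {g : T → ℂ} {a b : ℂ}
    (hf : HasSum f a) (hg : HasSum g b) :
    HasSum (fun x : S × T => f x.1 * g x.2) (a * b) := by
  have h : Summable fun x : S × T => f x.1 * g x.2 :=
    summable_mul_of_summable_norm (f := f) (g := g) hf.summable.norm hg.summable.norm
  exact HasSum.mul hf hg h

/-- Overlap of the two ranges. -/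
theorem inner_JA_JB {p : I → ℝ} (hp0 : ∀ i, 0 ≤ p i) (hp : HasSum p 1)
    {q : J → ℝ} (hq0 : ∀ j, 0 ≤ q j) (hq : HasSum q 1) (y : Arr I) (z : Arr J) :
    ⟪JA q hq0 hq y, JB p hp0 hp z⟫_ℂ = ⟪y, Om p hp0 hp⟫_ℂ * ⟪Om q hq0 hq, z⟫_ℂ := by
  have h2 := ((emb3_inj (I := I) (J := J)).hasSum_iff (ovF_out p q y z)).2
    (hasSum_ovF hp0 hp hq0 hq y z)
  rw [ovF_comp] at h2
  have h3 := hasSum_prodC (hasSum_inner_Om' hp0 hp y) (hasSum_inner_Om hq0 hq z)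
  exact h2.unique h3

/-- The adjoint maps `QA`, `QB`. -/
def QA (q : J → ℝ) (hq0 : ∀ j, 0 ≤ q j) (hq : HasSum q 1) : Arr (I × J) →L[ℂ] Arr I :=
  ContinuousLinearMap.adjoint (JA (I := I) q hq0 hq).toContinuousLinearMap

def QB (p : I → ℝ) (hp0 : ∀ i, 0 ≤ p i) (hp : HasSum p 1) : Arr (I × J) →L[ℂ] Arr J :=
  ContinuousLinearMap.adjoint (JB (J := J) p hp0 hp).toContinuousLinearMap

theorem inner_QA {q : J → ℝ} (hq0 : ∀ j, 0 ≤ q j) (hq : HasSum q 1) (y : Arr I)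
    (ξ : Arr (I × J)) : ⟪JA q hq0 hq y, ξ⟫_ℂ = ⟪y, QA q hq0 hq ξ⟫_ℂ := by
  unfold QA
  rw [ContinuousLinearMap.adjoint_inner_right]
  rfl

theorem inner_QB {p : I → ℝ} (hp0 : ∀ i, 0 ≤ p i) (hp : HasSum p 1) (z : Arr J)
    (ξ : Arr (I × J)) : ⟪JB p hp0 hp z, ξ⟫_ℂ = ⟪z, QB p hp0 hp ξ⟫_ℂ := by
  unfold QB
  rw [ContinuousLinearMap.adjoint_inner_right]
  rfl

open Classical in
/-- Entries of `QA ξ`: `(QA ξ)(i,i') = ∑_j √q_j ξ((i,j),(i',j))`. -/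
theorem hasSum_QA {q : J → ℝ} (hq0 : ∀ j, 0 ≤ q j) (hq : HasSum q 1) (ξ : Arr (I × J))
    (i i' : I) :
    HasSum (fun j => ((Real.sqrt (q j) : ℝ) : ℂ) * ξ ((i, j), (i', j))) (QA q hq0 hq ξ (i, i')) := by
  have h := hasSum_inner_JA hq0 hq (lp.single 2 (i, i') (1 : ℂ)) ξ
  rw [inner_QA] at h
  have e1 : Function.Injective (fun j : J => (((i, i'), j) : (I × I) × J)) := by
    intro a b h
    simpa using h
  rw [← e1.hasSum_iff (fun s hs => by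
    have : (lp.single 2 (i, i') (1 : ℂ) : Arr I) s.1 = 0 := by
      rw [lp.single_apply, Pi.single_eq_of_ne]
      intro h
      apply hs
      exact ⟨s.2, by rw [← h]⟩
    rw [this]; simp)] at h
  have h4 : ⟪(lp.single 2 (i, i') (1 : ℂ) : Arr I), QA q hq0 hq ξ⟫_ℂ = QA q hq0 hq ξ (i, i') := by
    rw [lp.inner_single_left]
    simp
  rw [h4] at h
  convert h using 2 with j
  simp only [Function.comp_apply, lp.single_apply, Pi.single_eq_same]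
  simp

open Classical in
/-- Entries of `QB ξ`: `(QB ξ)(j,j') = ∑_i √p_i ξ((i,j),(i,j'))`. -/
theorem hasSum_QB {p : I → ℝ} (hp0 : ∀ i, 0 ≤ p i) (hp : HasSum p 1) (ξ : Arr (I × J))
    (j j' : J) :
    HasSum (fun i => ((Real.sqrt (p i) : ℝ) : ℂ) * ξ ((i, j), (i, j'))) (QB p hp0 hp ξ (j, j')) := by
  have h := hasSum_inner_JB hp0 hp (lp.single 2 (j, j') (1 : ℂ)) ξ
  rw [inner_QB] at h
  have e1 : Function.Injective (fun i : I => (((j, j'), i) : (J × J) × I)) := by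
    intro a b h
    simpa using h
  rw [← e1.hasSum_iff (fun s hs => by
    have : (lp.single 2 (j, j') (1 : ℂ) : Arr J) s.1 = 0 := by
      rw [lp.single_apply, Pi.single_eq_of_ne]
      intro h
      apply hs
      exact ⟨s.2, by rw [← h]⟩
    rw [this]; simp)] at h
  have h4 : ⟪(lp.single 2 (j, j') (1 : ℂ) : Arr J), QB p hp0 hp ξ⟫_ℂ = QB p hp0 hp ξ (j, j') := by
    rw [lp.inner_single_left]
    simp
  rw [h4] at h
  convert h using 2 with i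
  simp only [Function.comp_apply, lp.single_apply, Pi.single_eq_same]
  simp

/-- `⟪ΩA, QA ξ⟫ = ⟪ΩAB, ξ⟫`. -/
theorem JA_Om {p : I → ℝ} (hp0 : ∀ i, 0 ≤ p i) (hp : HasSum p 1)
    {q : J → ℝ} (hq0 : ∀ j, 0 ≤ q j) (hq : HasSum q 1) :
    JA q hq0 hq (Om p hp0 hp) = JB p hp0 hp (Om q hq0 hq) := by
  ext s
  rw [JA_apply, JB_apply]
  change jA q (om p) s = jB p (om q) s
  obtain ⟨⟨a, b⟩, ⟨c, d⟩⟩ := s
  simp only [jA, jB, om]
  split_ifs <;> simp [mul_comm]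

/-- ANOVA, centred form. -/
theorem anova {p : I → ℝ} (hp0 : ∀ i, 0 ≤ p i) (hp : HasSum p 1)
    {q : J → ℝ} (hq0 : ∀ j, 0 ≤ q j) (hq : HasSum q 1) (ξ : Arr (I × J))
    (hc : ⟪Om p hp0 hp, QA q hq0 hq ξ⟫_ℂ = 0) :
    ‖QA q hq0 hq ξ‖ ^ 2 + ‖QB p hp0 hp ξ‖ ^ 2 ≤ ‖ξ‖ ^ 2 :=
  anova_centred (JA q hq0 hq) (JB p hp0 hp) (Om p hp0 hp) (Om q hq0 hq)
    (fun y z => inner_JA_JB hp0 hp hq0 hq y z) ξ _ _
    (fun y => inner_QA hq0 hq y ξ) (fun z => inner_QB hp0 hp z ξ) hc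

theorem inner_Om_QB {p : I → ℝ} (hp0 : ∀ i, 0 ≤ p i) (hp : HasSum p 1)
    {q : J → ℝ} (hq0 : ∀ j, 0 ≤ q j) (hq : HasSum q 1) (ξ : Arr (I × J)) :
    ⟪Om q hq0 hq, QB p hp0 hp ξ⟫_ℂ = ⟪Om p hp0 hp, QA q hq0 hq ξ⟫_ℂ := by
  rw [← inner_QA, ← inner_QB, JA_Om]

theorem norm_QA_le {q : J → ℝ} (hq0 : ∀ j, 0 ≤ q j) (hq : HasSum q 1) (ξ : Arr (I × J)) :
    ‖QA q hq0 hq ξ‖ ≤ ‖ξ‖ := by
  have h1 : ‖QA (I := I) q hq0 hq‖ ≤ 1 := by
    unfold QA
    rw [LinearIsometryEquiv.norm_map]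
    exact LinearIsometry.norm_toContinuousLinearMap_le _
  exact (ContinuousLinearMap.le_opNorm _ _).trans (by nlinarith [norm_nonneg ξ])

theorem norm_QB_le {p : I → ℝ} (hp0 : ∀ i, 0 ≤ p i) (hp : HasSum p 1) (ξ : Arr (I × J)) :
    ‖QB p hp0 hp ξ‖ ≤ ‖ξ‖ := by
  have h1 : ‖QB (J := J) p hp0 hp‖ ≤ 1 := by
    unfold QB
    rw [LinearIsometryEquiv.norm_map]
    exact LinearIsometry.norm_toContinuousLinearMap_le _
  exact (ContinuousLinearMap.le_opNorm _ _).trans (by nlinarith [norm_nonneg ξ])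

end Concrete

end Crest.Agent.R331.Anova927
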