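import Mathlib
import Crest.Prelude.Def_FockState

/-!
R331 / [OUT], helper118.  Ensembles, tensor vectors, slices, and the beam-splitter output state.
-/

set_option autoImplicit false

open scoped InnerProductSpace ComplexConjugate ENNReal
open Crest.MathPhysics.Bosonic InnerProductSpace

namespace Crest.Agent.R331.Out118

noncomputable section

/-- ell2 over an index type -/
abbrev L2 (ι : Type) : Type := lp (fun _ : ι => ℂ) 2

section basics

variable {ι : Type}

theorem hasSum_normSq (f : L2 ι) : HasSum (fun i => ‖f i‖ ^ 2) (‖f‖ ^ 2) := by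
  have := lp.hasSum_norm (p := 2) (by norm_num) f
  simpa using this

theorem summable_normSq (f : L2 ι) : Summable (fun i => ‖f i‖ ^ 2) := (hasSum_normSq f).summable

theorem memℓp_of_summable {f : ι → ℂ} (h : Summable (fun i => ‖f i‖ ^ 2)) : Memℓp f 2 := by
  rw [memℓp_gen_iff (by norm_num)]
  simpa using h

/-- constructor of ell2 vectors -/
def mk2 (f : ι → ℂ) (h : Summable (fun i => ‖f i‖ ^ 2)) : L2 ι := ⟨f, memℓp_of_summable h⟩

@[simp] theorem mk2_apply (f : ι → ℂ) (h : Summable (fun i => ‖f i‖ ^ 2)) (i : ι) :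
    mk2 f h i = f i := rfl

end basics

variable {n : ℕ}

theorem inner_ket (k : Occ n) (f : Fock n) : ⟪ket k, f⟫_ℂ = f k := by
  unfold ket
  rw [lp.inner_single_left]
  simp

theorem entry_eq (T : Fock n →L[ℂ] Fock n) (k l : Occ n) : entry T k l = T (ket l) k := by
  unfold entry
  rw [inner_ket]

theorem norm_ket (k : Occ n) : ‖(ket k : Fock n)‖ = 1 := by
  unfold ket
  rw [lp.norm_single (by norm_num)]
  simp

theorem ket_apply_self (k : Occ n) : (ket k : Fock n) k = 1 := by
  unfold ket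
  rw [lp.single_apply_self]

theorem ket_apply_ne {k l : Occ n} (h : l ≠ k) : (ket k : Fock n) l = 0 := by
  unfold ket
  rw [lp.single_apply_ne _ _ _ h]

theorem ket_apply (k l : Occ n) : (ket k : Fock n) l = if l = k then 1 else 0 := by
  split_ifs with h
  · rw [h, ket_apply_self]
  · exact ket_apply_ne h

theorem hasSum_ket (f : Fock n) : HasSum (fun k => f k • (ket k : Fock n)) f := by
  have := lp.hasSum_single (p := 2) (by norm_num) f
  have h2 : (fun k => f k • (ket k : Fock n)) = fun k => lp.single 2 k (f k) := by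
    funext k
    unfold ket
    rw [← lp.single_smul]
    simp
  rw [h2]
  exact this

/-! ### ensembles -/

section ens

variable {J : Type} (χ : J → Fock n)

/-- the operator `∑ |χ_j⟩⟨χ_j|` -/
def ensOp : Fock n →L[ℂ] Fock n := ∑' j, rankOne ℂ (χ j) (χ j)

variable {χ}

theorem summable_rankOne (hχ : Summable (fun j => ‖χ j‖ ^ 2)) :
    Summable (fun j => (rankOne ℂ (χ j) (χ j) : Fock n →L[ℂ] Fock n)) := by
  refine Summable.of_norm ?_
  simpa [pow_two] using hχ

theorem hasSum_ensOp (hχ : Summable (fun j => ‖χ j‖ ^ 2)) :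
    HasSum (fun j => (rankOne ℂ (χ j) (χ j) : Fock n →L[ℂ] Fock n)) (ensOp χ) :=
  (summable_rankOne hχ).hasSum

theorem hasSum_ensOp_apply (hχ : Summable (fun j => ‖χ j‖ ^ 2)) (x : Fock n) :
    HasSum (fun j => ⟪χ j, x⟫_ℂ • χ j) (ensOp χ x) := by
  have := (hasSum_ensOp hχ).mapL (ContinuousLinearMap.apply ℂ (Fock n) x)
  simpa using this

theorem hasSum_inner_ensOp (hχ : Summable (fun j => ‖χ j‖ ^ 2)) (x y : Fock n) :
    HasSum (fun j => ⟪χ j, x⟫_ℂ * ⟪y, χ j⟫_ℂ) ⟪y, ensOp χ x⟫_ℂ := by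
  have := (hasSum_ensOp_apply hχ x).mapL (innerSL ℂ y)
  simpa [inner_smul_right] using this

theorem inner_ket_right (k : Occ n) (f : Fock n) : ⟪f, ket k⟫_ℂ = conj (f k) := by
  rw [← inner_conj_symm, inner_ket]

theorem hasSum_entry_ensOp (hχ : Summable (fun j => ‖χ j‖ ^ 2)) (k l : Occ n) :
    HasSum (fun j => χ j k * conj (χ j l)) (entry (ensOp χ) k l) := by
  have := hasSum_inner_ensOp hχ (ket l) (ket k)
  unfold entry
  have h2 : (fun j => χ j k * conj (χ j l)) = fun j => ⟪χ j, ket l⟫_ℂ * ⟪ket k, χ j⟫_ℂ := by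
    funext j
    rw [inner_ket, inner_ket_right, mul_comm]
  rw [h2]
  exact this

theorem isPositive_ensOp (hχ : Summable (fun j => ‖χ j‖ ^ 2)) : (ensOp χ).IsPositive := by
  rw [ContinuousLinearMap.isPositive_iff_complex]
  intro x
  have h := hasSum_inner_ensOp hχ x x
  have h1 : ∀ j, ⟪χ j, x⟫_ℂ * ⟪x, χ j⟫_ℂ = ((‖⟪χ j, x⟫_ℂ‖ ^ 2 : ℝ) : ℂ) := by
    intro j
    rw [← inner_conj_symm x (χ j), RCLike.mul_conj]
    push_cast
    rfl
  simp only [h1] at h
  have h2 : ⟪ensOp χ x, x⟫_ℂ = conj ⟪x, ensOp χ x⟫_ℂ := by rw [inner_conj_symm]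
  have h3 : HasSum (fun j => ‖⟪χ j, x⟫_ℂ‖ ^ 2) (⟪x, ensOp χ x⟫_ℂ).re := by
    have := Complex.hasSum_re h
    simpa only [Complex.ofReal_re] using this
  have h4 : (⟪x, ensOp χ x⟫_ℂ).im = 0 := by
    have := Complex.hasSum_im h
    have h5 : (fun j => (((‖⟪χ j, x⟫_ℂ‖ ^ 2 : ℝ) : ℂ)).im) = fun _ => 0 := by
      funext j
      exact Complex.ofReal_im _
    rw [h5] at this
    exact this.unique hasSum_zero
  have h6 : (⟪ensOp χ x, x⟫_ℂ).im = 0 := by
    rw [h2, Complex.conj_im, h4, neg_zero]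
  constructor
  · apply Complex.ext
    · simp
    · simp [h6]
  · rw [h2]
    simp only [RCLike.re_to_complex, Complex.conj_re]
    exact h3.nonneg (fun j => by positivity)

theorem summable_prod_normSq (hχ : Summable (fun j => ‖χ j‖ ^ 2)) :
    Summable (fun p : J × Occ n => ‖χ p.1 p.2‖ ^ 2) := by
  rw [summable_prod_of_nonneg (fun _ => by positivity)]
  refine ⟨fun j => summable_normSq (χ j), ?_⟩
  have : (fun j => ∑' k, ‖χ j k‖ ^ 2) = fun j => ‖χ j‖ ^ 2 := by
    funext j
    exact (hasSum_normSq (χ j)).tsum_eq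
  simpa [this] using hχ

theorem hasSum_prod_normSq {s : ℝ} (hχ : HasSum (fun j => ‖χ j‖ ^ 2) s) :
    HasSum (fun p : J × Occ n => ‖χ p.1 p.2‖ ^ 2) s := by
  have h := (summable_prod_normSq hχ.summable).hasSum
  rwa [(h.prod_fiberwise (fun j => hasSum_normSq (χ j))).unique hχ] at h

theorem hasSum_diag_ensOp {s : ℝ} (hχ : HasSum (fun j => ‖χ j‖ ^ 2) s) :
    HasSum (fun k : Occ n => (entry (ensOp χ) k k).re) s := by
  have h := hasSum_prod_normSq hχ
  have h' : HasSum (fun p : Occ n × J => ‖χ p.2 p.1‖ ^ 2) s := by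
    have := (Equiv.prodComm (Occ n) J).hasSum_iff.mpr h
    exact this
  refine h'.prod_fiberwise (fun k => ?_)
  have h3 := Complex.hasSum_re (hasSum_entry_ensOp hχ.summable k k)
  have h4 : (fun j => (χ j k * conj (χ j k)).re) = fun j => ‖χ j k‖ ^ 2 := by
    funext j
    rw [Complex.mul_conj, Complex.ofReal_re, Complex.normSq_eq_norm_sq]
  rw [h4] at h3
  exact h3

/-- the state of an ensemble of vectors with total weight one -/
def ensState (χ : J → Fock n) (hχ : HasSum (fun j => ‖χ j‖ ^ 2) 1) : FockState n where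
  op := ensOp χ
  pos := isPositive_ensOp hχ.summable
  traceOne := hasSum_diag_ensOp hχ

end ens

/-! ### operators are determined by their entries -/

theorem op_ext {T T' : Fock n →L[ℂ] Fock n} (h : ∀ k l, entry T k l = entry T' k l) : T = T' := by
  have h1 : ∀ l : Occ n, T (ket l) = T' (ket l) := by
    intro l
    apply lp.ext
    funext k
    have := h k l
    rwa [entry_eq, entry_eq] at this
  ext1 x
  have hx := hasSum_ket x
  have h2 := hx.mapL T
  have h3 := hx.mapL T'
  simp only [map_smul, h1] at h2 h3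
  exact h2.unique h3

theorem state_ext {A B : FockState n} (h : ∀ k l, entry A.op k l = entry B.op k l) : A = B := by
  cases A; cases B
  have := op_ext h
  simp only at this
  subst this
  rfl

/-! ### the square-root ensemble of a positive operator -/

section sqrtEns

theorem exists_sqrt_aux {E : Type} [NormedAddCommGroup E] [InnerProductSpace ℂ E]
    [CompleteSpace E] (T : E →L[ℂ] E) : ∃ S : E →L[ℂ] E, S.IsPositive ∧ (T.IsPositive → S * S = T) := by
  refine ⟨CFC.sqrt T, ?_, ?_⟩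
  · rw [← ContinuousLinearMap.nonneg_iff_isPositive]
    exact CFC.sqrt_nonneg T
  · intro hT
    apply CFC.sqrt_mul_sqrt_self
    exact (ContinuousLinearMap.nonneg_iff_isPositive T).mpr hT

/-- the positive square root (only meaningful for positive `T`) -/
def rt (T : Fock n →L[ℂ] Fock n) : Fock n →L[ℂ] Fock n := (exists_sqrt_aux T).choose

/-- the vectors `√T |m⟩` -/
def sq (T : Fock n →L[ℂ] Fock n) (m : Occ n) : Fock n := (rt T) (ket m)

theorem sqrt_mul_sqrt {T : Fock n →L[ℂ] Fock n} (hT : T.IsPositive) :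
    rt T * rt T = T := (exists_sqrt_aux T).choose_spec.2 hT

theorem sqrt_isPositive (T : Fock n →L[ℂ] Fock n) : (rt T).IsPositive :=
  (exists_sqrt_aux T).choose_spec.1

theorem inner_sqrt (T : Fock n →L[ℂ] Fock n) (x y : Fock n) :
    ⟪rt T x, y⟫_ℂ = ⟪x, rt T y⟫_ℂ :=
  (sqrt_isPositive T).inner_left_eq_inner_right x y

theorem inner_sq {T : Fock n →L[ℂ] Fock n} (hT : T.IsPositive) (k l : Occ n) :
    ⟪sq T k, sq T l⟫_ℂ = entry T k l := by
  unfold sq entry
  rw [inner_sqrt]
  have := congrArg (fun S : Fock n →L[ℂ] Fock n => S (ket l)) (sqrt_mul_sqrt hT)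
  rw [← this]
  rfl

theorem normSq_sq {T : Fock n →L[ℂ] Fock n} (hT : T.IsPositive) (k : Occ n) :
    ‖sq T k‖ ^ 2 = (entry T k k).re := by
  rw [← inner_sq hT, inner_self_eq_norm_sq_to_K]
  norm_cast

theorem hasSum_normSq_sq (A : FockState n) : HasSum (fun k => ‖sq A.op k‖ ^ 2) 1 := by
  simp only [normSq_sq A.pos]
  exact A.traceOne

theorem summable_normSq_sq (A : FockState n) : Summable (fun k => ‖sq A.op k‖ ^ 2) :=
  (hasSum_normSq_sq A).summable

theorem ensOp_sq (A : FockState n) : ensOp (sq A.op) = A.op := by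
  apply op_ext
  intro k l
  have h1 := hasSum_entry_ensOp (summable_normSq_sq A) k l
  have h2 : HasSum (fun m => ⟪sq A.op k, (ket m : Fock n)⟫_ℂ * ⟪(ket m : Fock n), sq A.op l⟫_ℂ)
      ⟪sq A.op k, sq A.op l⟫_ℂ := by
    have := (hasSum_ket (sq A.op l)).mapL (innerSL ℂ (sq A.op k))
    simp only [innerSL_apply_apply, inner_smul_right] at this
    have h3 : (fun m => ⟪sq A.op k, (ket m : Fock n)⟫_ℂ * ⟪(ket m : Fock n), sq A.op l⟫_ℂ) =
        fun m => (sq A.op l) m * ⟪sq A.op k, (ket m : Fock n)⟫_ℂ := by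
      funext m
      rw [inner_ket, mul_comm]
    rw [h3]
    exact this
  rw [inner_sq A.pos] at h2
  have h3 : (fun m => ⟪sq A.op k, (ket m : Fock n)⟫_ℂ * ⟪(ket m : Fock n), sq A.op l⟫_ℂ) =
      fun j => sq A.op j k * conj (sq A.op j l) := by
    funext m
    have e1 : ⟪sq A.op k, (ket m : Fock n)⟫_ℂ = sq A.op m k := by
      rw [← inner_ket k (sq A.op m)]
      exact inner_sqrt _ _ _
    have e2 : ⟪(ket m : Fock n), sq A.op l⟫_ℂ = conj (sq A.op m l) := by
      rw [← inner_ket_right]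
      exact (inner_sqrt _ _ _).symm
    rw [e1, e2]
  rw [h3] at h2
  exact h1.unique h2

theorem hasSum_entry_sq (A : FockState n) (k l : Occ n) :
    HasSum (fun m => sq A.op m k * conj (sq A.op m l)) (entry A.op k l) := by
  have := hasSum_entry_ensOp (summable_normSq_sq A) k l
  rwa [ensOp_sq] at this

end sqrtEns

/-! ### tensor vectors and slices -/

section tensor

variable {ι κ : Type}

theorem summable_tensor (f : L2 ι) (g : L2 κ) :
    Summable (fun p : ι × κ => ‖f p.1 * g p.2‖ ^ 2) := by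
  have := (summable_normSq f).mul_of_nonneg (summable_normSq g) (fun _ => by positivity)
    (fun _ => by positivity)
  simpa [mul_pow] using this

/-- the vector `f ⊗ g` -/
def tens (f : L2 ι) (g : L2 κ) : L2 (ι × κ) := mk2 (fun p => f p.1 * g p.2) (summable_tensor f g)

@[simp] theorem tens_apply (f : L2 ι) (g : L2 κ) (p : ι × κ) : tens f g p = f p.1 * g p.2 := rfl

theorem normSq_tens (f : L2 ι) (g : L2 κ) : ‖tens f g‖ ^ 2 = ‖f‖ ^ 2 * ‖g‖ ^ 2 := by
  have h1 := hasSum_normSq (tens f g)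
  have h2 : HasSum (fun p : ι × κ => ‖f p.1‖ ^ 2 * ‖g p.2‖ ^ 2) (‖f‖ ^ 2 * ‖g‖ ^ 2) := by
    refine (hasSum_normSq f).mul (hasSum_normSq g) ?_
    exact (summable_normSq f).mul_of_nonneg (summable_normSq g) (fun _ => by positivity)
      (fun _ => by positivity)
  simp only [tens_apply, norm_mul, mul_pow] at h1
  exact h1.unique h2

theorem summable_slice (g : L2 (ι × κ)) (e : κ) : Summable (fun k : ι => ‖g (k, e)‖ ^ 2) := by
  have := (summable_normSq g).comp_injective (i := fun k : ι => (k, e))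
    (fun a b h => by simpa using h)
  exact this

/-- the slice of a vector of the pair space at the second index `e` -/
def slice (g : L2 (ι × κ)) (e : κ) : L2 ι := mk2 (fun k => g (k, e)) (summable_slice g e)

@[simp] theorem slice_apply (g : L2 (ι × κ)) (e : κ) (k : ι) : slice g e k = g (k, e) := rfl

theorem hasSum_normSq_slice (g : L2 (ι × κ)) : HasSum (fun e => ‖slice g e‖ ^ 2) (‖g‖ ^ 2) := by
  have h1 := hasSum_normSq g
  have h2 : HasSum (fun p : κ × ι => ‖g (p.2, p.1)‖ ^ 2) (‖g‖ ^ 2) :=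
    (Equiv.prodComm κ ι).hasSum_iff.mpr h1
  exact h2.prod_fiberwise (fun e => hasSum_normSq (slice g e))

end tensor

/-! ### the beam splitter output -/

theorem hasSum_mul_real {α β : Type} {f : α → ℝ} {g : β → ℝ} {s t : ℝ} (hf : HasSum f s)
    (hg : HasSum g t) (hf0 : ∀ a, 0 ≤ f a) (hg0 : ∀ b, 0 ≤ g b) :
    HasSum (fun p : α × β => f p.1 * g p.2) (s * t) :=
  hf.mul hg (hf.summable.mul_of_nonneg hg.summable hf0 hg0)

theorem hasSum_mul_complex {α β : Type} {f : α → ℂ} {g : β → ℂ} {s t : ℂ} (hf : HasSum f s)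
    (hg : HasSum g t) (hf0 : Summable (fun a => ‖f a‖)) (hg0 : Summable (fun b => ‖g b‖)) :
    HasSum (fun p : α × β => f p.1 * g p.2) (s * t) :=
  hf.mul hg (summable_mul_of_summable_norm hf0 hg0)

theorem hasSum_prod_of_fiber {α β : Type} {f : α × β → ℝ} (hf : ∀ p, 0 ≤ f p) {g : α → ℝ} {s : ℝ}
    (h1 : ∀ a, HasSum (fun b => f (a, b)) (g a)) (h2 : HasSum g s) : HasSum f s := by
  have h3 : Summable f := by
    rw [summable_prod_of_nonneg hf]
    refine ⟨fun a => (h1 a).summable, ?_⟩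
    have : (fun a => ∑' b, f (a, b)) = g := funext fun a => (h1 a).tsum_eq
    rw [this]
    exact h2.summable
  have h5 := h3.hasSum
  rwa [(h5.prod_fiberwise h1).unique h2] at h5

/-- the unitary of the `n`-mode beam splitter in the number basis (supplied by [BS]) -/
structure BSIso (n : ℕ) (η : ℝ) where
  U : L2 (Occ n × Occ n) →ₗᵢ[ℂ] L2 (Occ n × Occ n)
  apply : ∀ (f : L2 (Occ n × Occ n)) (k e : Occ n),
    U f (k, e) = ∑ a : Splitting (k + e), (ampOcc η a.fst a.snd k e : ℂ) * f (a.fst, a.snd)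

namespace BSIso

variable {η : ℝ} (V : BSIso n η)

/-- the ensemble of the transmitted modes -/
def chi (A B : FockState n) (j : (Occ n × Occ n) × Occ n) : Fock n :=
  slice (V.U (tens (sq A.op j.1.1) (sq B.op j.1.2))) j.2

theorem hasSum_chi (A B : FockState n) : HasSum (fun j => ‖V.chi A B j‖ ^ 2) 1 := by
  have h0 : HasSum (fun p : Occ n × Occ n => ‖sq A.op p.1‖ ^ 2 * ‖sq B.op p.2‖ ^ 2) (1 * 1) :=
    hasSum_mul_real (f := fun k => ‖sq A.op k‖ ^ 2) (g := fun k => ‖sq B.op k‖ ^ 2)
      (hasSum_normSq_sq A) (hasSum_normSq_sq B) (fun _ => sq_nonneg _) (fun _ => sq_nonneg _)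
  have h1 : HasSum (fun p : Occ n × Occ n =>
      ‖V.U (tens (sq A.op p.1) (sq B.op p.2))‖ ^ 2) 1 := by
    have h : (fun p : Occ n × Occ n => ‖V.U (tens (sq A.op p.1) (sq B.op p.2))‖ ^ 2) =
        fun p => ‖sq A.op p.1‖ ^ 2 * ‖sq B.op p.2‖ ^ 2 := by
      funext p
      rw [LinearIsometry.norm_map, normSq_tens]
    rw [h]
    rwa [one_mul] at h0
  have h2 : ∀ p : Occ n × Occ n, HasSum (fun e => ‖V.chi A B (p, e)‖ ^ 2)
      (‖V.U (tens (sq A.op p.1) (sq B.op p.2))‖ ^ 2) := by
    intro p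
    exact hasSum_normSq_slice (V.U (tens (sq A.op p.1) (sq B.op p.2)))
  have h3 : ∀ j : (Occ n × Occ n) × Occ n, 0 ≤ ‖V.chi A B j‖ ^ 2 := fun j => sq_nonneg _
  exact hasSum_prod_of_fiber h3 h2 h1

/-- the transmitted output state -/
def out (A B : FockState n) : FockState n := ensState (V.chi A B) (V.hasSum_chi A B)

theorem chi_apply (A B : FockState n) (m m' e k : Occ n) :
    V.chi A B ((m, m'), e) k = ∑ a : Splitting (k + e),
      (ampOcc η a.fst a.snd k e : ℂ) * (sq A.op m a.fst * sq B.op m' a.snd) := by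
  unfold chi
  rw [slice_apply, V.apply]
  rfl

theorem summable_sq_mul (A : FockState n) (k l : Occ n) :
    Summable (fun m => ‖sq A.op m k * conj (sq A.op m l)‖) := by
  refine Summable.of_nonneg_of_le (fun _ => norm_nonneg _) (fun m => ?_) (summable_normSq_sq A)
  rw [norm_mul, RCLike.norm_conj, pow_two]
  have h1 : ∀ k, ‖sq A.op m k‖ ≤ ‖sq A.op m‖ := fun k => lp.norm_apply_le_norm (by norm_num) _ k
  exact mul_le_mul (h1 k) (h1 l) (norm_nonneg _) (norm_nonneg _)

theorem hasSum_fiber (A B : FockState n) (k l e : Occ n) :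
    HasSum (fun p : Occ n × Occ n => V.chi A B (p, e) k * conj (V.chi A B (p, e) l))
      (outBlock η A B k l e) := by
  unfold outBlock
  have h1 : ∀ (a : Splitting (k + e)) (b : Splitting (l + e)),
      HasSum (fun p : Occ n × Occ n =>
        (ampOcc η a.fst a.snd k e : ℂ) * (sq A.op p.1 a.fst * conj (sq A.op p.1 b.fst)) *
        (sq B.op p.2 a.snd * conj (sq B.op p.2 b.snd)) * (ampOcc η b.fst b.snd l e : ℂ))
      ((ampOcc η a.fst a.snd k e : ℂ) * entry A.op a.fst b.fst * entry B.op a.snd b.snd *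
        (ampOcc η b.fst b.snd l e : ℂ)) := by
    intro a b
    have h2 := hasSum_mul_complex (hasSum_entry_sq A a.fst b.fst) (hasSum_entry_sq B a.snd b.snd)
      (summable_sq_mul A a.fst b.fst) (summable_sq_mul B a.snd b.snd)
    have h3 := (h2.mul_left (ampOcc η a.fst a.snd k e : ℂ)).mul_right
      (ampOcc η b.fst b.snd l e : ℂ)
    simp only [← mul_assoc] at h3 ⊢
    exact h3
  have h2 := hasSum_sum (s := Finset.univ) (fun a (_ : a ∈ Finset.univ) =>
    hasSum_sum (s := Finset.univ) (fun b (_ : b ∈ Finset.univ) => h1 a b))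
  have h3 : (fun p : Occ n × Occ n => V.chi A B (p, e) k * conj (V.chi A B (p, e) l)) =
      fun p => ∑ a : Splitting (k + e), ∑ b : Splitting (l + e),
        (ampOcc η a.fst a.snd k e : ℂ) * (sq A.op p.1 a.fst * conj (sq A.op p.1 b.fst)) *
        (sq B.op p.2 a.snd * conj (sq B.op p.2 b.snd)) * (ampOcc η b.fst b.snd l e : ℂ) := by
    funext p
    rw [chi_apply, chi_apply, map_sum, Finset.sum_mul_sum]
    refine Finset.sum_congr rfl (fun a _ => Finset.sum_congr rfl (fun b _ => ?_))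
    simp only [map_mul, Complex.conj_ofReal]
    ring
  rw [h3]
  exact h2

theorem isOutput_out (A B : FockState n) : IsBeamSplitterOutput η A B (V.out A B) := by
  intro k l
  have h1 : HasSum (fun j => V.chi A B j k * conj (V.chi A B j l)) (entry (V.out A B).op k l) :=
    hasSum_entry_ensOp (V.hasSum_chi A B).summable k l
  have h2 : HasSum (fun j : Occ n × (Occ n × Occ n) =>
      V.chi A B (j.2, j.1) k * conj (V.chi A B (j.2, j.1) l)) (entry (V.out A B).op k l) :=
    (Equiv.prodComm (Occ n) (Occ n × Occ n)).hasSum_iff.mpr h1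
  exact h2.prod_fiberwise (fun e => V.hasSum_fiber A B k l e)

theorem isOutput_unique {A B C C' : FockState n} (h : IsBeamSplitterOutput η A B C)
    (h' : IsBeamSplitterOutput η A B C') : C = C' :=
  state_ext (fun k l => (h k l).unique (h' k l))

theorem isOutput_iff {A B C : FockState n} : IsBeamSplitterOutput η A B C ↔ C = V.out A B :=
  ⟨fun h => isOutput_unique h (V.isOutput_out A B), fun h => h ▸ V.isOutput_out A B⟩

end BSIso

end

end Crest.Agent.R331.Out118
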