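import Crest.Agent.R331.BSn_375
import Crest.Agent.R331.Out_118

/-!
R331 / helper375: instantiation of helper118's `BSIso` structure with the beam splitter unitary
`bsU` of `BSn_375`, and the resulting existence / uniqueness of the output state.
-/

set_option autoImplicit false

open Crest.MathPhysics.Bosonic

namespace Crest.Agent.R331.BS375

noncomputable section

variable {n : ℕ}

/-- the `n`-mode beam splitter as a `BSIso` -/
def bsIso {η : ℝ} (h : η ∈ Set.Icc (0 : ℝ) 1) : Out118.BSIso n η where
  U := (bsU h.1 h.2).toLinearIsometry
  apply := fun f k e => bsU_apply h.1 h.2 f (k, e)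

/-- every pair of states has an output state -/
theorem exists_output {η : ℝ} (h : η ∈ Set.Icc (0 : ℝ) 1) (A B : FockState n) :
    ∃ C : FockState n, IsBeamSplitterOutput η A B C :=
  ⟨(bsIso h).out A B, (bsIso h).isOutput_out A B⟩

end

end Crest.Agent.R331.BS375
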