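import Mathlib
import Crest.Prelude.Def_Bosonic
import Crest.Prelude.Def_FockState

/-! # Algebra of the beam-splitter amplitudes (helper375) -/

set_option autoImplicit false

noncomputable section

namespace Crest.Agent.R331.BS375

open Crest.MathPhysics.Bosonic Polynomial Finset

/-- dehomogenised coefficient: coefficient of `X^p` in `(sX - c)^k (cX + s)^l`. -/
def Kc (s c : ℝ) (k l p : ℕ) : ℝ :=
  ((C s * X - C c) ^ k * (C c * X + C s) ^ l : ℝ[X]).coeff p

lemma coeff_lin_pow (a b : ℝ) (n i : ℕ) :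
    ((C a * X + C b) ^ n : ℝ[X]).coeff i = a ^ i * b ^ (n - i) * (n.choose i : ℝ) := by
  rw [add_pow]
  simp only [mul_pow, ← C_pow, finsetSum_coeff]
  have : ∀ m ∈ range (n + 1),
      ((C (a ^ m) * X ^ m * C (b ^ (n - m)) * (n.choose m : ℝ[X])) : ℝ[X]).coeff i
        = if i = m then a ^ m * b ^ (n - m) * (n.choose m : ℝ) else 0 := by
    intro m _
    have h1 : (C (a ^ m) * X ^ m * C (b ^ (n - m)) * (n.choose m : ℝ[X]) : ℝ[X])
        = C (a ^ m * b ^ (n - m) * (n.choose m : ℝ)) * X ^ m := by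
      simp only [map_mul, map_natCast]; ring
    rw [h1, coeff_C_mul, coeff_X_pow]
    split_ifs <;> simp
  rw [Finset.sum_congr rfl this]
  rw [Finset.sum_ite_eq]
  split_ifs with h
  · rfl
  · have : n < i := by simpa using h
    rw [Nat.choose_eq_zero_of_lt this]; simp

lemma Kc_eq_sum (s c : ℝ) (k l p : ℕ) :
    Kc s c k l p = ∑ i ∈ range (k + 1),
        if i ≤ p ∧ p - i ≤ l then
          (Nat.choose k i * Nat.choose l (p - i) : ℕ) *
            (s ^ i * (-c) ^ (k - i) * c ^ (p - i) * s ^ (l - (p - i)))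
        else 0 := by
  have hk : (C s * X - C c : ℝ[X]) = C s * X + C (-c) := by simp [sub_eq_add_neg]
  rw [Kc, hk, coeff_mul, Finset.Nat.sum_antidiagonal_eq_sum_range_succ_mk]
  simp only [coeff_lin_pow]
  have h1 : ∀ i ∈ range p.succ, s ^ i * (-c) ^ (k - i) * (k.choose i : ℝ) *
      (c ^ (p - i) * s ^ (l - (p - i)) * (l.choose (p - i) : ℝ))
      = if i ≤ k ∧ p - i ≤ l then (Nat.choose k i * Nat.choose l (p - i) : ℕ) *
            (s ^ i * (-c) ^ (k - i) * c ^ (p - i) * s ^ (l - (p - i))) else 0 := by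
    intro i _
    split_ifs with h
    · push_cast; ring
    · rw [not_and_or] at h
      rcases h with h | h
      · rw [Nat.choose_eq_zero_of_lt (not_le.mp h)]; simp
      · rw [Nat.choose_eq_zero_of_lt (not_le.mp h)]; simp
  rw [Finset.sum_congr rfl h1, ← Finset.sum_filter, ← Finset.sum_filter]
  apply Finset.sum_congr _ (fun _ _ => rfl)
  ext i
  simp only [mem_filter, mem_range, Nat.succ_eq_add_one]
  omega

lemma bsAmp_eq (η : ℝ) (k l p q : ℕ) :
    bsAmp η k l p q = if p + q = k + l then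
      Real.sqrt ((Nat.factorial p * Nat.factorial q : ℝ) / (Nat.factorial k * Nat.factorial l : ℝ)) *
        Kc (Real.sqrt η) (Real.sqrt (1 - η)) k l p else 0 := by
  unfold bsAmp
  split_ifs with h
  · rw [Kc_eq_sum]
    push_cast
    rfl
  · rfl

lemma bsAmp_of_ne (η : ℝ) {k l p q : ℕ} (h : p + q ≠ k + l) : bsAmp η k l p q = 0 := by
  rw [bsAmp_eq, if_neg h]


/-! ### polynomial ladder relations -/

lemma Kc_succ_left (s c : ℝ) (k l p : ℕ) :
    Kc s c (k + 1) l (p + 1) = s * Kc s c k l p - c * Kc s c k l (p + 1) := by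
  have : ((C s * X - C c) ^ (k + 1) * (C c * X + C s) ^ l : ℝ[X])
      = C s * (((C s * X - C c) ^ k * (C c * X + C s) ^ l) * X)
        - C c * ((C s * X - C c) ^ k * (C c * X + C s) ^ l) := by ring
  rw [Kc, this, coeff_sub, coeff_C_mul, coeff_C_mul, coeff_mul_X]; rfl

lemma Kc_succ_left_zero (s c : ℝ) (k l : ℕ) :
    Kc s c (k + 1) l 0 = - c * Kc s c k l 0 := by
  have : ((C s * X - C c) ^ (k + 1) * (C c * X + C s) ^ l : ℝ[X])
      = C s * (((C s * X - C c) ^ k * (C c * X + C s) ^ l) * X)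
        - C c * ((C s * X - C c) ^ k * (C c * X + C s) ^ l) := by ring
  rw [Kc, this, coeff_sub, coeff_C_mul, coeff_C_mul, coeff_mul_X_zero]; simp [Kc]

lemma Kc_succ_right (s c : ℝ) (k l p : ℕ) :
    Kc s c k (l + 1) (p + 1) = c * Kc s c k l p + s * Kc s c k l (p + 1) := by
  have : ((C s * X - C c) ^ k * (C c * X + C s) ^ (l + 1) : ℝ[X])
      = C c * (((C s * X - C c) ^ k * (C c * X + C s) ^ l) * X)
        + C s * ((C s * X - C c) ^ k * (C c * X + C s) ^ l) := by ring
  rw [Kc, this, coeff_add, coeff_C_mul, coeff_C_mul, coeff_mul_X]; rfl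

lemma Kc_succ_right_zero (s c : ℝ) (k l : ℕ) :
    Kc s c k (l + 1) 0 = s * Kc s c k l 0 := by
  have : ((C s * X - C c) ^ k * (C c * X + C s) ^ (l + 1) : ℝ[X])
      = C c * (((C s * X - C c) ^ k * (C c * X + C s) ^ l) * X)
        + C s * ((C s * X - C c) ^ k * (C c * X + C s) ^ l) := by ring
  rw [Kc, this, coeff_add, coeff_C_mul, coeff_C_mul, coeff_mul_X_zero]; simp [Kc]

lemma deriv_lin (a b : ℝ) : derivative (C a * X + C b : ℝ[X]) = C a := by simp

lemma deriv_f (s c : ℝ) (k l : ℕ) :
    derivative ((C s * X - C c) ^ k * (C c * X + C s) ^ l : ℝ[X])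
      = C (k * s) * ((C s * X - C c) ^ (k - 1) * (C c * X + C s) ^ l)
        + C (l * c) * ((C s * X - C c) ^ k * (C c * X + C s) ^ (l - 1)) := by
  rw [derivative_mul, derivative_pow, derivative_pow, derivative_sub, derivative_add,
    derivative_mul, derivative_mul]
  simp only [derivative_C, derivative_X, zero_mul, mul_one, zero_add, sub_zero, add_zero, map_mul]
  ring

lemma Kc_deriv (s c : ℝ) (k l p : ℕ) :
    ((p : ℝ) + 1) * Kc s c k l (p + 1)
      = k * s * Kc s c (k - 1) l p + l * c * Kc s c k (l - 1) p := by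
  have h := congrArg (fun f : ℝ[X] => f.coeff p) (deriv_f s c k l)
  simp only [coeff_derivative, coeff_add, coeff_C_mul] at h
  simp only [Kc]
  linarith

lemma Kc_euler (s c : ℝ) (k l p : ℕ) :
    ((k : ℝ) + l - p) * Kc s c k l p
      = - k * c * Kc s c (k - 1) l p + l * s * Kc s c k (l - 1) p := by
  -- N f - X f' = -k c f_{k-1,l} + l s f_{k,l-1}
  set f : ℝ[X] := (C s * X - C c) ^ k * (C c * X + C s) ^ l with hf
  have hd : X * derivative f = C ((k : ℝ) + l) * f
      + C (k * c) * ((C s * X - C c) ^ (k - 1) * (C c * X + C s) ^ l)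
      - C (l * s) * ((C s * X - C c) ^ k * (C c * X + C s) ^ (l - 1)) := by
    rw [hf, deriv_f]
    have hk : (C (k : ℝ) * (C s * X - C c) ^ k : ℝ[X])
        = C (k : ℝ) * (C s * X - C c) ^ (k - 1) * (C s * X - C c) := by
      rcases k with _ | k
      · simp
      · simp [pow_succ, mul_assoc]
    have hl : (C (l : ℝ) * (C c * X + C s) ^ l : ℝ[X])
        = C (l : ℝ) * (C c * X + C s) ^ (l - 1) * (C c * X + C s) := by
      rcases l with _ | l
      · simp
      · simp [pow_succ, mul_assoc]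
    have : (C ((k : ℝ) + l) * ((C s * X - C c) ^ k * (C c * X + C s) ^ l) : ℝ[X])
        = (C (k : ℝ) * (C s * X - C c) ^ k) * (C c * X + C s) ^ l
          + (C s * X - C c) ^ k * (C (l : ℝ) * (C c * X + C s) ^ l) := by
      rw [map_add]; ring
    rw [this, hk, hl]
    simp only [map_mul]; ring
  have h := congrArg (fun g : ℝ[X] => g.coeff p) hd
  simp only [coeff_add, coeff_sub, coeff_C_mul] at h
  have h2 : (X * derivative f).coeff p = p * f.coeff p := by
    rcases p with _ | p
    · simp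
    · rw [coeff_X_mul, coeff_derivative]; push_cast; ring
  rw [h2] at h
  simp only [Kc]
  simp only [hf] at h ⊢
  linarith

/-! ### weights -/

/-- `√(p! q! / (k! l!))` -/
def wt (k l p q : ℕ) : ℝ :=
  Real.sqrt ((Nat.factorial p * Nat.factorial q : ℝ) / (Nat.factorial k * Nat.factorial l : ℝ))

lemma fpos (n : ℕ) : (0 : ℝ) < (Nat.factorial n : ℝ) := by exact_mod_cast Nat.factorial_pos n

lemma wt_p (k l p q : ℕ) : wt k l (p + 1) q = Real.sqrt (p + 1) * wt k l p q := by
  have := fpos p; have := fpos q; have := fpos k; have := fpos l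
  rw [wt, wt, ← Real.sqrt_mul (by positivity), Nat.factorial_succ]
  congr 1; push_cast; ring

lemma wt_q (k l p q : ℕ) : wt k l p (q + 1) = Real.sqrt (q + 1) * wt k l p q := by
  have := fpos p; have := fpos q; have := fpos k; have := fpos l
  rw [wt, wt, ← Real.sqrt_mul (by positivity), Nat.factorial_succ]
  congr 1; push_cast; ring

lemma wt_k (k l p q : ℕ) : Real.sqrt (k + 1) * wt (k + 1) l p q = wt k l p q := by
  have := fpos p; have := fpos q; have := fpos k; have := fpos l
  rw [wt, wt, ← Real.sqrt_mul (by positivity), Nat.factorial_succ]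
  congr 1; push_cast; field_simp

lemma wt_l (k l p q : ℕ) : Real.sqrt (l + 1) * wt k (l + 1) p q = wt k l p q := by
  have := fpos p; have := fpos q; have := fpos k; have := fpos l
  rw [wt, wt, ← Real.sqrt_mul (by positivity), Nat.factorial_succ]
  congr 1; push_cast; field_simp

lemma bsAmp_eq' (η : ℝ) (k l p q : ℕ) :
    bsAmp η k l p q = if p + q = k + l then
      wt k l p q * Kc (Real.sqrt η) (Real.sqrt (1 - η)) k l p else 0 := bsAmp_eq η k l p q


/-! ### ladder relations of the one-pair amplitudes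

`amp(k,l;p,q) = ⟨p,q|U|k,l⟩`, `U a†_A U* = √η c† - √(1-η) d†`, `U a†_B U* = √(1-η) c† + √η d†`. -/

lemma sqrt_mul_wt_left (k l p q : ℕ) (x : ℝ) :
    wt (k + 1) l p q * (((k + 1 : ℕ) : ℝ) * x) = Real.sqrt (k + 1) * (wt k l p q * x) := by
  rw [← wt_k k l p q]
  have : (Real.sqrt ((k : ℝ) + 1)) * Real.sqrt ((k : ℝ) + 1) = (k : ℝ) + 1 :=
    Real.mul_self_sqrt (by positivity)
  push_cast
  linear_combination (-(wt (k + 1) l p q * x)) * this

lemma sqrt_mul_wt_right (k l p q : ℕ) (x : ℝ) :
    wt k (l + 1) p q * (((l + 1 : ℕ) : ℝ) * x) = Real.sqrt (l + 1) * (wt k l p q * x) := by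
  rw [← wt_l k l p q]
  have : (Real.sqrt ((l : ℝ) + 1)) * Real.sqrt ((l : ℝ) + 1) = (l : ℝ) + 1 :=
    Real.mul_self_sqrt (by positivity)
  push_cast
  linear_combination (-(wt k (l + 1) p q * x)) * this

/-- `⟨p,q| c U |k,l⟩ = ⟨p,q| U (√η a + √(1-η) b) |k,l⟩`. -/
theorem amp_c (η : ℝ) (k l p q : ℕ) :
    Real.sqrt (p + 1) * bsAmp η k l (p + 1) q
      = Real.sqrt η * Real.sqrt k * bsAmp η (k - 1) l p q
        + Real.sqrt (1 - η) * Real.sqrt l * bsAmp η k (l - 1) p q := by
  set s := Real.sqrt η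
  set c := Real.sqrt (1 - η)
  by_cases h : p + 1 + q = k + l
  · have hp : Real.sqrt ((p : ℝ) + 1) * Real.sqrt ((p : ℝ) + 1) = (p : ℝ) + 1 :=
      Real.mul_self_sqrt (by positivity)
    rw [bsAmp_eq' η k l (p + 1) q, if_pos h, wt_p]
    have e0 : Real.sqrt (p + 1) * (Real.sqrt (p + 1) * wt k l p q * Kc s c k l (p + 1))
        = wt k l p q * (((p : ℝ) + 1) * Kc s c k l (p + 1)) := by
      linear_combination (wt k l p q * Kc s c k l (p + 1)) * hp
    rw [e0, Kc_deriv]
    have e1 : s * Real.sqrt k * bsAmp η (k - 1) l p q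
        = wt k l p q * (k * s * Kc s c (k - 1) l p) := by
      rcases k with _ | k
      · simp
      · rw [bsAmp_eq', if_pos (by simp; omega)]
        have := sqrt_mul_wt_left k l p q (s * Kc s c k l p)
        simp only [Nat.add_sub_cancel]
        push_cast at this ⊢
        linear_combination -this
    have e2 : c * Real.sqrt l * bsAmp η k (l - 1) p q
        = wt k l p q * (l * c * Kc s c k (l - 1) p) := by
      rcases l with _ | l
      · simp
      · rw [bsAmp_eq', if_pos (by simp; omega)]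
        have := sqrt_mul_wt_right k l p q (c * Kc s c k l p)
        simp only [Nat.add_sub_cancel]
        push_cast at this ⊢
        linear_combination -this
    rw [e1, e2]; ring
  · rw [bsAmp_of_ne η (by omega)]
    rcases k with _ | k <;> rcases l with _ | l
    · simp
    · rw [bsAmp_of_ne (k := 0) (l := l + 1 - 1) η (by simp; omega)]; simp
    · rw [bsAmp_of_ne (k := k + 1 - 1) (l := 0) η (by simp; omega)]; simp
    · rw [bsAmp_of_ne (k := k + 1) (l := l + 1 - 1) η (by simp; omega),
        bsAmp_of_ne (k := k + 1 - 1) (l := l + 1) η (by simp; omega)]; simp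

/-- `⟨p,q| d U |k,l⟩ = ⟨p,q| U (-√(1-η) a + √η b) |k,l⟩`. -/
theorem amp_d (η : ℝ) (k l p q : ℕ) :
    Real.sqrt (q + 1) * bsAmp η k l p (q + 1)
      = - (Real.sqrt (1 - η) * Real.sqrt k * bsAmp η (k - 1) l p q)
        + Real.sqrt η * Real.sqrt l * bsAmp η k (l - 1) p q := by
  set s := Real.sqrt η
  set c := Real.sqrt (1 - η)
  by_cases h : p + (q + 1) = k + l
  · have hq : Real.sqrt ((q : ℝ) + 1) * Real.sqrt ((q : ℝ) + 1) = (q : ℝ) + 1 :=
      Real.mul_self_sqrt (by positivity)
    rw [bsAmp_eq' η k l p (q + 1), if_pos h, wt_q]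
    have hR : (k : ℝ) + l - p = (q : ℝ) + 1 := by
      have := congrArg (Nat.cast (R := ℝ)) h
      push_cast at this; linarith
    have e0 : Real.sqrt (q + 1) * (Real.sqrt (q + 1) * wt k l p q * Kc s c k l p)
        = wt k l p q * (((k : ℝ) + l - p) * Kc s c k l p) := by
      rw [hR]
      linear_combination (wt k l p q * Kc s c k l p) * hq
    rw [e0, Kc_euler]
    have e1 : c * Real.sqrt k * bsAmp η (k - 1) l p q
        = wt k l p q * (k * c * Kc s c (k - 1) l p) := by
      rcases k with _ | k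
      · simp
      · rw [bsAmp_eq', if_pos (by simp; omega)]
        have := sqrt_mul_wt_left k l p q (c * Kc s c k l p)
        simp only [Nat.add_sub_cancel]
        push_cast at this ⊢
        linear_combination -this
    have e2 : s * Real.sqrt l * bsAmp η k (l - 1) p q
        = wt k l p q * (l * s * Kc s c k (l - 1) p) := by
      rcases l with _ | l
      · simp
      · rw [bsAmp_eq', if_pos (by simp; omega)]
        have := sqrt_mul_wt_right k l p q (s * Kc s c k l p)
        simp only [Nat.add_sub_cancel]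
        push_cast at this ⊢
        linear_combination -this
    rw [e1, e2]; ring
  · rw [bsAmp_of_ne η (by omega)]
    rcases k with _ | k <;> rcases l with _ | l
    · simp
    · rw [bsAmp_of_ne (k := 0) (l := l + 1 - 1) η (by simp; omega)]; simp
    · rw [bsAmp_of_ne (k := k + 1 - 1) (l := 0) η (by simp; omega)]; simp
    · rw [bsAmp_of_ne (k := k + 1) (l := l + 1 - 1) η (by simp; omega),
        bsAmp_of_ne (k := k + 1 - 1) (l := l + 1) η (by simp; omega)]; simp

/-- `⟨p,q| U a† |k,l⟩ = ⟨p,q| (√η c† - √(1-η) d†) U |k,l⟩`. -/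
theorem amp_a_dag (η : ℝ) (k l p q : ℕ) :
    Real.sqrt (k + 1) * bsAmp η (k + 1) l p q
      = Real.sqrt η * Real.sqrt p * bsAmp η k l (p - 1) q
        - Real.sqrt (1 - η) * Real.sqrt q * bsAmp η k l p (q - 1) := by
  set s := Real.sqrt η
  set c := Real.sqrt (1 - η)
  by_cases h : p + q = k + 1 + l
  · have ew : Real.sqrt ((k : ℝ) + 1) * bsAmp η (k + 1) l p q
        = wt k l p q * Kc s c (k + 1) l p := by
      rw [bsAmp_eq', if_pos h, ← mul_assoc, wt_k]
    rw [ew]
    rcases p with _ | p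
    · rcases q with _ | q
      · omega
      · rw [Kc_succ_left_zero, wt_q]
        have : bsAmp η k l 0 (q + 1 - 1) = wt k l 0 q * Kc s c k l 0 := by
          rw [bsAmp_eq', if_pos (by simp; omega)]; simp [s, c]
        rw [this]; push_cast; simp only [Real.sqrt_zero]; ring
    · rcases q with _ | q
      · have hz : Kc s c k l (p + 1) = 0 := by
          unfold Kc
          apply coeff_eq_zero_of_natDegree_lt
          refine lt_of_le_of_lt natDegree_mul_le ?_
          have h1 : ((C s * X - C c : ℝ[X]) ^ k).natDegree ≤ k := by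
            refine (natDegree_pow_le).trans ?_
            have : (C s * X - C c : ℝ[X]).natDegree ≤ 1 := by compute_degree
            nlinarith
          have h2 : ((C c * X + C s : ℝ[X]) ^ l).natDegree ≤ l := by
            refine (natDegree_pow_le).trans ?_
            have : (C c * X + C s : ℝ[X]).natDegree ≤ 1 := by compute_degree
            nlinarith
          omega
        rw [Kc_succ_left, hz, wt_p]
        have : bsAmp η k l (p + 1 - 1) 0 = wt k l p 0 * Kc s c k l p := by
          rw [bsAmp_eq', if_pos (by simp; omega)]; simp [s, c]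
        rw [this]; push_cast; simp only [Real.sqrt_zero]; ring
      · rw [Kc_succ_left]
        have e1 : bsAmp η k l (p + 1 - 1) (q + 1) = wt k l p (q + 1) * Kc s c k l p := by
          rw [bsAmp_eq', if_pos (by simp; omega)]; simp [s, c]
        have e2 : bsAmp η k l (p + 1) (q + 1 - 1) = wt k l (p + 1) q * Kc s c k l (p + 1) := by
          rw [bsAmp_eq', if_pos (by simp; omega)]; simp [s, c]
        rw [e1, e2, wt_p k l p (q + 1), wt_q k l p q, wt_p k l p q]
        push_cast
        ring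
  · rw [bsAmp_of_ne η (by omega)]
    rcases p with _ | p <;> rcases q with _ | q
    · simp
    · rw [bsAmp_of_ne (p := 0) (q := q + 1 - 1) η (by simp; omega)]; simp
    · rw [bsAmp_of_ne (p := p + 1 - 1) (q := 0) η (by simp; omega)]; simp
    · rw [bsAmp_of_ne (p := p + 1) (q := q + 1 - 1) η (by simp; omega),
        bsAmp_of_ne (p := p + 1 - 1) (q := q + 1) η (by simp; omega)]; simp

/-- `⟨p,q| U b† |k,l⟩ = ⟨p,q| (√(1-η) c† + √η d†) U |k,l⟩`. -/
theorem amp_b_dag (η : ℝ) (k l p q : ℕ) :
    Real.sqrt (l + 1) * bsAmp η k (l + 1) p q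
      = Real.sqrt (1 - η) * Real.sqrt p * bsAmp η k l (p - 1) q
        + Real.sqrt η * Real.sqrt q * bsAmp η k l p (q - 1) := by
  set s := Real.sqrt η
  set c := Real.sqrt (1 - η)
  by_cases h : p + q = k + (l + 1)
  · have ew : Real.sqrt ((l : ℝ) + 1) * bsAmp η k (l + 1) p q
        = wt k l p q * Kc s c k (l + 1) p := by
      rw [bsAmp_eq', if_pos h, ← mul_assoc, wt_l]
    rw [ew]
    rcases p with _ | p
    · rcases q with _ | q
      · omega
      · rw [Kc_succ_right_zero, wt_q]
        have : bsAmp η k l 0 (q + 1 - 1) = wt k l 0 q * Kc s c k l 0 := by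
          rw [bsAmp_eq', if_pos (by simp; omega)]; simp [s, c]
        rw [this]; push_cast; simp only [Real.sqrt_zero]; ring
    · rcases q with _ | q
      · have hz : Kc s c k l (p + 1) = 0 := by
          unfold Kc
          apply coeff_eq_zero_of_natDegree_lt
          refine lt_of_le_of_lt natDegree_mul_le ?_
          have h1 : ((C s * X - C c : ℝ[X]) ^ k).natDegree ≤ k := by
            refine (natDegree_pow_le).trans ?_
            have : (C s * X - C c : ℝ[X]).natDegree ≤ 1 := by compute_degree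
            nlinarith
          have h2 : ((C c * X + C s : ℝ[X]) ^ l).natDegree ≤ l := by
            refine (natDegree_pow_le).trans ?_
            have : (C c * X + C s : ℝ[X]).natDegree ≤ 1 := by compute_degree
            nlinarith
          omega
        rw [Kc_succ_right, hz, wt_p]
        have : bsAmp η k l (p + 1 - 1) 0 = wt k l p 0 * Kc s c k l p := by
          rw [bsAmp_eq', if_pos (by simp; omega)]; simp [s, c]
        rw [this]; push_cast; simp only [Real.sqrt_zero]; ring
      · rw [Kc_succ_right]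
        have e1 : bsAmp η k l (p + 1 - 1) (q + 1) = wt k l p (q + 1) * Kc s c k l p := by
          rw [bsAmp_eq', if_pos (by simp; omega)]; simp [s, c]
        have e2 : bsAmp η k l (p + 1) (q + 1 - 1) = wt k l (p + 1) q * Kc s c k l (p + 1) := by
          rw [bsAmp_eq', if_pos (by simp; omega)]; simp [s, c]
        rw [e1, e2, wt_p k l p (q + 1), wt_q k l p q, wt_p k l p q]
        push_cast
        ring
  · rw [bsAmp_of_ne η (by omega)]
    rcases p with _ | p <;> rcases q with _ | q
    · simp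
    · rw [bsAmp_of_ne (p := 0) (q := q + 1 - 1) η (by simp; omega)]; simp
    · rw [bsAmp_of_ne (p := p + 1 - 1) (q := 0) η (by simp; omega)]; simp
    · rw [bsAmp_of_ne (p := p + 1) (q := q + 1 - 1) η (by simp; omega),
        bsAmp_of_ne (p := p + 1 - 1) (q := q + 1) η (by simp; omega)]; simp


/-! ### inverse ladder relations and orthogonality (`0 ≤ η ≤ 1`) -/

lemma sq_add_sq {η : ℝ} (h0 : 0 ≤ η) (h1 : η ≤ 1) :
    Real.sqrt η * Real.sqrt η + Real.sqrt (1 - η) * Real.sqrt (1 - η) = 1 := by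
  rw [Real.mul_self_sqrt h0, Real.mul_self_sqrt (by linarith)]; ring

/-- `⟨p,q| U a |k,l⟩ = ⟨p,q| (√η c - √(1-η) d) U |k,l⟩`. -/
theorem amp_a {η : ℝ} (h0 : 0 ≤ η) (h1 : η ≤ 1) (k l p q : ℕ) :
    Real.sqrt k * bsAmp η (k - 1) l p q
      = Real.sqrt η * (Real.sqrt (p + 1) * bsAmp η k l (p + 1) q)
        - Real.sqrt (1 - η) * (Real.sqrt (q + 1) * bsAmp η k l p (q + 1)) := by
  rw [amp_c, amp_d]
  linear_combination (-(Real.sqrt k * bsAmp η (k - 1) l p q)) * sq_add_sq h0 h1

/-- `⟨p,q| U b |k,l⟩ = ⟨p,q| (√(1-η) c + √η d) U |k,l⟩`. -/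
theorem amp_b {η : ℝ} (h0 : 0 ≤ η) (h1 : η ≤ 1) (k l p q : ℕ) :
    Real.sqrt l * bsAmp η k (l - 1) p q
      = Real.sqrt (1 - η) * (Real.sqrt (p + 1) * bsAmp η k l (p + 1) q)
        + Real.sqrt η * (Real.sqrt (q + 1) * bsAmp η k l p (q + 1)) := by
  rw [amp_c, amp_d]
  linear_combination (-(Real.sqrt l * bsAmp η k (l - 1) p q)) * sq_add_sq h0 h1

/-- `⟨p,q| c† U |k,l⟩ = ⟨p,q| U (√η a† + √(1-η) b†) |k,l⟩`. -/
theorem amp_c_dag {η : ℝ} (h0 : 0 ≤ η) (h1 : η ≤ 1) (k l p q : ℕ) :
    Real.sqrt p * bsAmp η k l (p - 1) q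
      = Real.sqrt η * (Real.sqrt (k + 1) * bsAmp η (k + 1) l p q)
        + Real.sqrt (1 - η) * (Real.sqrt (l + 1) * bsAmp η k (l + 1) p q) := by
  rw [amp_a_dag, amp_b_dag]
  linear_combination (-(Real.sqrt p * bsAmp η k l (p - 1) q)) * sq_add_sq h0 h1

/-- `⟨p,q| d† U |k,l⟩ = ⟨p,q| U (-√(1-η) a† + √η b†) |k,l⟩`. -/
theorem amp_d_dag {η : ℝ} (h0 : 0 ≤ η) (h1 : η ≤ 1) (k l p q : ℕ) :
    Real.sqrt q * bsAmp η k l p (q - 1)
      = - (Real.sqrt (1 - η) * (Real.sqrt (k + 1) * bsAmp η (k + 1) l p q))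
        + Real.sqrt η * (Real.sqrt (l + 1) * bsAmp η k (l + 1) p q) := by
  rw [amp_a_dag, amp_b_dag]
  linear_combination (-(Real.sqrt q * bsAmp η k l p (q - 1))) * sq_add_sq h0 h1

lemma bsAmp_zero (η : ℝ) : bsAmp η 0 0 0 0 = 1 := by
  simp [bsAmp]

/-- inner product of two rows on the block `p + q = N`. -/
def row (η : ℝ) (k l k' l' N : ℕ) : ℝ :=
  ∑ x ∈ antidiagonal N, bsAmp η k l x.1 x.2 * bsAmp η k' l' x.1 x.2

/-- summation shift on the antidiagonal in the first variable. -/
lemma sum_antidiag_shift_fst (N : ℕ) (f g : ℕ → ℕ → ℝ) :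
    ∑ x ∈ antidiagonal (N + 1), Real.sqrt x.1 * f (x.1 - 1) x.2 * g x.1 x.2
      = ∑ x ∈ antidiagonal N, f x.1 x.2 * (Real.sqrt (x.1 + 1) * g (x.1 + 1) x.2) := by
  rw [Finset.Nat.antidiagonal_succ]
  simp only [sum_cons, sum_map, Function.Embedding.prodMap, Function.Embedding.coeFn_mk,
    Prod.map_fst, Prod.map_snd, Nat.cast_zero, Real.sqrt_zero, zero_mul, zero_add,
    Nat.succ_eq_add_one, Function.Embedding.refl_apply, Nat.cast_add, Nat.cast_one,
    Nat.add_sub_cancel]
  exact Finset.sum_congr rfl fun x _ => by ring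

lemma sum_antidiag_shift_snd (N : ℕ) (f g : ℕ → ℕ → ℝ) :
    ∑ x ∈ antidiagonal (N + 1), Real.sqrt x.2 * f x.1 (x.2 - 1) * g x.1 x.2
      = ∑ x ∈ antidiagonal N, f x.1 x.2 * (Real.sqrt (x.2 + 1) * g x.1 (x.2 + 1)) := by
  rw [Finset.Nat.antidiagonal_succ']
  simp only [sum_cons, sum_map, Function.Embedding.prodMap, Function.Embedding.coeFn_mk,
    Prod.map_fst, Prod.map_snd, Nat.cast_zero, Real.sqrt_zero, zero_mul, zero_add,
    Nat.succ_eq_add_one, Function.Embedding.refl_apply, Nat.cast_add, Nat.cast_one,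
    Nat.add_sub_cancel]
  exact Finset.sum_congr rfl fun x _ => by ring


lemma row_succ_left {η : ℝ} (h0 : 0 ≤ η) (h1 : η ≤ 1) (k l k' l' N : ℕ) :
    Real.sqrt (k + 1) * row η (k + 1) l k' l' (N + 1)
      = Real.sqrt k' * row η k l (k' - 1) l' N := by
  unfold row
  rw [mul_sum]
  have e1 : ∀ x ∈ antidiagonal (N + 1),
      Real.sqrt (k + 1) * (bsAmp η (k + 1) l x.1 x.2 * bsAmp η k' l' x.1 x.2)
      = Real.sqrt η * (Real.sqrt x.1 * bsAmp η k l (x.1 - 1) x.2 * bsAmp η k' l' x.1 x.2)
        - Real.sqrt (1 - η) * (Real.sqrt x.2 * bsAmp η k l x.1 (x.2 - 1) *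
            bsAmp η k' l' x.1 x.2) := by
    intro x _
    rw [← mul_assoc, amp_a_dag]; ring
  rw [sum_congr rfl e1, sum_sub_distrib, ← mul_sum, ← mul_sum,
    sum_antidiag_shift_fst N (fun a b => bsAmp η k l a b) (fun a b => bsAmp η k' l' a b),
    sum_antidiag_shift_snd N (fun a b => bsAmp η k l a b) (fun a b => bsAmp η k' l' a b),
    mul_sum, mul_sum, mul_sum, ← sum_sub_distrib]
  apply sum_congr rfl
  intro x _
  have := amp_a h0 h1 k' l' x.1 x.2
  linear_combination (-(bsAmp η k l x.1 x.2)) * this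

lemma row_succ_right {η : ℝ} (h0 : 0 ≤ η) (h1 : η ≤ 1) (k l k' l' N : ℕ) :
    Real.sqrt (l + 1) * row η k (l + 1) k' l' (N + 1)
      = Real.sqrt l' * row η k l k' (l' - 1) N := by
  unfold row
  rw [mul_sum]
  have e1 : ∀ x ∈ antidiagonal (N + 1),
      Real.sqrt (l + 1) * (bsAmp η k (l + 1) x.1 x.2 * bsAmp η k' l' x.1 x.2)
      = Real.sqrt (1 - η) * (Real.sqrt x.1 * bsAmp η k l (x.1 - 1) x.2 * bsAmp η k' l' x.1 x.2)
        + Real.sqrt η * (Real.sqrt x.2 * bsAmp η k l x.1 (x.2 - 1) *
            bsAmp η k' l' x.1 x.2) := by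
    intro x _
    rw [← mul_assoc, amp_b_dag]; ring
  rw [sum_congr rfl e1, sum_add_distrib, ← mul_sum, ← mul_sum,
    sum_antidiag_shift_fst N (fun a b => bsAmp η k l a b) (fun a b => bsAmp η k' l' a b),
    sum_antidiag_shift_snd N (fun a b => bsAmp η k l a b) (fun a b => bsAmp η k' l' a b),
    mul_sum, mul_sum, mul_sum, ← sum_add_distrib]
  apply sum_congr rfl
  intro x _
  have := amp_b h0 h1 k' l' x.1 x.2
  linear_combination (-(bsAmp η k l x.1 x.2)) * this

theorem row_eq {η : ℝ} (h0 : 0 ≤ η) (h1 : η ≤ 1) (N : ℕ) :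
    ∀ k l k' l' : ℕ, k + l = N → k' + l' = N →
      row η k l k' l' N = if k = k' then 1 else 0 := by
  induction N with
  | zero =>
    intro k l k' l' h h'
    obtain rfl : k = 0 := by omega
    obtain rfl : l = 0 := by omega
    obtain rfl : k' = 0 := by omega
    obtain rfl : l' = 0 := by omega
    simp [row, bsAmp_zero]
  | succ N ih =>
    intro k l k' l' h h'
    rcases k with _ | k
    · obtain ⟨l, rfl⟩ : ∃ l₁, l = l₁ + 1 := ⟨l - 1, by omega⟩
      have hr := row_succ_right h0 h1 0 l k' l' N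
      have hpos : 0 < Real.sqrt ((l : ℝ) + 1) := Real.sqrt_pos.mpr (by positivity)
      rcases l' with _ | l'
      · have : k' ≠ 0 := by omega
        rw [if_neg (Ne.symm this)]
        simp only [Nat.cast_zero, Real.sqrt_zero, zero_mul] at hr
        rcases mul_eq_zero.mp hr with h2 | h2
        · exact absurd h2 hpos.ne'
        · exact h2
      · rw [Nat.add_sub_cancel, ih 0 l k' l' (by omega) (by omega)] at hr
        by_cases hk : 0 = k'
        · rw [if_pos hk] at hr ⊢
          have hl : l = l' := by omega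
          subst hl
          push_cast at hr
          exact mul_left_cancel₀ hpos.ne' hr
        · rw [if_neg hk] at hr ⊢
          rw [mul_zero] at hr
          rcases mul_eq_zero.mp hr with h2 | h2
          · exact absurd h2 hpos.ne'
          · exact h2
    · have hr := row_succ_left h0 h1 k l k' l' N
      have hpos : 0 < Real.sqrt ((k : ℝ) + 1) := Real.sqrt_pos.mpr (by positivity)
      rcases k' with _ | k'
      · simp only [Nat.cast_zero, Real.sqrt_zero, zero_mul] at hr
        rw [if_neg (by omega)]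
        rcases mul_eq_zero.mp hr with h2 | h2
        · exact absurd h2 hpos.ne'
        · exact h2
      · rw [Nat.add_sub_cancel, ih k l k' l' (by omega) (by omega)] at hr
        by_cases hk : k = k'
        · subst hk
          rw [if_pos rfl] at hr ⊢
          push_cast at hr
          exact mul_left_cancel₀ hpos.ne' hr
        · rw [if_neg hk] at hr
          rw [if_neg (by omega)]
          rw [mul_zero] at hr
          rcases mul_eq_zero.mp hr with h2 | h2
          · exact absurd h2 hpos.ne'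
          · exact h2

/-- inner product of two columns on the block `k + l = N`. -/
def col (η : ℝ) (p q p' q' N : ℕ) : ℝ :=
  ∑ x ∈ antidiagonal N, bsAmp η x.1 x.2 p q * bsAmp η x.1 x.2 p' q'

lemma col_succ_left {η : ℝ} (h0 : 0 ≤ η) (h1 : η ≤ 1) (p q p' q' N : ℕ) :
    Real.sqrt (p + 1) * col η (p + 1) q p' q' (N + 1)
      = Real.sqrt p' * col η p q (p' - 1) q' N := by
  unfold col
  rw [mul_sum]
  have e1 : ∀ x ∈ antidiagonal (N + 1),
      Real.sqrt (p + 1) * (bsAmp η x.1 x.2 (p + 1) q * bsAmp η x.1 x.2 p' q')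
      = Real.sqrt η * (Real.sqrt x.1 * bsAmp η (x.1 - 1) x.2 p q * bsAmp η x.1 x.2 p' q')
        + Real.sqrt (1 - η) * (Real.sqrt x.2 * bsAmp η x.1 (x.2 - 1) p q *
            bsAmp η x.1 x.2 p' q') := by
    intro x _
    rw [← mul_assoc, amp_c]; ring
  rw [sum_congr rfl e1, sum_add_distrib, ← mul_sum, ← mul_sum,
    sum_antidiag_shift_fst N (fun a b => bsAmp η a b p q) (fun a b => bsAmp η a b p' q'),
    sum_antidiag_shift_snd N (fun a b => bsAmp η a b p q) (fun a b => bsAmp η a b p' q'),
    mul_sum, mul_sum, mul_sum, ← sum_add_distrib]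
  apply sum_congr rfl
  intro x _
  have := amp_c_dag h0 h1 x.1 x.2 p' q'
  linear_combination (-(bsAmp η x.1 x.2 p q)) * this

lemma col_succ_right {η : ℝ} (h0 : 0 ≤ η) (h1 : η ≤ 1) (p q p' q' N : ℕ) :
    Real.sqrt (q + 1) * col η p (q + 1) p' q' (N + 1)
      = Real.sqrt q' * col η p q p' (q' - 1) N := by
  unfold col
  rw [mul_sum]
  have e1 : ∀ x ∈ antidiagonal (N + 1),
      Real.sqrt (q + 1) * (bsAmp η x.1 x.2 p (q + 1) * bsAmp η x.1 x.2 p' q')
      = Real.sqrt η * (Real.sqrt x.2 * bsAmp η x.1 (x.2 - 1) p q * bsAmp η x.1 x.2 p' q')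
        - Real.sqrt (1 - η) * (Real.sqrt x.1 * bsAmp η (x.1 - 1) x.2 p q *
            bsAmp η x.1 x.2 p' q') := by
    intro x _
    rw [← mul_assoc, amp_d]; ring
  rw [sum_congr rfl e1, sum_sub_distrib, ← mul_sum, ← mul_sum,
    sum_antidiag_shift_fst N (fun a b => bsAmp η a b p q) (fun a b => bsAmp η a b p' q'),
    sum_antidiag_shift_snd N (fun a b => bsAmp η a b p q) (fun a b => bsAmp η a b p' q'),
    mul_sum, mul_sum, mul_sum, ← sum_sub_distrib]
  apply sum_congr rfl
  intro x _
  have := amp_d_dag h0 h1 x.1 x.2 p' q'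
  linear_combination (-(bsAmp η x.1 x.2 p q)) * this

theorem col_eq {η : ℝ} (h0 : 0 ≤ η) (h1 : η ≤ 1) (N : ℕ) :
    ∀ p q p' q' : ℕ, p + q = N → p' + q' = N →
      col η p q p' q' N = if p = p' then 1 else 0 := by
  induction N with
  | zero =>
    intro k l k' l' h h'
    obtain rfl : k = 0 := by omega
    obtain rfl : l = 0 := by omega
    obtain rfl : k' = 0 := by omega
    obtain rfl : l' = 0 := by omega
    simp [col, bsAmp_zero]
  | succ N ih =>
    intro k l k' l' h h'
    rcases k with _ | k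
    · obtain ⟨l, rfl⟩ : ∃ l₁, l = l₁ + 1 := ⟨l - 1, by omega⟩
      have hr := col_succ_right h0 h1 0 l k' l' N
      have hpos : 0 < Real.sqrt ((l : ℝ) + 1) := Real.sqrt_pos.mpr (by positivity)
      rcases l' with _ | l'
      · have : k' ≠ 0 := by omega
        rw [if_neg (Ne.symm this)]
        simp only [Nat.cast_zero, Real.sqrt_zero, zero_mul] at hr
        rcases mul_eq_zero.mp hr with h2 | h2
        · exact absurd h2 hpos.ne'
        · exact h2
      · rw [Nat.add_sub_cancel, ih 0 l k' l' (by omega) (by omega)] at hr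
        by_cases hk : 0 = k'
        · rw [if_pos hk] at hr ⊢
          have hl : l = l' := by omega
          subst hl
          push_cast at hr
          exact mul_left_cancel₀ hpos.ne' hr
        · rw [if_neg hk] at hr ⊢
          rw [mul_zero] at hr
          rcases mul_eq_zero.mp hr with h2 | h2
          · exact absurd h2 hpos.ne'
          · exact h2
    · have hr := col_succ_left h0 h1 k l k' l' N
      have hpos : 0 < Real.sqrt ((k : ℝ) + 1) := Real.sqrt_pos.mpr (by positivity)
      rcases k' with _ | k'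
      · simp only [Nat.cast_zero, Real.sqrt_zero, zero_mul] at hr
        rw [if_neg (by omega)]
        rcases mul_eq_zero.mp hr with h2 | h2
        · exact absurd h2 hpos.ne'
        · exact h2
      · rw [Nat.add_sub_cancel, ih k l k' l' (by omega) (by omega)] at hr
        by_cases hk : k = k'
        · subst hk
          rw [if_pos rfl] at hr ⊢
          push_cast at hr
          exact mul_left_cancel₀ hpos.ne' hr
        · rw [if_neg hk] at hr
          rw [if_neg (by omega)]
          rw [mul_zero] at hr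
          rcases mul_eq_zero.mp hr with h2 | h2
          · exact absurd h2 hpos.ne'
          · exact h2

end Crest.Agent.R331.BS375
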