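import Mathlib
import Crest.Prelude.Def_Bosonic
import Crest.Prelude.Def_FockState
import Crest.Agent.R331.BS_375

/-! # n-mode beam splitter: orthogonality, ladders, the unitary on the pair Fock space (helper375) -/

set_option autoImplicit false

noncomputable section

namespace Crest.Agent.R331.BS375

open Crest.MathPhysics.Bosonic Finset
open scoped InnerProductSpace

variable {n : ℕ}

lemma ampOcc_of_ne (η : ℝ) {a a' k e : Occ n} (h : k + e ≠ a + a') : ampOcc η a a' k e = 0 := by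
  have : ∃ j, k j + e j ≠ a j + a' j := by
    by_contra hc
    push Not at hc
    exact h (funext hc)
  obtain ⟨j, hj⟩ := this
  exact Finset.prod_eq_zero (mem_univ j) (bsAmp_of_ne η hj)

@[simp] lemma fst_add_snd {m : Occ n} (x : Splitting m) : x.fst + x.snd = m := by
  funext j
  have := (x j).is_lt
  simp only [Pi.add_apply, Splitting.fst, Splitting.snd]
  omega

lemma splitting_fst_injective {m : Occ n} : Function.Injective (Splitting.fst (m := m)) := by
  intro x y h
  funext j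
  exact Fin.ext (congrFun h j)

/-- the splitting of `a + a'` given by `a`. -/
def splitOf (a a' m : Occ n) (h : a + a' = m) : Splitting m :=
  fun j => ⟨a j, by have := congrFun h j; simp only [Pi.add_apply] at this; omega⟩

@[simp] lemma splitOf_fst (a a' m : Occ n) (h : a + a' = m) : (splitOf a a' m h).fst = a := rfl
@[simp] lemma splitOf_snd (a a' m : Occ n) (h : a + a' = m) : (splitOf a a' m h).snd = a' := by
  funext j
  have := congrFun h j
  simp only [Pi.add_apply] at this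
  simp only [Splitting.snd, splitOf]
  omega

/-- a sum over splittings of a product is the product of the antidiagonal sums. -/
lemma sum_splitting_prod (m : Occ n) (f : Fin n → ℕ → ℕ → ℝ) :
    ∑ x : Splitting m, ∏ j, f j (x.fst j) (x.snd j)
      = ∏ j, ∑ y ∈ antidiagonal (m j), f j y.1 y.2 := by
  have h1 : ∀ j, ∑ y ∈ antidiagonal (m j), f j y.1 y.2
      = ∑ i : Fin (m j + 1), f j i (m j - i) := by
    intro j
    rw [Finset.Nat.sum_antidiagonal_eq_sum_range_succ_mk]
    exact (Fin.sum_univ_eq_sum_range (fun i => f j i (m j - i)) (m j + 1)).symm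
  simp only [h1]
  rw [Finset.prod_univ_sum]
  rw [Fintype.piFinset_univ]
  rfl

/-- rows of the n-mode amplitude matrix are orthonormal. -/
theorem ampOcc_row {η : ℝ} (h0 : 0 ≤ η) (h1 : η ≤ 1) (m a a' b b' : Occ n)
    (ha : a + a' = m) (hb : b + b' = m) :
    ∑ x : Splitting m, ampOcc η a a' x.fst x.snd * ampOcc η b b' x.fst x.snd
      = if a = b then 1 else 0 := by
  have e : ∀ x : Splitting m, ampOcc η a a' x.fst x.snd * ampOcc η b b' x.fst x.snd
      = ∏ j, (fun j p q => bsAmp η (a j) (a' j) p q * bsAmp η (b j) (b' j) p q) j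
          (x.fst j) (x.snd j) := by
    intro x
    simp only [ampOcc, ← Finset.prod_mul_distrib]
  rw [Finset.sum_congr rfl (fun x _ => e x),
    sum_splitting_prod m (fun j p q => bsAmp η (a j) (a' j) p q * bsAmp η (b j) (b' j) p q)]
  have e2 : ∀ j, ∑ y ∈ antidiagonal (m j),
      bsAmp η (a j) (a' j) y.1 y.2 * bsAmp η (b j) (b' j) y.1 y.2
      = if a j = b j then 1 else 0 := fun j =>
    row_eq h0 h1 (m j) _ _ _ _ (congrFun ha j) (congrFun hb j)
  simp only [e2]
  by_cases hab : a = b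
  · subst hab; simp
  · rw [if_neg hab]
    have : ∃ j, a j ≠ b j := by
      by_contra hc; push Not at hc; exact hab (funext hc)
    obtain ⟨j, hj⟩ := this
    exact Finset.prod_eq_zero (mem_univ j) (if_neg hj)

/-- columns of the n-mode amplitude matrix are orthonormal. -/
theorem ampOcc_col {η : ℝ} (h0 : 0 ≤ η) (h1 : η ≤ 1) (m k e k' e' : Occ n)
    (ha : k + e = m) (hb : k' + e' = m) :
    ∑ x : Splitting m, ampOcc η x.fst x.snd k e * ampOcc η x.fst x.snd k' e'
      = if k = k' then 1 else 0 := by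
  have e1 : ∀ x : Splitting m, ampOcc η x.fst x.snd k e * ampOcc η x.fst x.snd k' e'
      = ∏ j, (fun j p q => bsAmp η p q (k j) (e j) * bsAmp η p q (k' j) (e' j)) j
          (x.fst j) (x.snd j) := by
    intro x
    simp only [ampOcc, ← Finset.prod_mul_distrib]
  rw [Finset.sum_congr rfl (fun x _ => e1 x),
    sum_splitting_prod m (fun j p q => bsAmp η p q (k j) (e j) * bsAmp η p q (k' j) (e' j))]
  have e2 : ∀ j, ∑ y ∈ antidiagonal (m j),
      bsAmp η y.1 y.2 (k j) (e j) * bsAmp η y.1 y.2 (k' j) (e' j)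
      = if k j = k' j then 1 else 0 := fun j =>
    col_eq h0 h1 (m j) _ _ _ _ (congrFun ha j) (congrFun hb j)
  simp only [e2]
  by_cases hab : k = k'
  · subst hab; simp
  · rw [if_neg hab]
    have : ∃ j, k j ≠ k' j := by
      by_contra hc; push Not at hc; exact hab (funext hc)
    obtain ⟨j, hj⟩ := this
    exact Finset.prod_eq_zero (mem_univ j) (if_neg hj)

/-! ### ladders, one mode at a time -/

/-- the unit occupation tuple of mode `j`. -/
abbrev uni (j : Fin n) : Occ n := Pi.single j 1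

lemma ampOcc_split (η : ℝ) (a a' k e : Occ n) (j : Fin n) :
    ampOcc η a a' k e = bsAmp η (a j) (a' j) (k j) (e j)
      * ∏ i ∈ univ.erase j, bsAmp η (a i) (a' i) (k i) (e i) := by
  rw [ampOcc, ← Finset.mul_prod_erase univ _ (mem_univ j)]

lemma prod_erase_congr (η : ℝ) {a a' k e b b' l f : Occ n} (j : Fin n)
    (h : ∀ i, i ≠ j → a i = b i ∧ a' i = b' i ∧ k i = l i ∧ e i = f i) :
    ∏ i ∈ univ.erase j, bsAmp η (a i) (a' i) (k i) (e i)
      = ∏ i ∈ univ.erase j, bsAmp η (b i) (b' i) (l i) (f i) := by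
  apply Finset.prod_congr rfl
  intro i hi
  obtain ⟨h1, h2, h3, h4⟩ := h i (Finset.ne_of_mem_erase hi)
  rw [h1, h2, h3, h4]

lemma add_uni_ne {j i : Fin n} (k : Occ n) (h : i ≠ j) : (k + uni j) i = k i := by
  simp [uni, Pi.single_eq_of_ne h]
lemma sub_uni_ne {j i : Fin n} (k : Occ n) (h : i ≠ j) : (k - uni j) i = k i := by
  simp [uni, Pi.single_eq_of_ne h]
@[simp] lemma add_uni_self (j : Fin n) (k : Occ n) : (k + uni j) j = k j + 1 := by simp [uni]
@[simp] lemma sub_uni_self (j : Fin n) (k : Occ n) : (k - uni j) j = k j - 1 := by simp [uni]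

theorem ampOcc_c (η : ℝ) (a a' k e : Occ n) (j : Fin n) :
    Real.sqrt (k j + 1) * ampOcc η a a' (k + uni j) e
      = Real.sqrt η * Real.sqrt (a j) * ampOcc η (a - uni j) a' k e
        + Real.sqrt (1 - η) * Real.sqrt (a' j) * ampOcc η a (a' - uni j) k e := by
  rw [ampOcc_split η a a' (k + uni j) e j, ampOcc_split η (a - uni j) a' k e j,
    ampOcc_split η a (a' - uni j) k e j,
    prod_erase_congr η (b := a) (b' := a') (l := k) (f := e) j
      (fun i hi => ⟨rfl, rfl, add_uni_ne k hi, rfl⟩),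
    prod_erase_congr η (a := a - uni j) (b := a) (b' := a') (l := k) (f := e) j
      (fun i hi => ⟨sub_uni_ne a hi, rfl, rfl, rfl⟩),
    prod_erase_congr η (a' := a' - uni j) (b := a) (b' := a') (l := k) (f := e) j
      (fun i hi => ⟨rfl, sub_uni_ne a' hi, rfl, rfl⟩)]
  simp only [add_uni_self, sub_uni_self]
  have := amp_c η (a j) (a' j) (k j) (e j)
  linear_combination (∏ i ∈ univ.erase j, bsAmp η (a i) (a' i) (k i) (e i)) * this

theorem ampOcc_d (η : ℝ) (a a' k e : Occ n) (j : Fin n) :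
    Real.sqrt (e j + 1) * ampOcc η a a' k (e + uni j)
      = - (Real.sqrt (1 - η) * Real.sqrt (a j) * ampOcc η (a - uni j) a' k e)
        + Real.sqrt η * Real.sqrt (a' j) * ampOcc η a (a' - uni j) k e := by
  rw [ampOcc_split η a a' k (e + uni j) j, ampOcc_split η (a - uni j) a' k e j,
    ampOcc_split η a (a' - uni j) k e j,
    prod_erase_congr η (b := a) (b' := a') (l := k) (f := e) j
      (fun i hi => ⟨rfl, rfl, rfl, add_uni_ne e hi⟩),
    prod_erase_congr η (a := a - uni j) (b := a) (b' := a') (l := k) (f := e) j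
      (fun i hi => ⟨sub_uni_ne a hi, rfl, rfl, rfl⟩),
    prod_erase_congr η (a' := a' - uni j) (b := a) (b' := a') (l := k) (f := e) j
      (fun i hi => ⟨rfl, sub_uni_ne a' hi, rfl, rfl⟩)]
  simp only [add_uni_self, sub_uni_self]
  have := amp_d η (a j) (a' j) (k j) (e j)
  linear_combination (∏ i ∈ univ.erase j, bsAmp η (a i) (a' i) (k i) (e i)) * this

theorem ampOcc_a_dag (η : ℝ) (a a' k e : Occ n) (j : Fin n) :
    Real.sqrt (a j + 1) * ampOcc η (a + uni j) a' k e
      = Real.sqrt η * Real.sqrt (k j) * ampOcc η a a' (k - uni j) e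
        - Real.sqrt (1 - η) * Real.sqrt (e j) * ampOcc η a a' k (e - uni j) := by
  rw [ampOcc_split η (a + uni j) a' k e j, ampOcc_split η a a' (k - uni j) e j,
    ampOcc_split η a a' k (e - uni j) j,
    prod_erase_congr η (a := a + uni j) (b := a) (b' := a') (l := k) (f := e) j
      (fun i hi => ⟨add_uni_ne a hi, rfl, rfl, rfl⟩),
    prod_erase_congr η (k := k - uni j) (b := a) (b' := a') (l := k) (f := e) j
      (fun i hi => ⟨rfl, rfl, sub_uni_ne k hi, rfl⟩),
    prod_erase_congr η (e := e - uni j) (b := a) (b' := a') (l := k) (f := e) j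
      (fun i hi => ⟨rfl, rfl, rfl, sub_uni_ne e hi⟩)]
  simp only [add_uni_self, sub_uni_self]
  have := amp_a_dag η (a j) (a' j) (k j) (e j)
  linear_combination (∏ i ∈ univ.erase j, bsAmp η (a i) (a' i) (k i) (e i)) * this

theorem ampOcc_b_dag (η : ℝ) (a a' k e : Occ n) (j : Fin n) :
    Real.sqrt (a' j + 1) * ampOcc η a (a' + uni j) k e
      = Real.sqrt (1 - η) * Real.sqrt (k j) * ampOcc η a a' (k - uni j) e
        + Real.sqrt η * Real.sqrt (e j) * ampOcc η a a' k (e - uni j) := by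
  rw [ampOcc_split η a (a' + uni j) k e j, ampOcc_split η a a' (k - uni j) e j,
    ampOcc_split η a a' k (e - uni j) j,
    prod_erase_congr η (a' := a' + uni j) (b := a) (b' := a') (l := k) (f := e) j
      (fun i hi => ⟨rfl, add_uni_ne a' hi, rfl, rfl⟩),
    prod_erase_congr η (k := k - uni j) (b := a) (b' := a') (l := k) (f := e) j
      (fun i hi => ⟨rfl, rfl, sub_uni_ne k hi, rfl⟩),
    prod_erase_congr η (e := e - uni j) (b := a) (b' := a') (l := k) (f := e) j
      (fun i hi => ⟨rfl, rfl, rfl, sub_uni_ne e hi⟩)]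
  simp only [add_uni_self, sub_uni_self]
  have := amp_b_dag η (a j) (a' j) (k j) (e j)
  linear_combination (∏ i ∈ univ.erase j, bsAmp η (a i) (a' i) (k i) (e i)) * this

theorem ampOcc_a {η : ℝ} (h0 : 0 ≤ η) (h1 : η ≤ 1) (a a' k e : Occ n) (j : Fin n) :
    Real.sqrt (a j) * ampOcc η (a - uni j) a' k e
      = Real.sqrt η * (Real.sqrt (k j + 1) * ampOcc η a a' (k + uni j) e)
        - Real.sqrt (1 - η) * (Real.sqrt (e j + 1) * ampOcc η a a' k (e + uni j)) := by
  rw [ampOcc_c, ampOcc_d]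
  linear_combination (-(Real.sqrt (a j) * ampOcc η (a - uni j) a' k e)) * sq_add_sq h0 h1

theorem ampOcc_b {η : ℝ} (h0 : 0 ≤ η) (h1 : η ≤ 1) (a a' k e : Occ n) (j : Fin n) :
    Real.sqrt (a' j) * ampOcc η a (a' - uni j) k e
      = Real.sqrt (1 - η) * (Real.sqrt (k j + 1) * ampOcc η a a' (k + uni j) e)
        + Real.sqrt η * (Real.sqrt (e j + 1) * ampOcc η a a' k (e + uni j)) := by
  rw [ampOcc_c, ampOcc_d]
  linear_combination (-(Real.sqrt (a' j) * ampOcc η a (a' - uni j) k e)) * sq_add_sq h0 h1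

theorem ampOcc_c_dag {η : ℝ} (h0 : 0 ≤ η) (h1 : η ≤ 1) (a a' k e : Occ n) (j : Fin n) :
    Real.sqrt (k j) * ampOcc η a a' (k - uni j) e
      = Real.sqrt η * (Real.sqrt (a j + 1) * ampOcc η (a + uni j) a' k e)
        + Real.sqrt (1 - η) * (Real.sqrt (a' j + 1) * ampOcc η a (a' + uni j) k e) := by
  rw [ampOcc_a_dag, ampOcc_b_dag]
  linear_combination (-(Real.sqrt (k j) * ampOcc η a a' (k - uni j) e)) * sq_add_sq h0 h1

theorem ampOcc_d_dag {η : ℝ} (h0 : 0 ≤ η) (h1 : η ≤ 1) (a a' k e : Occ n) (j : Fin n) :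
    Real.sqrt (e j) * ampOcc η a a' k (e - uni j)
      = - (Real.sqrt (1 - η) * (Real.sqrt (a j + 1) * ampOcc η (a + uni j) a' k e))
        + Real.sqrt η * (Real.sqrt (a' j + 1) * ampOcc η a (a' + uni j) k e) := by
  rw [ampOcc_a_dag, ampOcc_b_dag]
  linear_combination (-(Real.sqrt (e j) * ampOcc η a a' k (e - uni j))) * sq_add_sq h0 h1

/-! ### the unitary on the pair Fock space -/

/-- two Fock spaces: square-summable amplitudes on pairs of occupation tuples. -/
abbrev Fock2 (n : ℕ) : Type := lp (fun _ : Occ n × Occ n => ℂ) 2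

/-- number-basis vector of the pair space. -/
def ket2 (x : Occ n × Occ n) : Fock2 n := lp.single 2 x (1 : ℂ)

lemma inner_ket2_left (x : Occ n × Occ n) (f : Fock2 n) : ⟪ket2 x, f⟫_ℂ = f x := by
  rw [ket2, lp.inner_single_left]; simp

lemma inner_ket2 (x y : Occ n × Occ n) : ⟪ket2 x, ket2 y⟫_ℂ = if x = y then 1 else 0 := by
  rw [inner_ket2_left, ket2]
  by_cases h : x = y
  · subst h; simp
  · rw [if_neg h, lp.single_apply_ne _ _ _ h]

lemma orthonormal_ket2 : Orthonormal ℂ (ket2 (n := n)) := by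
  rw [orthonormal_iff_ite]; intro i j; exact inner_ket2 i j

/-- image of `|a, a'⟩` under the beam splitter. -/
def bsVec (η : ℝ) (x : Occ n × Occ n) : Fock2 n :=
  ∑ y : Splitting (x.1 + x.2), (ampOcc η x.1 x.2 y.fst y.snd : ℂ) • ket2 (y.fst, y.snd)

lemma bsVec_apply (η : ℝ) (x z : Occ n × Occ n) :
    (bsVec η x : Fock2 n) z = (ampOcc η x.1 x.2 z.1 z.2 : ℂ) := by
  rw [← inner_ket2_left, bsVec, inner_sum]
  simp only [inner_smul_right, inner_ket2]
  by_cases h : z.1 + z.2 = x.1 + x.2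
  · rw [Finset.sum_eq_single (splitOf z.1 z.2 _ h)]
    · simp
    · intro y _ hy
      rw [if_neg, mul_zero]
      intro hz
      apply hy
      apply splitting_fst_injective
      rw [splitOf_fst, hz]
    · simp
  · rw [ampOcc_of_ne η h]
    simp only [Complex.ofReal_zero]
    apply Finset.sum_eq_zero
    intro y _
    rw [if_neg, mul_zero]
    intro hz
    apply h
    rw [hz]; exact fst_add_snd y

lemma orthonormal_bsVec {η : ℝ} (h0 : 0 ≤ η) (h1 : η ≤ 1) :
    Orthonormal ℂ (bsVec (n := n) η) := by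
  rw [orthonormal_iff_ite]
  intro x y
  conv_lhs => rw [bsVec]
  rw [sum_inner]
  simp only [inner_smul_left, inner_ket2_left, bsVec_apply, Complex.conj_ofReal]
  by_cases h : y.1 + y.2 = x.1 + x.2
  · have := ampOcc_row h0 h1 (x.1 + x.2) x.1 x.2 y.1 y.2 rfl h
    have h2 : (∑ s : Splitting (x.1 + x.2), (ampOcc η x.1 x.2 s.fst s.snd : ℂ) *
        (ampOcc η y.1 y.2 s.fst s.snd : ℂ)) = ((if x.1 = y.1 then 1 else 0 : ℝ) : ℂ) := by
      rw [← this]; push_cast; rfl
    rw [h2]
    by_cases hxy : x = y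
    · subst hxy; simp
    · rw [if_neg hxy, if_neg]
      · simp
      · intro h3
        apply hxy
        rw [h3] at h
        exact Prod.ext h3 (add_left_cancel h).symm
  · rw [if_neg (fun hxy => h (by rw [hxy]))]
    apply Finset.sum_eq_zero
    intro s _
    rw [ampOcc_of_ne η (a := y.1) (a' := y.2) (by rw [fst_add_snd]; exact fun h' => h h'.symm)]
    simp

/-- `|k, e⟩` in terms of the images. -/
lemma ket2_eq_sum {η : ℝ} (h0 : 0 ≤ η) (h1 : η ≤ 1) (z : Occ n × Occ n) :
    ket2 z = ∑ y : Splitting (z.1 + z.2), (ampOcc η y.fst y.snd z.1 z.2 : ℂ) •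
      bsVec η (y.fst, y.snd) := by
  apply lp.ext
  funext w
  rw [lp.coeFn_sum, Finset.sum_apply]
  simp only [lp.coeFn_smul, Pi.smul_apply, bsVec_apply, smul_eq_mul]
  have hL : (ket2 z : Fock2 n) w = if w = z then 1 else 0 := by
    rw [← inner_ket2_left, inner_ket2]
  rw [hL]
  by_cases h : w.1 + w.2 = z.1 + z.2
  · have := ampOcc_col h0 h1 (z.1 + z.2) z.1 z.2 w.1 w.2 rfl h
    have h2 : (∑ s : Splitting (z.1 + z.2), (ampOcc η s.fst s.snd z.1 z.2 : ℂ) *
        (ampOcc η s.fst s.snd w.1 w.2 : ℂ)) = ((if z.1 = w.1 then 1 else 0 : ℝ) : ℂ) := by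
      rw [← this]; push_cast; rfl
    rw [h2]
    by_cases hxy : w = z
    · subst hxy; simp
    · rw [if_neg hxy, if_neg]
      · simp
      · intro h3
        apply hxy
        rw [h3] at h
        exact Prod.ext h3.symm (add_left_cancel h)
  · rw [if_neg (fun hxy => h (by rw [hxy]))]
    symm
    apply Finset.sum_eq_zero
    intro s _
    rw [ampOcc_of_ne η (k := w.1) (e := w.2) (by rw [fst_add_snd]; exact h)]
    simp

lemma ket2_dense : (⊤ : Submodule ℂ (Fock2 n)) ≤
    (Submodule.span ℂ (Set.range (ket2 (n := n)))).topologicalClosure := by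
  intro f _
  rw [← SetLike.mem_coe, Submodule.topologicalClosure_coe]
  have h : HasSum (fun i : Occ n × Occ n => lp.single 2 i (f i)) f :=
    lp.hasSum_single ENNReal.ofNat_ne_top f
  apply mem_closure_of_tendsto h
  refine Filter.Eventually.of_forall fun s => ?_
  rw [SetLike.mem_coe]
  apply Submodule.sum_mem
  intro i _
  have : (lp.single 2 i (f i) : Fock2 n) = (f i) • ket2 i := by
    rw [ket2, ← lp.single_smul]; simp
  rw [this]
  exact Submodule.smul_mem _ _ (Submodule.subset_span ⟨i, rfl⟩)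

lemma bsVec_dense {η : ℝ} (h0 : 0 ≤ η) (h1 : η ≤ 1) : (⊤ : Submodule ℂ (Fock2 n)) ≤
    (Submodule.span ℂ (Set.range (bsVec (n := n) η))).topologicalClosure := by
  refine ket2_dense.trans (Submodule.topologicalClosure_mono ?_)
  rw [Submodule.span_le]
  rintro _ ⟨z, rfl⟩
  rw [SetLike.mem_coe, ket2_eq_sum h0 h1 z]
  apply Submodule.sum_mem
  intro y _
  exact Submodule.smul_mem _ _ (Submodule.subset_span ⟨_, rfl⟩)

/-- the Hilbert basis of images. -/
def bsBasis {η : ℝ} (h0 : 0 ≤ η) (h1 : η ≤ 1) : HilbertBasis (Occ n × Occ n) ℂ (Fock2 n) :=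
  HilbertBasis.mk (orthonormal_bsVec h0 h1) (bsVec_dense h0 h1)

/-- the beam-splitter unitary `U` on the pair Fock space. -/
def bsU {η : ℝ} (h0 : 0 ≤ η) (h1 : η ≤ 1) : Fock2 n ≃ₗᵢ[ℂ] Fock2 n :=
  (bsBasis h0 h1).repr.symm

theorem bsU_ket2 {η : ℝ} (h0 : 0 ≤ η) (h1 : η ≤ 1) (x : Occ n × Occ n) :
    bsU h0 h1 (ket2 x) = bsVec η x := by
  rw [bsU, ket2, HilbertBasis.repr_symm_single, bsBasis, HilbertBasis.coe_mk]

theorem bsU_entry {η : ℝ} (h0 : 0 ≤ η) (h1 : η ≤ 1) (z x : Occ n × Occ n) :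
    ⟪ket2 z, bsU h0 h1 (ket2 x)⟫_ℂ = (ampOcc η x.1 x.2 z.1 z.2 : ℂ) := by
  rw [bsU_ket2, inner_ket2_left, bsVec_apply]

theorem bsU_symm_ket2 {η : ℝ} (h0 : 0 ≤ η) (h1 : η ≤ 1) (z : Occ n × Occ n) :
    (bsU h0 h1).symm (ket2 z) = ∑ y : Splitting (z.1 + z.2),
      (ampOcc η y.fst y.snd z.1 z.2 : ℂ) • ket2 (y.fst, y.snd) := by
  rw [LinearIsometryEquiv.symm_apply_eq, map_sum]
  simp only [map_smul, bsU_ket2]
  exact ket2_eq_sum h0 h1 z

/-- entries of `U f`: a finite sum. -/
theorem bsU_apply {η : ℝ} (h0 : 0 ≤ η) (h1 : η ≤ 1) (f : Fock2 n) (z : Occ n × Occ n) :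
    (bsU h0 h1 f : Fock2 n) z = ∑ y : Splitting (z.1 + z.2),
      (ampOcc η y.fst y.snd z.1 z.2 : ℂ) * f (y.fst, y.snd) := by
  rw [← inner_ket2_left, ← LinearIsometryEquiv.inner_map_map (bsU h0 h1).symm,
    LinearIsometryEquiv.symm_apply_apply, bsU_symm_ket2, sum_inner]
  simp only [inner_smul_left, inner_ket2_left, Complex.conj_ofReal]

end Crest.Agent.R331.BS375
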