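import Mathlib

/-!
Row 331, leaf BRIDGE (helper776), part 2: the moments `M k β x = ∫ l^k ∏ (l+x_i)^{-β_i}`,
their recursion and bounds.
-/

open scoped BigOperators
open MeasureTheory Set Filter Topology

set_option autoImplicit false
set_option linter.unusedSectionVars false

namespace Crest.Agent.R331.Bridge776

variable {ι : Type*} [Fintype ι] [DecidableEq ι]

/-- the weight `∏ (l+x_i)^{-β_i}` -/
noncomputable def w (β : ι → ℕ) (x : ι → ℝ) (l : ℝ) : ℝ := ∏ i, ((l + x i) ^ (β i))⁻¹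

/-- its moments on the half line -/
noncomputable def M (k : ℕ) (β : ι → ℕ) (x : ι → ℝ) : ℝ := ∫ l in Ioi (0:ℝ), l ^ k * w β x l

/-- raise the `i`-th exponent by one -/
def up (β : ι → ℕ) (i : ι) : ι → ℕ := β + Pi.single i 1

theorem sum_up (β : ι → ℕ) (i : ι) : ∑ j, up β i j = ∑ j, β j + 1 := by
  simp [up, Finset.sum_add_distrib]

theorem w_pos (β : ι → ℕ) {x : ι → ℝ} (hx : ∀ i, 0 < x i) {l : ℝ} (hl : 0 ≤ l) :
    0 < w β x l := by
  unfold w
  refine Finset.prod_pos (fun i _ => ?_)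
  have := hx i
  positivity

theorem w_up (β : ι → ℕ) (x : ι → ℝ) (i : ι) (l : ℝ) :
    w (up β i) x l = w β x l / (l + x i) := by
  unfold w up
  have h1 : ∀ j, ((l + x j) ^ ((β + (Pi.single i 1 : ι → ℕ)) j))⁻¹
      = ((l + x j) ^ (β j))⁻¹ * ((l + x j) ^ ((Pi.single i 1 : ι → ℕ) j))⁻¹ := by
    intro j
    rw [Pi.add_apply, pow_add, mul_inv]
  rw [Finset.prod_congr rfl (fun j _ => h1 j), Finset.prod_mul_distrib, div_eq_mul_inv]
  congr 1
  rw [Finset.prod_eq_single i]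
  · simp
  · intro j _ hj
    simp [Pi.single_eq_of_ne hj]
  · intro h
    exact absurd (Finset.mem_univ i) h

theorem hasDerivAt_factor (n : ℕ) {x l : ℝ} (h : 0 < l + x) :
    HasDerivAt (fun l => ((l + x) ^ n)⁻¹) (-(n * (((l + x) ^ n)⁻¹ / (l + x)))) l := by
  have h0 : HasDerivAt (fun l : ℝ => l + x) 1 l := (hasDerivAt_id l).add_const x
  have h1 : HasDerivAt (fun l : ℝ => (l + x) ^ n) (n * (l + x) ^ (n - 1) * 1) l := h0.pow n
  have h2 : HasDerivAt (fun l => ((l + x) ^ n)⁻¹)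
    (-(n * (l + x) ^ (n - 1) * 1) / ((l + x) ^ n) ^ 2) l := h1.inv (pow_ne_zero n h.ne')
  refine h2.congr_deriv ?_
  rcases n with _ | n
  · simp
  · simp only [Nat.add_sub_cancel, mul_one]
    push_cast
    field_simp
    ring

theorem hasDerivAt_w (β : ι → ℕ) {x : ι → ℝ} (hx : ∀ i, 0 < x i) {l : ℝ} (hl : 0 ≤ l) :
    HasDerivAt (w β x) (-(∑ i, (β i : ℝ) * w (up β i) x l)) l := by
  have h1 : HasDerivAt (fun l => ∏ i, ((l + x i) ^ (β i))⁻¹)
      (∑ i, (∏ j ∈ Finset.univ.erase i, ((l + x j) ^ (β j))⁻¹) •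
        (-((β i) * (((l + x i) ^ (β i))⁻¹ / (l + x i))))) l := by
    have := HasDerivAt.fun_finsetProd (u := Finset.univ)
      (f := fun (i : ι) (l : ℝ) => ((l + x i) ^ (β i))⁻¹)
      (f' := fun i => (-((β i) * (((l + x i) ^ (β i))⁻¹ / (l + x i))))) (x := l)
      (fun i _ => hasDerivAt_factor (β i) (by have := hx i; positivity))
    exact this
  have h2 : (∑ i, (∏ j ∈ Finset.univ.erase i, ((l + x j) ^ (β j))⁻¹) •
        (-((β i) * (((l + x i) ^ (β i))⁻¹ / (l + x i)))))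
      = -(∑ i, (β i : ℝ) * w (up β i) x l) := by
    rw [← Finset.sum_neg_distrib]
    refine Finset.sum_congr rfl (fun i _ => ?_)
    rw [w_up]
    have h3 : w β x l = (∏ j ∈ Finset.univ.erase i, ((l + x j) ^ (β j))⁻¹) *
        ((l + x i) ^ (β i))⁻¹ := by
      unfold w
      rw [Finset.prod_erase_mul _ _ (Finset.mem_univ i)]
    rw [h3, smul_eq_mul]
    ring
  rw [h2] at h1
  exact h1

theorem continuousOn_w (β : ι → ℕ) {x : ι → ℝ} (hx : ∀ i, 0 < x i) :
    ContinuousOn (w β x) (Ici 0) :=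
  fun _ hl => (hasDerivAt_w β hx hl).continuousAt.continuousWithinAt

/-- a positive lower bound of the `x i` -/
noncomputable def mn (x : ι → ℝ) : ℝ := (∑ i, (x i)⁻¹)⁻¹

theorem mn_le {x : ι → ℝ} (hx : ∀ i, 0 < x i) (i : ι) : mn x ≤ x i := by
  unfold mn
  have h1 : (x i)⁻¹ ≤ ∑ j, (x j)⁻¹ :=
    Finset.single_le_sum (f := fun j => (x j)⁻¹) (fun j _ => (inv_pos.mpr (hx j)).le)
      (Finset.mem_univ i)
  have h2 := inv_anti₀ (inv_pos.mpr (hx i)) h1
  simpa using h2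

theorem mn_pos [Nonempty ι] {x : ι → ℝ} (hx : ∀ i, 0 < x i) : 0 < mn x := by
  unfold mn
  refine inv_pos.mpr (Finset.sum_pos (fun i _ => inv_pos.mpr (hx i)) Finset.univ_nonempty)

/-- the crude pointwise bound -/
theorem bound {β : ι → ℕ} {x : ι → ℝ} {m : ℝ} (hm : 0 < m) (hmx : ∀ i, m ≤ x i) {k e : ℕ}
    (hk : k + e ≤ ∑ i, β i) {l : ℝ} (hl : 0 ≤ l) :
    l ^ k * w β x l ≤ (m ^ (∑ i, β i - (k + e)))⁻¹ * ((l + m) ^ e)⁻¹ := by
  have h1 : w β x l ≤ ((l + m) ^ (∑ i, β i))⁻¹ := by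
    unfold w
    rw [← Finset.prod_pow_eq_pow_sum, ← Finset.prod_inv_distrib]
    refine Finset.prod_le_prod (fun i _ => ?_) (fun i _ => ?_)
    · have h7 : 0 < x i := lt_of_lt_of_le hm (hmx i)
      positivity
    · apply inv_anti₀ (by positivity)
      gcongr
      exact hmx i
  have h2 : l ^ k ≤ (l + m) ^ k := by
    gcongr
    linarith
  have h3 : 0 < l + m := by linarith
  have h4 : (l + m) ^ (∑ i, β i) = (l + m) ^ (∑ i, β i - (k + e)) * (l + m) ^ k * (l + m) ^ e := by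
    rw [mul_assoc, ← pow_add, ← pow_add]
    congr 1
    omega
  have h5 : l ^ k * w β x l ≤ (l + m) ^ k * ((l + m) ^ (∑ i, β i))⁻¹ := by
    have : 0 ≤ ((l + m) ^ (∑ i, β i))⁻¹ := by positivity
    calc l ^ k * w β x l ≤ l ^ k * ((l + m) ^ (∑ i, β i))⁻¹ := by gcongr
      _ ≤ (l + m) ^ k * ((l + m) ^ (∑ i, β i))⁻¹ := by gcongr
  refine le_trans h5 ?_
  rw [h4]
  have h6 : (l + m) ^ k * ((l + m) ^ (∑ i, β i - (k + e)) * (l + m) ^ k * (l + m) ^ e)⁻¹
      = ((l + m) ^ (∑ i, β i - (k + e)))⁻¹ * ((l + m) ^ e)⁻¹ := by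
    field_simp
  rw [h6]
  gcongr
  linarith

theorem integrableOn_inv_sq {m : ℝ} (hm : 0 < m) :
    IntegrableOn (fun l : ℝ => ((l + m) ^ 2)⁻¹) (Ioi 0) := by
  have h := integrableOn_add_rpow_Ioi_of_lt (a := -2) (c := 0) (m := m) (by norm_num)
    (by linarith)
  refine h.congr_fun (fun l hl => ?_) measurableSet_Ioi
  have hl' : (0:ℝ) < l := hl
  have : 0 < l + m := by linarith
  simp only
  rw [Real.rpow_neg this.le]
  norm_num

theorem integrableOn_lw (β : ι → ℕ) {x : ι → ℝ} (hx : ∀ i, 0 < x i) {k : ℕ}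
    (hk : k + 2 ≤ ∑ i, β i) : IntegrableOn (fun l => l ^ k * w β x l) (Ioi 0) := by
  have hne : Nonempty ι := by
    by_contra h
    rw [not_nonempty_iff] at h
    simp at hk
  refine Integrable.mono' (((integrableOn_inv_sq (mn_pos hx)).const_mul
    (mn x ^ (∑ i, β i - (k + 2)))⁻¹)) ?_ ?_
  · exact ((continuousOn_id.pow k).mul
      ((continuousOn_w β hx).mono Ioi_subset_Ici_self)).aestronglyMeasurable measurableSet_Ioi
  · refine (ae_restrict_mem measurableSet_Ioi).mono (fun l hl => ?_)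
    have hl' : (0:ℝ) < l := hl
    rw [Real.norm_eq_abs, abs_of_nonneg (mul_nonneg (by positivity) (w_pos β hx hl'.le).le)]
    exact bound (mn_pos hx) (mn_le hx) hk hl'.le

theorem tendsto_lw (β : ι → ℕ) {x : ι → ℝ} (hx : ∀ i, 0 < x i) {k : ℕ}
    (hk : k + 1 ≤ ∑ i, β i) : Tendsto (fun l => l ^ k * w β x l) atTop (𝓝 0) := by
  have hne : Nonempty ι := by
    by_contra h
    rw [not_nonempty_iff] at h
    simp at hk
  have h1 : Tendsto (fun l : ℝ => (mn x ^ (∑ i, β i - (k + 1)))⁻¹ * ((l + mn x) ^ 1)⁻¹) atTop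
      (𝓝 ((mn x ^ (∑ i, β i - (k + 1)))⁻¹ * 0)) := by
    refine Tendsto.const_mul _ ?_
    simp only [pow_one]
    exact tendsto_inv_atTop_zero.comp (tendsto_atTop_add_const_right _ _ tendsto_id)
  rw [mul_zero] at h1
  refine tendsto_of_tendsto_of_tendsto_of_le_of_le' tendsto_const_nhds h1 ?_ ?_
  · filter_upwards [eventually_ge_atTop (0:ℝ)] with l hl
    exact mul_nonneg (by positivity) (w_pos β hx hl).le
  · filter_upwards [eventually_ge_atTop (0:ℝ)] with l hl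
    exact bound (mn_pos hx) (mn_le hx) hk hl

theorem M_pos (β : ι → ℕ) {x : ι → ℝ} (hx : ∀ i, 0 < x i) {k : ℕ}
    (hk : k + 2 ≤ ∑ i, β i) : 0 < M k β x := by
  unfold M
  rw [setIntegral_pos_iff_support_of_nonneg_ae _ (integrableOn_lw β hx hk)]
  · have : Ioi (0:ℝ) ⊆ (Function.support fun l => l ^ k * w β x l) ∩ Ioi 0 := by
      intro l hl
      have hl' : (0:ℝ) < l := hl
      refine ⟨?_, hl⟩
      rw [Function.mem_support]
      exact (mul_pos (by positivity) (w_pos β hx hl'.le)).ne'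
    refine lt_of_lt_of_le ?_ (measure_mono this)
    simp
  · refine (ae_restrict_mem measurableSet_Ioi).mono (fun l hl => ?_)
    have hl' : (0:ℝ) < l := hl
    exact mul_nonneg (by positivity) (w_pos β hx hl'.le).le

/-- integration by parts -/
theorem M_ibp (β : ι → ℕ) {x : ι → ℝ} (hx : ∀ i, 0 < x i) {k : ℕ}
    (hk : k + 2 ≤ ∑ i, β i) :
    (k + 1 : ℝ) * M k β x = ∑ i, (β i : ℝ) * M (k + 1) (up β i) x := by
  have hI1 := integrableOn_lw β hx hk
  have hI2 : ∀ i, IntegrableOn (fun l => l ^ (k + 1) * w (up β i) x l) (Ioi 0) := fun i =>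
    integrableOn_lw (up β i) hx (by rw [sum_up]; omega)
  have hder : ∀ l ∈ Ioi (0:ℝ), HasDerivAt (fun l => l ^ (k + 1) * w β x l)
      ((k + 1 : ℝ) * (l ^ k * w β x l) - ∑ i, (β i : ℝ) * (l ^ (k + 1) * w (up β i) x l)) l := by
    intro l hl
    have hl' : (0:ℝ) < l := hl
    have h1 : HasDerivAt (fun l => l ^ (k + 1) * w β x l) _ l :=
      (hasDerivAt_pow (k + 1) l).mul (hasDerivAt_w β hx hl'.le)
    refine h1.congr_deriv ?_
    rw [mul_neg, Finset.mul_sum]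
    simp only [Nat.add_sub_cancel]
    push_cast
    rw [sub_eq_add_neg]
    congr 1
    · ring
    · congr 1
      refine Finset.sum_congr rfl (fun i _ => ?_)
      ring
  have hint : IntegrableOn (fun l => (k + 1 : ℝ) * (l ^ k * w β x l) -
      ∑ i, (β i : ℝ) * (l ^ (k + 1) * w (up β i) x l)) (Ioi 0) := by
    refine Integrable.sub (hI1.const_mul _) ?_
    exact integrable_finsetSum _ (fun i _ => (hI2 i).const_mul _)
  have h0 := integral_Ioi_of_hasDerivAt_of_tendsto (a := 0)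
    (f := fun l => l ^ (k + 1) * w β x l) (m := 0)
    ((((continuousOn_id.pow (k+1)).mul (continuousOn_w β hx)) 0 (by simp)))
    hder hint (tendsto_lw β hx (by omega))
  rw [integral_sub (hI1.const_mul _) (integrable_finsetSum _ (fun i _ => (hI2 i).const_mul _)),
    integral_const_mul, integral_finsetSum _ (fun i _ => (hI2 i).const_mul _)] at h0
  simp only [integral_const_mul] at h0
  have h2 : (0:ℝ) ^ (k + 1) = 0 := by simp
  simp only [h2, zero_mul, sub_zero] at h0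
  unfold M
  linarith

/-- the algebraic relation -/
theorem M_alg (β : ι → ℕ) {x : ι → ℝ} (hx : ∀ i, 0 < x i) {k : ℕ}
    (hk : k + 2 ≤ ∑ i, β i) (i : ι) :
    M (k + 1) (up β i) x + x i * M k (up β i) x = M k β x := by
  unfold M
  have hI2 : IntegrableOn (fun l => l ^ (k + 1) * w (up β i) x l) (Ioi 0) :=
    integrableOn_lw (up β i) hx (by rw [sum_up]; omega)
  have hI3 : IntegrableOn (fun l => l ^ k * w (up β i) x l) (Ioi 0) :=
    integrableOn_lw (up β i) hx (by rw [sum_up]; omega)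
  rw [← integral_const_mul, ← integral_add hI2 (hI3.const_mul _)]
  refine setIntegral_congr_fun measurableSet_Ioi (fun l hl => ?_)
  have hl' : (0:ℝ) < l := hl
  have : 0 < l + x i := by have := hx i; positivity
  simp only [w_up]
  field_simp
  ring

/-- The recursion `(N-2) M₁(β) = Σ β_i x_i M₁(β+e_i)`. -/
theorem M_rec (β : ι → ℕ) {x : ι → ℝ} (hx : ∀ i, 0 < x i)
    (hk : 3 ≤ ∑ i, β i) :
    ((∑ i, β i : ℕ) - 2 : ℝ) * M 1 β x = ∑ i, (β i : ℝ) * (x i * M 1 (up β i) x) := by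
  have h1 := M_ibp β hx (k := 1) (by omega)
  have h2 : ∀ i, M 2 (up β i) x = M 1 β x - x i * M 1 (up β i) x := by
    intro i
    have := M_alg β hx (k := 1) (by omega) i
    norm_num at this
    linarith
  norm_num at h1
  simp only [h2] at h1
  have h3 : ∑ i, (β i : ℝ) * (M 1 β x - x i * M 1 (up β i) x)
      = ((∑ i, β i : ℕ) : ℝ) * M 1 β x - ∑ i, (β i : ℝ) * (x i * M 1 (up β i) x) := by
    push_cast
    rw [Finset.sum_mul, ← Finset.sum_sub_distrib]
    refine Finset.sum_congr rfl (fun i _ => ?_)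
    ring
  rw [h3] at h1
  linarith

/-- The mean `Φ(β;x)`. -/
noncomputable def Phi (β : ι → ℕ) (x : ι → ℝ) : ℝ := M 1 β x / M 0 β x

theorem Phi_pos (β : ι → ℕ) {x : ι → ℝ} (hx : ∀ i, 0 < x i)
    (hk : 3 ≤ ∑ i, β i) : 0 < Phi β x :=
  div_pos (M_pos β hx (by omega)) (M_pos β hx (by omega))

/-- parallel sum -/
theorem par_Phi (β : ι → ℕ) {x : ι → ℝ} (hx : ∀ i, 0 < x i)
    (hk : 3 ≤ ∑ i, β i) (i : ι) :
    x i * Phi (up β i) x / (x i + Phi (up β i) x) = x i * M 1 (up β i) x / M 0 β x := by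
  have h0 : 0 < M 0 (up β i) x := M_pos _ hx (by rw [sum_up]; omega)
  have h1 : 0 < M 1 (up β i) x := M_pos _ hx (by rw [sum_up]; omega)
  have h2 := M_alg β hx (k := 0) (by omega) i
  norm_num at h2
  have h3 := hx i
  rw [← h2]
  unfold Phi
  field_simp
  ring

/-- The network recursion. -/
theorem Phi_rec (β : ι → ℕ) {x : ι → ℝ} (hx : ∀ i, 0 < x i)
    (hk : 3 ≤ ∑ i, β i) :
    ((∑ i, β i : ℕ) - 2 : ℝ) * Phi β x =
      ∑ i, (β i : ℝ) * (x i * Phi (up β i) x / (x i + Phi (up β i) x)) := by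
  simp only [par_Phi β hx hk]
  unfold Phi
  have := M_rec β hx hk
  have h0 : 0 < M 0 β x := M_pos _ hx (by omega)
  rw [mul_div_assoc', this, Finset.sum_div]
  refine Finset.sum_congr rfl (fun i _ => ?_)
  ring

theorem M0_eq (β : ι → ℕ) {x : ι → ℝ} (hx : ∀ i, 0 < x i)
    (hk : 3 ≤ ∑ i, β i) : M 0 β x = ∑ i, (β i : ℝ) * M 1 (up β i) x := by
  have := M_ibp β hx (k := 0) (by omega)
  simpa using this

theorem Phi_lower (β : ι → ℕ) {x : ι → ℝ} (hx : ∀ i, 0 < x i)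
    (hk : 3 ≤ ∑ i, β i) {m : ℝ} (hm : ∀ i, m ≤ x i) :
    m ≤ ((∑ i, β i : ℕ) - 2 : ℝ) * Phi β x := by
  have h0 : 0 < M 0 β x := M_pos _ hx (by omega)
  unfold Phi
  rw [mul_div_assoc', le_div_iff₀ h0, M_rec β hx hk, M0_eq β hx hk, Finset.mul_sum]
  refine Finset.sum_le_sum (fun i _ => ?_)
  have h1 : 0 < M 1 (up β i) x := M_pos _ hx (by rw [sum_up]; omega)
  have := hm i
  calc m * ((β i : ℝ) * M 1 (up β i) x) = (β i : ℝ) * (m * M 1 (up β i) x) := by ring
    _ ≤ (β i : ℝ) * (x i * M 1 (up β i) x) := by gcongr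

theorem Phi_upper (β : ι → ℕ) {x : ι → ℝ} (hx : ∀ i, 0 < x i)
    (hk : 3 ≤ ∑ i, β i) {m : ℝ} (hm : ∀ i, x i ≤ m) :
    ((∑ i, β i : ℕ) - 2 : ℝ) * Phi β x ≤ m := by
  have h0 : 0 < M 0 β x := M_pos _ hx (by omega)
  unfold Phi
  rw [mul_div_assoc', div_le_iff₀ h0, M_rec β hx hk, M0_eq β hx hk, Finset.mul_sum]
  refine Finset.sum_le_sum (fun i _ => ?_)
  have h1 : 0 < M 1 (up β i) x := M_pos _ hx (by rw [sum_up]; omega)
  have := hm i
  calc (β i : ℝ) * (x i * M 1 (up β i) x) ≤ (β i : ℝ) * (m * M 1 (up β i) x) := by gcongr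
    _ = m * ((β i : ℝ) * M 1 (up β i) x) := by ring

end Crest.Agent.R331.Bridge776
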