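import Crest.Agent.R331.Bridge_776
import Crest.Agent.R331.BridgeInt_776

/-!
Row 331, leaf BRIDGE (helper776), part 3: `Φ(β; ·)` preserves domination.
-/

open scoped ENNReal BigOperators
open MeasureTheory Set Filter Topology

set_option autoImplicit false
set_option linter.unusedSectionVars false

namespace Crest.Agent.R331.Bridge776

variable {ι : Type*} [Fintype ι] [DecidableEq ι]

noncomputable def tot (x : ι → ℝ) : ℝ := ∑ i, x i

theorem le_tot {x : ι → ℝ} (hx : ∀ i, 0 < x i) (i : ι) : x i ≤ tot x :=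
  Finset.single_le_sum (f := x) (fun j _ => (hx j).le) (Finset.mem_univ i)

theorem tot_pos [Nonempty ι] {x : ι → ℝ} (hx : ∀ i, 0 < x i) : 0 < tot x :=
  Finset.sum_pos (fun i _ => hx i) Finset.univ_nonempty

noncomputable def cc (x : ι → ℝ) : ℝ := mn x / (mn x + tot x)

theorem cc_pos [Nonempty ι] {x : ι → ℝ} (hx : ∀ i, 0 < x i) : 0 < cc x :=
  div_pos (mn_pos hx) (add_pos (mn_pos hx) (tot_pos hx))

theorem cc_le_one [Nonempty ι] {x : ι → ℝ} (hx : ∀ i, 0 < x i) : cc x ≤ 1 := by
  unfold cc
  rw [div_le_one (add_pos (mn_pos hx) (tot_pos hx))]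
  have := tot_pos hx
  linarith

theorem infl {X F E c : ℝ} (hX : 0 < X) (hF : 0 < F) (hE : 0 ≤ E) (hc : c * (X + F) ≤ F) :
    X * ((1 + E) * F) / (X + (1 + E) * F) ≤ (1 + E * (1 - c)) * (X * F / (X + F)) := by
  have hA : 0 < X + F := by positivity
  have hB : 0 < X + (1 + E) * F := by positivity
  rw [← mul_div_assoc, div_le_div_iff₀ hB hA]
  have h1 : X ≤ (1 - c) * (X + F) := by linarith
  have h3 : 0 ≤ E * E * F := by positivity
  have h4 : 0 ≤ 1 - c := by
    by_contra h
    push Not at h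
    have : (1 - c) * (X + F) < 0 := mul_neg_of_neg_of_pos h hA
    linarith
  have h2 : (1 + E) * (X + F) ≤ (1 + E * (1 - c)) * (X + (1 + E) * F) := by
    have h5 : 0 ≤ E * E * F * (1 - c) := by positivity
    nlinarith [mul_le_mul_of_nonneg_left h1 hE]
  have h6 : 0 ≤ X * F := by positivity
  calc X * ((1 + E) * F) * (X + F) = X * F * ((1 + E) * (X + F)) := by ring
    _ ≤ X * F * ((1 + E * (1 - c)) * (X + (1 + E) * F)) := by gcongr
    _ = (1 + E * (1 - c)) * (X * F) * (X + (1 + E) * F) := by ring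

/-- the error factor -/
noncomputable def EE (R c : ℝ) : ℕ → ℕ → ℝ
  | 0, _ => R
  | (K + 1), N => EE R c K (N + 1) * (1 - c / (N + 1))

theorem EE_nonneg {R c : ℝ} (hR : 0 ≤ R) (_hc : 0 ≤ c) (hc1 : c ≤ 1) (K N : ℕ) :
    0 ≤ EE R c K N := by
  induction K generalizing N with
  | zero => exact hR
  | succ K ih =>
    refine mul_nonneg (ih (N + 1)) ?_
    have h1 : (0:ℝ) < N + 1 := by positivity
    have : c / (N + 1) ≤ 1 := by
      rw [div_le_one h1]
      have : (0:ℝ) ≤ N := by positivity
      linarith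
    linarith

theorem EE_le {R c : ℝ} (hR : 0 ≤ R) (_hc : 0 ≤ c) (hc1 : c ≤ 1) (K N : ℕ) :
    EE R c K N ≤ R * Real.exp (-(c * ∑ j ∈ Finset.range K, 1 / ((N : ℝ) + j + 1))) := by
  induction K generalizing N with
  | zero => simp [EE]
  | succ K ih =>
    have h1 : (0:ℝ) < N + 1 := by positivity
    have h2 : 1 - c / (N + 1) ≤ Real.exp (-(c / (N + 1))) := by
      have := Real.add_one_le_exp (-(c / (N + 1)))
      linarith
    have h3 : 0 ≤ 1 - c / (N + 1) := by
      have : c / (N + 1) ≤ 1 := by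
        rw [div_le_one h1]
        have : (0:ℝ) ≤ N := by positivity
        linarith
      linarith
    have h4 := ih (N + 1)
    have h5 : ∑ j ∈ Finset.range (K + 1), 1 / ((N : ℝ) + j + 1)
        = ∑ j ∈ Finset.range K, 1 / (((N + 1 : ℕ) : ℝ) + j + 1) + 1 / ((N:ℝ) + 1) := by
      rw [Finset.sum_range_succ']
      congr 1
      · refine Finset.sum_congr rfl (fun j _ => ?_)
        push_cast
        congr 1
        ring
      · simp
    rw [h5]
    calc EE R c (K + 1) N = EE R c K (N + 1) * (1 - c / (N + 1)) := rfl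
      _ ≤ (R * Real.exp (-(c * ∑ j ∈ Finset.range K, 1 / (((N + 1 : ℕ) : ℝ) + j + 1)))) *
          Real.exp (-(c / (N + 1))) := by
        refine mul_le_mul h4 h2 h3 (by positivity)
      _ = _ := by
        rw [mul_assoc, ← Real.exp_add]
        congr 2
        ring

theorem EE_tendsto {R c : ℝ} (hR : 0 ≤ R) (hc : 0 < c) (hc1 : c ≤ 1) (N : ℕ) :
    Tendsto (fun K => EE R c K N) atTop (𝓝 0) := by
  have h1 : Tendsto (fun K => ∑ j ∈ Finset.range K, 1 / ((N : ℝ) + j + 1)) atTop atTop := by
    have h2 := Real.tendsto_sum_range_one_div_nat_succ_atTop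
    have h3 : Tendsto (fun K => (1 / ((N:ℝ) + 1)) * ∑ j ∈ Finset.range K, (1 / ((j:ℝ) + 1)))
        atTop atTop := Tendsto.const_mul_atTop (by positivity) h2
    refine tendsto_atTop_mono (fun K => ?_) h3
    rw [Finset.mul_sum]
    refine Finset.sum_le_sum (fun j _ => ?_)
    rw [one_div_mul_one_div]
    apply one_div_le_one_div_of_le (by positivity)
    have : (0:ℝ) ≤ N * j := by positivity
    nlinarith
  have h4 : Tendsto (fun K => R * Real.exp (-(c * ∑ j ∈ Finset.range K,
      1 / ((N : ℝ) + j + 1)))) atTop (𝓝 (R * 0)) := by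
    refine Tendsto.const_mul _ (Real.tendsto_exp_neg_atTop_nhds_zero.comp ?_)
    exact Tendsto.const_mul_atTop hc h1
  rw [mul_zero] at h4
  exact tendsto_of_tendsto_of_tendsto_of_le_of_le tendsto_const_nhds h4
    (fun K => EE_nonneg hR hc.le hc1 K N) (fun K => EE_le hR hc.le hc1 K N)

variable {σ τ : Type*} {T : (σ →₀ ℂ) →ₗ[ℂ] (τ → ℂ)}

theorem Dom_Phi_aux [Nonempty ι] {x : τ → ι → ℝ} {X : σ → ι → ℝ} (hx : ∀ s i, 0 < x s i)
    (hX : ∀ s i, 0 < X s i) (h : ∀ i, Dom T (fun s => x s i) (fun s => X s i)) :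
    ∀ (K N : ℕ) (β : ι → ℕ), ∑ i, β i = N → 3 ≤ N →
      Dom T (fun s => Phi β (x s))
        (fun s => (1 + EE (tot (X s) / mn (X s)) (cc (X s)) K N) * Phi β (X s)) := by
  intro K
  induction K with
  | zero =>
    intro N β hβ hN
    have hN' : (0:ℝ) < ((∑ i, β i : ℕ) : ℝ) - 2 := by
      rw [hβ]
      have : (3:ℝ) ≤ N := by exact_mod_cast hN
      linarith
    have h1 : Dom T (fun s => ∑ i, x s i) (fun s => ∑ i, X s i) :=
      Dom.sum Finset.univ (f := fun i s => x s i) (F := fun i s => X s i)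
        (fun i _ => h i) (fun i _ s => (hx s i).le) (fun i _ s => (hX s i).le)
    have h2 := h1.const_mul (a := (((∑ i, β i : ℕ) : ℝ) - 2)⁻¹) (by positivity)
    refine h2.mono (fun s => ?_) (fun s => ?_)
    · rw [inv_mul_eq_div, le_div_iff₀ hN', mul_comm]
      exact Phi_upper β (hx s) (by omega) (fun i => le_tot (hx s) i)
    · rw [inv_mul_eq_div, div_le_iff₀ hN']
      have h3 := Phi_lower β (hX s) (by omega) (m := mn (X s)) (fun i => mn_le (hX s) i)
      have h4 : 0 < mn (X s) := mn_pos (hX s)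
      have h5 : 0 < tot (X s) := tot_pos (hX s)
      have h6 : 0 < Phi β (X s) := Phi_pos β (hX s) (by omega)
      show tot (X s) ≤ (1 + tot (X s) / mn (X s)) * Phi β (X s) * (((∑ i, β i : ℕ) : ℝ) - 2)
      calc tot (X s) = (tot (X s) / mn (X s)) * mn (X s) := by field_simp
        _ ≤ (tot (X s) / mn (X s)) * ((((∑ i, β i : ℕ) : ℝ) - 2) * Phi β (X s)) := by gcongr
        _ ≤ (1 + tot (X s) / mn (X s)) * ((((∑ i, β i : ℕ) : ℝ) - 2) * Phi β (X s)) := by
            gcongr
            linarith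
        _ = _ := by ring
  | succ K ih =>
    intro N β hβ hN
    have hN' : (0:ℝ) < ((∑ i, β i : ℕ) : ℝ) - 2 := by
      rw [hβ]
      have : (3:ℝ) ≤ N := by exact_mod_cast hN
      linarith
    have hup : ∀ i, ∑ j, up β i j = N + 1 := fun i => by rw [sum_up, hβ]
    have hE : ∀ s, 0 ≤ EE (tot (X s) / mn (X s)) (cc (X s)) K (N + 1) := fun s =>
      EE_nonneg (div_nonneg (tot_pos (hX s)).le (mn_pos (hX s)).le) (cc_pos (hX s)).le
        (cc_le_one (hX s)) K (N + 1)
    have h1 : ∀ i, Dom T
        (fun s => x s i * Phi (up β i) (x s) / (x s i + Phi (up β i) (x s)))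
        (fun s => X s i * ((1 + EE (tot (X s) / mn (X s)) (cc (X s)) K (N + 1)) *
            Phi (up β i) (X s)) /
          (X s i + (1 + EE (tot (X s) / mn (X s)) (cc (X s)) K (N + 1)) *
            Phi (up β i) (X s))) := by
      intro i
      refine Dom.par (h i) (ih (N + 1) (up β i) (hup i) (by omega)) (fun s => hx s i)
        (fun s => Phi_pos _ (hx s) (by rw [hup]; omega)) (fun s => hX s i) (fun s => ?_)
      have := hE s
      have := Phi_pos (up β i) (hX s) (by rw [hup]; omega)
      positivity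
    have h2 : ∀ i, Dom T
        (fun s => ((β i : ℝ) / (((∑ i, β i : ℕ) : ℝ) - 2)) *
          (x s i * Phi (up β i) (x s) / (x s i + Phi (up β i) (x s))))
        (fun s => ((β i : ℝ) / (((∑ i, β i : ℕ) : ℝ) - 2)) *
          ((1 + EE (tot (X s) / mn (X s)) (cc (X s)) (K + 1) N) *
            (X s i * Phi (up β i) (X s) / (X s i + Phi (up β i) (X s))))) := by
      intro i
      refine ((h1 i).mono (fun _ => le_rfl) (fun s => ?_)).const_mul (by positivity)
      have hF := Phi_pos (up β i) (hX s) (by rw [hup]; omega)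
      have hXi := hX s i
      show _ ≤ (1 + EE (tot (X s) / mn (X s)) (cc (X s)) K (N + 1) *
        (1 - cc (X s) / (N + 1))) * _
      refine infl hXi hF (hE s) ?_
      have h3 := Phi_lower (up β i) (hX s) (by rw [hup]; omega) (m := mn (X s))
        (fun i => mn_le (hX s) i)
      rw [hup] at h3
      push_cast at h3
      have h4 : 0 < mn (X s) := mn_pos (hX s)
      have h5 : 0 < tot (X s) := tot_pos (hX s)
      have h6 : X s i ≤ tot (X s) := le_tot (hX s) i
      have hN3 : (3:ℝ) ≤ N := by exact_mod_cast hN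
      have h7 : mn (X s) ≤ ((N:ℝ) + 1) * Phi (up β i) (X s) := by nlinarith
      set F := Phi (up β i) (X s) with hFdef
      set m := mn (X s)
      set t := tot (X s)
      have h8 : cc (X s) = m / (m + t) := rfl
      rw [h8, div_div, div_mul_eq_mul_div, div_le_iff₀ (by positivity)]
      have h9 : m * X s i ≤ m * t := by gcongr
      have h10 : m * t ≤ ((N:ℝ) + 1) * F * t := by gcongr
      have h11 : m * F ≤ ((N:ℝ) + 1) * (m * F) := by
        have : 0 < m * F := by positivity
        nlinarith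
      nlinarith
    have h3 := Dom.sum Finset.univ (fun i _ => h2 i)
      (fun i _ s => by
        have := hx s i
        have := Phi_pos (up β i) (hx s) (by rw [hup]; omega)
        positivity)
      (fun i _ s => by
        have := hX s i
        have := Phi_pos (up β i) (hX s) (by rw [hup]; omega)
        have h4 : 0 ≤ EE (tot (X s) / mn (X s)) (cc (X s)) (K + 1) N :=
          EE_nonneg (div_nonneg (tot_pos (hX s)).le (mn_pos (hX s)).le) (cc_pos (hX s)).le
            (cc_le_one (hX s)) (K + 1) N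
        positivity)
    refine h3.mono (fun s => ?_) (fun s => ?_)
    · have h4 := Phi_rec β (hx s) (by omega)
      have h5 : Phi β (x s) = (∑ i, (β i : ℝ) *
          (x s i * Phi (up β i) (x s) / (x s i + Phi (up β i) (x s)))) /
          (((∑ i, β i : ℕ) : ℝ) - 2) := by
        rw [← h4]
        field_simp
      rw [h5, Finset.sum_div]
      refine le_of_eq (Finset.sum_congr rfl (fun i _ => ?_))
      ring
    · have h4 := Phi_rec β (hX s) (by omega)
      have h5 : Phi β (X s) = (∑ i, (β i : ℝ) *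
          (X s i * Phi (up β i) (X s) / (X s i + Phi (up β i) (X s)))) /
          (((∑ i, β i : ℕ) : ℝ) - 2) := by
        rw [← h4]
        field_simp
      rw [h5, Finset.sum_div, Finset.mul_sum]
      refine le_of_eq (Finset.sum_congr rfl (fun i _ => ?_))
      ring

/-- **Domination is preserved by every `Φ(β; ·)`**. -/
theorem Dom_Phi [Nonempty ι] {x : τ → ι → ℝ} {X : σ → ι → ℝ} (hx : ∀ s i, 0 < x s i)
    (hX : ∀ s i, 0 < X s i) (h : ∀ i, Dom T (fun s => x s i) (fun s => X s i))
    (β : ι → ℕ) (hβ : 3 ≤ ∑ i, β i) :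
    Dom T (fun s => Phi β (x s)) (fun s => Phi β (X s)) := by
  refine Dom.of_tendsto (fun K => Dom_Phi_aux hx hX h K _ β rfl hβ) (fun s => ?_)
  have h1 := EE_tendsto (R := tot (X s) / mn (X s)) (c := cc (X s))
    (div_nonneg (tot_pos (hX s)).le (mn_pos (hX s)).le) (cc_pos (hX s)) (cc_le_one (hX s))
    (∑ i, β i)
  have h2 : Tendsto (fun K => (1 + EE (tot (X s) / mn (X s)) (cc (X s)) K (∑ i, β i)) *
      Phi β (X s)) atTop (𝓝 ((1 + 0) * Phi β (X s))) :=
    (h1.const_add 1).mul_const _
  simpa using h2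

end Crest.Agent.R331.Bridge776
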