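import Crest.Agent.R331.BridgeDom_776

/-!
Row 331, leaf BRIDGE (helper776), part 4: the curve `LM = 1`, the Wheatstone bridge and the
operator inequality (OPI) in its finitely supported form, with loss term.
-/

open scoped ENNReal BigOperators
open MeasureTheory Set Filter Topology

set_option autoImplicit false

namespace Crest.Agent.R331.Bridge776

/-- `u t = t/(e^t-1)`, `u 0 = 1`. -/
noncomputable def u (t : ℝ) : ℝ := if t = 0 then 1 else t / (Real.exp t - 1)

theorem u_zero : u 0 = 1 := by simp [u]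

theorem exp_sub_one_ne {t : ℝ} (ht : t ≠ 0) : Real.exp t - 1 ≠ 0 := by
  intro h
  have : Real.exp t = 1 := by linarith
  exact ht ((Real.exp_eq_one_iff t).mp this)

theorem u_pos (t : ℝ) : 0 < u t := by
  unfold u
  split_ifs with h
  · norm_num
  · rcases lt_or_gt_of_ne h with h1 | h1
    · have : Real.exp t < 1 := by
        rw [← Real.exp_zero]
        exact Real.exp_lt_exp.mpr h1
      exact div_pos_of_neg_of_neg h1 (by linarith)
    · have : 1 < Real.exp t := Real.one_lt_exp_iff.mpr h1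
      exact div_pos h1 (by linarith)

theorem u_neg_eq_exp (t : ℝ) : u (-t) = Real.exp t * u t := by
  by_cases h : t = 0
  · simp [h, u_zero]
  · have h1 := exp_sub_one_ne h
    have h3 : -t ≠ 0 := neg_ne_zero.mpr h
    have h2 := exp_sub_one_ne h3
    have h4 : Real.exp (-t) = (Real.exp t)⁻¹ := Real.exp_neg t
    have h5 : Real.exp t ≠ 0 := (Real.exp_pos t).ne'
    unfold u
    rw [if_neg h, if_neg h3]
    rw [div_eq_iff h2, h4]
    field_simp
    ring

theorem u_neg (t : ℝ) : u (-t) = u t + t := by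
  by_cases h : t = 0
  · simp [h, u_zero]
  · rw [u_neg_eq_exp]
    have h1 := exp_sub_one_ne h
    unfold u
    rw [if_neg h]
    field_simp
    ring

/-- two-variable weights -/
theorem w_two (p q l : ℝ) : w (1 : Fin 2 → ℕ) ![p, q] l = ((l + p) * (l + q))⁻¹ := by
  simp [w, Fin.prod_univ_two]

theorem intOn_two {p q : ℝ} (hp : 0 < p) (hq : 0 < q) :
    IntegrableOn (fun l : ℝ => ((l + p) * (l + q))⁻¹) (Ioi 0) := by
  have h := integrableOn_lw (1 : Fin 2 → ℕ) (x := ![p, q]) (k := 0)
    (by intro i; fin_cases i <;> simpa) (by simp)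
  simpa [w_two] using h

/-- the logarithmic mean of `u t`, `u (-t)` is one -/
theorem LM_one (t : ℝ) : ∫ l in Ioi (0:ℝ), ((l + u t) * (l + u (-t)))⁻¹ = 1 := by
  have hp := u_pos t
  have hq := u_pos (-t)
  by_cases h : t = 0
  · subst h
    have hder : ∀ l ∈ Ioi (0:ℝ), HasDerivAt (fun l : ℝ => -(l + 1)⁻¹)
        ((l + u 0) * (l + u (-0)))⁻¹ l := by
      intro l hl
      have hl' : (0:ℝ) < l := hl
      have h0 : l + 1 ≠ 0 := by positivity
      have h1 : HasDerivAt (fun l : ℝ => (l + 1)⁻¹) (-1 / (l + 1) ^ 2) l :=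
        ((hasDerivAt_id l).add_const 1).inv h0
      have h2 : HasDerivAt (fun l : ℝ => -(l + 1)⁻¹) (-(-1 / (l + 1) ^ 2)) l := h1.neg
      refine h2.congr_deriv ?_
      simp only [neg_zero, u_zero]
      field_simp
    have hlim : Tendsto (fun l : ℝ => -(l + 1)⁻¹) atTop (𝓝 0) := by
      have : Tendsto (fun l : ℝ => (l + 1)⁻¹) atTop (𝓝 0) :=
        tendsto_inv_atTop_zero.comp (tendsto_atTop_add_const_right _ _ tendsto_id)
      simpa using this.neg
    have hc : ContinuousWithinAt (fun l : ℝ => -(l + 1)⁻¹) (Ici 0) 0 := by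
      have : ContinuousAt (fun l : ℝ => -(l + 1)⁻¹) 0 := by
        refine ((continuousAt_id.add continuousAt_const).inv₀ ?_).neg
        simp
      exact this.continuousWithinAt
    have := integral_Ioi_of_hasDerivAt_of_tendsto hc hder (intOn_two hp hq) hlim
    rw [this]
    norm_num
  · have hder : ∀ l ∈ Ioi (0:ℝ),
        HasDerivAt (fun l : ℝ => (1 / t) * (Real.log (l + u t) - Real.log (l + u (-t))))
        ((l + u t) * (l + u (-t)))⁻¹ l := by
      intro l hl
      have hl' : (0:ℝ) < l := hl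
      have h1 : HasDerivAt (fun l : ℝ => Real.log (l + u t)) (1 / (l + u t)) l :=
        ((hasDerivAt_id l).add_const (u t)).log (by simp only [id]; positivity)
      have h2 : HasDerivAt (fun l : ℝ => Real.log (l + u (-t))) (1 / (l + u (-t))) l :=
        ((hasDerivAt_id l).add_const (u (-t))).log (by simp only [id]; positivity)
      have h3 := (h1.sub h2).const_mul (1 / t)
      refine h3.congr_deriv ?_
      have h4 : l + u t ≠ 0 := by positivity
      have h5 : l + u (-t) ≠ 0 := by positivity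
      have h6 := u_neg t
      rw [h6] at h5 ⊢
      field_simp
      ring
    have hlim : Tendsto (fun l : ℝ => (1 / t) * (Real.log (l + u t) - Real.log (l + u (-t))))
        atTop (𝓝 0) := by
      have h1 : Tendsto (fun l : ℝ => (l + u t) / (l + u (-t))) atTop (𝓝 1) := by
        have h2 : Tendsto (fun l : ℝ => 1 + (u t - u (-t)) * (l + u (-t))⁻¹) atTop
            (𝓝 (1 + (u t - u (-t)) * 0)) := by
          refine Tendsto.const_add _ (Tendsto.const_mul _ ?_)
          exact tendsto_inv_atTop_zero.comp (tendsto_atTop_add_const_right _ _ tendsto_id)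
        simp only [mul_zero, add_zero] at h2
        refine h2.congr' ?_
        filter_upwards [eventually_ge_atTop (0:ℝ)] with l hl
        have : l + u (-t) ≠ 0 := by positivity
        field_simp
        ring
      have h3 : Tendsto (fun l : ℝ => Real.log ((l + u t) / (l + u (-t)))) atTop (𝓝 0) := by
        have h9 := (Real.continuousAt_log (x := 1) one_ne_zero).tendsto.comp h1
        rw [Real.log_one] at h9
        exact h9
      have h4 : Tendsto (fun l : ℝ => (1 / t) * Real.log ((l + u t) / (l + u (-t)))) atTop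
          (𝓝 ((1 / t) * 0)) := h3.const_mul _
      rw [mul_zero] at h4
      refine h4.congr' ?_
      filter_upwards [eventually_ge_atTop (0:ℝ)] with l hl
      rw [Real.log_div (by positivity) (by positivity)]
    have hc : ContinuousWithinAt
        (fun l : ℝ => (1 / t) * (Real.log (l + u t) - Real.log (l + u (-t)))) (Ici 0) 0 := by
      have : ContinuousAt
          (fun l : ℝ => (1 / t) * (Real.log (l + u t) - Real.log (l + u (-t)))) 0 := by
        refine ContinuousAt.mul continuousAt_const (ContinuousAt.sub ?_ ?_)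
        · exact (continuousAt_id.add continuousAt_const).log (by simp; positivity)
        · exact (continuousAt_id.add continuousAt_const).log (by simp; positivity)
      exact this.continuousWithinAt
    have h7 := integral_Ioi_of_hasDerivAt_of_tendsto hc hder (intOn_two hp hq) hlim
    rw [h7]
    have h8 : Real.log (u (-t)) = t + Real.log (u t) := by
      rw [u_neg_eq_exp, Real.log_mul (Real.exp_pos t).ne' hp.ne', Real.log_exp]
    simp only [zero_add, zero_sub, h8]
    field_simp
    ring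

/-- the four variables -/
noncomputable def fv (b t : ℝ) : Fin 4 → ℝ := ![u b, u (-b), u t, u (-t)]

theorem fv_pos (b t : ℝ) (i : Fin 4) : 0 < fv b t i := by
  fin_cases i <;> simp [fv, u_pos]

/-- the bridge conductance -/
noncomputable def cb (b t : ℝ) : ℝ := Phi (1 : Fin 4 → ℕ) (fv b t)

theorem cb_pos (b t : ℝ) : 0 < cb b t := Phi_pos _ (fv_pos b t) (by simp)

theorem w_four (b t l : ℝ) : w (1 : Fin 4 → ℕ) (fv b t) l
    = ((l + u b) * (l + u (-b)))⁻¹ * ((l + u t) * (l + u (-t)))⁻¹ := by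
  simp [w, fv, Fin.prod_univ_four]
  ring

theorem int_four (b t : ℝ) (k : ℕ) (hk : k ≤ 2) :
    IntegrableOn (fun l => l ^ k * w (1 : Fin 4 → ℕ) (fv b t) l) (Ioi 0) :=
  integrableOn_lw _ (fv_pos b t) (by simp; omega)

theorem mom_t (b t : ℝ) : M 2 (1 : Fin 4 → ℕ) (fv b t)
    + (u b + u (-b)) * M 1 (1 : Fin 4 → ℕ) (fv b t)
    + u b * u (-b) * M 0 (1 : Fin 4 → ℕ) (fv b t) = 1 := by
  rw [← LM_one t]
  unfold M
  have i2 := int_four b t 2 le_rfl
  have i1 := (int_four b t 1 (by norm_num)).const_mul (u b + u (-b))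
  have i0 := (int_four b t 0 (by norm_num)).const_mul (u b * u (-b))
  have i21 : IntegrableOn (fun l => l ^ 2 * w (1 : Fin 4 → ℕ) (fv b t) l
    + (u b + u (-b)) * (l ^ 1 * w (1 : Fin 4 → ℕ) (fv b t) l)) (Ioi 0) := i2.add i1
  rw [← integral_const_mul, ← integral_const_mul, ← integral_add i2 i1, ← integral_add i21 i0]
  refine setIntegral_congr_fun measurableSet_Ioi (fun l hl => ?_)
  have hl' : (0:ℝ) < l := hl
  have h1 : 0 < l + u b := by have := u_pos b; positivity
  have h2 : 0 < l + u (-b) := by have := u_pos (-b); positivity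
  simp only [w_four]
  field_simp
  ring

theorem mom_b (b t : ℝ) : M 2 (1 : Fin 4 → ℕ) (fv b t)
    + (u t + u (-t)) * M 1 (1 : Fin 4 → ℕ) (fv b t)
    + u t * u (-t) * M 0 (1 : Fin 4 → ℕ) (fv b t) = 1 := by
  rw [← LM_one b]
  unfold M
  have i2 := int_four b t 2 le_rfl
  have i1 := (int_four b t 1 (by norm_num)).const_mul (u t + u (-t))
  have i0 := (int_four b t 0 (by norm_num)).const_mul (u t * u (-t))
  have i21 : IntegrableOn (fun l => l ^ 2 * w (1 : Fin 4 → ℕ) (fv b t) l
    + (u t + u (-t)) * (l ^ 1 * w (1 : Fin 4 → ℕ) (fv b t) l)) (Ioi 0) := i2.add i1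
  rw [← integral_const_mul, ← integral_const_mul, ← integral_add i2 i1, ← integral_add i21 i0]
  refine setIntegral_congr_fun measurableSet_Ioi (fun l hl => ?_)
  have hl' : (0:ℝ) < l := hl
  have h1 : 0 < l + u t := by have := u_pos t; positivity
  have h2 : 0 < l + u (-t) := by have := u_pos (-t); positivity
  simp only [w_four]
  field_simp
  ring

theorem M0_four_pos (b t : ℝ) : 0 < M 0 (1 : Fin 4 → ℕ) (fv b t) :=
  M_pos _ (fv_pos b t) (by simp)

/-- `(σ_b - σ_t) c = π_t - π_b` -/
theorem cb_rel (b t : ℝ) :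
    (u b + u (-b) - (u t + u (-t))) * cb b t = u t * u (-t) - u b * u (-b) := by
  have h1 := mom_t b t
  have h2 := mom_b b t
  have h3 := M0_four_pos b t
  have h4 : cb b t * M 0 (1 : Fin 4 → ℕ) (fv b t) = M 1 (1 : Fin 4 → ℕ) (fv b t) := by
    unfold cb Phi
    field_simp
  apply mul_right_cancel₀ h3.ne'
  rw [mul_assoc, h4]
  linear_combination h1 - h2

theorem tendsto_inv_add (p : ℝ) : Tendsto (fun l : ℝ => (l + p)⁻¹) atTop (𝓝 0) :=
  tendsto_inv_atTop_zero.comp (tendsto_atTop_add_const_right _ _ tendsto_id)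

/-- diagonal, first relation -/
theorem diag1 (b : ℝ) :
    2 * M 1 (1 : Fin 4 → ℕ) (fv b b) + (u b + u (-b)) * M 0 (1 : Fin 4 → ℕ) (fv b b)
      = (u b * u (-b))⁻¹ := by
  have hp := u_pos b
  have hq := u_pos (-b)
  have hder : ∀ l ∈ Ioi (0:ℝ), HasDerivAt (fun l : ℝ => -((l + u b) * (l + u (-b)))⁻¹)
      (2 * (l ^ 1 * w (1 : Fin 4 → ℕ) (fv b b) l)
        + (u b + u (-b)) * (l ^ 0 * w (1 : Fin 4 → ℕ) (fv b b) l)) l := by
    intro l hl
    have hl' : (0:ℝ) < l := hl
    have h0 : (l + u b) * (l + u (-b)) ≠ 0 := by positivity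
    have h1 : HasDerivAt (fun l : ℝ => (l + u b) * (l + u (-b)))
      (1 * (l + u (-b)) + (l + u b) * 1) l :=
      ((hasDerivAt_id l).add_const _).mul ((hasDerivAt_id l).add_const _)
    have h2 : HasDerivAt (fun l : ℝ => -((l + u b) * (l + u (-b)))⁻¹)
      (-(-(1 * (l + u (-b)) + (l + u b) * 1) / ((l + u b) * (l + u (-b))) ^ 2)) l :=
      (h1.inv h0).neg
    refine h2.congr_deriv ?_
    rw [w_four]
    have h3 : l + u b ≠ 0 := by positivity
    have h4 : l + u (-b) ≠ 0 := by positivity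
    field_simp
    ring
  have hlim : Tendsto (fun l : ℝ => -((l + u b) * (l + u (-b)))⁻¹) atTop (𝓝 0) := by
    have h1 := (tendsto_inv_add (u b)).mul (tendsto_inv_add (u (-b)))
    have h2 := h1.neg
    simpa [mul_inv, mul_comm] using h2
  have hc : ContinuousWithinAt (fun l : ℝ => -((l + u b) * (l + u (-b)))⁻¹) (Ici 0) 0 := by
    have : ContinuousAt (fun l : ℝ => -((l + u b) * (l + u (-b)))⁻¹) 0 := by
      refine ContinuousAt.neg (ContinuousAt.inv₀ ?_ ?_)
      · exact (continuousAt_id.add continuousAt_const).mul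
          (continuousAt_id.add continuousAt_const)
      · simp only [zero_add]
        positivity
    exact this.continuousWithinAt
  have hint : IntegrableOn (fun l => 2 * (l ^ 1 * w (1 : Fin 4 → ℕ) (fv b b) l)
        + (u b + u (-b)) * (l ^ 0 * w (1 : Fin 4 → ℕ) (fv b b) l)) (Ioi 0) :=
    ((int_four b b 1 (by norm_num)).const_mul _).add
      ((int_four b b 0 (by norm_num)).const_mul _)
  have h := integral_Ioi_of_hasDerivAt_of_tendsto hc hder hint hlim
  rw [integral_add ((int_four b b 1 (by norm_num)).const_mul _)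
      ((int_four b b 0 (by norm_num)).const_mul _), integral_const_mul,
      integral_const_mul] at h
  unfold M
  rw [h]
  simp

/-- diagonal, second relation -/
theorem diag2 (b : ℝ) :
    b ^ 2 * M 0 (1 : Fin 4 → ℕ) (fv b b) = (u b + u (-b)) * (u b * u (-b))⁻¹ - 2 := by
  have hp := u_pos b
  have hq := u_pos (-b)
  have hder : ∀ l ∈ Ioi (0:ℝ), HasDerivAt (fun l : ℝ => (l + u b)⁻¹ + (l + u (-b))⁻¹)
      (-(2 * ((l + u b) * (l + u (-b)))⁻¹
        + b ^ 2 * (l ^ 0 * w (1 : Fin 4 → ℕ) (fv b b) l))) l := by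
    intro l hl
    have hl' : (0:ℝ) < l := hl
    have h3 : l + u b ≠ 0 := by positivity
    have h4 : l + u (-b) ≠ 0 := by positivity
    have h1 : HasDerivAt (fun l : ℝ => (l + u b)⁻¹) (-1 / (l + u b) ^ 2) l :=
      ((hasDerivAt_id l).add_const _).inv h3
    have h2 : HasDerivAt (fun l : ℝ => (l + u (-b))⁻¹) (-1 / (l + u (-b)) ^ 2) l :=
      ((hasDerivAt_id l).add_const _).inv h4
    refine (h1.add h2).congr_deriv ?_
    rw [w_four]
    have h6 := u_neg b
    rw [h6] at h4 ⊢
    field_simp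
    ring
  have hlim : Tendsto (fun l : ℝ => (l + u b)⁻¹ + (l + u (-b))⁻¹) atTop (𝓝 0) := by
    simpa using (tendsto_inv_add (u b)).add (tendsto_inv_add (u (-b)))
  have hc : ContinuousWithinAt (fun l : ℝ => (l + u b)⁻¹ + (l + u (-b))⁻¹) (Ici 0) 0 := by
    have : ContinuousAt (fun l : ℝ => (l + u b)⁻¹ + (l + u (-b))⁻¹) 0 := by
      refine ContinuousAt.add (ContinuousAt.inv₀ ?_ ?_) (ContinuousAt.inv₀ ?_ ?_)
      · exact continuousAt_id.add continuousAt_const
      · simp only [zero_add]; positivity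
      · exact continuousAt_id.add continuousAt_const
      · simp only [zero_add]; positivity
    exact this.continuousWithinAt
  have hint : IntegrableOn (fun l => -(2 * ((l + u b) * (l + u (-b)))⁻¹
        + b ^ 2 * (l ^ 0 * w (1 : Fin 4 → ℕ) (fv b b) l))) (Ioi 0) :=
    (((intOn_two hp hq).const_mul _).add ((int_four b b 0 (by norm_num)).const_mul _)).neg
  have h := integral_Ioi_of_hasDerivAt_of_tendsto hc hder hint hlim
  rw [integral_neg, integral_add ((intOn_two hp hq).const_mul _)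
      ((int_four b b 0 (by norm_num)).const_mul _), integral_const_mul,
      integral_const_mul, LM_one] at h
  unfold M
  have h7 : (u b + u (-b)) * (u b * u (-b))⁻¹ = (u b)⁻¹ + (u (-b))⁻¹ := by
    field_simp
    ring
  rw [h7]
  simp only [zero_add] at h
  linarith

/-- the joint function -/
noncomputable def HH (b t : ℝ) : ℝ := u b * u (-t) / u (b - t)

theorem HH_pos (b t : ℝ) : 0 < HH b t :=
  div_pos (mul_pos (u_pos _) (u_pos _)) (u_pos _)

theorem HH_eq {b t : ℝ} (hbt : b ≠ t) : HH b t = (b * u t - t * u b) / (b - t) := by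
  unfold HH
  have h1 : b - t ≠ 0 := sub_ne_zero.mpr hbt
  rw [div_eq_div_iff (u_pos _).ne' h1]
  by_cases hb : b = 0
  · subst hb
    simp only [zero_sub, u_zero, zero_mul, mul_one]
    ring
  by_cases ht : t = 0
  · subst ht
    simp only [neg_zero, u_zero, sub_zero, mul_one, zero_mul]
    ring
  · have h3 := exp_sub_one_ne hb
    have h4 := exp_sub_one_ne ht
    have h5 := exp_sub_one_ne h1
    have h6 : u (-t) = Real.exp t * u t := u_neg_eq_exp t
    have hb' : u b = b / (Real.exp b - 1) := by simp [u, hb]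
    have ht' : u t = t / (Real.exp t - 1) := by simp [u, ht]
    have hbt' : u (b - t) = (b - t) / (Real.exp (b - t) - 1) := by simp [u, h1]
    have h7 : Real.exp b = Real.exp (b - t) * Real.exp t := by
      rw [← Real.exp_add]; congr 1; ring
    rw [h6, hbt', hb', ht', div_mul_eq_mul_div, div_mul_eq_mul_div, mul_div_assoc', mul_div_assoc']
    have h8 : (Real.exp t) ≠ 0 := (Real.exp_pos t).ne'
    rw [h7] at h3 ⊢
    generalize Real.exp (b - t) = E at *
    generalize Real.exp t = F at *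
    have h10 : b * (F * t) / (F - 1) * (b - t) / (E * F - 1)
        = b * F * t * (b - t) / ((F - 1) * (E * F - 1)) := by
      rw [← div_div]
      congr 1
      ring
    have h11 : (b * (t / (F - 1)) - t * (b / (E * F - 1))) * ((b - t) / (E - 1))
        = b * F * t * (b - t) / ((F - 1) * (E * F - 1)) := by
      have e1 : b * (t / (F - 1)) = b * t / (F - 1) := by ring
      have e2 : t * (b / (E * F - 1)) = t * b / (E * F - 1) := by ring
      rw [e1, e2, div_sub_div _ _ h4 h3, div_mul_div_comm,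
        div_eq_div_iff (mul_ne_zero (mul_ne_zero h4 h3) h5) (mul_ne_zero h4 h3)]
      ring
    rw [h10, h11]

theorem HH_diag (b : ℝ) : HH b b = u b * u (-b) := by
  simp [HH, u_zero]

/-- the potential offset -/
noncomputable def xx (b t : ℝ) : ℝ := ((u b + u (-b)) / 2 - HH b t) / b

theorem kkt {b : ℝ} (hb : 0 < b) (t : ℝ) :
    u (-b) * (1/2 - xx b t) = u t * (1/2 + xx b t) + 2 * cb b t * xx b t ∧
    u b * (1/2 + xx b t) + 2 * cb b t * xx b t = u (-t) * (1/2 - xx b t) ∧
    u (-b) * (1/2 - xx b t) + u b * (1/2 + xx b t) = HH b t := by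
  have hub := u_neg b
  have hut := u_neg t
  have hb0 : b ≠ 0 := hb.ne'
  have h3 : u (-b) * (1/2 - xx b t) + u b * (1/2 + xx b t) = HH b t := by
    unfold xx
    rw [hub]
    field_simp
    ring
  by_cases hbt : b = t
  · subst hbt
    have h1 := diag1 b
    have h2 := diag2 b
    have hM := M0_four_pos b b
    have hp := u_pos b
    have hq := u_pos (-b)
    have h4 : cb b b * M 0 (1 : Fin 4 → ℕ) (fv b b) = M 1 (1 : Fin 4 → ℕ) (fv b b) := by
      unfold cb Phi
      field_simp
    have hx : xx b b * b = (u b + u (-b)) / 2 - u b * u (-b) := by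
      unfold xx
      rw [HH_diag]
      field_simp
    -- key: x (σ + 2c) = b/2
    have hkey : xx b b * (u b + u (-b) + 2 * cb b b) = b / 2 := by
      have h5 : (xx b b * (u b + u (-b) + 2 * cb b b)) * (b * M 0 (1 : Fin 4 → ℕ) (fv b b))
          = (b / 2) * (b * M 0 (1 : Fin 4 → ℕ) (fv b b)) := by
        have h6 : (u b + u (-b) + 2 * cb b b) * M 0 (1 : Fin 4 → ℕ) (fv b b)
            = (u b * u (-b))⁻¹ := by
          rw [← h1]
          linear_combination 2 * h4
        calc (xx b b * (u b + u (-b) + 2 * cb b b)) * (b * M 0 (1 : Fin 4 → ℕ) (fv b b))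
            = (xx b b * b) * ((u b + u (-b) + 2 * cb b b) * M 0 (1 : Fin 4 → ℕ) (fv b b)) := by
              ring
          _ = ((u b + u (-b)) / 2 - u b * u (-b)) * (u b * u (-b))⁻¹ := by rw [hx, h6]
          _ = (1 / 2) * ((u b + u (-b)) * (u b * u (-b))⁻¹ - 2) := by field_simp
          _ = _ := by rw [← h2]; ring
      exact mul_right_cancel₀ (mul_ne_zero hb0 hM.ne') h5
    refine ⟨?_, ?_, h3⟩
    · rw [hub] at hkey ⊢
      linear_combination -hkey
    · rw [hub] at hkey ⊢
      linear_combination hkey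
  · have hbt' : b - t ≠ 0 := sub_ne_zero.mpr hbt
    have hrel := cb_rel b t
    have hH := HH_eq hbt
    have hx : xx b t * (2 * (b - t)) = u b + u (-b) - (u t + u (-t)) := by
      unfold xx
      rw [hH, hub, hut]
      field_simp
      ring
    refine ⟨?_, ?_, h3⟩
    · have h5 : (u (-b) * (1/2 - xx b t)) * (2 * (b - t))
          = (u t * (1/2 + xx b t) + 2 * cb b t * xx b t) * (2 * (b - t)) := by
        have e1 : (u (-b) * (1/2 - xx b t)) * (2 * (b - t))
            = u (-b) * ((b - t) - xx b t * (2 * (b - t))) := by ring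
        have e2 : (u t * (1/2 + xx b t) + 2 * cb b t * xx b t) * (2 * (b - t))
            = u t * ((b - t) + xx b t * (2 * (b - t)))
              + 2 * (xx b t * (2 * (b - t)) * cb b t) := by ring
        rw [e1, e2, hx, hrel, hub, hut]
        ring
      exact mul_right_cancel₀ (mul_ne_zero two_ne_zero hbt') h5
    · have h5 : (u b * (1/2 + xx b t) + 2 * cb b t * xx b t) * (2 * (b - t))
          = (u (-t) * (1/2 - xx b t)) * (2 * (b - t)) := by
        have e1 : (u (-t) * (1/2 - xx b t)) * (2 * (b - t))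
            = u (-t) * ((b - t) - xx b t * (2 * (b - t))) := by ring
        have e2 : (u b * (1/2 + xx b t) + 2 * cb b t * xx b t) * (2 * (b - t))
            = u b * ((b - t) + xx b t * (2 * (b - t)))
              + 2 * (xx b t * (2 * (b - t)) * cb b t) := by ring
        rw [e1, e2, hx, hrel, hub, hut]
        ring
      exact mul_right_cancel₀ (mul_ne_zero two_ne_zero hbt') h5

/-- real form of the bridge inequality -/
theorem bridge_real {p q P Q c H x : ℝ} (hp : 0 ≤ p) (hq : 0 ≤ q) (hP : 0 ≤ P) (hQ : 0 ≤ Q)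
    (hc : 0 ≤ c) (h1 : q * (1/2 - x) = P * (1/2 + x) + 2 * c * x)
    (h2 : p * (1/2 + x) + 2 * c * x = Q * (1/2 - x))
    (h3 : q * (1/2 - x) + p * (1/2 + x) = H) (a v₁ v₂ : ℝ) :
    H * a ^ 2 ≤ q * (a - v₁) ^ 2 + P * v₁ ^ 2 + p * (a - v₂) ^ 2 + Q * v₂ ^ 2
      + c * (v₁ - v₂) ^ 2 := by
  have key : q * (a - v₁) ^ 2 + P * v₁ ^ 2 + p * (a - v₂) ^ 2 + Q * v₂ ^ 2
      + c * (v₁ - v₂) ^ 2 = H * a ^ 2 + ((q + P) * (v₁ - (1/2 + x) * a) ^ 2
        + (p + Q) * (v₂ - (1/2 - x) * a) ^ 2 + c * (v₁ - v₂ - 2 * x * a) ^ 2) := by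
    linear_combination (-2 * a * v₁ + a ^ 2 * (1/2 + x)) * h1
      + (-2 * a * v₂ + a ^ 2 * (1/2 - x)) * h2 + a ^ 2 * h3
  rw [key]
  have : 0 ≤ (q + P) * (v₁ - (1/2 + x) * a) ^ 2
        + (p + Q) * (v₂ - (1/2 - x) * a) ^ 2 + c * (v₁ - v₂ - 2 * x * a) ^ 2 := by positivity
  linarith

theorem norm_sq_re_im (z : ℂ) : ‖z‖ ^ 2 = z.re ^ 2 + z.im ^ 2 := by
  rw [Complex.sq_norm, Complex.normSq_apply]
  ring

theorem bridge_complex {b : ℝ} (hb : 0 < b) (t : ℝ) (a v₁ v₂ : ℂ) :
    HH b t * ‖a‖ ^ 2 ≤ u (-b) * ‖a - v₁‖ ^ 2 + u t * ‖v₁‖ ^ 2 + u b * ‖a - v₂‖ ^ 2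
      + u (-t) * ‖v₂‖ ^ 2 + cb b t * ‖v₁ - v₂‖ ^ 2 := by
  obtain ⟨h1, h2, h3⟩ := kkt hb t
  have hre := bridge_real (u_pos b).le (u_pos (-b)).le (u_pos t).le (u_pos (-t)).le
    (cb_pos b t).le h1 h2 h3 a.re v₁.re v₂.re
  have him := bridge_real (u_pos b).le (u_pos (-b)).le (u_pos t).le (u_pos (-t)).le
    (cb_pos b t).le h1 h2 h3 a.im v₁.im v₂.im
  simp only [norm_sq_re_im, Complex.sub_re, Complex.sub_im]
  linarith

/-- the energy at the optimal potentials -/
theorem bridge_eq {b : ℝ} (hb : 0 < b) (t : ℝ) :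
    u (-b) * (1/2 - xx b t) ^ 2 + u t * (1/2 + xx b t) ^ 2 + u b * (1/2 + xx b t) ^ 2
      + u (-t) * (1/2 - xx b t) ^ 2 + cb b t * (2 * xx b t) ^ 2 = HH b t := by
  obtain ⟨h1, h2, h3⟩ := kkt hb t
  linear_combination (-(1/2 + xx b t)) * h1 + (-(1/2 - xx b t)) * h2 + h3

/-- the loss weight -/
noncomputable def WW (b t : ℝ) : ℝ := u t * (1/2 + xx b t) ^ 2 + u (-t) * (1/2 - xx b t) ^ 2

theorem WW_pos (b t : ℝ) : 0 < WW b t := by
  unfold WW
  have h1 := u_pos t
  have h2 := u_pos (-t)
  by_cases h : 1/2 + xx b t = 0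
  · have h3 : 1/2 - xx b t = 1 := by linarith
    rw [h, h3]
    norm_num
    exact h2
  · positivity

variable {σ τ : Type*} {T : (σ →₀ ℂ) →ₗ[ℂ] (τ → ℂ)}

/-- rescaling of `T` -/
theorem Dom_scale {g : ℝ} (hg : 0 < g) {f : τ → ℝ} {F : σ → ℝ} :
    Dom T f (fun s => g * F s) ↔ Dom (((Real.sqrt g)⁻¹ : ℂ) • T) f F := by
  have hX : ∀ z, QX (((Real.sqrt g)⁻¹ : ℂ) • T) f z = ENNReal.ofReal g⁻¹ * QX T f z := by
    intro z
    unfold QX
    rw [← ENNReal.tsum_mul_left]
    refine tsum_congr (fun s => ?_)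
    rw [← ENNReal.ofReal_mul (by positivity)]
    congr 1
    simp only [LinearMap.smul_apply, Pi.smul_apply, smul_eq_mul, norm_mul, norm_inv,
      Complex.norm_real, Real.norm_eq_abs, mul_pow, inv_pow, sq_abs]
    rw [Real.sq_sqrt hg.le]
    ring
  constructor
  · intro h z
    rw [hX]
    have h1 := h z
    rw [QC_const_mul] at h1
    calc ENNReal.ofReal g⁻¹ * QX T f z ≤ ENNReal.ofReal g⁻¹ * ENNReal.ofReal (g * QC F z) := by
          gcongr
      _ = ENNReal.ofReal (QC F z) := by
          rw [← ENNReal.ofReal_mul (by positivity)]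
          congr 1
          field_simp
  · intro h z
    have h1 := h z
    rw [hX] at h1
    rw [QC_const_mul]
    have h2 : QX T f z = ENNReal.ofReal g * (ENNReal.ofReal g⁻¹ * QX T f z) := by
      rw [← mul_assoc, ← ENNReal.ofReal_mul hg.le, mul_inv_cancel₀ hg.ne', ENNReal.ofReal_one,
        one_mul]
    rw [h2, ENNReal.ofReal_mul hg.le]
    gcongr

/-- domination of the bridge conductance -/
theorem Dom_cb {β : ℝ} {bt kt : τ → ℝ} {k : σ → ℝ} {g : ℝ} (hg : 1 ≤ g)
    (hp : Dom T (fun s => u (bt s)) (fun _ => g * u β))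
    (hq : Dom T (fun s => u (-(bt s))) (fun _ => g * u (-β)))
    (hP : Dom T (fun s => u (kt s)) (fun s => u (k s)))
    (hQ : Dom T (fun s => u (-(kt s))) (fun s => u (-(k s)))) :
    Dom T (fun s => cb (bt s) (kt s)) (fun s => g * cb β (k s)) := by
  have hg0 : 0 < g := by linarith
  rw [Dom_scale hg0]
  have hP' : Dom T (fun s => u (kt s)) (fun s => g * u (k s)) :=
    hP.mono (fun _ => le_rfl) (fun s => by have := u_pos (k s); nlinarith)
  have hQ' : Dom T (fun s => u (-(kt s))) (fun s => g * u (-(k s))) :=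
    hQ.mono (fun _ => le_rfl) (fun s => by have := u_pos (-(k s)); nlinarith)
  rw [Dom_scale hg0] at hP' hQ'
  have hp' := (Dom_scale (T := T) hg0 (f := fun s => u (bt s)) (F := fun _ => u β)).mp hp
  have hq' := (Dom_scale (T := T) hg0 (f := fun s => u (-(bt s))) (F := fun _ => u (-β))).mp hq
  refine Dom_Phi (x := fun s => fv (bt s) (kt s)) (X := fun s => fv β (k s))
    (fun s i => fv_pos _ _ i) (fun s i => fv_pos _ _ i) (fun i => ?_) (1 : Fin 4 → ℕ) (by simp)
  fin_cases i
  · exact hp'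
  · exact hq'
  · exact hP'
  · exact hQ'

/-- **(OPI), finitely supported form with loss term.** -/
theorem opi {β : ℝ} (hβ : 0 < β) {bt kt : τ → ℝ} (hbt : ∀ s, 0 < bt s) {k : σ → ℝ} {g : ℝ}
    (hg : 1 ≤ g)
    (hp : Dom T (fun s => u (bt s)) (fun _ => g * u β))
    (hq : Dom T (fun s => u (-(bt s))) (fun _ => g * u (-β)))
    (hP : Dom T (fun s => u (kt s)) (fun s => u (k s)))
    (hQ : Dom T (fun s => u (-(kt s))) (fun s => u (-(k s)))) :
    Dom T (fun s => HH (bt s) (kt s)) (fun s => g * HH β (k s) - (g - 1) * WW β (k s)) := by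
  have hc := Dom_cb hg hp hq hP hQ
  have hg0 : 0 < g := by linarith
  intro z
  set g₁ : σ → ℝ := fun s => 1/2 + xx β (k s) with hg₁
  set g₂ : σ → ℝ := fun s => 1/2 - xx β (k s) with hg₂
  set z₁ := mulF g₁ z with hz₁
  set z₂ := mulF g₂ z with hz₂
  have e1 : z - z₁ = mulF g₂ z := by
    rw [hz₁]
    ext s
    simp [hg₁, hg₂]
    ring
  have e2 : z - z₂ = mulF g₁ z := by
    rw [hz₂]
    ext s
    simp [hg₁, hg₂]
    ring
  have e3 : z₁ - z₂ = mulF (fun s => 2 * xx β (k s)) z := by
    rw [hz₁, hz₂, ← mulF_sub]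
    congr 1
    funext s
    simp only [hg₁, hg₂]
    ring
  have hle : QX T (fun s => HH (bt s) (kt s)) z ≤
      QX T (fun s => u (-(bt s))) (z - z₁) + QX T (fun s => u (kt s)) z₁
        + QX T (fun s => u (bt s)) (z - z₂) + QX T (fun s => u (-(kt s))) z₂
        + QX T (fun s => cb (bt s) (kt s)) (z₁ - z₂) := by
    unfold QX
    rw [← ENNReal.tsum_add, ← ENNReal.tsum_add, ← ENNReal.tsum_add, ← ENNReal.tsum_add]
    refine ENNReal.tsum_le_tsum (fun s => ?_)
    have p1 := (u_pos (-(bt s))).le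
    have p2 := (u_pos (kt s)).le
    have p3 := (u_pos (bt s)).le
    have p4 := (u_pos (-(kt s))).le
    have p5 := (cb_pos (bt s) (kt s)).le
    rw [← ENNReal.ofReal_add (by positivity) (by positivity),
      ← ENNReal.ofReal_add (by positivity) (by positivity),
      ← ENNReal.ofReal_add (by positivity) (by positivity),
      ← ENNReal.ofReal_add (by positivity) (by positivity)]
    apply ENNReal.ofReal_le_ofReal
    simp only [map_sub, Pi.sub_apply]
    exact bridge_complex (hbt s) (kt s) (T z s) (T z₁ s) (T z₂ s)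
  refine le_trans hle ?_
  refine le_trans (add_le_add (add_le_add (add_le_add (add_le_add (hq _) (hP _)) (hp _)) (hQ _))
    (hc _)) ?_
  rw [e1, e2, e3, hz₁, hz₂]
  simp only [QC_mulF]
  have q1 := u_pos (-β)
  have q3 := u_pos β
  have n1 : 0 ≤ QC (fun s => g * u (-β) * g₂ s ^ 2) z := QC_nonneg (fun s => by positivity) z
  have n2 : 0 ≤ QC (fun s => u (k s) * g₁ s ^ 2) z :=
    QC_nonneg (fun s => by have := u_pos (k s); positivity) z
  have n3 : 0 ≤ QC (fun s => g * u β * g₁ s ^ 2) z := QC_nonneg (fun s => by positivity) z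
  have n4 : 0 ≤ QC (fun s => u (-(k s)) * g₂ s ^ 2) z :=
    QC_nonneg (fun s => by have := u_pos (-(k s)); positivity) z
  have n5 : 0 ≤ QC (fun s => g * cb β (k s) * (2 * xx β (k s)) ^ 2) z :=
    QC_nonneg (fun s => by have := cb_pos β (k s); positivity) z
  rw [← ENNReal.ofReal_add n1 n2, ← ENNReal.ofReal_add (by positivity) n3,
    ← ENNReal.ofReal_add (by positivity) n4, ← ENNReal.ofReal_add (by positivity) n5,
    ← QC_add, ← QC_add, ← QC_add, ← QC_add]
  apply ENNReal.ofReal_le_ofReal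
  refine QC_mono (fun s => le_of_eq ?_) z
  have hE := bridge_eq hβ (k s)
  simp only [hg₁, hg₂, WW]
  linear_combination g * hE

end Crest.Agent.R331.Bridge776
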