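import Mathlib

/-!
Row 331, leaf BRIDGE (helper776): the operator inequality (OPI)/(LINOP) without complex analysis.
Part 1: the class of dominated pairs of weights and its closure under parallel sums.
-/

open scoped ENNReal BigOperators
open MeasureTheory Set Filter Topology

set_option autoImplicit false

namespace Crest.Agent.R331.Bridge776

variable {σ τ : Type*}

/-- weighted energy on the input side -/
noncomputable def QX (T : (σ →₀ ℂ) →ₗ[ℂ] (τ → ℂ)) (f : τ → ℝ) (z : σ →₀ ℂ) : ℝ≥0∞ :=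
  ∑' s, ENNReal.ofReal (f s * ‖T z s‖ ^ 2)

/-- weighted energy on the output side -/
noncomputable def QC (F : σ → ℝ) (z : σ →₀ ℂ) : ℝ := ∑ s ∈ z.support, F s * ‖z s‖ ^ 2

/-- `f` on the inputs is dominated by `F` on the output. -/
def Dom (T : (σ →₀ ℂ) →ₗ[ℂ] (τ → ℂ)) (f : τ → ℝ) (F : σ → ℝ) : Prop :=
  ∀ z, QX T f z ≤ ENNReal.ofReal (QC F z)

/-- multiplication of a finitely supported vector by a real multiplier -/
noncomputable def mulF (m : σ → ℝ) (z : σ →₀ ℂ) : σ →₀ ℂ :=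
  Finsupp.onFinset z.support (fun s => (m s : ℂ) * z s) (by
    intro s hs
    rw [Finsupp.mem_support_iff]
    intro h
    exact hs (by simp [h]))

@[simp] theorem mulF_apply (m : σ → ℝ) (z : σ →₀ ℂ) (s : σ) :
    mulF m z s = (m s : ℂ) * z s := rfl

theorem mulF_add (m₁ m₂ : σ → ℝ) (z : σ →₀ ℂ) :
    mulF (fun s => m₁ s + m₂ s) z = mulF m₁ z + mulF m₂ z := by
  ext s
  simp [add_mul]

theorem mulF_one (z : σ →₀ ℂ) : mulF (fun _ => 1) z = z := by
  ext s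
  simp

theorem mulF_sub (m₁ m₂ : σ → ℝ) (z : σ →₀ ℂ) :
    mulF (fun s => m₁ s - m₂ s) z = mulF m₁ z - mulF m₂ z := by
  ext s
  simp [sub_mul]

theorem QC_mulF (F m : σ → ℝ) (z : σ →₀ ℂ) :
    QC F (mulF m z) = QC (fun s => F s * m s ^ 2) z := by
  classical
  unfold QC
  have h1 : (mulF m z).support ⊆ z.support := by
    intro s hs
    rw [Finsupp.mem_support_iff] at hs ⊢
    intro h
    exact hs (by simp [h])
  rw [Finset.sum_subset h1]
  · refine Finset.sum_congr rfl (fun s _ => ?_)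
    simp only [mulF_apply, norm_mul, Complex.norm_real, Real.norm_eq_abs, mul_pow, sq_abs]
    ring
  · intro s _ hs
    rw [Finsupp.notMem_support_iff] at hs
    rw [hs]
    simp

theorem QC_add (F G : σ → ℝ) (z : σ →₀ ℂ) :
    QC (fun s => F s + G s) z = QC F z + QC G z := by
  simp [QC, add_mul, Finset.sum_add_distrib]

theorem QC_sub (F G : σ → ℝ) (z : σ →₀ ℂ) :
    QC (fun s => F s - G s) z = QC F z - QC G z := by
  simp [QC, sub_mul, Finset.sum_sub_distrib]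

theorem QC_const_mul (a : ℝ) (F : σ → ℝ) (z : σ →₀ ℂ) :
    QC (fun s => a * F s) z = a * QC F z := by
  simp [QC, mul_assoc, Finset.mul_sum]

theorem QC_nonneg {F : σ → ℝ} (hF : ∀ s, 0 ≤ F s) (z : σ →₀ ℂ) : 0 ≤ QC F z :=
  Finset.sum_nonneg (fun s _ => mul_nonneg (hF s) (by positivity))

theorem QC_mono {F G : σ → ℝ} (h : ∀ s, F s ≤ G s) (z : σ →₀ ℂ) : QC F z ≤ QC G z :=
  Finset.sum_le_sum (fun s _ => mul_le_mul_of_nonneg_right (h s) (by positivity))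

variable {T : (σ →₀ ℂ) →ₗ[ℂ] (τ → ℂ)}

theorem Dom.mono {f f' : τ → ℝ} {F F' : σ → ℝ} (h : Dom T f F) (hf : ∀ s, f' s ≤ f s)
    (hF : ∀ s, F s ≤ F' s) : Dom T f' F' := by
  intro z
  refine le_trans (ENNReal.tsum_le_tsum fun s => ENNReal.ofReal_le_ofReal ?_)
    (le_trans (h z) (ENNReal.ofReal_le_ofReal (QC_mono hF z)))
  exact mul_le_mul_of_nonneg_right (hf s) (by positivity)

theorem Dom.add {f₁ f₂ : τ → ℝ} {F₁ F₂ : σ → ℝ} (h₁ : Dom T f₁ F₁) (h₂ : Dom T f₂ F₂)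
    (hf₁ : ∀ s, 0 ≤ f₁ s) (hf₂ : ∀ s, 0 ≤ f₂ s)
    (hF₁ : ∀ s, 0 ≤ F₁ s) (hF₂ : ∀ s, 0 ≤ F₂ s) :
    Dom T (fun s => f₁ s + f₂ s) (fun s => F₁ s + F₂ s) := by
  intro z
  rw [QC_add, ENNReal.ofReal_add (QC_nonneg hF₁ z) (QC_nonneg hF₂ z)]
  refine le_trans (le_of_eq ?_) (add_le_add (h₁ z) (h₂ z))
  unfold QX
  rw [← ENNReal.tsum_add]
  refine tsum_congr (fun s => ?_)
  rw [add_mul, ENNReal.ofReal_add (mul_nonneg (hf₁ s) (by positivity))
    (mul_nonneg (hf₂ s) (by positivity))]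

theorem Dom.zero : Dom T (fun _ => 0) (fun _ => 0) := by
  intro z
  simp [QX]

theorem Dom.const_mul {f : τ → ℝ} {F : σ → ℝ} (h : Dom T f F) {a : ℝ} (ha : 0 ≤ a) :
    Dom T (fun s => a * f s) (fun s => a * F s) := by
  intro z
  rw [QC_const_mul, ENNReal.ofReal_mul ha]
  refine le_trans (le_of_eq ?_) (mul_le_mul_right (h z) _)
  unfold QX
  rw [← ENNReal.tsum_mul_left]
  refine tsum_congr (fun s => ?_)
  rw [mul_assoc, ENNReal.ofReal_mul ha]

theorem Dom.sum {κ : Type*} (S : Finset κ) {f : κ → τ → ℝ} {F : κ → σ → ℝ}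
    (h : ∀ i ∈ S, Dom T (f i) (F i))
    (hf : ∀ i ∈ S, ∀ s, 0 ≤ f i s) (hF : ∀ i ∈ S, ∀ s, 0 ≤ F i s) :
    Dom T (fun s => ∑ i ∈ S, f i s) (fun s => ∑ i ∈ S, F i s) := by
  classical
  induction S using Finset.induction_on with
  | empty => simpa using Dom.zero
  | insert a S ha ih =>
    have h1 := Dom.add (h a (Finset.mem_insert_self a S))
      (ih (fun i hi => h i (Finset.mem_insert_of_mem hi))
        (fun i hi => hf i (Finset.mem_insert_of_mem hi))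
        (fun i hi => hF i (Finset.mem_insert_of_mem hi)))
      (hf a (Finset.mem_insert_self a S))
      (fun s => Finset.sum_nonneg (fun i hi => hf i (Finset.mem_insert_of_mem hi) s))
      (hF a (Finset.mem_insert_self a S))
      (fun s => Finset.sum_nonneg (fun i hi => hF i (Finset.mem_insert_of_mem hi) s))
    simpa [Finset.sum_insert ha] using h1

/-- scalar parallel-sum inequality -/
theorem par_scalar {f g : ℝ} (hf : 0 < f) (hg : 0 < g) (a b : ℂ) :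
    f * g / (f + g) * ‖a + b‖ ^ 2 ≤ f * ‖a‖ ^ 2 + g * ‖b‖ ^ 2 := by
  have hn : ‖a + b‖ ≤ ‖a‖ + ‖b‖ := norm_add_le a b
  have h0 : 0 ≤ ‖a + b‖ := norm_nonneg _
  have h1 : ‖a + b‖ ^ 2 ≤ (‖a‖ + ‖b‖) ^ 2 := by gcongr
  have hfg : 0 < f + g := by positivity
  have h2 : f * g / (f + g) * ‖a + b‖ ^ 2 ≤ f * g / (f + g) * (‖a‖ + ‖b‖) ^ 2 := by
    gcongr
  refine le_trans h2 ?_
  rw [div_mul_eq_mul_div, div_le_iff₀ hfg]
  nlinarith [sq_nonneg (f * ‖a‖ - g * ‖b‖)]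

theorem Dom.par {f₁ f₂ : τ → ℝ} {F₁ F₂ : σ → ℝ} (h₁ : Dom T f₁ F₁) (h₂ : Dom T f₂ F₂)
    (hf₁ : ∀ s, 0 < f₁ s) (hf₂ : ∀ s, 0 < f₂ s)
    (hF₁ : ∀ s, 0 < F₁ s) (hF₂ : ∀ s, 0 < F₂ s) :
    Dom T (fun s => f₁ s * f₂ s / (f₁ s + f₂ s)) (fun s => F₁ s * F₂ s / (F₁ s + F₂ s)) := by
  intro z
  set m₁ : σ → ℝ := fun s => F₂ s / (F₁ s + F₂ s) with hm₁
  set m₂ : σ → ℝ := fun s => F₁ s / (F₁ s + F₂ s) with hm₂
  have hz : z = mulF m₁ z + mulF m₂ z := by
    rw [← mulF_add]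
    conv_lhs => rw [← mulF_one z]
    congr 1
    funext s
    have := hF₁ s
    have := hF₂ s
    simp only [hm₁, hm₂]
    field_simp
    ring
  have hC : QC (fun s => F₁ s * F₂ s / (F₁ s + F₂ s)) z
      = QC F₁ (mulF m₁ z) + QC F₂ (mulF m₂ z) := by
    rw [QC_mulF, QC_mulF, ← QC_add]
    congr 1
    funext s
    have h1 := hF₁ s
    have h2 := hF₂ s
    simp only [hm₁, hm₂]
    field_simp
    ring
  rw [hC, ENNReal.ofReal_add (QC_nonneg (fun s => (hF₁ s).le) _)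
    (QC_nonneg (fun s => (hF₂ s).le) _)]
  refine le_trans ?_ (add_le_add (h₁ (mulF m₁ z)) (h₂ (mulF m₂ z)))
  unfold QX
  rw [← ENNReal.tsum_add]
  refine ENNReal.tsum_le_tsum (fun s => ?_)
  rw [← ENNReal.ofReal_add (mul_nonneg (hf₁ s).le (by positivity))
    (mul_nonneg (hf₂ s).le (by positivity))]
  apply ENNReal.ofReal_le_ofReal
  have hT : T z s = T (mulF m₁ z) s + T (mulF m₂ z) s := by
    conv_lhs => rw [hz]
    rw [map_add]
    rfl
  rw [hT]
  exact par_scalar (hf₁ s) (hf₂ s) _ _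

/-- limits of output weights -/
theorem Dom.of_tendsto {f : τ → ℝ} {G : ℕ → σ → ℝ} {F : σ → ℝ}
    (h : ∀ n, Dom T f (G n)) (hG : ∀ s, Tendsto (fun n => G n s) atTop (𝓝 (F s))) :
    Dom T f F := by
  intro z
  have h1 : Tendsto (fun n => QC (G n) z) atTop (𝓝 (QC F z)) := by
    unfold QC
    exact tendsto_finsetSum _ (fun s _ => (hG s).mul_const _)
  exact ge_of_tendsto' (ENNReal.tendsto_ofReal h1) (fun n => h n z)

end Crest.Agent.R331.Bridge776
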