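/-
Row 331 (S0514), leaf [CPT], part 1: compactness of energy-bounded states.
Generic Hilbert space `H` with a Hilbert basis `b : HilbertBasis ι ℂ H` (countable `ι`).
Main results (namespace `Crest.Agent.R331.CPT682`):
* `ent b T i j = ⟪b i, T (b j)⟫`; `enorm_sq_le_HS : ‖T‖ₑ² ≤ HS b T`;
* `ent_sq_le : ‖T_ij‖² ≤ T_ii T_jj` for positive `T`;
* `tendsto_of_ent` : entrywise convergence + bounded energy of trace one states gives norm convergence;
* `compactness` : a sequence of states with bounded energy has a norm convergent subsequence whose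
  limit is a state of energy at most the bound.
-/
import Mathlib

set_option autoImplicit false
set_option linter.unusedSectionVars false
set_option linter.deprecated false
set_option linter.unusedSimpArgs false
set_option linter.style.haveILetI false

noncomputable section

namespace Crest.Agent.R331.CPT682

open scoped InnerProductSpace ENNReal Topology NNReal
open Filter

variable {H : Type*} [NormedAddCommGroup H] [InnerProductSpace ℂ H] [CompleteSpace H]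
variable {ι : Type*}

/-- matrix entries of a bounded operator -/
def ent (b : HilbertBasis ι ℂ H) (T : H →L[ℂ] H) (i j : ι) : ℂ := ⟪b i, T (b j)⟫_ℂ

lemma ent_sub (b : HilbertBasis ι ℂ H) (T S : H →L[ℂ] H) (i j : ι) :
    ent b (T - S) i j = ent b T i j - ent b S i j := by
  simp [ent, inner_sub_right]

lemma ent_add (b : HilbertBasis ι ℂ H) (T S : H →L[ℂ] H) (i j : ι) :
    ent b (T + S) i j = ent b T i j + ent b S i j := by
  simp [ent, inner_add_right]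

lemma ent_smul (b : HilbertBasis ι ℂ H) (c : ℂ) (T : H →L[ℂ] H) (i j : ι) :
    ent b (c • T) i j = c * ent b T i j := by
  simp [ent, inner_smul_right]

lemma norm_ent_le (b : HilbertBasis ι ℂ H) (T : H →L[ℂ] H) (i j : ι) :
    ‖ent b T i j‖ ≤ ‖T‖ := by
  unfold ent
  refine (norm_inner_le_norm _ _).trans ?_
  rw [b.orthonormal.1 i, one_mul]
  refine (T.le_opNorm _).trans ?_
  rw [b.orthonormal.1 j, mul_one]

lemma hasSum_norm_sq (b : HilbertBasis ι ℂ H) (x : H) :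
    HasSum (fun i => ‖⟪b i, x⟫_ℂ‖ ^ 2) (‖x‖ ^ 2) := by
  have h := b.hasSum_inner_mul_inner x x
  have h2 := h.mapL Complex.reCLM
  have e : (Complex.reCLM ⟪x, x⟫_ℂ : ℝ) = ‖x‖ ^ 2 := by
    rw [inner_self_eq_norm_sq_to_K]
    norm_cast
  rw [e] at h2
  refine h2.congr_fun ?_ |> id
  intro i
  show ‖⟪b i, x⟫_ℂ‖ ^ 2 = Complex.reCLM (⟪x, b i⟫_ℂ * ⟪b i, x⟫_ℂ)
  rw [← inner_conj_symm x (b i), mul_comm, Complex.mul_conj]
  simp [Complex.normSq_eq_norm_sq, ← Complex.ofReal_pow]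

lemma tsum_enorm_sq (b : HilbertBasis ι ℂ H) (x : H) :
    ∑' i, ‖⟪b i, x⟫_ℂ‖ₑ ^ 2 = ‖x‖ₑ ^ 2 := by
  have h := hasSum_norm_sq b x
  have h1 : ∀ i, ‖⟪b i, x⟫_ℂ‖ₑ ^ 2 = ENNReal.ofReal (‖⟪b i, x⟫_ℂ‖ ^ 2) := by
    intro i
    rw [← ofReal_norm_eq_enorm, ENNReal.ofReal_pow (norm_nonneg _)]
  simp_rw [h1]
  rw [← ENNReal.ofReal_tsum_of_nonneg (fun i => by positivity) h.summable, h.tsum_eq,
    ENNReal.ofReal_pow (norm_nonneg _), ofReal_norm_eq_enorm]

lemma ext_ent (b : HilbertBasis ι ℂ H) {T S : H →L[ℂ] H}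
    (h : ∀ i j, ent b T i j = ent b S i j) : T = S := by
  have h1 : ∀ j, T (b j) = S (b j) := by
    intro j
    apply b.repr.injective
    ext i
    rw [b.repr_apply_apply, b.repr_apply_apply]
    exact h i j
  have h2 : Dense ((Submodule.span ℂ (Set.range b) : Submodule ℂ H) : Set H) :=
    Submodule.dense_iff_topologicalClosure_eq_top.2 b.dense_span
  refine ContinuousLinearMap.ext_on h2 ?_
  rintro x ⟨j, rfl⟩
  exact h1 j

/-- squared Hilbert–Schmidt norm -/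
def HS (b : HilbertBasis ι ℂ H) (T : H →L[ℂ] H) : ℝ≥0∞ := ∑' i, ∑' j, ‖ent b T i j‖ₑ ^ 2

lemma enorm_apply_sq_le (b : HilbertBasis ι ℂ H) (T : H →L[ℂ] H) (x : H) :
    ‖T x‖ₑ ^ 2 ≤ HS b T * ‖x‖ₑ ^ 2 := by
  rw [← tsum_enorm_sq b (T x), HS, ← ENNReal.tsum_mul_right]
  refine ENNReal.tsum_le_tsum fun i => ?_
  have h1 : ⟪b i, T x⟫_ℂ = ⟪(ContinuousLinearMap.adjoint T) (b i), x⟫_ℂ := by
    rw [ContinuousLinearMap.adjoint_inner_left]
  have h2 : ‖⟪b i, T x⟫_ℂ‖ₑ ≤ ‖(ContinuousLinearMap.adjoint T) (b i)‖ₑ * ‖x‖ₑ := by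
    rw [h1, ← ofReal_norm_eq_enorm, ← ofReal_norm_eq_enorm, ← ofReal_norm_eq_enorm,
      ← ENNReal.ofReal_mul (norm_nonneg _)]
    exact ENNReal.ofReal_le_ofReal (norm_inner_le_norm _ _)
  calc ‖⟪b i, T x⟫_ℂ‖ₑ ^ 2 ≤ (‖(ContinuousLinearMap.adjoint T) (b i)‖ₑ * ‖x‖ₑ) ^ 2 := by gcongr
    _ = ‖(ContinuousLinearMap.adjoint T) (b i)‖ₑ ^ 2 * ‖x‖ₑ ^ 2 := mul_pow _ _ _
    _ = (∑' j, ‖ent b T i j‖ₑ ^ 2) * ‖x‖ₑ ^ 2 := by
      rw [← tsum_enorm_sq b ((ContinuousLinearMap.adjoint T) (b i))]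
      congr 2
      funext j
      congr 1
      rw [← ofReal_norm_eq_enorm, ← ofReal_norm_eq_enorm, ContinuousLinearMap.adjoint_inner_right,
        norm_inner_symm]
      rfl

theorem enorm_sq_le_HS (b : HilbertBasis ι ℂ H) (T : H →L[ℂ] H) : ‖T‖ₑ ^ 2 ≤ HS b T := by
  by_cases htop : HS b T = ⊤
  · rw [htop]; exact le_top
  have key : ‖T‖ ≤ Real.sqrt (HS b T).toReal := by
    refine ContinuousLinearMap.opNorm_le_bound _ (Real.sqrt_nonneg _) fun x => ?_
    have h := enorm_apply_sq_le b T x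
    have h' : ‖T x‖ ^ 2 ≤ (HS b T).toReal * ‖x‖ ^ 2 := by
      rw [← ENNReal.ofReal_toReal htop, ← ofReal_norm_eq_enorm, ← ofReal_norm_eq_enorm,
        ← ENNReal.ofReal_pow (norm_nonneg _), ← ENNReal.ofReal_pow (norm_nonneg _),
        ← ENNReal.ofReal_mul ENNReal.toReal_nonneg] at h
      exact (ENNReal.ofReal_le_ofReal_iff (by positivity)).1 h
    rw [← Real.sqrt_sq (norm_nonneg (T x))]
    refine (Real.sqrt_le_sqrt h').trans ?_
    rw [Real.sqrt_mul ENNReal.toReal_nonneg, Real.sqrt_sq (norm_nonneg _)]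
  rw [← ofReal_norm_eq_enorm, ← ENNReal.ofReal_pow (norm_nonneg _),
    ← ENNReal.ofReal_toReal htop]
  refine ENNReal.ofReal_le_ofReal ?_
  calc ‖T‖ ^ 2 ≤ (Real.sqrt (HS b T).toReal) ^ 2 := by gcongr
    _ = (HS b T).toReal := Real.sq_sqrt ENNReal.toReal_nonneg

/-- the pre-inner product `⟪x, T y⟫` of a positive operator -/
@[reducible] def coreOf (T : H →L[ℂ] H) (hT : T.IsPositive) : PreInnerProductSpace.Core ℂ H where
  inner x y := ⟪x, T y⟫_ℂ
  conj_inner_symm x y := by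
    show (starRingEnd ℂ) ⟪y, T x⟫_ℂ = ⟪x, T y⟫_ℂ
    rw [inner_conj_symm]
    exact hT.inner_left_eq_inner_right x y
  re_inner_nonneg x := by
    exact hT.re_inner_nonneg_right x
  add_left x y z := by
    show ⟪x + y, T z⟫_ℂ = _
    rw [inner_add_left]
  smul_left x y r := by
    show ⟪r • x, T y⟫_ℂ = _
    rw [inner_smul_left]

lemma inner_sq_le (T : H →L[ℂ] H) (hT : T.IsPositive) (x y : H) :
    ‖⟪x, T y⟫_ℂ‖ ^ 2 ≤ (⟪x, T x⟫_ℂ).re * (⟪y, T y⟫_ℂ).re := by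
  letI c := coreOf T hT
  have h := @InnerProductSpace.Core.inner_mul_inner_self_le ℂ H _ _ _ c x y
  have h2 : ‖⟪y, T x⟫_ℂ‖ = ‖⟪x, T y⟫_ℂ‖ := by
    rw [← hT.inner_left_eq_inner_right x y, norm_inner_symm]
  have h3 : ‖⟪x, T y⟫_ℂ‖ * ‖⟪y, T x⟫_ℂ‖ ≤ (⟪x, T x⟫_ℂ).re * (⟪y, T y⟫_ℂ).re := h
  rw [h2] at h3
  rw [sq]; exact h3

lemma ent_sq_le (b : HilbertBasis ι ℂ H) {T : H →L[ℂ] H} (hT : T.IsPositive) (i j : ι) :
    ‖ent b T i j‖ ^ 2 ≤ (ent b T i i).re * (ent b T j j).re :=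
  inner_sq_le T hT (b i) (b j)

lemma ent_diag_nonneg (b : HilbertBasis ι ℂ H) {T : H →L[ℂ] H} (hT : T.IsPositive) (i : ι) :
    0 ≤ (ent b T i i).re := hT.re_inner_nonneg_right (b i)

/-- density operators: positive with trace one -/
structure TS (b : HilbertBasis ι ℂ H) (T : H →L[ℂ] H) : Prop where
  pos : T.IsPositive
  tr : HasSum (fun i => (ent b T i i).re) 1

lemma TS.diag_le_one {b : HilbertBasis ι ℂ H} {T : H →L[ℂ] H} (h : TS b T) (i : ι) :
    (ent b T i i).re ≤ 1 :=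
  (le_hasSum h.tr i (fun j _ => ent_diag_nonneg b h.pos j))

lemma TS.norm_ent_le_one {b : HilbertBasis ι ℂ H} {T : H →L[ℂ] H} (h : TS b T) (i j : ι) :
    ‖ent b T i j‖ ≤ 1 := by
  have h1 := ent_sq_le b h.pos i j
  have h2 : (ent b T i i).re * (ent b T j j).re ≤ 1 :=
    mul_le_one₀ (h.diag_le_one i) (ent_diag_nonneg b h.pos j) (h.diag_le_one j)
  have h3 : ‖ent b T i j‖ ^ 2 ≤ 1 ^ 2 := by rw [one_pow]; exact h1.trans h2
  exact (pow_le_pow_iff_left₀ (norm_nonneg _) zero_le_one two_ne_zero).1 h3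

/-- diagonal as `ENNReal` weights -/
def dg (b : HilbertBasis ι ℂ H) (T : H →L[ℂ] H) (i : ι) : ℝ≥0∞ := ENNReal.ofReal (ent b T i i).re

lemma TS.tsum_dg {b : HilbertBasis ι ℂ H} {T : H →L[ℂ] H} (h : TS b T) : ∑' i, dg b T i = 1 := by
  unfold dg
  rw [← ENNReal.ofReal_tsum_of_nonneg (fun i => ent_diag_nonneg b h.pos i) h.tr.summable,
    h.tr.tsum_eq, ENNReal.ofReal_one]

lemma TS.enorm_ent_sq_le {b : HilbertBasis ι ℂ H} {T : H →L[ℂ] H} (h : TS b T) (i j : ι) :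
    ‖ent b T i j‖ₑ ^ 2 ≤ dg b T i * dg b T j := by
  unfold dg
  rw [← ofReal_norm_eq_enorm, ← ENNReal.ofReal_pow (norm_nonneg _),
    ← ENNReal.ofReal_mul (ent_diag_nonneg b h.pos i)]
  exact ENNReal.ofReal_le_ofReal (ent_sq_le b h.pos i j)

/-- energy -/
def En (b : HilbertBasis ι ℂ H) (w : ι → ℝ≥0) (T : H →L[ℂ] H) : ℝ≥0∞ :=
  ∑' i, (w i : ℝ≥0∞) * dg b T i

/-- Markov: the mass outside `{w ≤ K}` is at most `E/K`. -/
lemma mass_tail_le (b : HilbertBasis ι ℂ H) (w : ι → ℝ≥0) (T : H →L[ℂ] H) {K : ℝ≥0} (hK : 0 < K) :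
    ∑' i : {i // ¬ w i ≤ K}, dg b T i ≤ En b w T / K := by
  rw [ENNReal.le_div_iff_mul_le (Or.inl (by exact_mod_cast hK.ne')) (Or.inl ENNReal.coe_ne_top),
    ← ENNReal.tsum_mul_right]
  unfold En
  refine le_trans (ENNReal.tsum_le_tsum fun i => ?_)
    (ENNReal.tsum_comp_le_tsum_of_injective Subtype.val_injective
      (fun i => (w i : ℝ≥0∞) * dg b T i))
  rw [mul_comm]
  gcongr
  exact (not_le.1 i.2).le

lemma enorm_sub_sq_le (x y : ℂ) : ‖x - y‖ₑ ^ 2 ≤ 2 * ‖x‖ₑ ^ 2 + 2 * ‖y‖ₑ ^ 2 := by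
  have h : ‖x - y‖ ^ 2 ≤ 2 * ‖x‖ ^ 2 + 2 * ‖y‖ ^ 2 := by
    have h1 : ‖x - y‖ ≤ ‖x‖ + ‖y‖ := norm_sub_le x y
    have h2 : ‖x - y‖ ^ 2 ≤ (‖x‖ + ‖y‖) ^ 2 := by gcongr
    nlinarith [sq_nonneg (‖x‖ - ‖y‖)]
  have h2 : (2 : ℝ≥0∞) = ENNReal.ofReal 2 := by simp
  rw [← ofReal_norm_eq_enorm, ← ofReal_norm_eq_enorm, ← ofReal_norm_eq_enorm,
    ← ENNReal.ofReal_pow (norm_nonneg _), ← ENNReal.ofReal_pow (norm_nonneg _),
    ← ENNReal.ofReal_pow (norm_nonneg _), h2, ← ENNReal.ofReal_mul zero_le_two,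
    ← ENNReal.ofReal_mul zero_le_two, ← ENNReal.ofReal_add (by positivity) (by positivity)]
  exact ENNReal.ofReal_le_ofReal h

open Classical in
/-- tail of the diagonal outside `F` -/
def tl (b : HilbertBasis ι ℂ H) (F : Finset ι) (T : H →L[ℂ] H) (i : ι) : ℝ≥0∞ :=
  if i ∈ F then 0 else dg b T i

open Classical in
lemma HS_sub_le {b : HilbertBasis ι ℂ H} {T S : H →L[ℂ] H} (hT : TS b T) (hS : TS b S)
    (F : Finset ι) (m : ℝ≥0∞) (hTm : ∑' i, tl b F T i ≤ m) (hSm : ∑' i, tl b F S i ≤ m) :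
    HS b (T - S) ≤ (∑ i ∈ F, ∑ j ∈ F, ‖ent b T i j - ent b S i j‖ₑ ^ 2) + 8 * m := by
  have hpt : ∀ i j, ‖ent b (T - S) i j‖ₑ ^ 2 ≤
      (if i ∈ F then (if j ∈ F then ‖ent b T i j - ent b S i j‖ₑ ^ 2 else 0) else 0) +
      ((2 * (tl b F T i * dg b T j) + 2 * (dg b T i * tl b F T j)) +
      (2 * (tl b F S i * dg b S j) + 2 * (dg b S i * tl b F S j))) := by
    intro i j
    rw [ent_sub]
    by_cases hi : i ∈ F
    · by_cases hj : j ∈ F
      · simp [hi, hj]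
      · simp only [hi, hj, if_true, if_false, zero_add, tl, zero_mul, mul_zero]
        refine (enorm_sub_sq_le _ _).trans ?_
        gcongr
        · exact hT.enorm_ent_sq_le i j
        · exact hS.enorm_ent_sq_le i j
    · simp only [hi, if_false, zero_add, tl]
      refine (enorm_sub_sq_le _ _).trans ?_
      gcongr
      · exact le_trans (mul_le_mul_right (hT.enorm_ent_sq_le i j) 2) le_self_add
      · exact le_trans (mul_le_mul_right (hS.enorm_ent_sq_le i j) 2) le_self_add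
  unfold HS
  refine (ENNReal.tsum_le_tsum fun i => ENNReal.tsum_le_tsum fun j => hpt i j).trans ?_
  have h1 : ∀ (u v : ι → ℝ≥0∞), ∑' i, ∑' j, 2 * (u i * v j) = 2 * ((∑' i, u i) * (∑' j, v j)) := by
    intro u v
    rw [← ENNReal.tsum_mul_right, ← ENNReal.tsum_mul_left]
    refine tsum_congr fun i => ?_
    rw [ENNReal.tsum_mul_left, ENNReal.tsum_mul_left]
  simp_rw [ENNReal.tsum_add, h1, hT.tsum_dg, hS.tsum_dg, mul_one, one_mul]
  have h2 : ∑' i, ∑' j, (if i ∈ F then (if j ∈ F then ‖ent b T i j - ent b S i j‖ₑ ^ 2 else 0)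
      else 0) = ∑ i ∈ F, ∑ j ∈ F, ‖ent b T i j - ent b S i j‖ₑ ^ 2 := by
    rw [tsum_eq_sum (s := F)]
    · refine Finset.sum_congr rfl fun i hi => ?_
      rw [tsum_eq_sum (s := F)]
      · refine Finset.sum_congr rfl fun j hj => ?_
        simp [hi, hj]
      · intro j hj
        simp [hj]
    · intro i hi
      simp [hi]
  rw [h2]
  gcongr
  calc 2 * ∑' i, tl b F T i + 2 * ∑' i, tl b F T i + (2 * ∑' i, tl b F S i + 2 * ∑' i, tl b F S i)
      ≤ 2 * m + 2 * m + (2 * m + 2 * m) := by gcongr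
    _ = 8 * m := by ring

open Classical in
lemma tl_le (b : HilbertBasis ι ℂ H) (w : ι → ℝ≥0) (T : H →L[ℂ] H) {K : ℝ≥0} (hK : 0 < K)
    (F : Finset ι) (hF : ∀ i, w i ≤ K → i ∈ F) :
    ∑' i, tl b F T i ≤ En b w T / K := by
  rw [ENNReal.le_div_iff_mul_le (Or.inl (by exact_mod_cast hK.ne')) (Or.inl ENNReal.coe_ne_top),
    ← ENNReal.tsum_mul_right]
  unfold En
  refine ENNReal.tsum_le_tsum fun i => ?_
  unfold tl
  split_ifs with hi
  · simp
  · rw [mul_comm]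
    gcongr
    by_contra hcon
    exact hi (hF i (not_le.1 (fun h => hcon h)).le)

/-- positivity passes to norm limits -/
lemma isPositive_of_tendsto {T : ℕ → H →L[ℂ] H} {S : H →L[ℂ] H} (hT : ∀ k, (T k).IsPositive)
    (h : Tendsto T atTop (𝓝 S)) : S.IsPositive := by
  rw [ContinuousLinearMap.isPositive_iff_complex]
  intro x
  have hx : Tendsto (fun k => ⟪T k x, x⟫_ℂ) atTop (𝓝 ⟪S x, x⟫_ℂ) := by
    have h1 : Tendsto (fun k => T k x) atTop (𝓝 (S x)) :=
      ((ContinuousLinearMap.apply ℂ H x).continuous.tendsto S).comp h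
    exact h1.inner tendsto_const_nhds
  have hre : Tendsto (fun k => (⟪T k x, x⟫_ℂ).re) atTop (𝓝 (⟪S x, x⟫_ℂ).re) :=
    (Complex.continuous_re.tendsto _).comp hx
  have him : Tendsto (fun k => (⟪T k x, x⟫_ℂ).im) atTop (𝓝 (⟪S x, x⟫_ℂ).im) :=
    (Complex.continuous_im.tendsto _).comp hx
  have hk : ∀ k, (⟪T k x, x⟫_ℂ).im = 0 := by
    intro k
    have := ((ContinuousLinearMap.isPositive_iff_complex (T k)).1 (hT k) x).1
    rw [← this]
    simp
  have him0 : (⟪S x, x⟫_ℂ).im = 0 := by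
    simp_rw [hk] at him
    exact (tendsto_nhds_unique him tendsto_const_nhds)
  refine ⟨?_, ?_⟩
  · apply Complex.ext
    · simp
    · simp [him0]
  · exact ge_of_tendsto' hre fun k => (hT k).re_inner_nonneg_left x

lemma tendsto_ent {b : HilbertBasis ι ℂ H} {T : ℕ → H →L[ℂ] H} {S : H →L[ℂ] H}
    (h : Tendsto T atTop (𝓝 S)) (i j : ι) :
    Tendsto (fun k => ent b (T k) i j) atTop (𝓝 (ent b S i j)) := by
  have h1 : Tendsto (fun k => T k (b j)) atTop (𝓝 (S (b j))) :=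
    ((ContinuousLinearMap.apply ℂ H (b j)).continuous.tendsto S).comp h
  exact tendsto_const_nhds.inner h1

lemma tendsto_dg {b : HilbertBasis ι ℂ H} {T : ℕ → H →L[ℂ] H} {S : H →L[ℂ] H}
    (h : ∀ i j, Tendsto (fun k => ent b (T k) i j) atTop (𝓝 (ent b S i j))) (i : ι) :
    Tendsto (fun k => dg b (T k) i) atTop (𝓝 (dg b S i)) :=
  (ENNReal.continuous_ofReal.tendsto _).comp ((Complex.continuous_re.tendsto _).comp (h i i))

/-- lower semicontinuity of the energy -/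
lemma En_le_of_tendsto {b : HilbertBasis ι ℂ H} {w : ι → ℝ≥0} {T : ℕ → H →L[ℂ] H}
    {S : H →L[ℂ] H} {E : ℝ≥0∞}
    (h : ∀ i j, Tendsto (fun k => ent b (T k) i j) atTop (𝓝 (ent b S i j)))
    (hE : ∀ k, En b w (T k) ≤ E) : En b w S ≤ E := by
  unfold En
  rw [ENNReal.tsum_eq_iSup_sum]
  refine iSup_le fun F => ?_
  have ht : Tendsto (fun k => ∑ i ∈ F, (w i : ℝ≥0∞) * dg b (T k) i) atTop
      (𝓝 (∑ i ∈ F, (w i : ℝ≥0∞) * dg b S i)) := by
    refine tendsto_finsetSum _ fun i _ => ?_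
    exact ENNReal.Tendsto.const_mul (tendsto_dg h i) (Or.inr ENNReal.coe_ne_top)
  refine le_of_tendsto' ht fun k => ?_
  exact (ENNReal.sum_le_tsum F).trans (hE k)

lemma TS_of_tsum {b : HilbertBasis ι ℂ H} {S : H →L[ℂ] H} (hp : S.IsPositive)
    (h : ∑' i, dg b S i = 1) : TS b S := by
  refine ⟨hp, ?_⟩
  have h1 := ENNReal.hasSum_toReal (f := fun i => dg b S i) (by rw [h]; exact ENNReal.one_ne_top)
  rw [show (fun i => (ent b S i i).re) = fun i => (dg b S i).toReal from ?_]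
  · have e : (∑' i, (dg b S i).toReal) = 1 := by
      rw [← ENNReal.tsum_toReal_eq (f := fun i => dg b S i) (fun i => ENNReal.ofReal_ne_top), h]; simp
    rw [← e]
    exact h1
  · funext i
    unfold dg
    rw [ENNReal.toReal_ofReal (ent_diag_nonneg b hp i)]

open Classical in
/-- the limit of energy-bounded states is a state -/
lemma TS_of_tendsto {b : HilbertBasis ι ℂ H} {w : ι → ℝ≥0} (hw : ∀ K : ℝ≥0, {i | w i ≤ K}.Finite)
    {T : ℕ → H →L[ℂ] H} {S : H →L[ℂ] H} {E : ℝ≥0∞} (hE : E ≠ ⊤) (hT : ∀ k, TS b (T k))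
    (hTE : ∀ k, En b w (T k) ≤ E) (h : Tendsto T atTop (𝓝 S)) : TS b S := by
  have hent := fun i j => tendsto_ent (b := b) h i j
  refine TS_of_tsum (isPositive_of_tendsto (fun k => (hT k).pos) h) (le_antisymm ?_ ?_)
  · rw [ENNReal.tsum_eq_iSup_sum]
    refine iSup_le fun F => ?_
    have ht : Tendsto (fun k => ∑ i ∈ F, dg b (T k) i) atTop (𝓝 (∑ i ∈ F, dg b S i)) :=
      tendsto_finsetSum _ fun i _ => tendsto_dg hent i
    refine le_of_tendsto' ht fun k => ?_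
    rw [← (hT k).tsum_dg]
    exact ENNReal.sum_le_tsum F
  · -- `1 ≤ ∑' dg S + E / K` for every `K`
    have key : ∀ K : ℝ≥0, 0 < K → (1 : ℝ≥0∞) ≤ ∑' i, dg b S i + E / K := by
      intro K hK
      set F : Finset ι := (hw K).toFinset with hF
      have hk : ∀ k, (1 : ℝ≥0∞) ≤ ∑ i ∈ F, dg b (T k) i + E / K := by
        intro k
        have h1 : ∑' i, dg b (T k) i ≤ ∑' i, (if i ∈ F then dg b (T k) i else 0) +
            ∑' i, tl b F (T k) i := by
          rw [← ENNReal.tsum_add]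
          refine ENNReal.tsum_le_tsum fun i => ?_
          unfold tl
          split_ifs <;> simp
        rw [(hT k).tsum_dg] at h1
        refine h1.trans ?_
        gcongr
        · rw [tsum_eq_sum (s := F)]
          · refine Finset.sum_le_sum fun i hi => ?_
            simp [hi]
          · intro i hi; simp [hi]
        · refine (tl_le b w (T k) hK F ?_).trans ?_
          · intro i hi; rw [hF]; simpa using hi
          · gcongr
            exact hTE k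
      have ht : Tendsto (fun k => ∑ i ∈ F, dg b (T k) i + E / K) atTop
          (𝓝 (∑ i ∈ F, dg b S i + E / K)) :=
        (tendsto_finsetSum _ fun i _ => tendsto_dg hent i).add tendsto_const_nhds
      refine (ge_of_tendsto' ht hk).trans ?_
      gcongr
      exact ENNReal.sum_le_tsum F
    have hlim : Tendsto (fun K : ℕ => ∑' i, dg b S i + E / ((K : ℝ≥0) : ℝ≥0∞)) atTop
        (𝓝 (∑' i, dg b S i + 0)) := by
      refine tendsto_const_nhds.add ?_
      have : Tendsto (fun K : ℕ => E / (K : ℝ≥0∞)) atTop (𝓝 0) := by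
        have h3 := ENNReal.Tendsto.const_div (a := E) ENNReal.tendsto_nat_nhds_top (Or.inr hE)
        simpa using h3
      simpa using this
    rw [add_zero] at hlim
    refine ge_of_tendsto hlim ?_
    filter_upwards [eventually_gt_atTop 0] with K hK
    exact key (K : ℝ≥0) (by exact_mod_cast hK)

open Classical in
/-- entrywise convergence + bounded energies: the sequence is Cauchy in operator norm -/
theorem cauchySeq_of_ent {b : HilbertBasis ι ℂ H} {w : ι → ℝ≥0}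
    (hw : ∀ K : ℝ≥0, {i | w i ≤ K}.Finite) {T : ℕ → H →L[ℂ] H} {E : ℝ≥0∞} (hE : E ≠ ⊤)
    (hT : ∀ k, TS b (T k)) (hTE : ∀ k, En b w (T k) ≤ E) {t : ι → ι → ℂ}
    (h : ∀ i j, Tendsto (fun k => ent b (T k) i j) atTop (𝓝 (t i j))) : CauchySeq T := by
  have hHS : ∀ δ : ℝ≥0∞, 0 < δ → ∀ᶠ p : ℕ × ℕ in atTop, HS b (T p.1 - T p.2) ≤ δ := by
    intro δ hδ
    have hδ2 : (0 : ℝ≥0∞) < δ / 2 := ENNReal.half_pos hδ.ne'
    -- choose `K` with `8 * (E / K) ≤ δ / 2`
    have hlim : Tendsto (fun K : ℕ => 8 * (E / (K : ℝ≥0∞))) atTop (𝓝 0) := by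
      have h3 := ENNReal.Tendsto.const_div (a := E) ENNReal.tendsto_nat_nhds_top (Or.inr hE)
      have h4 := ENNReal.Tendsto.const_mul (a := 8) h3 (Or.inr (by simp))
      simpa using h4
    obtain ⟨K, hK0, hK⟩ := ((eventually_gt_atTop 0).and (hlim.eventually_le_const hδ2)).exists
    have hK0' : (0 : ℝ≥0) < (K : ℝ≥0) := by exact_mod_cast hK0
    set F : Finset ι := (hw (K : ℝ≥0)).toFinset with hF
    have hFm : ∀ i, w i ≤ (K : ℝ≥0) → i ∈ F := by intro i hi; rw [hF]; simpa using hi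
    have htail : ∀ k, ∑' i, tl b F (T k) i ≤ E / ((K : ℝ≥0) : ℝ≥0∞) := fun k =>
      (tl_le b w (T k) hK0' F hFm).trans (by gcongr; exact hTE k)
    have hblock : Tendsto (fun p : ℕ × ℕ => ∑ i ∈ F, ∑ j ∈ F,
        ‖ent b (T p.1) i j - ent b (T p.2) i j‖ₑ ^ 2) atTop (𝓝 0) := by
      have h0 : (0 : ℝ≥0∞) = ∑ i ∈ F, ∑ j ∈ F, ‖t i j - t i j‖ₑ ^ 2 := by simp
      rw [h0]
      refine tendsto_finsetSum _ fun i _ => tendsto_finsetSum _ fun j _ => ?_
      rw [← prod_atTop_atTop_eq]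
      have h1 : Tendsto (fun p : ℕ × ℕ => ent b (T p.1) i j) (atTop ×ˢ atTop) (𝓝 (t i j)) :=
        (h i j).comp tendsto_fst
      have h2 : Tendsto (fun p : ℕ × ℕ => ent b (T p.2) i j) (atTop ×ˢ atTop) (𝓝 (t i j)) :=
        (h i j).comp tendsto_snd
      exact ENNReal.Tendsto.pow (h1.sub h2).enorm
    filter_upwards [hblock.eventually_le_const hδ2] with p hp
    refine (HS_sub_le (hT p.1) (hT p.2) F _ (htail p.1) (htail p.2)).trans ?_
    calc _ ≤ δ / 2 + δ / 2 := add_le_add hp (by simpa using hK)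
      _ = δ := ENNReal.add_halves δ
  rw [cauchySeq_iff_tendsto_dist_atTop_0, Metric.tendsto_nhds]
  intro ε hε
  have hε2 : (0 : ℝ≥0∞) < ENNReal.ofReal ((ε / 2) ^ 2) := ENNReal.ofReal_pos.2 (by positivity)
  filter_upwards [hHS _ hε2] with p hp
  have h1 := (enorm_sq_le_HS b (T p.1 - T p.2)).trans hp
  rw [← ofReal_norm_eq_enorm, ← ENNReal.ofReal_pow (norm_nonneg _),
    ENNReal.ofReal_le_ofReal_iff (by positivity)] at h1
  have h2 : ‖T p.1 - T p.2‖ ≤ ε / 2 :=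
    (pow_le_pow_iff_left₀ (norm_nonneg _) (by positivity) two_ne_zero).1 h1
  rw [Real.dist_eq, dist_eq_norm, sub_zero, abs_of_nonneg (norm_nonneg _)]
  linarith

/-- entrywise convergence to the entries of `S` + bounded energies gives norm convergence -/
theorem tendsto_of_ent {b : HilbertBasis ι ℂ H} {w : ι → ℝ≥0}
    (hw : ∀ K : ℝ≥0, {i | w i ≤ K}.Finite) {T : ℕ → H →L[ℂ] H} {E : ℝ≥0∞} (hE : E ≠ ⊤)
    (hT : ∀ k, TS b (T k)) (hTE : ∀ k, En b w (T k) ≤ E) {S : H →L[ℂ] H}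
    (h : ∀ i j, Tendsto (fun k => ent b (T k) i j) atTop (𝓝 (ent b S i j))) :
    Tendsto T atTop (𝓝 S) := by
  obtain ⟨S', hS'⟩ := cauchySeq_tendsto_of_complete (cauchySeq_of_ent hw hE hT hTE h)
  have heq : S' = S := by
    apply ext_ent b
    intro i j
    exact tendsto_nhds_unique (tendsto_ent (b := b) hS' i j) (h i j)
  rw [← heq]; exact hS'

/-- COMPACTNESS -/
theorem compactness [Countable ι] {b : HilbertBasis ι ℂ H} {w : ι → ℝ≥0}
    (hw : ∀ K : ℝ≥0, {i | w i ≤ K}.Finite) {T : ℕ → H →L[ℂ] H} {E : ℝ≥0∞} (hE : E ≠ ⊤)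
    (hT : ∀ k, TS b (T k)) (hTE : ∀ k, En b w (T k) ≤ E) :
    ∃ (φ : ℕ → ℕ) (S : H →L[ℂ] H), StrictMono φ ∧ TS b S ∧ En b w S ≤ E ∧
      Tendsto (fun k => T (φ k)) atTop (𝓝 S) := by
  have hcomp : IsCompact (Set.univ.pi fun _ : ι × ι => Metric.closedBall (0 : ℂ) 1) :=
    isCompact_univ_pi fun _ => isCompact_closedBall _ _
  obtain ⟨t, -, φ, hφ, ht⟩ := hcomp.tendsto_subseq (x := fun k p => ent b (T k) p.1 p.2) (by
    intro k p _
    simpa using (hT k).norm_ent_le_one p.1 p.2)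
  have ht' : ∀ i j, Tendsto (fun k => ent b (T (φ k)) i j) atTop (𝓝 (t (i, j))) := by
    intro i j
    exact (tendsto_pi_nhds.1 ht (i, j))
  obtain ⟨S, hS⟩ := cauchySeq_tendsto_of_complete
    (cauchySeq_of_ent (T := fun k => T (φ k)) hw hE (fun k => hT _) (fun k => hTE _) ht')
  refine ⟨φ, S, hφ, TS_of_tendsto hw hE (fun k => hT (φ k)) (fun k => hTE _) hS,
    En_le_of_tendsto (tendsto_ent hS) (fun k => hTE (φ k)), hS⟩

end Crest.Agent.R331.CPT682
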