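/-
Row 331 (S0514), leaf [CPT], part 2: continuity of the entropy along energy-bounded sequences.
Generic Hilbert space `H` with a Hilbert basis `b : HilbertBasis ι ℂ H`, density operators `TS b T`.
-/
import Mathlib
import Crest.Agent.R331.Cpt1_682

set_option autoImplicit false
set_option linter.unusedSectionVars false
set_option linter.deprecated false
set_option linter.unusedSimpArgs false
set_option linter.style.haveILetI false

noncomputable section

namespace Crest.Agent.R331.CPT682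

open scoped InnerProductSpace ENNReal Topology NNReal
open Filter

variable {H : Type*} [NormedAddCommGroup H] [InnerProductSpace ℂ H] [CompleteSpace H]
variable {ι : Type*}

/-! ### spectrum of a density operator -/

lemma TS.norm_le_one {b : HilbertBasis ι ℂ H} {T : H →L[ℂ] H} (h : TS b T) : ‖T‖ ≤ 1 := by
  have h1 : HS b T ≤ 1 := by
    unfold HS
    calc ∑' i, ∑' j, ‖ent b T i j‖ₑ ^ 2 ≤ ∑' i, ∑' j, dg b T i * dg b T j :=
          ENNReal.tsum_le_tsum fun i => ENNReal.tsum_le_tsum fun j => h.enorm_ent_sq_le i j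
      _ = 1 := by
          simp_rw [ENNReal.tsum_mul_left, ENNReal.tsum_mul_right, h.tsum_dg, mul_one]
  have h2 := (enorm_sq_le_HS b T).trans h1
  rw [← ofReal_norm_eq_enorm, ← ENNReal.ofReal_pow (norm_nonneg _), ← ENNReal.ofReal_one,
    ENNReal.ofReal_le_ofReal_iff zero_le_one] at h2
  nlinarith [norm_nonneg T]

lemma TS.nonneg {b : HilbertBasis ι ℂ H} {T : H →L[ℂ] H} (h : TS b T) : 0 ≤ T :=
  (ContinuousLinearMap.nonneg_iff_isPositive T).2 h.pos

lemma TS.isSelfAdjoint {b : HilbertBasis ι ℂ H} {T : H →L[ℂ] H} (h : TS b T) : IsSelfAdjoint T :=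
  h.pos.isSelfAdjoint

lemma TS.spectrum_subset {b : HilbertBasis ι ℂ H} {T : H →L[ℂ] H} (h : TS b T) :
    spectrum ℝ T ⊆ Set.Icc 0 1 := by
  intro x hx
  refine ⟨spectrum_nonneg_of_nonneg h.nonneg hx, ?_⟩
  have h1 : T ≤ algebraMap ℝ (H →L[ℂ] H) 1 := by
    rw [map_one]
    exact (CStarAlgebra.norm_le_one_iff_of_nonneg T h.nonneg).1 h.norm_le_one
  exact (le_algebraMap_iff_spectrum_le (a := T) (ha := h.isSelfAdjoint)).1 h1 x hx

/-- the entropy operator `-T log T` -/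
def Sop (T : H →L[ℂ] H) : H →L[ℂ] H := cfc Real.negMulLog T

lemma tangent (c x : ℝ) (hx : 0 ≤ x) : Real.negMulLog x ≤ c * x + Real.exp (-c - 1) := by
  rcases hx.eq_or_lt with rfl | hx
  · simp [Real.exp_nonneg]
  have h1 : Real.log (Real.exp (-c - 1) / x) ≤ Real.exp (-c - 1) / x - 1 :=
    Real.log_le_sub_one_of_pos (by positivity)
  rw [Real.log_div (Real.exp_pos _).ne' hx.ne', Real.log_exp] at h1
  have h2 := mul_le_mul_of_nonneg_left h1 hx.le
  have h3 : x * (Real.exp (-c - 1) / x - 1) = Real.exp (-c - 1) - x := by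
    field_simp
  rw [h3] at h2
  unfold Real.negMulLog
  nlinarith

lemma re_ent_mono (b : HilbertBasis ι ℂ H) {T S : H →L[ℂ] H} (h : T ≤ S) (i : ι) :
    (ent b T i i).re ≤ (ent b S i i).re := by
  have h1 : (S - T).IsPositive := (ContinuousLinearMap.nonneg_iff_isPositive _).1 (sub_nonneg.2 h)
  have h2 := ent_diag_nonneg b h1 i
  rw [ent_sub] at h2
  simpa using h2

lemma ent_one (b : HilbertBasis ι ℂ H) (i : ι) : ent b (1 : H →L[ℂ] H) i i = 1 := by
  unfold ent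
  have := b.orthonormal.1 i
  rw [ContinuousLinearMap.one_apply, inner_self_eq_norm_sq_to_K, this]
  simp

lemma Sop_diag_nonneg {b : HilbertBasis ι ℂ H} {T : H →L[ℂ] H} (h : TS b T) (i : ι) :
    0 ≤ (ent b (Sop T) i i).re := by
  have h1 : 0 ≤ Sop T := cfc_nonneg fun x hx => by
    have := h.spectrum_subset hx
    exact Real.negMulLog_nonneg this.1 this.2
  exact ent_diag_nonneg b ((ContinuousLinearMap.nonneg_iff_isPositive _).1 h1) i

lemma Sop_diag_le {b : HilbertBasis ι ℂ H} {T : H →L[ℂ] H} (h : TS b T) (c : ℝ) (i : ι) :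
    (ent b (Sop T) i i).re ≤ c * (ent b T i i).re + Real.exp (-c - 1) := by
  have h1 : Sop T ≤ cfc (fun x : ℝ => c * x + Real.exp (-c - 1)) T := by
    refine cfc_mono (fun x hx => tangent c x (h.spectrum_subset hx).1) ?_ ?_
    · exact Real.continuous_negMulLog.continuousOn
    · fun_prop
  have h2 : cfc (fun x : ℝ => c * x + Real.exp (-c - 1)) T =
      (c : ℂ) • T + ((Real.exp (-c - 1) : ℝ) : ℂ) • (1 : H →L[ℂ] H) := by
    rw [cfc_add_const _ _ _ (by fun_prop) h.isSelfAdjoint, cfc_const_mul_id c T h.isSelfAdjoint]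
    congr 1
  have h3 := re_ent_mono b h1 i
  rw [h2, ent_add, ent_smul, ent_smul, ent_one, Complex.add_re, Complex.re_ofReal_mul,
    Complex.re_ofReal_mul, Complex.one_re, mul_one] at h3
  exact h3

/-- entropy as an extended nonnegative number -/
def SE (b : HilbertBasis ι ℂ H) (T : H →L[ℂ] H) : ℝ≥0∞ :=
  ∑' i, ENNReal.ofReal (ent b (Sop T) i i).re

/-- Gibbs type weights -/
def gw (w : ι → ℝ≥0) (δ : ℝ≥0) (i : ι) : ℝ≥0∞ := ENNReal.ofReal (Real.exp (-(δ * w i : ℝ) - 1))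

lemma ofReal_Sop_le {b : HilbertBasis ι ℂ H} {T : H →L[ℂ] H} (h : TS b T) (w : ι → ℝ≥0) (δ : ℝ≥0)
    (i : ι) : ENNReal.ofReal (ent b (Sop T) i i).re ≤ δ * (w i * dg b T i) + gw w δ i := by
  unfold gw dg
  refine (ENNReal.ofReal_le_ofReal (Sop_diag_le h (δ * w i : ℝ) i)).trans ?_
  rw [ENNReal.ofReal_add (mul_nonneg (by positivity) (ent_diag_nonneg b h.pos i))
    (Real.exp_nonneg _), ENNReal.ofReal_mul (by positivity), ENNReal.ofReal_mul (by positivity),
    ENNReal.ofReal_coe_nnreal, ENNReal.ofReal_coe_nnreal, mul_assoc]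

open Classical in
lemma tail_le {b : HilbertBasis ι ℂ H} {T : H →L[ℂ] H} (h : TS b T) (w : ι → ℝ≥0) (δ : ℝ≥0)
    (F : Finset ι) :
    ∑' i : {i // i ∉ F}, ENNReal.ofReal (ent b (Sop T) i i).re ≤
      δ * En b w T + ∑' i : {i // i ∉ F}, gw w δ i := by
  refine (ENNReal.tsum_le_tsum fun i : {i // i ∉ F} => ofReal_Sop_le h w δ i).trans ?_
  rw [ENNReal.tsum_add]
  gcongr
  rw [ENNReal.tsum_mul_left]
  gcongr
  exact ENNReal.tsum_comp_le_tsum_of_injective Subtype.val_injective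
    (fun i => (w i : ℝ≥0∞) * dg b T i)

lemma SE_le {b : HilbertBasis ι ℂ H} {T : H →L[ℂ] H} (h : TS b T) (w : ι → ℝ≥0) (δ : ℝ≥0) :
    SE b T ≤ δ * En b w T + ∑' i, gw w δ i := by
  unfold SE
  refine (ENNReal.tsum_le_tsum fun i => ofReal_Sop_le h w δ i).trans ?_
  rw [ENNReal.tsum_add, ENNReal.tsum_mul_left]
  rfl

lemma tendsto_Sop {b : HilbertBasis ι ℂ H} {T : ℕ → H →L[ℂ] H} {S : H →L[ℂ] H}
    (hT : ∀ k, TS b (T k)) (hS : TS b S) (h : Tendsto T atTop (𝓝 S)) :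
    Tendsto (fun k => Sop (T k)) atTop (𝓝 (Sop S)) := by
  unfold Sop
  exact Filter.Tendsto.cfc (s := Set.Icc (0 : ℝ) 1) isCompact_Icc Real.negMulLog h
    (Eventually.of_forall fun k => (hT k).spectrum_subset)
    (Eventually.of_forall fun k => (hT k).isSelfAdjoint) hS.spectrum_subset hS.isSelfAdjoint
    Real.continuous_negMulLog.continuousOn

open Classical in
/-- CONTINUITY OF THE ENTROPY on energy-bounded norm-convergent sequences of states. -/
theorem tendsto_SE {b : HilbertBasis ι ℂ H} {w : ι → ℝ≥0}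
    (hw : ∀ δ : ℝ≥0, 0 < δ → ∑' i, gw w δ i ≠ ⊤) {T : ℕ → H →L[ℂ] H} {S : H →L[ℂ] H}
    {E : ℝ≥0∞} (hE : E ≠ ⊤) (hT : ∀ k, TS b (T k)) (hS : TS b S) (hTE : ∀ k, En b w (T k) ≤ E)
    (hSE : En b w S ≤ E) (h : Tendsto T atTop (𝓝 S)) :
    Tendsto (fun k => SE b (T k)) atTop (𝓝 (SE b S)) := by
  have hfin : ∀ {R : H →L[ℂ] H}, TS b R → En b w R ≤ E → SE b R ≠ ⊤ := by
    intro R hR hRE
    refine ne_top_of_le_ne_top ?_ (SE_le hR w 1)
    exact ENNReal.add_ne_top.2 ⟨ENNReal.mul_ne_top ENNReal.coe_ne_top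
      (ne_top_of_le_ne_top hE hRE), hw 1 one_pos⟩
  have hSop := tendsto_Sop hT hS h
  rw [ENNReal.tendsto_nhds (hfin hS hSE)]
  intro ε hε
  -- reduce to finite `ε`
  wlog hεt : ε ≠ ⊤ generalizing ε
  · have hε' : ε = ⊤ := not_not.1 hεt
    refine Eventually.of_forall fun k => ?_
    rw [hε']
    simp
  have hε4 : (0 : ℝ≥0∞) < ε / 2 / 2 := ENNReal.half_pos (ENNReal.half_pos hε.ne').ne'
  -- choose `δ` with `δ * E ≤ ε / 2 / 2`
  obtain ⟨δ, hδ0, hδ⟩ : ∃ δ : ℝ≥0, 0 < δ ∧ (δ : ℝ≥0∞) * E ≤ ε / 2 / 2 := by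
    have hlim : Tendsto (fun m : ℕ => (((1 : ℝ≥0) / (m + 1) : ℝ≥0) : ℝ≥0∞) * E) atTop (𝓝 0) := by
      have h1 : Tendsto (fun m : ℕ => (((1 : ℝ≥0) / (m + 1) : ℝ≥0) : ℝ≥0∞)) atTop (𝓝 0) := by
        rw [← ENNReal.coe_zero, ENNReal.tendsto_coe]
        exact tendsto_one_div_add_atTop_nhds_zero_nat
      have h2 := ENNReal.Tendsto.mul_const h1 (Or.inr hE)
      simpa using h2
    obtain ⟨m, hm⟩ := (hlim.eventually_le_const hε4).exists
    exact ⟨(1 : ℝ≥0) / (m + 1), by positivity, hm⟩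
  -- choose `F` with small Gibbs tail
  obtain ⟨F, hF⟩ : ∃ F : Finset ι, ∑' i : {i // i ∉ F}, gw w δ i ≤ ε / 2 / 2 :=
    ((ENNReal.tendsto_tsum_compl_atTop_zero (hw δ hδ0)).eventually_le_const hε4).exists
  have htail : ∀ {R : H →L[ℂ] H}, TS b R → En b w R ≤ E →
      ∑' i : {i // i ∉ F}, ENNReal.ofReal (ent b (Sop R) i i).re ≤ ε / 2 := by
    intro R hR hRE
    refine (tail_le hR w δ F).trans ?_
    calc (δ : ℝ≥0∞) * En b w R + ∑' i : {i // i ∉ F}, gw w δ i ≤ ε / 2 / 2 + ε / 2 / 2 := by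
          refine add_le_add ?_ hF
          exact (mul_le_mul_right hRE _).trans hδ
      _ = ε / 2 := ENNReal.add_halves _
  have hsplit : ∀ R : H →L[ℂ] H, SE b R = ∑ i ∈ F, ENNReal.ofReal (ent b (Sop R) i i).re +
      ∑' i : {i // i ∉ F}, ENNReal.ofReal (ent b (Sop R) i i).re := by
    intro R
    unfold SE
    exact (ENNReal.sum_add_tsum_compl (s := F) (f := fun i => ENNReal.ofReal (ent b (Sop R) i i).re)).symm
  have hblock : Tendsto (fun k => ∑ i ∈ F, ENNReal.ofReal (ent b (Sop (T k)) i i).re) atTop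
      (𝓝 (∑ i ∈ F, ENNReal.ofReal (ent b (Sop S) i i).re)) := by
    refine tendsto_finsetSum _ fun i _ => ?_
    exact (ENNReal.continuous_ofReal.tendsto _).comp
      ((Complex.continuous_re.tendsto _).comp (tendsto_ent hSop i i))
  have hblockfin : (∑ i ∈ F, ENNReal.ofReal (ent b (Sop S) i i).re) ≠ ⊤ :=
    ENNReal.sum_ne_top.2 fun i _ => ENNReal.ofReal_ne_top
  have hb := (ENNReal.tendsto_nhds hblockfin).1 hblock (ε / 2) (ENNReal.half_pos hε.ne')
  filter_upwards [hb] with k hk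
  rw [Set.mem_Icc] at hk ⊢
  have h1 := htail (hT k) (hTE k)
  have h2 := htail hS hSE
  constructor
  · rw [tsub_le_iff_right]
    calc SE b S = _ := hsplit S
      _ ≤ (∑ i ∈ F, ENNReal.ofReal (ent b (Sop (T k)) i i).re + ε / 2) + ε / 2 := by
          refine add_le_add ?_ h2
          exact tsub_le_iff_right.1 hk.1
      _ = ∑ i ∈ F, ENNReal.ofReal (ent b (Sop (T k)) i i).re + ε := by
          rw [add_assoc, ENNReal.add_halves]
      _ ≤ SE b (T k) + ε := by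
          gcongr
          rw [hsplit (T k)]
          exact le_self_add
  · calc SE b (T k) = _ := hsplit (T k)
      _ ≤ (∑ i ∈ F, ENNReal.ofReal (ent b (Sop S) i i).re + ε / 2) + ε / 2 :=
          add_le_add hk.2 h1
      _ = ∑ i ∈ F, ENNReal.ofReal (ent b (Sop S) i i).re + ε := by
          rw [add_assoc, ENNReal.add_halves]
      _ ≤ SE b S + ε := by
          gcongr
          rw [hsplit S]
          exact le_self_add

/-! ### real valued entropy -/

/-- the entropy of `T` is `s` -/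
def HasS (b : HilbertBasis ι ℂ H) (T : H →L[ℂ] H) (s : ℝ) : Prop :=
  HasSum (fun i => (ent b (Sop T) i i).re) s

lemma HasS.ofReal_eq {b : HilbertBasis ι ℂ H} {T : H →L[ℂ] H} {s : ℝ} (h : TS b T)
    (hs : HasS b T s) : SE b T = ENNReal.ofReal s := by
  unfold SE
  rw [← ENNReal.ofReal_tsum_of_nonneg (fun i => Sop_diag_nonneg h i) hs.summable, hs.tsum_eq]

lemma HasS.nonneg {b : HilbertBasis ι ℂ H} {T : H →L[ℂ] H} {s : ℝ} (h : TS b T)
    (hs : HasS b T s) : 0 ≤ s := HasSum.nonneg (fun i => Sop_diag_nonneg h i) hs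

lemma hasS_of_ne_top {b : HilbertBasis ι ℂ H} {T : H →L[ℂ] H} (h : TS b T) (hfin : SE b T ≠ ⊤) :
    HasS b T (SE b T).toReal := by
  unfold HasS
  have h1 := ENNReal.hasSum_toReal (f := fun i => ENNReal.ofReal (ent b (Sop T) i i).re) hfin
  have e : (∑' i, (ENNReal.ofReal (ent b (Sop T) i i).re).toReal) = (SE b T).toReal := by
    unfold SE
    rw [← ENNReal.tsum_toReal_eq (f := fun i => ENNReal.ofReal (ent b (Sop T) i i).re)
      (fun i => ENNReal.ofReal_ne_top)]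
  have e2 : (fun i => (ent b (Sop T) i i).re) =
      fun i => (ENNReal.ofReal (ent b (Sop T) i i).re).toReal := by
    funext i
    rw [ENNReal.toReal_ofReal (Sop_diag_nonneg h i)]
  rw [e2, ← e]
  exact h1

/-- finite energy gives finite entropy -/
lemma SE_ne_top {b : HilbertBasis ι ℂ H} {w : ι → ℝ≥0}
    (hw : ∑' i, gw w 1 i ≠ ⊤) {T : H →L[ℂ] H} (hT : TS b T) (hE : En b w T ≠ ⊤) :
    SE b T ≠ ⊤ :=
  ne_top_of_le_ne_top (ENNReal.add_ne_top.2 ⟨ENNReal.mul_ne_top ENNReal.coe_ne_top hE, hw⟩)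
    (SE_le hT w 1)

/-- entropy continuity, real form -/
theorem tendsto_entropy {b : HilbertBasis ι ℂ H} {w : ι → ℝ≥0}
    (hw : ∀ δ : ℝ≥0, 0 < δ → ∑' i, gw w δ i ≠ ⊤) {T : ℕ → H →L[ℂ] H} {S : H →L[ℂ] H}
    {E : ℝ≥0∞} (hE : E ≠ ⊤) (hT : ∀ k, TS b (T k)) (hS : TS b S) (hTE : ∀ k, En b w (T k) ≤ E)
    (hSE : En b w S ≤ E) (h : Tendsto T atTop (𝓝 S)) {s : ℕ → ℝ} {σ : ℝ}
    (hs : ∀ k, HasS b (T k) (s k)) (hσ : HasS b S σ) : Tendsto s atTop (𝓝 σ) := by
  have h1 := tendsto_SE hw hE hT hS hTE hSE h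
  have h2 : SE b S ≠ ⊤ := by rw [hσ.ofReal_eq hS]; exact ENNReal.ofReal_ne_top
  have h3 := (ENNReal.tendsto_toReal h2).comp h1
  rw [hσ.ofReal_eq hS, ENNReal.toReal_ofReal (hσ.nonneg hS)] at h3
  refine h3.congr fun k => ?_
  show (SE b (T k)).toReal = s k
  rw [(hs k).ofReal_eq (hT k), ENNReal.toReal_ofReal ((hs k).nonneg (hT k))]

end Crest.Agent.R331.CPT682
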