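/-
Row 331 (S0514), leaf [CPT], part 3: instantiation for `FockState n`.
Main results (namespace `Crest.Agent.R331.CPT682`):
* `kb n : HilbertBasis (Occ n) ℂ (Fock n)` with `kb n k = ket k`;
* `entry_eq_ent`, `TS_op`, `finiteEnergy_iff`, `hasEntropy_iff`;
* `exists_hasEntropy` : every finite energy state has an entropy;
* `norm_tendsto_of_entry`, `entropy_tendsto` : continuity of the entropy under entrywise convergence
  with bounded energy.
-/
import Mathlib
import Crest.Prelude.Def_FockState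
import Crest.Agent.R331.Cpt2_682

set_option autoImplicit false
set_option linter.unusedSectionVars false
set_option linter.deprecated false
set_option linter.unusedSimpArgs false
set_option linter.style.haveILetI false

noncomputable section

namespace Crest.Agent.R331.CPT682

open scoped InnerProductSpace ENNReal Topology NNReal
open Filter Crest.MathPhysics.Bosonic

variable {n : ℕ}

/-- the number basis as a Hilbert basis -/
def kb (n : ℕ) : HilbertBasis (Occ n) ℂ (Fock n) :=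
  HilbertBasis.ofRepr (LinearIsometryEquiv.refl ℂ (Fock n))

lemma kb_apply (k : Occ n) : kb n k = ket k := by
  have h := (kb n).repr_symm_single k
  rw [← h]
  rfl

lemma entry_eq_ent (T : Fock n →L[ℂ] Fock n) (k l : Occ n) : entry T k l = ent (kb n) T k l := by
  unfold entry ent
  rw [kb_apply, kb_apply]

lemma TS_op (ρ : FockState n) : TS (kb n) ρ.op := by
  refine ⟨ρ.pos, ?_⟩
  have h := ρ.traceOne
  simp_rw [entry_eq_ent] at h
  exact h

/-- a density operator as a `FockState` -/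
def mkState (T : Fock n →L[ℂ] Fock n) (h : TS (kb n) T) : FockState n where
  op := T
  pos := h.pos
  traceOne := by
    simp_rw [entry_eq_ent]
    exact h.tr

/-- total photon number -/
def tw (n : ℕ) (k : Occ n) : ℝ≥0 := ((∑ j, k j : ℕ) : ℝ≥0)

lemma tw_coe (k : Occ n) : ((tw n k : ℝ≥0) : ℝ) = ((∑ j, k j : ℕ) : ℝ) := by
  simp [tw]

lemma finite_tw (K : ℝ≥0) : {k : Occ n | tw n k ≤ K}.Finite := by
  refine (Set.finite_Iic (fun _ : Fin n => ⌊K⌋₊)).subset ?_
  intro k hk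
  rw [Set.mem_Iic]
  intro j
  rw [Set.mem_setOf_eq, tw] at hk
  refine Nat.le_floor ?_
  refine le_trans ?_ hk
  exact_mod_cast Finset.single_le_sum (f := fun j => k j) (fun _ _ => Nat.zero_le _) (Finset.mem_univ j)

lemma gw_tw (δ : ℝ≥0) (k : Occ n) :
    gw (tw n) δ k = ENNReal.ofReal (Real.exp (-1)) * ∏ j, ENNReal.ofReal (Real.exp (-(δ : ℝ)) ^ (k j)) := by
  unfold gw
  rw [tw_coe, ← ENNReal.ofReal_prod_of_nonneg (fun _ _ => by positivity),
    ← ENNReal.ofReal_mul (Real.exp_nonneg _)]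
  congr 1
  simp_rw [← Real.exp_nat_mul]
  rw [← Real.exp_sum, ← Real.exp_add]
  congr 1
  push_cast
  rw [Finset.mul_sum, ← Finset.sum_neg_distrib]
  rw [add_comm, sub_eq_add_neg]
  congr 1
  refine Finset.sum_congr rfl fun j _ => ?_
  ring

lemma tsum_prod_le {f : ℕ → ℝ≥0∞} :
    ∑' k : Occ n, ∏ j, f (k j) ≤ (∑' m, f m) ^ n := by
  classical
  rw [ENNReal.tsum_eq_iSup_sum]
  refine iSup_le fun F => ?_
  obtain ⟨M, hM⟩ : ∃ M : ℕ, ∀ k ∈ F, ∀ j, k j < M := by
    refine ⟨(F.sup fun k => Finset.univ.sup fun j => k j) + 1, fun k hk j => ?_⟩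
    refine Nat.lt_succ_of_le ?_
    exact (Finset.le_sup (f := fun j => k j) (Finset.mem_univ j)).trans
      (Finset.le_sup (f := fun k : Occ n => Finset.univ.sup fun j => k j) hk)
  calc ∑ k ∈ F, ∏ j, f (k j) ≤ ∑ k ∈ Fintype.piFinset (fun _ : Fin n => Finset.range M), ∏ j, f (k j) := by
        refine Finset.sum_le_sum_of_subset ?_
        intro k hk
        rw [Fintype.mem_piFinset]
        intro j
        exact Finset.mem_range.2 (hM k hk j)
    _ = ∏ _j : Fin n, ∑ m ∈ Finset.range M, f m := by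
        rw [Finset.prod_univ_sum]
    _ ≤ ∏ _j : Fin n, ∑' m, f m := by
        refine Finset.prod_le_prod' fun j _ => ENNReal.sum_le_tsum _
    _ = (∑' m, f m) ^ n := by simp

lemma gw_tw_summable (δ : ℝ≥0) (hδ : 0 < δ) : ∑' k, gw (tw n) δ k ≠ ⊤ := by
  simp_rw [gw_tw]
  rw [ENNReal.tsum_mul_left]
  refine ENNReal.mul_ne_top ENNReal.ofReal_ne_top ?_
  refine ne_top_of_le_ne_top ?_
    (tsum_prod_le (f := fun m => ENNReal.ofReal (Real.exp (-(δ : ℝ)) ^ m)))
  refine ENNReal.pow_ne_top ?_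
  have h1 : Summable (fun m : ℕ => Real.exp (-(δ : ℝ)) ^ m) := by
    refine summable_geometric_of_lt_one (Real.exp_nonneg _) ?_
    rw [Real.exp_lt_one_iff]
    have : (0 : ℝ) < δ := by exact_mod_cast hδ
    linarith
  rw [← ENNReal.ofReal_tsum_of_nonneg (fun m => by positivity) h1]
  exact ENNReal.ofReal_ne_top

lemma finiteEnergy_iff (ρ : FockState n) : FiniteEnergy ρ ↔ En (kb n) (tw n) ρ.op ≠ ⊤ := by
  unfold FiniteEnergy En
  have h0 : ∀ k, 0 ≤ ((∑ j, k j : ℕ) : ℝ) * (entry ρ.op k k).re := fun k =>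
    mul_nonneg (Nat.cast_nonneg _) (by rw [entry_eq_ent]; exact ent_diag_nonneg _ ρ.pos k)
  have h1 : ∀ k : Occ n, (tw n k : ℝ≥0∞) * dg (kb n) ρ.op k =
      ENNReal.ofReal (((∑ j, k j : ℕ) : ℝ) * (entry ρ.op k k).re) := by
    intro k
    rw [ENNReal.ofReal_mul (Nat.cast_nonneg _), entry_eq_ent]
    unfold dg
    rw [← tw_coe, ENNReal.ofReal_coe_nnreal]
  simp_rw [h1]
  refine ⟨fun h => h.tsum_ofReal_ne_top, fun h => ?_⟩
  have h2 := (ENNReal.hasSum_toReal h).summable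
  refine h2.congr fun k => ?_
  rw [ENNReal.toReal_ofReal (h0 k)]

lemma cfc_frozen {T : Fock n →L[ℂ] Fock n} (hT : IsSelfAdjoint T) :
    cfc (fun z : ℂ => (-(z.re * Real.log z.re) : ℂ)) T = Sop T := by
  unfold Sop
  rw [cfc_real_eq_complex Real.negMulLog hT]
  congr 1
  funext z
  unfold Real.negMulLog
  push_cast
  ring

lemma hasEntropy_iff (ρ : FockState n) (s : ℝ) : HasEntropy ρ s ↔ HasS (kb n) ρ.op s := by
  unfold HasEntropy HasS
  rw [cfc_frozen ρ.pos.isSelfAdjoint]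
  simp_rw [entry_eq_ent]

/-- every finite energy state has an entropy -/
theorem exists_hasEntropy {ρ : FockState n} (hρ : FiniteEnergy ρ) : ∃ s : ℝ, HasEntropy ρ s := by
  refine ⟨(SE (kb n) ρ.op).toReal, ?_⟩
  rw [hasEntropy_iff]
  exact hasS_of_ne_top (TS_op ρ) (SE_ne_top (gw_tw_summable 1 one_pos) (TS_op ρ)
    ((finiteEnergy_iff ρ).1 hρ))

lemma hasEntropy_nonneg {ρ : FockState n} {s : ℝ} (h : HasEntropy ρ s) : 0 ≤ s :=
  HasS.nonneg (TS_op ρ) ((hasEntropy_iff ρ s).1 h)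

lemma hasEntropy_unique {ρ : FockState n} {s s' : ℝ} (h : HasEntropy ρ s) (h' : HasEntropy ρ s') :
    s = s' := HasSum.unique h h'

/-- the mean photon number as an extended nonnegative number -/
def Eph (ρ : FockState n) : ℝ≥0∞ := En (kb n) (tw n) ρ.op

lemma Eph_eq (ρ : FockState n) : Eph ρ =
    ∑' k : Occ n, ENNReal.ofReal (((∑ j, k j : ℕ) : ℝ) * (entry ρ.op k k).re) := by
  unfold Eph En
  refine tsum_congr fun k => ?_
  rw [ENNReal.ofReal_mul (Nat.cast_nonneg _), entry_eq_ent]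
  unfold dg
  rw [← tw_coe, ENNReal.ofReal_coe_nnreal]

lemma finiteEnergy_iff' (ρ : FockState n) : FiniteEnergy ρ ↔ Eph ρ ≠ ⊤ := finiteEnergy_iff ρ

/-- entrywise convergence with bounded energy is norm convergence -/
theorem norm_tendsto_of_entry {ρ : ℕ → FockState n} {σ : FockState n} {E : ℝ≥0∞} (hE : E ≠ ⊤)
    (hρ : ∀ k, Eph (ρ k) ≤ E)
    (h : ∀ i j, Tendsto (fun k => entry (ρ k).op i j) atTop (𝓝 (entry σ.op i j))) :
    Tendsto (fun k => (ρ k).op) atTop (𝓝 σ.op) := by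
  simp_rw [entry_eq_ent] at h
  exact tendsto_of_ent finite_tw hE (fun k => TS_op (ρ k)) hρ h

/-- CONTINUITY OF THE ENTROPY: entrywise convergence with bounded energy. -/
theorem entropy_tendsto {ρ : ℕ → FockState n} {σ : FockState n} {E : ℝ≥0∞} (hE : E ≠ ⊤)
    (hρ : ∀ k, Eph (ρ k) ≤ E)
    (h : ∀ i j, Tendsto (fun k => entry (ρ k).op i j) atTop (𝓝 (entry σ.op i j)))
    {s : ℕ → ℝ} {t : ℝ} (hs : ∀ k, HasEntropy (ρ k) (s k)) (ht : HasEntropy σ t) :
    Tendsto s atTop (𝓝 t) := by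
  have hn := norm_tendsto_of_entry hE hρ h
  simp_rw [entry_eq_ent] at h
  exact tendsto_entropy (w := tw n) gw_tw_summable hE (fun k => TS_op (ρ k)) (TS_op σ) hρ
    (En_le_of_tendsto h hρ) hn (fun k => (hasEntropy_iff _ _).1 (hs k)) ((hasEntropy_iff _ _).1 ht)

/-- lower semicontinuity of the energy -/
theorem Eph_le_of_tendsto {ρ : ℕ → FockState n} {σ : FockState n} {E : ℝ≥0∞}
    (hρ : ∀ k, Eph (ρ k) ≤ E)
    (h : ∀ i j, Tendsto (fun k => entry (ρ k).op i j) atTop (𝓝 (entry σ.op i j))) : Eph σ ≤ E := by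
  simp_rw [entry_eq_ent] at h
  exact En_le_of_tendsto h hρ

/-- compactness: a sequence of states of bounded energy has an entrywise (and norm) convergent
subsequence. -/
theorem exists_subseq {ρ : ℕ → FockState n} {E : ℝ≥0∞} (hE : E ≠ ⊤) (hρ : ∀ k, Eph (ρ k) ≤ E) :
    ∃ (φ : ℕ → ℕ) (σ : FockState n), StrictMono φ ∧ Eph σ ≤ E ∧
      Tendsto (fun k => (ρ (φ k)).op) atTop (𝓝 σ.op) ∧
      ∀ i j, Tendsto (fun k => entry (ρ (φ k)).op i j) atTop (𝓝 (entry σ.op i j)) := by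
  obtain ⟨φ, S, hφ, hS, hSE, hlim⟩ := compactness (b := kb n) (w := tw n) finite_tw hE
    (fun k => TS_op (ρ k)) hρ
  refine ⟨φ, mkState S hS, hφ, hSE, hlim, fun i j => ?_⟩
  simp_rw [entry_eq_ent]
  exact tendsto_ent hlim i j

end Crest.Agent.R331.CPT682
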