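import Mathlib
import Crest.Prelude.Def_FockState

set_option autoImplicit false

/-!
[GIBBS] leaf of row 331 (helper158): Peierls/Klein inequality for the frozen `FockState n`.
-/

noncomputable section

namespace Crest.Agent.R331.Gibbs158

open Crest.MathPhysics.Bosonic
open scoped InnerProductSpace ComplexConjugate

/-! ### General Hilbert space -/

section Gen

variable {H : Type*} [NormedAddCommGroup H] [InnerProductSpace ℂ H] [CompleteSpace H]

/-- the entropy function of the frozen definition, in real calculus form -/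
lemma cfc_eta_eq {T : H →L[ℂ] H} (hT : IsSelfAdjoint T) :
    cfc (fun z : ℂ => (-(z.re * Real.log z.re) : ℂ)) T
      = cfc (fun x : ℝ => Real.negMulLog x) T := by
  rw [cfc_real_eq_complex (fun x : ℝ => Real.negMulLog x) hT]
  congr 1
  funext z
  simp [Real.negMulLog]

omit [CompleteSpace H] in
lemma inner_mono {S T : H →L[ℂ] H} (h : S ≤ T) (v : H) :
    (⟪v, S v⟫_ℂ).re ≤ (⟪v, T v⟫_ℂ).re := by
  have h' : (T - S).IsPositive := h
  have h1 := h'.inner_nonneg_right v
  have h2 := (Complex.le_def.1 h1).1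
  have h3 : (T - S) v = T v - S v := rfl
  rw [h3, inner_sub_right, Complex.sub_re] at h2
  have : (0:ℂ).re = 0 := rfl
  linarith

lemma negMulLog_le (x w : ℝ) (hx : 0 ≤ x) (hw : 0 < w) :
    Real.negMulLog x ≤ (-Real.log w - 1) * x + w := by
  rcases hx.eq_or_lt with rfl | hx
  · simp [hw.le]
  · unfold Real.negMulLog
    have h := Real.log_le_sub_one_of_pos (div_pos hw hx)
    rw [Real.log_div hw.ne' hx.ne'] at h
    have h2 := mul_le_mul_of_nonneg_left h hx.le
    have h3 : x * (w / x - 1) = w - x := by field_simp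
    rw [h3] at h2
    nlinarith

lemma spectrum_nonneg {T : H →L[ℂ] H} (hT : T.IsPositive) : ∀ x ∈ spectrum ℝ T, 0 ≤ x := by
  have := (ContinuousLinearMap.nonneg_iff_isPositive T).2 hT
  exact fun x hx => spectrum_nonneg_of_nonneg this hx

lemma spectrum_le_one {T : H →L[ℂ] H} (hT : T.IsPositive) (h1 : T ≤ 1) :
    ∀ x ∈ spectrum ℝ T, x ≤ 1 := by
  have hsa := hT.isSelfAdjoint
  exact fun x hx => (CFC.le_one_iff (R := ℝ) T).1 h1 x hx

omit [CompleteSpace H] in
lemma inner_linComb (T : H →L[ℂ] H) (v : H) (a w : ℝ) :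
    (⟪v, (a • T + w • (1 : H →L[ℂ] H)) v⟫_ℂ).re = a * (⟪v, T v⟫_ℂ).re + w * ‖v‖^2 := by
  have h0 : (a • T + w • (1 : H →L[ℂ] H)) v = (a : ℂ) • (T v) + (w : ℂ) • v := rfl
  rw [h0, inner_add_right, Complex.add_re, inner_smul_right, Complex.re_ofReal_mul,
    inner_smul_right, Complex.re_ofReal_mul, inner_self_eq_norm_sq_to_K]
  norm_cast

lemma cfc_linComb {T : H →L[ℂ] H} (hT : IsSelfAdjoint T) (a w : ℝ) :
    cfc (fun x : ℝ => a * x + w) T = a • T + w • (1 : H →L[ℂ] H) := by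
  rw [cfc_add_const w (fun x : ℝ => a * x) T, cfc_const_mul _ (fun x : ℝ => x) T, cfc_id' ℝ T]
  rfl

/-- Peierls inequality with a tangent line. -/
lemma peierls {T : H →L[ℂ] H} (hT : T.IsPositive) (v : H) {w : ℝ} (hw : 0 < w) :
    (⟪v, cfc (fun z : ℂ => (-(z.re * Real.log z.re) : ℂ)) T v⟫_ℂ).re
      ≤ (-Real.log w - 1) * (⟪v, T v⟫_ℂ).re + w * ‖v‖^2 := by
  rw [cfc_eta_eq hT.isSelfAdjoint]
  have hsa := hT.isSelfAdjoint
  have h1 : cfc (fun x : ℝ => Real.negMulLog x) T ≤ cfc (fun x : ℝ => (-Real.log w - 1) * x + w) T := by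
    apply cfc_mono
    · intro x hx
      exact negMulLog_le x w (spectrum_nonneg hT x hx) hw
    · exact Real.continuous_negMulLog.continuousOn
    · exact Continuous.continuousOn (by fun_prop)
  rw [cfc_linComb hsa] at h1
  have h3 := inner_mono h1 v
  rwa [inner_linComb] at h3

lemma inner_cfc_eta_nonneg {T : H →L[ℂ] H} (hT : T.IsPositive) (hT1 : T ≤ 1) (v : H) :
    0 ≤ (⟪v, cfc (fun z : ℂ => (-(z.re * Real.log z.re) : ℂ)) T v⟫_ℂ).re := by
  rw [cfc_eta_eq hT.isSelfAdjoint]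
  have h1 : 0 ≤ cfc (fun x : ℝ => Real.negMulLog x) T := by
    apply cfc_nonneg
    intro x hx
    exact Real.negMulLog_nonneg (spectrum_nonneg hT x hx) (spectrum_le_one hT hT1 x hx)
  have h3 := inner_mono h1 v
  simpa using h3

lemma inner_cfc_sq {T : H →L[ℂ] H} (hT : IsSelfAdjoint T) (v : H) {f : ℝ → ℝ} (hf : Continuous f)
    (c : ℝ) :
    (⟪v, cfc (fun x : ℝ => (f x - c)^2) T v⟫_ℂ).re = ‖cfc f T v - (c : ℂ) • v‖^2 := by
  set S : H →L[ℂ] H := cfc (fun x : ℝ => f x - c) T with hS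
  have hSsa : IsSelfAdjoint S := cfc_predicate _ T
  have h1 : cfc (fun x : ℝ => (f x - c)^2) T = S * S := by
    rw [hS, ← cfc_mul (fun x : ℝ => f x - c) (fun x : ℝ => f x - c) T
      (Continuous.continuousOn (by fun_prop)) (Continuous.continuousOn (by fun_prop))]
    congr 1
    funext x
    ring
  have h2 : S v = cfc f T v - (c : ℂ) • v := by
    rw [hS, cfc_sub f (fun _ => c) T (by exact hf.continuousOn) (by exact continuous_const.continuousOn),
      cfc_const c T]
    rfl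
  rw [h1, ← h2]
  have h3 : (S * S) v = S (S v) := rfl
  have hsym := ContinuousLinearMap.isSelfAdjoint_iff_isSymmetric.1 hSsa
  have h4 : ⟪v, S (S v)⟫_ℂ = ⟪S v, S v⟫_ℂ := (hsym v (S v)).symm
  rw [h3, h4, inner_self_eq_norm_sq_to_K]
  norm_cast

lemma exists_const_of_compact {K : Set ℝ} (hK : IsCompact K) {F G : ℝ → ℝ} (hF : Continuous F)
    (hG : Continuous G) (hF0 : ∀ x ∈ K, 0 ≤ F x)
    (h : ∀ x ∈ K, F x = 0 → G x ≤ 0) {ε : ℝ} (hε : 0 < ε) :
    ∃ C : ℝ, 0 ≤ C ∧ ∀ x ∈ K, G x ≤ ε + C * F x := by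
  have hK' : IsCompact (K ∩ {x | ε ≤ G x}) :=
    hK.inter_right (isClosed_le continuous_const hG)
  rcases (K ∩ {x | ε ≤ G x}).eq_empty_or_nonempty with hem | hne
  · refine ⟨0, le_rfl, fun x hx => ?_⟩
    by_contra hcon
    have : x ∈ K ∩ {x | ε ≤ G x} := ⟨hx, by show ε ≤ G x; push Not at hcon; linarith⟩
    rw [hem] at this
    exact this
  · obtain ⟨x0, hx0, hmin⟩ := hK'.exists_isMinOn hne hF.continuousOn
    obtain ⟨x1, hx1, hmax⟩ := hK'.exists_isMaxOn hne hG.continuousOn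
    have hm : 0 < F x0 := by
      rcases (hF0 x0 hx0.1).eq_or_lt with h0 | h0
      · have := h x0 hx0.1 h0.symm
        have h2 : ε ≤ G x0 := hx0.2
        linarith
      · exact h0
    have hM : 0 < G x1 := lt_of_lt_of_le hε hx1.2
    refine ⟨G x1 / F x0, by positivity, fun x hx => ?_⟩
    by_cases hxε : ε ≤ G x
    · have hxK : x ∈ K ∩ {x | ε ≤ G x} := ⟨hx, hxε⟩
      have h1 : F x0 ≤ F x := hmin hxK
      have h2 : G x ≤ G x1 := hmax hxK
      have h3 : G x1 ≤ G x1 / F x0 * F x := by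
        rw [div_mul_eq_mul_div, le_div_iff₀ hm]
        nlinarith
      linarith
    · push Not at hxε
      have : 0 ≤ G x1 / F x0 * F x := mul_nonneg (by positivity) (hF0 x hx)
      linarith

lemma inner_cfc_nonpos_of {T : H →L[ℂ] H} (hT : IsSelfAdjoint T) (v : H) {F G : ℝ → ℝ}
    (hF : Continuous F) (hG : Continuous G) (hF0 : ∀ x ∈ spectrum ℝ T, 0 ≤ F x)
    (h : ∀ x ∈ spectrum ℝ T, F x = 0 → G x ≤ 0) (hv : (⟪v, cfc F T v⟫_ℂ).re ≤ 0) :
    (⟪v, cfc G T v⟫_ℂ).re ≤ 0 := by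
  refine le_of_forall_pos_le_add (fun δ hδ => ?_)
  rw [zero_add]
  have hpos : 0 < δ / (‖v‖^2 + 1) := by positivity
  obtain ⟨C, hC0, hC⟩ := exists_const_of_compact (ContinuousFunctionalCalculus.isCompact_spectrum
    (R := ℝ) T) hF hG hF0 h hpos
  have h1 : cfc G T ≤ cfc (fun x => C * F x + δ / (‖v‖^2 + 1)) T := by
    apply cfc_mono
    · intro x hx
      have := hC x hx
      linarith
    · exact hG.continuousOn
    · exact Continuous.continuousOn (by fun_prop)
  have h2 : cfc (fun x => C * F x + δ / (‖v‖^2 + 1)) T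
      = C • cfc F T + (δ / (‖v‖^2 + 1)) • (1 : H →L[ℂ] H) := by
    rw [cfc_add_const _ (fun x : ℝ => C * F x) T (by exact Continuous.continuousOn (by fun_prop)),
      cfc_const_mul _ (fun x : ℝ => F x) T (by exact hF.continuousOn)]
    rfl
  rw [h2] at h1
  have h3 := inner_mono h1 v
  rw [inner_linComb] at h3
  have h4 : δ / (‖v‖^2 + 1) * ‖v‖^2 ≤ δ := by
    rw [div_mul_eq_mul_div, div_le_iff₀ (by positivity)]
    nlinarith
  nlinarith [mul_nonneg hC0 (neg_nonneg.2 hv)]

/-- eigenvectors are eigenvectors of the functional calculus -/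
lemma cfc_eigenvector {T : H →L[ℂ] H} (hT : IsSelfAdjoint T) {v : H} {l : ℝ} (hv : T v = (l : ℂ) • v)
    {f : ℝ → ℝ} (hf : Continuous f) : cfc f T v = ((f l : ℝ) : ℂ) • v := by
  have h1 : (⟪v, cfc (fun x : ℝ => (x - l)^2) T v⟫_ℂ).re ≤ 0 := by
    rw [inner_cfc_sq hT v (f := fun x => x) continuous_id l, cfc_id' ℝ T, hv]
    simp
  have h2 := inner_cfc_nonpos_of hT v (F := fun x => (x - l)^2) (G := fun x => (f x - f l)^2)
    (by fun_prop) (by fun_prop) (fun x _ => sq_nonneg _) (fun x _ hx => by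
      have hx' : (x - l)^2 = 0 := hx
      have : x = l := by
        have := pow_eq_zero_iff (n := 2) (by norm_num) |>.1 hx'
        linarith
      simp [this]) h1
  rw [inner_cfc_sq hT v hf] at h2
  have h3 : ‖cfc f T v - ((f l : ℝ) : ℂ) • v‖ = 0 := by
    have := le_antisymm h2 (sq_nonneg _)
    exact pow_eq_zero_iff (n := 2) (by norm_num) |>.1 this
  exact sub_eq_zero.1 (norm_eq_zero.1 h3)

/-- equality case: if `F ≥ 0` on the spectrum vanishes only at `w` and `⟨v, F(T) v⟩ = 0` then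
`T v = w v`. -/
lemma eigenvector_of_inner_cfc_eq_zero {T : H →L[ℂ] H} (hT : IsSelfAdjoint T) {v : H} {w : ℝ}
    {F : ℝ → ℝ} (hF : Continuous F) (hF0 : ∀ x ∈ spectrum ℝ T, 0 ≤ F x)
    (h : ∀ x ∈ spectrum ℝ T, F x = 0 → x = w) (hv : (⟪v, cfc F T v⟫_ℂ).re ≤ 0) :
    T v = (w : ℂ) • v := by
  have h2 := inner_cfc_nonpos_of hT v (F := F) (G := fun x => (x - w)^2)
    hF (by fun_prop) hF0 (fun x hx hx0 => by simp [h x hx hx0]) hv
  rw [inner_cfc_sq hT v (f := fun x => x) continuous_id w, cfc_id' ℝ T] at h2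
  have h3 : ‖T v - (w : ℂ) • v‖ = 0 := by
    have := le_antisymm h2 (sq_nonneg _)
    exact pow_eq_zero_iff (n := 2) (by norm_num) |>.1 this
  exact sub_eq_zero.1 (norm_eq_zero.1 h3)

lemma klein_fun_eq_zero {x w : ℝ} (hx : 0 ≤ x) (hw : 0 < w)
    (h : (-Real.log w - 1) * x + w - Real.negMulLog x = 0) : x = w := by
  rcases hx.eq_or_lt with rfl | hx
  · simp at h
    linarith
  · by_contra hne
    have hne' : w / x ≠ 1 := by
      intro h1
      rw [div_eq_one_iff_eq hx.ne'] at h1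
      exact hne h1.symm
    have h1 := Real.log_lt_sub_one_of_pos (div_pos hw hx) hne'
    rw [Real.log_div hw.ne' hx.ne'] at h1
    have h2 := mul_lt_mul_of_pos_left h1 hx
    have h3 : x * (w / x - 1) = w - x := by field_simp
    rw [h3] at h2
    unfold Real.negMulLog at h
    nlinarith

/-- strict Peierls: equality forces an eigenvector. -/
lemma peierls_eq {T : H →L[ℂ] H} (hT : T.IsPositive) (v : H) {w : ℝ} (hw : 0 < w)
    (h : (-Real.log w - 1) * (⟪v, T v⟫_ℂ).re + w * ‖v‖^2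
      ≤ (⟪v, cfc (fun z : ℂ => (-(z.re * Real.log z.re) : ℂ)) T v⟫_ℂ).re) :
    T v = (w : ℂ) • v := by
  rw [cfc_eta_eq hT.isSelfAdjoint] at h
  have hsa := hT.isSelfAdjoint
  refine eigenvector_of_inner_cfc_eq_zero hsa
    (F := fun x => (-Real.log w - 1) * x + w - Real.negMulLog x)
    (Continuous.sub (by fun_prop) Real.continuous_negMulLog)
    (fun x hx => sub_nonneg.2 (negMulLog_le x w (spectrum_nonneg hT x hx) hw))
    (fun x hx h0 => klein_fun_eq_zero (spectrum_nonneg hT x hx) hw h0) ?_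
  have h2 : cfc (fun x : ℝ => (-Real.log w - 1) * x + w - Real.negMulLog x) T
      = ((-Real.log w - 1) • T + w • (1 : H →L[ℂ] H)) - cfc (fun x : ℝ => Real.negMulLog x) T := by
    rw [cfc_sub (fun x : ℝ => (-Real.log w - 1) * x + w) (fun x : ℝ => Real.negMulLog x) T
      (by exact Continuous.continuousOn (by fun_prop))
      (by exact Real.continuous_negMulLog.continuousOn), cfc_linComb hsa]
  rw [h2]
  have h3 : (((-Real.log w - 1) • T + w • (1 : H →L[ℂ] H)) - cfc (fun x : ℝ => Real.negMulLog x) T) v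
      = ((-Real.log w - 1) • T + w • (1 : H →L[ℂ] H)) v - cfc (fun x : ℝ => Real.negMulLog x) T v := rfl
  rw [h3, inner_sub_right, Complex.sub_re, inner_linComb]
  linarith

/-- the square root factor of a positive operator -/
lemma exists_factor {T : H →L[ℂ] H} (hT : T.IsPositive) :
    ∃ S : H →L[ℂ] H, ∀ x, ⟪x, T x⟫_ℂ = ((‖S x‖^2 : ℝ) : ℂ) := by
  have h0 := (ContinuousLinearMap.nonneg_iff_isPositive T).2 hT
  obtain ⟨S, hS⟩ := CStarAlgebra.nonneg_iff_eq_star_mul_self.1 h0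
  refine ⟨S, fun x => ?_⟩
  have h1 : T x = ContinuousLinearMap.adjoint S (S x) := by
    rw [hS]; rfl
  rw [h1, ContinuousLinearMap.adjoint_inner_right, inner_self_eq_norm_sq_to_K]
  norm_cast

end Gen

/-! ### Fock space -/

section FockBasics

variable {n : ℕ}

lemma norm_ket (k : Occ n) : ‖(ket k : Fock n)‖ = 1 := by
  unfold ket
  rw [lp.norm_single (by norm_num)]
  simp

lemma inner_ket_left (k : Occ n) (x : Fock n) : ⟪(ket k : Fock n), x⟫_ℂ = x k := by
  unfold ket
  rw [lp.inner_single_left]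
  simp

lemma inner_ket_right (k : Occ n) (x : Fock n) : ⟪x, (ket k : Fock n)⟫_ℂ = conj (x k) := by
  rw [← inner_conj_symm, inner_ket_left]

lemma entry_eq (T : Fock n →L[ℂ] Fock n) (k l : Occ n) : entry T k l = (T (ket l)) k := by
  unfold entry; rw [inner_ket_left]

lemma ket_apply (k l : Occ n) : (ket k : Fock n) l = if l = k then 1 else 0 := by
  unfold ket
  rw [lp.single_apply]
  by_cases h : l = k
  · subst h; simp
  · simp [h]

lemma hasSum_norm_sq (x : Fock n) : HasSum (fun k => ‖x k‖^2) (‖x‖^2) := by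
  have := lp.hasSum_norm (p := 2) (by norm_num) x
  simpa using this

lemma hasSum_expand (x : Fock n) : HasSum (fun k => (x k) • (ket k : Fock n)) x := by
  have h := lp.hasSum_single (p := 2) (by norm_num) x
  convert h using 2 with k
  unfold ket
  rw [← lp.single_smul]
  simp


/-- trace-one positive operators are contractions: `ρ ≤ 1`. -/
lemma op_le_one (ρ : FockState n) : ρ.op ≤ 1 := by
  obtain ⟨S, hS⟩ := exists_factor ρ.pos
  have hk : ∀ k, (entry ρ.op k k).re = ‖S (ket k)‖^2 := by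
    intro k
    unfold entry
    rw [hS]
    exact Complex.ofReal_re _
  have hsum : HasSum (fun k => ‖S (ket k)‖^2) 1 := by
    have := ρ.traceOne
    simpa only [hk] using this
  have hb : ∀ x : Fock n, ‖S x‖ ≤ ‖x‖ := by
    intro x
    rcases eq_or_ne x 0 with rfl | hx
    · simp
    have hx' : 0 < ‖x‖ := norm_pos_iff.2 hx
    have h1 : HasSum (fun k => S ((x k) • (ket k : Fock n))) (S x) :=
      (hasSum_expand x).mapL S
    have h2 : HasSum (fun k => (‖x‖⁻¹ * ‖x k‖^2 + ‖x‖ * ‖S (ket k)‖^2) / 2)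
        ((‖x‖⁻¹ * ‖x‖^2 + ‖x‖ * 1) / 2) :=
      (((hasSum_norm_sq x).mul_left _).add (hsum.mul_left _)).div_const 2
    have h3 := h1.norm_le_of_bounded h2 (fun k => by
      rw [map_smul, norm_smul]
      have e1 : ‖x‖⁻¹ * ‖x k‖^2 + ‖x‖ * ‖S (ket k)‖^2 - 2 * (‖x k‖ * ‖S (ket k)‖)
          = ‖x‖⁻¹ * (‖x k‖ - ‖x‖ * ‖S (ket k)‖)^2 := by
        field_simp
        ring
      have e2 : 0 ≤ ‖x‖⁻¹ * (‖x k‖ - ‖x‖ * ‖S (ket k)‖)^2 := by positivity
      linarith)
    refine h3.trans (le_of_eq ?_)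
    field_simp
    ring
  have hp : (1 - ρ.op).IsPositive := by
    rw [ContinuousLinearMap.isPositive_def']
    refine ⟨(IsSelfAdjoint.one _).sub ρ.pos.isSelfAdjoint, fun x => ?_⟩
    have h1 : ContinuousLinearMap.reApplyInnerSelf (1 - ρ.op) x = ‖x‖^2 - ‖S x‖^2 := by
      unfold ContinuousLinearMap.reApplyInnerSelf
      have e : (1 - ρ.op) x = x - ρ.op x := rfl
      rw [e, inner_sub_left, map_sub, inner_self_eq_norm_sq]
      congr 1
      rw [← inner_conj_symm, hS]
      simp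
      norm_cast
    rw [h1]
    have := hb x
    have h0 := norm_nonneg (S x)
    nlinarith
  exact hp

lemma entry_self_re_nonneg (ρ : FockState n) (k : Occ n) : 0 ≤ (entry ρ.op k k).re := by
  have := ρ.pos.inner_nonneg_right (ket k)
  exact (Complex.le_def.1 this).1

lemma entry_self_re_le_one (ρ : FockState n) (k : Occ n) : (entry ρ.op k k).re ≤ 1 := by
  have h := ρ.traceOne
  exact le_hasSum h k (fun j _ => entry_self_re_nonneg ρ j)

/-- the total energy `∑_k |k| ρ_kk`. -/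
def energy (ρ : FockState n) : ℝ :=
  ∑' k : Occ n, ((∑ j, k j : ℕ) : ℝ) * (entry ρ.op k k).re

lemma energy_nonneg (ρ : FockState n) : 0 ≤ energy ρ :=
  tsum_nonneg fun k => mul_nonneg (Nat.cast_nonneg _) (entry_self_re_nonneg ρ k)

/-- entropy density in the number basis -/
def etaEntry (ρ : FockState n) (k : Occ n) : ℝ :=
  (entry (cfc (fun z : ℂ => (-(z.re * Real.log z.re) : ℂ)) ρ.op) k k).re

lemma hasEntropy_iff (ρ : FockState n) (s : ℝ) : HasEntropy ρ s ↔ HasSum (etaEntry ρ) s := Iff.rfl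

lemma etaEntry_nonneg (ρ : FockState n) (k : Occ n) : 0 ≤ etaEntry ρ k :=
  inner_cfc_eta_nonneg ρ.pos (op_le_one ρ) (ket k)

lemma etaEntry_le (ρ : FockState n) (k : Occ n) {w : ℝ} (hw : 0 < w) :
    etaEntry ρ k ≤ (-Real.log w - 1) * (entry ρ.op k k).re + w := by
  have := peierls ρ.pos (ket k) hw
  rw [norm_ket, one_pow, mul_one] at this
  exact this

lemma eq_of_etaEntry_ge (ρ : FockState n) (k : Occ n) {w : ℝ} (hw : 0 < w)
    (h : (-Real.log w - 1) * (entry ρ.op k k).re + w ≤ etaEntry ρ k) :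
    ρ.op (ket k) = (w : ℂ) • ket k := by
  refine peierls_eq ρ.pos (ket k) hw ?_
  rw [norm_ket, one_pow, mul_one]
  exact h

/-- general Gibbs inequality: entropy against positive summable weights. -/
theorem exists_entropy_of_weights (ρ : FockState n) (w : Occ n → ℝ) (hw : ∀ k, 0 < w k) {W c : ℝ}
    (hW : HasSum w W)
    (hc : HasSum (fun k => (entry ρ.op k k).re * (-Real.log (w k))) c) :
    ∃ s, HasEntropy ρ s ∧ 0 ≤ s ∧ s ≤ c + W - 1 := by
  have h1 : HasSum (fun k => (-Real.log (w k) - 1) * (entry ρ.op k k).re + w k) (c + W - 1) := by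
    have := (hc.sub ρ.traceOne).add hW
    have e : c - 1 + W = c + W - 1 := by ring
    rw [e] at this
    have hfun : (fun k => (-Real.log (w k) - 1) * (entry ρ.op k k).re + w k)
        = fun k => (entry ρ.op k k).re * (-Real.log (w k)) - (entry ρ.op k k).re + w k := by
      funext k
      ring
    rw [hfun]
    exact this
  have h2 : Summable (etaEntry ρ) :=
    Summable.of_nonneg_of_le (etaEntry_nonneg ρ) (fun k => etaEntry_le ρ k (hw k)) h1.summable
  exact ⟨_, h2.hasSum, tsum_nonneg (etaEntry_nonneg ρ),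
    hasSum_le (fun k => etaEntry_le ρ k (hw k)) h2.hasSum h1⟩

/-- equality case of the Gibbs inequality: the state is diagonal with entries `w`. -/
theorem eq_of_entropy_ge (ρ : FockState n) (w : Occ n → ℝ) (hw : ∀ k, 0 < w k) {W c s : ℝ}
    (hW : HasSum w W) (hc : HasSum (fun k => (entry ρ.op k k).re * (-Real.log (w k))) c)
    (hs : HasEntropy ρ s) (h : c + W - 1 ≤ s) (k : Occ n) :
    ρ.op (ket k) = (w k : ℂ) • ket k := by
  have h1 : HasSum (fun k => (-Real.log (w k) - 1) * (entry ρ.op k k).re + w k) (c + W - 1) := by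
    have := (hc.sub ρ.traceOne).add hW
    have e : c - 1 + W = c + W - 1 := by ring
    rw [e] at this
    have hfun : (fun k => (-Real.log (w k) - 1) * (entry ρ.op k k).re + w k)
        = fun k => (entry ρ.op k k).re * (-Real.log (w k)) - (entry ρ.op k k).re + w k := by
      funext k
      ring
    rw [hfun]
    exact this
  have h3 : HasSum (fun k => (-Real.log (w k) - 1) * (entry ρ.op k k).re + w k - etaEntry ρ k)
      (c + W - 1 - s) := h1.sub hs
  have h4 : ∀ k, 0 ≤ (-Real.log (w k) - 1) * (entry ρ.op k k).re + w k - etaEntry ρ k :=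
    fun k => sub_nonneg.2 (etaEntry_le ρ k (hw k))
  have h5 := le_hasSum h3 k (fun j _ => h4 j)
  refine eq_of_etaEntry_ge ρ k (hw k) ?_
  linarith

end FockBasics

/-! ### Product weights on occupation tuples -/

section Weights

open scoped ENNReal

lemma ennreal_tsum_pi {n : ℕ} (f : Fin n → ℕ → ℝ≥0∞) :
    ∑' k : Fin n → ℕ, ∏ j, f j (k j) = ∏ j, ∑' a, f j a := by
  induction n with
  | zero =>
    simp
  | succ n ih =>
    rw [← (Fin.consEquiv (fun _ : Fin (n+1) => ℕ)).tsum_eq, ENNReal.tsum_prod', Fin.prod_univ_succ]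
    simp only [Fin.consEquiv, Equiv.coe_fn_mk, Fin.prod_univ_succ, Fin.cons_zero, Fin.cons_succ]
    simp only [ENNReal.tsum_mul_left, ENNReal.tsum_mul_right, ih]

/-- real version -/
lemma hasSum_pi_prod {n : ℕ} (f : Fin n → ℕ → ℝ) (hf : ∀ j a, 0 ≤ f j a) (S : Fin n → ℝ)
    (hS : ∀ j, HasSum (f j) (S j)) :
    HasSum (fun k : Occ n => ∏ j, f j (k j)) (∏ j, S j) := by
  have h1 : ∑' k : Fin n → ℕ, ENNReal.ofReal (∏ j, f j (k j)) = ENNReal.ofReal (∏ j, S j) := by
    have hS0 : ∀ j, 0 ≤ S j := fun j => (hS j).nonneg (hf j)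
    rw [ENNReal.ofReal_prod_of_nonneg (fun j _ => hS0 j)]
    simp_rw [ENNReal.ofReal_prod_of_nonneg (fun (j : Fin n) (_ : j ∈ Finset.univ) => hf j _)]
    rw [ennreal_tsum_pi (fun j a => ENNReal.ofReal (f j a))]
    refine Finset.prod_congr rfl (fun j _ => ?_)
    rw [← (hS j).tsum_eq, ENNReal.ofReal_tsum_of_nonneg (hf j) (hS j).summable]
  have hnn : ∀ k : Fin n → ℕ, 0 ≤ ∏ j, f j (k j) := fun k => Finset.prod_nonneg (fun j _ => hf j _)
  have hsum : Summable (fun k : Fin n → ℕ => ∏ j, f j (k j)) := by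
    have h2 : ∑' k : Fin n → ℕ, ENNReal.ofReal (∏ j, f j (k j)) ≠ ∞ := by
      rw [h1]; exact ENNReal.ofReal_ne_top
    have := ENNReal.summable_toReal h2
    simpa [ENNReal.toReal_ofReal, hnn] using this
  have h3 := ENNReal.ofReal_tsum_of_nonneg hnn hsum
  rw [h1] at h3
  have hS0 : 0 ≤ ∏ j, S j := Finset.prod_nonneg (fun j _ => (hS j).nonneg (hf j))
  have h4 := (ENNReal.ofReal_eq_ofReal_iff (tsum_nonneg hnn) hS0).1 h3
  rw [← h4]
  exact hsum.hasSum

/-- the geometric (one mode thermal) weight with ratio `q`. -/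
def geoW (q : ℝ) (a : ℕ) : ℝ := (1 - q) * q ^ a

lemma hasSum_geoW {q : ℝ} (h0 : 0 ≤ q) (h1 : q < 1) : HasSum (geoW q) 1 := by
  have := (hasSum_geometric_of_lt_one h0 h1).mul_left (1 - q)
  rwa [mul_inv_cancel₀ (by linarith)] at this

lemma hasSum_nat_mul_geoW {q : ℝ} (h0 : 0 ≤ q) (h1 : q < 1) :
    HasSum (fun a : ℕ => (a : ℝ) * geoW q a) (q / (1 - q)) := by
  have h := hasSum_coe_mul_geometric_of_norm_lt_one (𝕜 := ℝ) (r := q) (by
    rw [Real.norm_eq_abs, abs_of_nonneg h0]; exact h1)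
  have h2 := h.mul_left (1 - q)
  have e : (1 - q) * (q / (1 - q)^2) = q / (1 - q) := by
    have : (1 - q) ≠ 0 := by linarith
    field_simp
  rw [e] at h2
  have hfun : (fun a : ℕ => (a : ℝ) * geoW q a) = fun a : ℕ => (1 - q) * ((a : ℝ) * q ^ a) := by
    funext a
    unfold geoW
    ring
  rw [hfun]
  exact h2

/-- `n`-mode thermal weights. -/
def thW (n : ℕ) (q : ℝ) (k : Occ n) : ℝ := ∏ j, geoW q (k j)

lemma geoW_pos {q : ℝ} (h0 : 0 < q) (h1 : q < 1) (a : ℕ) : 0 < geoW q a :=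
  mul_pos (by linarith) (pow_pos h0 a)

lemma geoW_nonneg {q : ℝ} (h0 : 0 ≤ q) (h1 : q < 1) (a : ℕ) : 0 ≤ geoW q a :=
  mul_nonneg (by linarith) (pow_nonneg h0 a)

lemma thW_pos {n : ℕ} {q : ℝ} (h0 : 0 < q) (h1 : q < 1) (k : Occ n) : 0 < thW n q k :=
  Finset.prod_pos fun j _ => geoW_pos h0 h1 (k j)

lemma thW_nonneg {n : ℕ} {q : ℝ} (h0 : 0 ≤ q) (h1 : q < 1) (k : Occ n) : 0 ≤ thW n q k :=
  Finset.prod_nonneg fun j _ => geoW_nonneg h0 h1 (k j)

lemma thW_eq {n : ℕ} (q : ℝ) (k : Occ n) : thW n q k = (1 - q) ^ n * q ^ (∑ j, k j) := by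
  unfold thW geoW
  rw [Finset.prod_mul_distrib, Finset.prod_const, Finset.card_univ, Fintype.card_fin,
    Finset.prod_pow_eq_pow_sum]

lemma hasSum_thW (n : ℕ) {q : ℝ} (h0 : 0 ≤ q) (h1 : q < 1) : HasSum (thW n q) 1 := by
  have := hasSum_pi_prod (fun (_ : Fin n) => geoW q) (fun _ a => geoW_nonneg h0 h1 a)
    (fun _ => 1) (fun _ => hasSum_geoW h0 h1)
  rw [Finset.prod_const_one] at this
  exact this

lemma hasSum_coord_thW (n : ℕ) {q : ℝ} (h0 : 0 ≤ q) (h1 : q < 1) (i : Fin n) :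
    HasSum (fun k : Occ n => (k i : ℝ) * thW n q k) (q / (1 - q)) := by
  have := hasSum_pi_prod
    (fun (j : Fin n) (a : ℕ) => (if j = i then (a : ℝ) else 1) * geoW q a)
    (fun j a => mul_nonneg (by split_ifs <;> positivity) (geoW_nonneg h0 h1 a))
    (fun j => if j = i then q / (1 - q) else 1) (fun j => by
      by_cases h : j = i
      · simpa [h] using hasSum_nat_mul_geoW h0 h1
      · simpa [h] using hasSum_geoW h0 h1)
  simp only [Finset.prod_mul_distrib, Finset.prod_ite_eq', Finset.mem_univ, if_true] at this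
  exact this

lemma hasSum_energy_thW (n : ℕ) {q : ℝ} (h0 : 0 ≤ q) (h1 : q < 1) :
    HasSum (fun k : Occ n => ((∑ j, k j : ℕ) : ℝ) * thW n q k) (n * (q / (1 - q))) := by
  have h := hasSum_sum (s := (Finset.univ : Finset (Fin n)))
    (fun i _ => hasSum_coord_thW n h0 h1 i)
  simp only [Finset.sum_const, Finset.card_univ, Fintype.card_fin, nsmul_eq_mul] at h
  have hfun : (fun k : Occ n => ((∑ j, k j : ℕ) : ℝ) * thW n q k)
      = fun k : Occ n => ∑ i, (k i : ℝ) * thW n q k := by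
    funext k
    rw [Nat.cast_sum, Finset.sum_mul]
  rw [hfun]
  exact h

lemma neg_log_thW {n : ℕ} {q : ℝ} (h0 : 0 < q) (h1 : q < 1) (k : Occ n) :
    -Real.log (thW n q k) = -(n * Real.log (1 - q)) + (-Real.log q) * ((∑ j, k j : ℕ) : ℝ) := by
  have h1' : (0:ℝ) < 1 - q := by linarith
  rw [thW_eq, Real.log_mul (pow_pos h1' n).ne' (pow_pos h0 _).ne', Real.log_pow, Real.log_pow]
  ring

/-- inverse temperature `b(N) = log (1 + 1/N)`. -/
def bN (N : ℝ) : ℝ := Real.log (1 + 1 / N)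

/-- ratio `q(N) = N/(N+1)`. -/
def qN (N : ℝ) : ℝ := N / (N + 1)

lemma qN_pos {N : ℝ} (hN : 0 < N) : 0 < qN N := by unfold qN; positivity
lemma qN_nonneg {N : ℝ} (hN : 0 ≤ N) : 0 ≤ qN N := by unfold qN; positivity
lemma qN_lt_one {N : ℝ} (hN : 0 ≤ N) : qN N < 1 := by
  unfold qN
  rw [div_lt_one (by linarith)]
  linarith
lemma one_sub_qN {N : ℝ} (hN : 0 ≤ N) : 1 - qN N = 1 / (N + 1) := by
  unfold qN
  have : N + 1 ≠ 0 := by linarith
  field_simp
  ring
lemma qN_div {N : ℝ} (hN : 0 ≤ N) : qN N / (1 - qN N) = N := by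
  rw [one_sub_qN hN]
  unfold qN
  have : N + 1 ≠ 0 := by linarith
  field_simp
lemma neg_log_qN {N : ℝ} (hN : 0 < N) : -Real.log (qN N) = bN N := by
  unfold qN bN
  rw [← Real.log_inv]
  congr 1
  have : N + 1 ≠ 0 := by linarith
  field_simp
  try ring
lemma neg_log_one_sub_qN {N : ℝ} (hN : 0 ≤ N) : -Real.log (1 - qN N) = Real.log (N + 1) := by
  rw [one_sub_qN hN, ← Real.log_inv]
  simp
lemma gBose_eq {N : ℝ} (hN : 0 < N) : gBose N = Real.log (N + 1) + bN N * N := by
  unfold gBose bN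
  have : 1 + 1 / N = (N + 1) / N := by field_simp
  rw [this, Real.log_div (by linarith) hN.ne']
  ring
lemma bN_pos {N : ℝ} (hN : 0 < N) : 0 < bN N := by
  unfold bN
  apply Real.log_pos
  have : 0 < 1 / N := by positivity
  linarith

end Weights

section Main

variable {n : ℕ}

lemma hasSum_energy {ρ : FockState n} (hE : FiniteEnergy ρ) :
    HasSum (fun k : Occ n => ((∑ j, k j : ℕ) : ℝ) * (entry ρ.op k k).re) (energy ρ) :=
  hE.hasSum

lemma hasSum_log_thW (ρ : FockState n) (hE : FiniteEnergy ρ) {N : ℝ} (hN : 0 < N) :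
    HasSum (fun k => (entry ρ.op k k).re * (-Real.log (thW n (qN N) k)))
      (n * Real.log (N + 1) + bN N * energy ρ) := by
  have h := (ρ.traceOne.mul_left (n * Real.log (N + 1))).add ((hasSum_energy hE).mul_left (bN N))
  rw [mul_one] at h
  have hfun : (fun k => (entry ρ.op k k).re * (-Real.log (thW n (qN N) k)))
      = fun k => n * Real.log (N + 1) * (entry ρ.op k k).re
        + bN N * (((∑ j, k j : ℕ) : ℝ) * (entry ρ.op k k).re) := by
    funext k
    rw [neg_log_thW (qN_pos hN) (qN_lt_one hN.le), neg_log_qN hN]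
    have := neg_log_one_sub_qN hN.le
    linear_combination (n * (entry ρ.op k k).re) * this
  rw [hfun]
  exact h

/-- every finite-energy state has a (finite) entropy, and for every `N > 0`
`S ≤ n g(N) + b(N) (E - n N)`. -/
theorem exists_hasEntropy (ρ : FockState n) (hE : FiniteEnergy ρ) :
    ∃ s, HasEntropy ρ s ∧ 0 ≤ s := by
  obtain ⟨s, hs, h0, _⟩ := exists_entropy_of_weights ρ (thW n (qN 1))
    (fun k => thW_pos (qN_pos one_pos) (qN_lt_one zero_le_one) k)
    (hasSum_thW n (qN_nonneg zero_le_one) (qN_lt_one zero_le_one)) (hasSum_log_thW ρ hE one_pos)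
  exact ⟨s, hs, h0⟩

lemma HasEntropy.unique {ρ : FockState n} {s s' : ℝ} (h : HasEntropy ρ s) (h' : HasEntropy ρ s') :
    s = s' := HasSum.unique h h'

lemma HasEntropy.nonneg {ρ : FockState n} {s : ℝ} (h : HasEntropy ρ s) : 0 ≤ s :=
  HasSum.nonneg (etaEntry_nonneg ρ) h

/-- Gibbs variational inequality (relative entropy to the thermal state is nonnegative). -/
theorem entropy_le_tangent (ρ : FockState n) (hE : FiniteEnergy ρ) {s : ℝ} (hs : HasEntropy ρ s)
    {N : ℝ} (hN : 0 < N) : s ≤ n * gBose N + bN N * (energy ρ - n * N) := by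
  obtain ⟨s', hs', _, h⟩ := exists_entropy_of_weights ρ (thW n (qN N))
    (fun k => thW_pos (qN_pos hN) (qN_lt_one hN.le) k)
    (hasSum_thW n (qN_nonneg hN.le) (qN_lt_one hN.le)) (hasSum_log_thW ρ hE hN)
  rw [HasEntropy.unique hs hs', gBose_eq hN]
  linarith

/-- equality in the Gibbs inequality forces the state to be thermal (as an operator). -/
theorem thermal_of_entropy_ge (ρ : FockState n) (hE : FiniteEnergy ρ) {s : ℝ} (hs : HasEntropy ρ s)
    {N : ℝ} (hN : 0 < N) (h : n * gBose N + bN N * (energy ρ - n * N) ≤ s) (k : Occ n) :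
    ρ.op (ket k) = (thW n (qN N) k : ℂ) • ket k := by
  refine eq_of_entropy_ge ρ (thW n (qN N))
    (fun k => thW_pos (qN_pos hN) (qN_lt_one hN.le) k)
    (hasSum_thW n (qN_nonneg hN.le) (qN_lt_one hN.le)) (hasSum_log_thW ρ hE hN) hs ?_ k
  rw [gBose_eq hN] at h
  linarith

/-- maximum entropy at given energy. -/
theorem entropy_le_gBose (hn : 1 ≤ n) (ρ : FockState n) (hE : FiniteEnergy ρ) {s : ℝ}
    (hs : HasEntropy ρ s) : s ≤ n * gBose (energy ρ / n) := by
  have hn' : (0:ℝ) < n := by exact_mod_cast hn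
  rcases (energy_nonneg ρ).eq_or_lt with h0 | h0
  · rw [← h0]
    have hg : gBose (0 / (n:ℝ)) = 0 := by simp [gBose]
    rw [hg, mul_zero]
    -- `s ≤ n log (N+1)` for all `N > 0`
    have key : ∀ N : ℝ, 0 < N → s ≤ n * Real.log (N + 1) := by
      intro N hN
      have := entropy_le_tangent ρ hE hs hN
      rw [gBose_eq hN, ← h0] at this
      linarith
    refine le_of_forall_pos_le_add (fun ε hε => ?_)
    have h1 := key (ε / n) (by positivity)
    have h2 : Real.log (ε / n + 1) ≤ ε / n := by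
      have := Real.log_le_sub_one_of_pos (show 0 < ε / n + 1 by positivity)
      linarith
    have h3 : n * Real.log (ε / n + 1) ≤ n * (ε / n) := mul_le_mul_of_nonneg_left h2 hn'.le
    have h4 : (n:ℝ) * (ε / n) = ε := by field_simp
    linarith
  · have := entropy_le_tangent ρ hE hs (N := energy ρ / n) (by positivity)
    have e : (energy ρ - n * (energy ρ / n)) = 0 := by field_simp; ring
    rw [e, mul_zero, add_zero] at this
    exact this

end Main

end Crest.Agent.R331.Gibbs158
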