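import Mathlib
import Crest.Prelude.Def_FockState
import Crest.Agent.R331.Gibbs_158

set_option autoImplicit false

noncomputable section

namespace Crest.Agent.R331.Gibbs158

open Crest.MathPhysics.Bosonic
open scoped InnerProductSpace ComplexConjugate

section Gen2

variable {H : Type*} [NormedAddCommGroup H] [InnerProductSpace ℂ H] [CompleteSpace H]

lemma cfc_eta_eigen {T : H →L[ℂ] H} (hT : IsSelfAdjoint T) {v : H} {l : ℝ}
    (hv : T v = (l : ℂ) • v) :
    cfc (fun z : ℂ => (-(z.re * Real.log z.re) : ℂ)) T v = ((Real.negMulLog l : ℝ) : ℂ) • v := by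
  rw [cfc_eta_eq hT]
  exact cfc_eigenvector hT hv Real.continuous_negMulLog

lemma inner_cfc_eta_eigen {T : H →L[ℂ] H} (hT : IsSelfAdjoint T) {v : H} {l : ℝ}
    (hv : T v = (l : ℂ) • v) :
    (⟪v, cfc (fun z : ℂ => (-(z.re * Real.log z.re) : ℂ)) T v⟫_ℂ).re
      = Real.negMulLog l * ‖v‖^2 := by
  rw [cfc_eta_eigen hT hv, inner_smul_right, Complex.re_ofReal_mul, inner_self_eq_norm_sq_to_K]
  norm_cast

end Gen2

/-! ### Diagonal states -/

section Diag

variable {n : ℕ}

lemma diag_memlp (w : Occ n → ℝ) (hw : ∀ k, |w k| ≤ 1) (x : Fock n) :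
    Memℓp (fun k => (w k : ℂ) * x k) 2 := by
  have h1 : Memℓp (fun k => ‖x k‖) 2 := memℓp_norm_iff.2 (lp.memℓp x)
  refine Memℓp.mono (g := fun k => ‖x k‖) h1 (fun k => ?_)
  rw [norm_mul, Complex.norm_real, Real.norm_eq_abs]
  calc |w k| * ‖x k‖ ≤ 1 * ‖x k‖ := mul_le_mul_of_nonneg_right (hw k) (norm_nonneg _)
    _ = ‖x k‖ := one_mul _

/-- the linear diagonal map. -/
def diagLin (w : Occ n → ℝ) (hw : ∀ k, |w k| ≤ 1) : Fock n →ₗ[ℂ] Fock n where
  toFun x := ⟨fun k => (w k : ℂ) * x k, diag_memlp w hw x⟩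
  map_add' x y := by
    apply lp.ext
    funext k
    show (w k : ℂ) * (x + y : Fock n) k = (w k : ℂ) * x k + (w k : ℂ) * y k
    rw [lp.coeFn_add, Pi.add_apply]
    ring
  map_smul' c x := by
    apply lp.ext
    funext k
    show (w k : ℂ) * (c • x : Fock n) k = c • ((w k : ℂ) * x k)
    rw [lp.coeFn_smul, Pi.smul_apply, smul_eq_mul, smul_eq_mul]
    ring

lemma diagLin_norm_le (w : Occ n → ℝ) (hw : ∀ k, |w k| ≤ 1) (x : Fock n) :
    ‖diagLin w hw x‖ ≤ 1 * ‖x‖ := by
  rw [one_mul]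
  refine lp.norm_mono (by norm_num) (fun k => ?_)
  show ‖(w k : ℂ) * x k‖ ≤ ‖x k‖
  rw [norm_mul, Complex.norm_real, Real.norm_eq_abs]
  calc |w k| * ‖x k‖ ≤ 1 * ‖x k‖ := mul_le_mul_of_nonneg_right (hw k) (norm_nonneg _)
    _ = ‖x k‖ := one_mul _

/-- the bounded diagonal operator. -/
def diagOp (w : Occ n → ℝ) (hw : ∀ k, |w k| ≤ 1) : Fock n →L[ℂ] Fock n :=
  LinearMap.mkContinuous (diagLin w hw) 1 (diagLin_norm_le w hw)

lemma diagOp_apply (w : Occ n → ℝ) (hw : ∀ k, |w k| ≤ 1) (x : Fock n) (k : Occ n) :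
    (diagOp w hw x) k = (w k : ℂ) * x k := rfl

lemma diagOp_ket (w : Occ n → ℝ) (hw : ∀ k, |w k| ≤ 1) (k : Occ n) :
    diagOp w hw (ket k) = (w k : ℂ) • ket k := by
  apply lp.ext
  funext l
  rw [diagOp_apply, lp.coeFn_smul, Pi.smul_apply, smul_eq_mul, ket_apply]
  by_cases h : l = k
  · subst h; simp
  · simp [h]

lemma diagOp_inner (w : Occ n → ℝ) (hw : ∀ k, |w k| ≤ 1) (x : Fock n) :
    (inner ℂ (diagOp w hw x) x : ℂ) = ((∑' k, w k * ‖x k‖^2 : ℝ) : ℂ) := by
  have h1 : HasSum (fun k => (inner ℂ ((diagOp w hw x) k) (x k) : ℂ)) (inner ℂ (diagOp w hw x) x) :=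
    lp.hasSum_inner _ _
  have h2 : ∀ k, (inner ℂ ((diagOp w hw x) k) (x k) : ℂ) = ((w k * ‖x k‖^2 : ℝ) : ℂ) := by
    intro k
    rw [diagOp_apply]
    simp only [RCLike.inner_apply, map_mul, Complex.conj_ofReal]
    have : x k * ((w k : ℂ) * (starRingEnd ℂ) (x k)) = (w k : ℂ) * (x k * (starRingEnd ℂ) (x k)) := by
      ring
    rw [this, Complex.mul_conj, Complex.normSq_eq_norm_sq]
    push_cast
    ring
  simp_rw [h2] at h1
  have h4 := Complex.hasSum_re h1
  simp only [Complex.ofReal_re] at h4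
  have h5 := Complex.hasSum_ofReal.2 h4
  rw [h4.tsum_eq]
  exact h1.unique h5

lemma diagOp_isPositive (w : Occ n → ℝ) (hw : ∀ k, |w k| ≤ 1) (h0 : ∀ k, 0 ≤ w k) :
    (diagOp w hw).IsPositive := by
  rw [ContinuousLinearMap.isPositive_iff_complex]
  intro x
  rw [diagOp_inner]
  refine ⟨by simp, ?_⟩
  have : (0:ℝ) ≤ ∑' k, w k * ‖x k‖^2 := tsum_nonneg (fun k => mul_nonneg (h0 k) (sq_nonneg _))
  simpa using this

lemma entry_diagOp (w : Occ n → ℝ) (hw : ∀ k, |w k| ≤ 1) (k l : Occ n) :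
    entry (diagOp w hw) k l = if k = l then (w k : ℂ) else 0 := by
  rw [entry_eq, diagOp_apply, ket_apply]
  split_ifs <;> simp

lemma abs_le_one_of_prob {w : Occ n → ℝ} (h0 : ∀ k, 0 ≤ w k) (h1 : HasSum w 1) (k : Occ n) :
    |w k| ≤ 1 := by
  rw [abs_of_nonneg (h0 k)]
  exact le_hasSum h1 k (fun j _ => h0 j)

/-- the diagonal state with probability weights `w`. -/
def diagState (w : Occ n → ℝ) (h0 : ∀ k, 0 ≤ w k) (h1 : HasSum w 1) : FockState n where
  op := diagOp w (abs_le_one_of_prob h0 h1)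
  pos := diagOp_isPositive w _ h0
  traceOne := by
    have : (fun k : Occ n => (entry (diagOp w (abs_le_one_of_prob h0 h1)) k k).re) = w := by
      funext k
      rw [entry_diagOp]
      simp
    rw [this]
    exact h1

lemma entry_diagState (w : Occ n → ℝ) (h0 : ∀ k, 0 ≤ w k) (h1 : HasSum w 1) (k l : Occ n) :
    entry (diagState w h0 h1).op k l = if k = l then (w k : ℂ) else 0 :=
  entry_diagOp w _ k l

lemma finiteEnergy_diagState_iff (w : Occ n → ℝ) (h0 : ∀ k, 0 ≤ w k) (h1 : HasSum w 1) :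
    FiniteEnergy (diagState w h0 h1) ↔ Summable (fun k : Occ n => ((∑ j, k j : ℕ) : ℝ) * w k) := by
  unfold FiniteEnergy
  have : (fun k : Occ n => ((∑ j, k j : ℕ) : ℝ) * (entry (diagState w h0 h1).op k k).re)
      = fun k : Occ n => ((∑ j, k j : ℕ) : ℝ) * w k := by
    funext k
    rw [entry_diagState]
    simp
  rw [this]

lemma energy_diagState (w : Occ n → ℝ) (h0 : ∀ k, 0 ≤ w k) (h1 : HasSum w 1) :
    energy (diagState w h0 h1) = ∑' k : Occ n, ((∑ j, k j : ℕ) : ℝ) * w k := by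
  unfold energy
  congr 1
  funext k
  rw [entry_diagState]
  simp

/-- eigenvectors of the density operator in the number basis: diagonal entry of `-ρ log ρ`. -/
lemma etaEntry_of_eigen (ρ : FockState n) (k : Occ n) {l : ℝ} (h : ρ.op (ket k) = (l : ℂ) • ket k) :
    etaEntry ρ k = Real.negMulLog l := by
  unfold etaEntry entry
  rw [inner_cfc_eta_eigen ρ.pos.isSelfAdjoint h, norm_ket]
  simp

lemma etaEntry_diagState (w : Occ n → ℝ) (h0 : ∀ k, 0 ≤ w k) (h1 : HasSum w 1) (k : Occ n) :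
    etaEntry (diagState w h0 h1) k = Real.negMulLog (w k) :=
  etaEntry_of_eigen _ k (diagOp_ket w _ k)

lemma hasEntropy_diagState_iff (w : Occ n → ℝ) (h0 : ∀ k, 0 ≤ w k) (h1 : HasSum w 1) (s : ℝ) :
    HasEntropy (diagState w h0 h1) s ↔ HasSum (fun k => Real.negMulLog (w k)) s := by
  rw [hasEntropy_iff]
  have : etaEntry (diagState w h0 h1) = fun k => Real.negMulLog (w k) := by
    funext k
    exact etaEntry_diagState w h0 h1 k
  rw [this]

/-- the thermal state with mean photon number `N` per mode. -/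
def thermal (n : ℕ) (N : ℝ) (hN : 0 ≤ N) : FockState n :=
  diagState (thW n (qN N)) (fun k => thW_nonneg (qN_nonneg hN) (qN_lt_one hN) k)
    (hasSum_thW n (qN_nonneg hN) (qN_lt_one hN))

lemma entry_thermal (N : ℝ) (hN : 0 ≤ N) (k l : Occ n) :
    entry (thermal n N hN).op k l = if k = l then (thW n (qN N) k : ℂ) else 0 :=
  entry_diagState _ _ _ k l

lemma finiteEnergy_thermal (N : ℝ) (hN : 0 ≤ N) : FiniteEnergy (thermal n N hN) :=
  (finiteEnergy_diagState_iff _ _ _).2
    (hasSum_energy_thW n (qN_nonneg hN) (qN_lt_one hN)).summable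

lemma energy_thermal (N : ℝ) (hN : 0 ≤ N) : energy (thermal n N hN) = n * N := by
  unfold thermal
  rw [energy_diagState, (hasSum_energy_thW n (qN_nonneg hN) (qN_lt_one hN)).tsum_eq, qN_div hN]

lemma hasEntropy_thermal {N : ℝ} (hN : 0 < N) : HasEntropy (thermal n N hN.le) (n * gBose N) := by
  unfold thermal
  rw [hasEntropy_diagState_iff]
  have h0 := qN_pos hN
  have h1 := qN_lt_one hN.le
  have e : (fun k : Occ n => Real.negMulLog (thW n (qN N) k))
      = fun k => n * Real.log (N + 1) * thW n (qN N) k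
        + bN N * (((∑ j, k j : ℕ) : ℝ) * thW n (qN N) k) := by
    funext k
    have h2 := neg_log_thW (n := n) h0 h1 k
    rw [neg_log_qN hN] at h2
    have h3 := neg_log_one_sub_qN hN.le
    unfold Real.negMulLog
    linear_combination (thW n (qN N) k) * h2 + (n * thW n (qN N) k) * h3
  rw [e]
  have h4 := ((hasSum_thW n h0.le h1).mul_left (n * Real.log (N + 1))).add
    ((hasSum_energy_thW n h0.le h1).mul_left (bN N))
  have e2 : n * Real.log (N + 1) * 1 + bN N * (n * (qN N / (1 - qN N))) = n * gBose N := by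
    rw [qN_div hN.le, gBose_eq hN]
    ring
  rw [e2] at h4
  exact h4

/-- rigidity: equality in the Gibbs inequality identifies all matrix entries with those of the
thermal state. -/
theorem entry_eq_thermal_of_entropy_ge (ρ : FockState n) (hE : FiniteEnergy ρ) {s : ℝ}
    (hs : HasEntropy ρ s) {N : ℝ} (hN : 0 < N)
    (h : n * gBose N + bN N * (energy ρ - n * N) ≤ s) (k l : Occ n) :
    entry ρ.op k l = entry (thermal n N hN.le).op k l := by
  rw [entry_thermal, entry_eq, thermal_of_entropy_ge ρ hE hs hN h l, lp.coeFn_smul, Pi.smul_apply,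
    smul_eq_mul, ket_apply]
  split_ifs with h1
  · subst h1; simp
  · simp

/-- an operator is determined by its matrix entries. -/
lemma op_ext {S T : Fock n →L[ℂ] Fock n} (h : ∀ k l, entry S k l = entry T k l) : S = T := by
  have h1 : ∀ l, S (ket l) = T (ket l) := by
    intro l
    apply lp.ext
    funext k
    have := h k l
    rwa [entry_eq, entry_eq] at this
  ext1 x
  have e1 := (hasSum_expand x).mapL S
  have e2 := (hasSum_expand x).mapL T
  simp only [map_smul, h1] at e1 e2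
  exact e1.unique e2

end Diag

end Crest.Agent.R331.Gibbs158
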