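import Mathlib

set_option autoImplicit false

/-!
Finite-dimensional matrix calculus for the second variation (row 331).
`exp (diag h + t Z)` : derivative at `t = 0` in closed form (no Duhamel integral).
-/

open Matrix NormedSpace Filter Topology

namespace Crest.Agent.R331.Duh839

variable {m : Type*} [Fintype m] [DecidableEq m]

/-- exponential divided difference `(e^x - e^y)/(x-y)`, `e^x` on the diagonal. -/
noncomputable def LMe (x y : ℝ) : ℝ :=
  if x = y then Real.exp x else (Real.exp x - Real.exp y) / (x - y)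

theorem LMe_symm (x y : ℝ) : LMe x y = LMe y x := by
  unfold LMe
  by_cases h : x = y
  · simp [h]
  · rw [if_neg h, if_neg (Ne.symm h)]
    rw [← neg_sub (Real.exp y), ← neg_sub y x, neg_div_neg_eq]

theorem LMe_pos (x y : ℝ) : 0 < LMe x y := by
  unfold LMe
  by_cases h : x = y
  · simp [h, Real.exp_pos]
  · rw [if_neg h]
    rcases lt_or_gt_of_ne h with h' | h'
    · have := Real.exp_lt_exp.2 h'
      exact div_pos_of_neg_of_neg (by linarith) (by linarith)
    · have := Real.exp_lt_exp.2 h'
      exact div_pos (by linarith) (by linarith)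

/-- the diagonal matrix of a real vector -/
noncomputable abbrev dg (h : m → ℝ) : Matrix m m ℂ := diagonal (fun i => (h i : ℂ))

theorem exp_dg (h : m → ℝ) : exp (dg h) = dg (fun i => Real.exp (h i)) := by
  rw [dg, Matrix.exp_diagonal]
  congr 1
  funext i
  rw [Pi.coe_exp]
  simp [Complex.ofReal_exp, Complex.exp_eq_exp_ℂ]

/-- exact formula for the exponential in an off-diagonal elementary direction -/
theorem exp_add_single_of_ne (h : m → ℝ) {i j : m} (hij : i ≠ j) (t : ℂ) :
    exp (dg h + t • Matrix.single i j (1 : ℂ)) =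
      exp (dg h) + (t * (LMe (h i) (h j) : ℂ)) • Matrix.single i j (1 : ℂ) := by
  have hE2 : (Matrix.single i j (1:ℂ)) * (Matrix.single i j (1:ℂ)) = 0 := by
    rw [Matrix.single_mul_single_of_ne]
    exact hij.symm
  have hl : ∀ v : m → ℂ, diagonal v * Matrix.single i j (1:ℂ) = v i • Matrix.single i j (1:ℂ) := by
    intro v
    ext a b
    rw [Matrix.diagonal_mul, Matrix.smul_apply]
    simp only [Matrix.single_apply, smul_eq_mul]
    by_cases h1 : i = a ∧ j = b
    · rw [if_pos h1, h1.1]
    · rw [if_neg h1]; simp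
  have hr : ∀ v : m → ℂ, Matrix.single i j (1:ℂ) * diagonal v = v j • Matrix.single i j (1:ℂ) := by
    intro v
    ext a b
    rw [Matrix.mul_diagonal, Matrix.smul_apply]
    simp only [Matrix.single_apply, smul_eq_mul]
    by_cases h1 : i = a ∧ j = b
    · rw [if_pos h1, h1.2]; ring
    · rw [if_neg h1]; simp
  by_cases hh : h i = h j
  · -- commuting case
    have hc : Commute (dg h) (t • Matrix.single i j (1:ℂ)) := by
      unfold Commute SemiconjBy
      rw [Matrix.mul_smul, Matrix.smul_mul, hl, hr, hh]
    rw [Matrix.exp_add_of_commute _ _ hc]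
    have hexp : exp (t • Matrix.single i j (1:ℂ)) = 1 + t • Matrix.single i j (1:ℂ) := by
      have hn : (t • Matrix.single i j (1:ℂ)) ^ 2 = 0 := by
        rw [pow_two, Matrix.mul_smul, Matrix.smul_mul, hE2]; simp
      rw [exp_eq_tsum ℂ]
      have hz : ∀ n : ℕ, n ∉ Finset.range 2 → ((n.factorial : ℂ)⁻¹) • (t • Matrix.single i j (1:ℂ)) ^ n = 0 := by
        intro n hn'
        rw [Finset.mem_range, not_lt] at hn'
        obtain ⟨k, rfl⟩ := Nat.exists_eq_add_of_le hn'
        rw [pow_add, hn]; simp
      show ∑' n : ℕ, ((n.factorial : ℂ)⁻¹) • (t • Matrix.single i j (1:ℂ)) ^ n = _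
      rw [tsum_eq_sum hz]
      simp [Finset.sum_range_succ]
    rw [hexp, mul_add, mul_one, Matrix.mul_smul, exp_dg, hl, smul_smul]
    congr 2
    unfold LMe
    rw [if_pos hh]
  · -- conjugation by `1 + x E`
    set x : ℂ := t / ((h j : ℂ) - (h i : ℂ)) with hx
    have hne : ((h j : ℂ) - (h i : ℂ)) ≠ 0 := by
      rw [sub_ne_zero]
      exact fun h' => hh (by exact_mod_cast h'.symm)
    set E : Matrix m m ℂ := Matrix.single i j (1:ℂ) with hE
    have hinv1 : (1 + x • E) * (1 - x • E) = 1 := by
      rw [mul_sub, mul_one, add_mul, one_mul, Matrix.mul_smul, Matrix.smul_mul, hE2]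
      simp
    have hinv2 : (1 - x • E) * (1 + x • E) = 1 := by
      rw [mul_add, mul_one, sub_mul, one_mul, Matrix.mul_smul, Matrix.smul_mul, hE2]
      simp
    let U : (Matrix m m ℂ)ˣ := ⟨1 + x • E, 1 - x • E, hinv1, hinv2⟩
    have hconj : ∀ v : m → ℂ, (1 + x • E) * diagonal v * (1 - x • E)
        = diagonal v + (x * (v j - v i)) • E := by
      intro v
      rw [add_mul, one_mul, Matrix.smul_mul, hr, add_mul, mul_sub, mul_one, Matrix.mul_smul, hl,
        Matrix.smul_mul, Matrix.smul_mul, mul_sub, mul_one, Matrix.mul_smul, hE2]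
      simp only [smul_zero, sub_zero, smul_smul]
      rw [mul_sub, sub_smul]
      abel
    have h1 : dg h + t • E = U * dg h * (U⁻¹ : (Matrix m m ℂ)ˣ) := by
      show _ = (1 + x • E) * dg h * (1 - x • E)
      rw [hconj, hx, div_mul_cancel₀ _ hne]
    rw [h1, Matrix.exp_units_conj, exp_dg]
    show (1 + x • E) * dg _ * (1 - x • E) = _
    rw [hconj]
    congr 2
    unfold LMe
    rw [if_neg hh, hx]
    push_cast
    have hne' : ((h i : ℂ) - (h j : ℂ)) ≠ 0 := by
      rw [← neg_sub]; exact neg_ne_zero.2 hne
    field_simp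
    ring

theorem exp_add_single_self (h : m → ℝ) (i : m) (t : ℂ) :
    exp (dg h + t • Matrix.single i i (1 : ℂ)) =
      exp (dg h) + ((Real.exp (h i) : ℂ) * (Complex.exp t - 1)) • Matrix.single i i (1 : ℂ) := by
  have h1 : dg h + t • Matrix.single i i (1:ℂ) = diagonal (fun k => (h k : ℂ) + if k = i then t else 0) := by
    ext a b
    simp only [Matrix.add_apply, Matrix.smul_apply, Matrix.single_apply, smul_eq_mul, dg,
      Matrix.diagonal_apply]
    by_cases hab : a = b
    · subst hab
      by_cases hai : i = a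
      · subst hai; simp
      · simp [hai, Ne.symm hai]
    · have : ¬ (i = a ∧ i = b) := fun h' => hab (h'.1.symm.trans h'.2)
      simp [hab, this]
  rw [h1, Matrix.exp_diagonal, exp_dg]
  ext a b
  simp only [Matrix.add_apply, Matrix.smul_apply, Matrix.single_apply, smul_eq_mul, dg,
    Matrix.diagonal_apply]
  by_cases hab : a = b
  · subst hab
    rw [Pi.coe_exp]
    by_cases hai : i = a
    · subst hai
      simp only [if_true, and_self, mul_one]
      rw [← Complex.exp_eq_exp_ℂ, Complex.exp_add, Complex.ofReal_exp]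
      ring
    · simp only [if_true, and_self, if_neg hai, if_neg (Ne.symm hai), add_zero, mul_zero]
      rw [← Complex.exp_eq_exp_ℂ, Complex.ofReal_exp]
  · have : ¬ (i = a ∧ i = b) := fun h' => hab (h'.1.symm.trans h'.2)
    simp [hab, this]

end Crest.Agent.R331.Duh839
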