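import Mathlib
import Crest.Agent.R331.Duh_839

set_option autoImplicit false

open Matrix NormedSpace Filter Topology

namespace Crest.Agent.R331.Duh839

variable {m : Type*} [Fintype m] [DecidableEq m]

section
open scoped Matrix.Norms.Operator

theorem diffAt_exp (H : Matrix m m ℂ) : DifferentiableAt ℂ (exp : Matrix m m ℂ → Matrix m m ℂ) H :=
  (exp_analytic (𝕂 := ℂ) H).differentiableAt

theorem line_deriv {H E : Matrix m m ℂ} {D : Matrix m m ℂ →L[ℂ] Matrix m m ℂ}
    (hD : HasFDerivAt (exp : Matrix m m ℂ → Matrix m m ℂ) D H) :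
    HasDerivAt (fun t : ℂ => exp (H + t • E)) (D E) 0 := by
  have h1 : HasDerivAt (fun t : ℂ => H + t • E) E 0 := by
    have h0 := ((hasDerivAt_id (0:ℂ)).smul_const E).const_add H
    simp only [id, one_smul] at h0
    exact h0
  have h2 : HasFDerivAt (exp : Matrix m m ℂ → Matrix m m ℂ) D (H + (0:ℂ) • E) := by simpa using hD
  exact h2.comp_hasDerivAt (0:ℂ) h1

theorem fderiv_single (h : m → ℝ) (i j : m) {D : Matrix m m ℂ →L[ℂ] Matrix m m ℂ}
    (hD : HasFDerivAt (exp : Matrix m m ℂ → Matrix m m ℂ) D (dg h)) :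
    D (Matrix.single i j (1:ℂ)) = (LMe (h i) (h j) : ℂ) • Matrix.single i j (1:ℂ) := by
  have h1 := line_deriv (E := Matrix.single i j (1:ℂ)) hD
  refine h1.unique ?_
  by_cases hij : i = j
  · subst hij
    have h2 : (fun t : ℂ => exp (dg h + t • Matrix.single i i (1:ℂ))) = fun t : ℂ =>
        exp (dg h) + ((Real.exp (h i) : ℂ) * (Complex.exp t - 1)) • Matrix.single i i (1 : ℂ) := by
      funext t; exact exp_add_single_self h i t
    rw [h2]
    have h3 : HasDerivAt (fun t : ℂ => (Real.exp (h i) : ℂ) * (Complex.exp t - 1))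
        ((Real.exp (h i) : ℂ) * Complex.exp 0) 0 :=
      ((Complex.hasDerivAt_exp 0).sub_const 1).const_mul _
    have h4 := (h3.smul_const (Matrix.single i i (1:ℂ))).const_add (exp (dg h))
    have h5 : LMe (h i) (h i) = Real.exp (h i) := by simp [LMe]
    rw [h5]
    simpa using h4
  · have h2 : (fun t : ℂ => exp (dg h + t • Matrix.single i j (1:ℂ))) = fun t : ℂ =>
        exp (dg h) + (t * (LMe (h i) (h j) : ℂ)) • Matrix.single i j (1:ℂ) := by
      funext t; exact exp_add_single_of_ne h hij t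
    rw [h2]
    have h3 : HasDerivAt (fun t : ℂ => t * (LMe (h i) (h j) : ℂ)) (1 * (LMe (h i) (h j) : ℂ)) 0 :=
      (hasDerivAt_id (0:ℂ)).mul_const _
    have h4 := (h3.smul_const (Matrix.single i j (1:ℂ))).const_add (exp (dg h))
    simpa using h4

theorem fderiv_apply (h : m → ℝ) (Z : Matrix m m ℂ) {D : Matrix m m ℂ →L[ℂ] Matrix m m ℂ}
    (hD : HasFDerivAt (exp : Matrix m m ℂ → Matrix m m ℂ) D (dg h)) :
    D Z = Matrix.of fun i j => Z i j * (LMe (h i) (h j) : ℂ) := by
  conv_lhs => rw [Matrix.matrix_eq_sum_single Z]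
  rw [map_sum]
  simp_rw [map_sum]
  have h1 : ∀ i j, D (Matrix.single i j (Z i j)) = Matrix.single i j (Z i j * (LMe (h i) (h j) : ℂ)) := by
    intro i j
    have h2 : Matrix.single i j (Z i j) = (Z i j) • Matrix.single i j (1:ℂ) := by
      rw [Matrix.smul_single]; simp
    rw [h2, map_smul, fderiv_single h i j hD, Matrix.smul_single, Matrix.smul_single]
    simp
  simp_rw [h1]
  exact (Matrix.matrix_eq_sum_single (Matrix.of fun i j => Z i j * (LMe (h i) (h j) : ℂ))).symm

end

/-- conjugation by the eigenvector unitary -/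
theorem exp_conj_unitary (U : Matrix.unitaryGroup m ℂ) (A : Matrix m m ℂ) :
    exp ((U : Matrix m m ℂ) * A * star (U : Matrix m m ℂ)) =
      (U : Matrix m m ℂ) * exp A * star (U : Matrix m m ℂ) := by
  let V : (Matrix m m ℂ)ˣ := ⟨U, star (U : Matrix m m ℂ), Unitary.mul_star_self_of_mem U.2,
    Unitary.star_mul_self_of_mem U.2⟩
  exact Matrix.exp_units_conj V A

theorem trace_conj_unitary (U : Matrix.unitaryGroup m ℂ) (A : Matrix m m ℂ) :
    ((U : Matrix m m ℂ) * A * star (U : Matrix m m ℂ)).trace = A.trace := by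
  rw [Matrix.trace_mul_cycle, Unitary.star_mul_self_of_mem U.2, one_mul]

section
open scoped Matrix.Norms.Operator

/-- entrywise derivative of `t ↦ exp (diag h + t Z)` at `0` -/
theorem hasDerivAt_exp_entry (h : m → ℝ) (Z : Matrix m m ℂ) (i j : m) :
    HasDerivAt (fun t : ℝ => exp (dg h + (t:ℂ) • Z) i j) (Z i j * (LMe (h i) (h j) : ℂ)) 0 := by
  have hD := (diffAt_exp (dg h)).hasFDerivAt
  have h1 := line_deriv (E := Z) hD
  rw [fderiv_apply h Z hD] at h1
  let L : Matrix m m ℂ →ₗ[ℂ] ℂ := 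
    { toFun := fun M => M i j
      map_add' := fun _ _ => rfl
      map_smul' := fun _ _ => rfl }
  have h2 := (L.toContinuousLinearMap.hasFDerivAt (x := exp (dg h + (0:ℂ) • Z))).comp_hasDerivAt (0:ℂ) h1
  have h3 := h2.comp_ofReal
  exact h3

/-- derivative of the trace of the exponential along a line of Hermitian matrices -/
theorem hasDerivAt_trace_exp {H Z : Matrix m m ℂ} (hH : H.IsHermitian) (hZ : Z.IsHermitian) (t₀ : ℝ) :
    HasDerivAt (fun t : ℝ => (exp (H + (t:ℂ) • Z)).trace) ((exp (H + (t₀:ℂ) • Z) * Z).trace) t₀ := by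
  set K : Matrix m m ℂ := H + (t₀:ℂ) • Z with hK
  have hKh : K.IsHermitian := by
    rw [hK]
    refine hH.add ?_
    unfold Matrix.IsHermitian
    rw [Matrix.conjTranspose_smul, hZ.eq]
    simp
  -- diagonalise
  set U := hKh.eigenvectorUnitary with hU
  set h := hKh.eigenvalues with hh
  have hspec : K = (U : Matrix m m ℂ) * dg h * star (U : Matrix m m ℂ) := by
    conv_lhs => rw [hKh.spectral_theorem]
    rw [Unitary.conjStarAlgAut_apply]
    rfl
  set W : Matrix m m ℂ := star (U : Matrix m m ℂ) * Z * (U : Matrix m m ℂ) with hW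
  have hZW : Z = (U : Matrix m m ℂ) * W * star (U : Matrix m m ℂ) := by
    have e1 : (U : Matrix m m ℂ) * star (U : Matrix m m ℂ) = 1 := Unitary.mul_star_self_of_mem U.2
    rw [hW]
    calc Z = 1 * Z * 1 := by simp
      _ = ((U : Matrix m m ℂ) * star (U : Matrix m m ℂ)) * Z *
          ((U : Matrix m m ℂ) * star (U : Matrix m m ℂ)) := by rw [e1]
      _ = _ := by simp only [Matrix.mul_assoc]
  have hline : ∀ t : ℝ, (exp (H + (t:ℂ) • Z)).trace = (exp (dg h + ((t - t₀ : ℝ) : ℂ) • W)).trace := by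
    intro t
    have e1 : H + (t:ℂ) • Z = (U : Matrix m m ℂ) * (dg h + ((t - t₀ : ℝ) : ℂ) • W) *
        star (U : Matrix m m ℂ) := by
      rw [Matrix.mul_add, Matrix.add_mul, ← hspec, Matrix.mul_smul, Matrix.smul_mul, ← hZW, hK]
      push_cast
      rw [sub_smul]
      abel
    rw [e1, exp_conj_unitary, trace_conj_unitary]
  have hd : ∀ i : m, HasDerivAt (fun t : ℝ => exp (dg h + ((t - t₀ : ℝ) : ℂ) • W) i i)
      (W i i * (LMe (h i) (h i) : ℂ)) t₀ := by
    intro i
    have h1 := hasDerivAt_exp_entry h W i i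
    have h2 : HasDerivAt (fun t : ℝ => t - t₀) 1 t₀ := (hasDerivAt_id t₀).sub_const t₀
    have h3 : HasDerivAt (fun t : ℝ => exp (dg h + (t:ℂ) • W) i i) (W i i * (LMe (h i) (h i) : ℂ))
        ((fun t : ℝ => t - t₀) t₀) := by simpa using h1
    have h4 := HasDerivAt.scomp (h := fun t : ℝ => t - t₀) t₀ h3 h2
    rw [one_smul] at h4
    exact h4
  have hsum : HasDerivAt (fun t : ℝ => ∑ i, exp (dg h + ((t - t₀ : ℝ) : ℂ) • W) i i)
      (∑ i, W i i * (LMe (h i) (h i) : ℂ)) t₀ := by
    have := HasDerivAt.fun_sum (u := Finset.univ) (fun i _ => hd i)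
    exact this
  have hfun : (fun t : ℝ => (exp (H + (t:ℂ) • Z)).trace) =
      fun t : ℝ => ∑ i, exp (dg h + ((t - t₀ : ℝ) : ℂ) • W) i i := by
    funext t
    rw [hline t]; rfl
  rw [hfun]
  convert hsum using 1
  -- trace (exp K * Z) = ∑ W i i e^{h i}
  have e2 : exp K * Z = (U : Matrix m m ℂ) * (exp (dg h) * W) * star (U : Matrix m m ℂ) := by
    have e1 : star (U : Matrix m m ℂ) * (U : Matrix m m ℂ) = 1 := Unitary.star_mul_self_of_mem U.2
    conv_lhs => rw [hspec, exp_conj_unitary, hZW]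
    calc (U : Matrix m m ℂ) * exp (dg h) * star (U : Matrix m m ℂ) *
          ((U : Matrix m m ℂ) * W * star (U : Matrix m m ℂ))
        = (U : Matrix m m ℂ) * exp (dg h) * (star (U : Matrix m m ℂ) * (U : Matrix m m ℂ)) * W *
            star (U : Matrix m m ℂ) := by simp only [Matrix.mul_assoc]
      _ = _ := by rw [e1]; simp only [Matrix.mul_assoc, Matrix.mul_one, Matrix.one_mul]
  rw [e2, trace_conj_unitary, exp_dg, Matrix.trace]
  refine Finset.sum_congr rfl fun i _ => ?_
  rw [Matrix.diag_apply, Matrix.diagonal_mul]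
  simp [LMe, mul_comm]

end

end Crest.Agent.R331.Duh839
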