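import Mathlib
import Crest.Prelude.Def_FockState

/-!
R331 / [EMB], helper915.  Bridge between finite matrices and the frozen `FockState`:
functional calculus of finite orthonormal diagonal operators, embedding of a density matrix along
an injection `f : ι → Occ n`.
-/

set_option autoImplicit false

open scoped InnerProductSpace ComplexConjugate ComplexOrder
open Crest.MathPhysics.Bosonic InnerProductSpace

namespace Crest.Agent.R331.Emb915

noncomputable section

section diag

variable {H : Type*} [NormedAddCommGroup H] [InnerProductSpace ℂ H] [CompleteSpace H]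
variable {ι : Type*} [Fintype ι]

/-- the operator `∑ c_i |w_i⟩⟨w_i|` -/
def diagOp (w : ι → H) (c : ι → ℂ) : H →L[ℂ] H := ∑ i, c i • rankOne ℂ (w i) (w i)

omit [CompleteSpace H] in
theorem diagOp_apply (w : ι → H) (c : ι → ℂ) (x : H) :
    diagOp w c x = ∑ i, c i • (⟪w i, x⟫_ℂ • w i) := by
  simp [diagOp]

omit [CompleteSpace H] in
theorem diagOp_mul [DecidableEq ι] {w : ι → H} (hw : Orthonormal ℂ w) (c d : ι → ℂ) :
    diagOp w (c * d) = diagOp w c * diagOp w d := by
  ext x
  rw [mul_apply_eq_comp, diagOp_apply, diagOp_apply w d, map_sum]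
  refine Finset.sum_congr rfl fun i _ => ?_
  rw [map_smul, map_smul, diagOp_apply]
  rw [Finset.sum_eq_single i]
  · rw [orthonormal_iff_ite.1 hw i i, if_pos rfl, one_smul, Pi.mul_apply]
    simp only [smul_smul]
    congr 1
    ring
  · intro j _ hj
    rw [orthonormal_iff_ite.1 hw j i, if_neg hj, zero_smul, smul_zero]
  · intro h; exact absurd (Finset.mem_univ i) h

theorem diagOp_star (w : ι → H) (c : ι → ℂ) :
    star (diagOp w c) = diagOp w (star c) := by
  rw [ContinuousLinearMap.star_eq_adjoint, diagOp, map_sum, diagOp]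
  refine Finset.sum_congr rfl fun i _ => ?_
  rw [LinearIsometryEquiv.map_smulₛₗ, adjoint_rankOne]
  rfl

/-- `c ↦ ∑ c_i |w_i⟩⟨w_i|` as a non-unital star algebra homomorphism -/
def diagHom [DecidableEq ι] {w : ι → H} (hw : Orthonormal ℂ w) :
    (ι → ℂ) →⋆ₙₐ[ℂ] (H →L[ℂ] H) where
  toFun := diagOp w
  map_smul' a c := by
    simp [diagOp, Finset.smul_sum, smul_smul]
  map_zero' := by simp [diagOp]
  map_add' c d := by simp [diagOp, add_smul, Finset.sum_add_distrib]
  map_mul' := diagOp_mul hw
  map_star' c := (diagOp_star w c).symm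

theorem continuous_diagOp (w : ι → H) : Continuous (diagOp w) := by
  unfold diagOp
  fun_prop

theorem diagOp_isStarNormal [DecidableEq ι] {w : ι → H} (hw : Orthonormal ℂ w) (c : ι → ℂ) :
    IsStarNormal (diagOp w c) := by
  constructor
  rw [commute_iff_eq, diagOp_star, ← diagOp_mul hw, ← diagOp_mul hw, mul_comm]

/-- functional calculus of a finite diagonal operator -/
theorem cfc_diagOp [DecidableEq ι] {w : ι → H} (hw : Orthonormal ℂ w) (c : ι → ℂ) {g : ℂ → ℂ}
    (hg : Continuous g) (h0 : g 0 = 0) :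
    cfc g (diagOp w c) = diagOp w (fun i => g (c i)) := by
  have hn := diagOp_isStarNormal hw c
  have hnc : IsStarNormal c := ⟨by rw [commute_iff_eq, mul_comm]⟩
  rw [← cfcₙ_eq_cfc (hf := hg.continuousOn) (hf0 := h0)]
  have h1 := NonUnitalStarAlgHomClass.map_cfcₙ (R := ℂ) (S := ℂ) (diagHom hw) g c
    (hf := hg.continuousOn) (hf₀ := h0) (hφ := continuous_diagOp w) (ha := hnc) (hφa := hn)
  have h2 : cfcₙ g c = fun i => g (c i) := by
    rw [cfcₙ_eq_cfc (hf := hg.continuousOn) (hf0 := h0)]
    rw [cfc_map_pi (S := ℂ) (q := fun _ => IsStarNormal) g c hg.continuousOn hnc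
      (fun i => ⟨mul_comm _ _⟩)]
    funext i
    exact cfc_algebraMap (R := ℂ) (A := ℂ) (c i) g
  rw [h2] at h1
  exact h1.symm

omit [CompleteSpace H] in
theorem diagOp_isPositive (w : ι → H) (c : ι → ℝ) (hc : ∀ i, 0 ≤ c i) :
    (diagOp w (fun i => (c i : ℂ))).IsPositive := by
  unfold diagOp
  refine Finset.sum_induction _ (fun T : H →L[ℂ] H => T.IsPositive)
    (fun a b ha hb => ha.add hb) ContinuousLinearMap.isPositive_zero fun i _ => ?_
  exact (isPositive_rankOne_self (w i)).smul_of_nonneg (Complex.zero_le_real.2 (hc i))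

end diag

section emb

variable {n : ℕ}

theorem inner_ket (k : Occ n) (x : Fock n) : ⟪ket k, x⟫_ℂ = x k := by
  unfold ket
  rw [lp.inner_single_left]
  simp

theorem ket_apply (k l : Occ n) : (ket k : Fock n) l = if l = k then 1 else 0 := by
  unfold ket
  split_ifs with h
  · subst h; rw [lp.single_apply_self]
  · rw [lp.single_apply_ne _ _ _ h]

theorem inner_ket_ket (k l : Occ n) : ⟪(ket k : Fock n), ket l⟫_ℂ = if k = l then 1 else 0 := by
  rw [inner_ket, ket_apply]

variable {ι : Type*} [Fintype ι]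

/-- embedding of a finite matrix along `f : ι → Occ n` -/
def embOp (f : ι → Occ n) (M : Matrix ι ι ℂ) : Fock n →L[ℂ] Fock n :=
  ∑ i, ∑ j, M i j • rankOne ℂ (ket (f i)) (ket (f j))

theorem entry_embOp (f : ι → Occ n) (M : Matrix ι ι ℂ) (k l : Occ n) :
    entry (embOp f M) k l = ∑ i, ∑ j, if f i = k ∧ f j = l then M i j else 0 := by
  unfold entry embOp
  simp only [sum_apply, inner_sum, smul_apply,
    rankOne_apply, inner_smul_right, inner_ket_ket]
  refine Finset.sum_congr rfl fun i _ => Finset.sum_congr rfl fun j _ => ?_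
  by_cases h1 : k = f i
  · by_cases h2 : f j = l
    · simp [h1, h2]
    · simp [h1, h2]
  · simp [h1, Ne.symm h1]

theorem entry_embOp_apply [DecidableEq ι] {f : ι → Occ n} (hf : Function.Injective f)
    (M : Matrix ι ι ℂ) (i j : ι) : entry (embOp f M) (f i) (f j) = M i j := by
  rw [entry_embOp, Finset.sum_eq_single i, Finset.sum_eq_single j]
  · simp
  · intro b _ hb
    rw [if_neg]
    rintro ⟨_, h⟩
    exact hb (hf h)
  · intro h; exact absurd (Finset.mem_univ _) h
  · intro b _ hb
    refine Finset.sum_eq_zero fun c _ => ?_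
    rw [if_neg]
    rintro ⟨h, _⟩
    exact hb (hf h)
  · intro h; exact absurd (Finset.mem_univ _) h

theorem entry_embOp_left (f : ι → Occ n) (M : Matrix ι ι ℂ) {k : Occ n} (l : Occ n)
    (hk : ∀ i, f i ≠ k) : entry (embOp f M) k l = 0 := by
  rw [entry_embOp]
  exact Finset.sum_eq_zero fun i _ => Finset.sum_eq_zero fun j _ => if_neg fun h => hk i h.1

theorem entry_embOp_right (f : ι → Occ n) (M : Matrix ι ι ℂ) (k : Occ n) {l : Occ n}
    (hl : ∀ i, f i ≠ l) : entry (embOp f M) k l = 0 := by
  rw [entry_embOp]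
  exact Finset.sum_eq_zero fun i _ => Finset.sum_eq_zero fun j _ => if_neg fun h => hl j h.2

/-- embedding of a finite vector -/
def embVec (f : ι → Occ n) (v : ι → ℂ) : Fock n := ∑ i, v i • ket (f i)

theorem inner_embVec [DecidableEq ι] {f : ι → Occ n} (hf : Function.Injective f) (u v : ι → ℂ) :
    ⟪embVec f u, embVec f v⟫_ℂ = ∑ i, conj (u i) * v i := by
  unfold embVec
  rw [sum_inner]
  refine Finset.sum_congr rfl fun i _ => ?_
  rw [inner_sum, Finset.sum_eq_single i]
  · rw [inner_smul_left, inner_smul_right, inner_ket_ket, if_pos rfl, mul_one]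
  · intro j _ hj
    rw [inner_smul_left, inner_smul_right, inner_ket_ket, if_neg (fun h => hj (hf h).symm)]
    simp
  · intro h; exact absurd (Finset.mem_univ i) h

theorem rankOne_embVec (f : ι → Occ n) (u v : ι → ℂ) :
    rankOne ℂ (embVec f u) (embVec f v)
      = ∑ i, ∑ j, (u i * conj (v j)) • rankOne ℂ (ket (f i)) (ket (f j)) := by
  ext1 x
  simp only [rankOne_apply, sum_apply, smul_apply]
  unfold embVec
  rw [sum_inner, Finset.smul_sum]
  refine Finset.sum_congr rfl fun i _ => ?_
  rw [Finset.sum_smul]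
  refine Finset.sum_congr rfl fun j _ => ?_
  rw [inner_smul_left, smul_smul, smul_smul]
  congr 1
  ring

theorem hermitian_entry [DecidableEq ι] {M : Matrix ι ι ℂ} (hM : M.IsHermitian) (i j : ι) :
    M i j = ∑ m, (hM.eigenvalues m : ℂ) * (hM.eigenvectorBasis m i * conj (hM.eigenvectorBasis m j)) := by
  conv_lhs => rw [hM.spectral_theorem]
  rw [Unitary.conjStarAlgAut_apply, Matrix.mul_apply]
  refine Finset.sum_congr rfl fun m _ => ?_
  rw [Matrix.mul_diagonal]
  simp only [Matrix.IsHermitian.eigenvectorUnitary_apply, Function.comp_apply, Matrix.star_apply]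
  simp only [RCLike.star_def]
  change _ * (hM.eigenvalues m : ℂ) * _ = _
  ring

theorem embOp_eq_diagOp [DecidableEq ι] (f : ι → Occ n) {M : Matrix ι ι ℂ} (hM : M.IsHermitian) :
    embOp f M = diagOp (fun m => embVec f (hM.eigenvectorBasis m))
      (fun m => (hM.eigenvalues m : ℂ)) := by
  unfold embOp diagOp
  simp only [rankOne_embVec, Finset.smul_sum, smul_smul]
  rw [Finset.sum_comm]
  calc ∑ j, ∑ i, M i j • rankOne ℂ (ket (f i) : Fock n) (ket (f j))
      = ∑ j, ∑ i, ∑ m, ((hM.eigenvalues m : ℂ) *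
          (hM.eigenvectorBasis m i * conj (hM.eigenvectorBasis m j))) •
            rankOne ℂ (ket (f i) : Fock n) (ket (f j)) := by
        refine Finset.sum_congr rfl fun j _ => Finset.sum_congr rfl fun i _ => ?_
        rw [← Finset.sum_smul, ← hermitian_entry hM i j]
    _ = ∑ j, ∑ m, ∑ i, ((hM.eigenvalues m : ℂ) *
          (hM.eigenvectorBasis m i * conj (hM.eigenvectorBasis m j))) •
            rankOne ℂ (ket (f i) : Fock n) (ket (f j)) :=
        Finset.sum_congr rfl fun j _ => Finset.sum_comm
    _ = ∑ m, ∑ j, ∑ i, ((hM.eigenvalues m : ℂ) *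
          (hM.eigenvectorBasis m i * conj (hM.eigenvectorBasis m j))) •
            rankOne ℂ (ket (f i) : Fock n) (ket (f j)) := Finset.sum_comm
    _ = _ := Finset.sum_congr rfl fun m _ => Finset.sum_comm

theorem orthonormal_embVec [DecidableEq ι] {f : ι → Occ n} (hf : Function.Injective f)
    {M : Matrix ι ι ℂ} (hM : M.IsHermitian) :
    Orthonormal ℂ (fun m => embVec f (hM.eigenvectorBasis m)) := by
  rw [orthonormal_iff_ite]
  intro a b
  rw [inner_embVec hf]
  have h := orthonormal_iff_ite.1 hM.eigenvectorBasis.orthonormal a b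
  rw [EuclideanSpace.inner_eq_star_dotProduct] at h
  rw [← h]
  simp [dotProduct, mul_comm]

theorem hasSum_entry_rankOne (w : Fock n) :
    HasSum (fun k => entry (rankOne ℂ w w) k k) ((‖w‖ ^ 2 : ℝ) : ℂ) := by
  have h := lp.hasSum_norm (p := 2) (by norm_num) w
  have h2 : HasSum (fun k => ‖w k‖ ^ 2) (‖w‖ ^ 2) := by simpa using h
  have h3 := h2.mapL Complex.ofRealCLM
  convert h3 using 1
  · funext k
    unfold entry
    rw [rankOne_apply, inner_smul_right, inner_ket, ← inner_conj_symm, inner_ket]
    simp [RCLike.conj_mul]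
  · rfl

theorem hasSum_entry_diagOp {w : ι → Fock n} (hw : ∀ i, ‖w i‖ = 1) (c : ι → ℂ) :
    HasSum (fun k => entry (diagOp w c) k k) (∑ i, c i) := by
  have h : ∀ i ∈ (Finset.univ : Finset ι),
      HasSum (fun k => c i * entry (rankOne ℂ (w i) (w i)) k k) (c i) := by
    intro i _
    have := (hasSum_entry_rankOne (w i)).mul_left (c i)
    rw [hw i] at this
    simpa using this
  have h2 := hasSum_sum h
  convert h2 using 1
  funext k
  unfold entry diagOp
  simp only [sum_apply, inner_sum, smul_apply, inner_smul_right]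

theorem hasSum_entry_embOp [DecidableEq ι] {f : ι → Occ n} (hf : Function.Injective f)
    {M : Matrix ι ι ℂ} (hM : M.IsHermitian) :
    HasSum (fun k => entry (embOp f M) k k) M.trace := by
  rw [embOp_eq_diagOp f hM, hM.trace_eq_sum_eigenvalues]
  exact hasSum_entry_diagOp (fun i => (orthonormal_embVec hf hM).1 i) _

theorem embOp_isPositive [DecidableEq ι] (f : ι → Occ n)
    {M : Matrix ι ι ℂ} (hM : M.PosSemidef) : (embOp f M).IsPositive := by
  rw [embOp_eq_diagOp f hM.1]
  exact diagOp_isPositive _ _ hM.eigenvalues_nonneg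

/-- the embedded state -/
def embState [DecidableEq ι] (f : ι → Occ n) (hf : Function.Injective f) (M : Matrix ι ι ℂ)
    (hM : Crest.Quantum.IsDensity M) : FockState n where
  op := embOp f M
  pos := embOp_isPositive f hM.1
  traceOne := by
    have h := hasSum_entry_embOp hf hM.1.1
    rw [hM.2] at h
    have h2 := h.mapL Complex.reCLM
    simpa using h2

/-- functional calculus of an embedded Hermitian matrix -/
theorem cfc_embOp [DecidableEq ι] {f : ι → Occ n} (hf : Function.Injective f)
    {M : Matrix ι ι ℂ} (hM : M.IsHermitian) {g : ℂ → ℂ} (hg : Continuous g) (h0 : g 0 = 0) :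
    cfc g (embOp f M) = diagOp (fun m => embVec f (hM.eigenvectorBasis m))
      (fun m => g (hM.eigenvalues m : ℂ)) := by
  rw [embOp_eq_diagOp f hM, cfc_diagOp (orthonormal_embVec hf hM) _ hg h0]

theorem continuous_eta : Continuous (fun z : ℂ => (-(z.re * Real.log z.re) : ℂ)) := by
  have h : Continuous (fun x : ℝ => x * Real.log x) := Real.continuous_mul_log
  have h2 := (Complex.continuous_ofReal.comp (h.comp Complex.continuous_re)).neg
  convert h2 using 2
  simp [Function.comp]

/-- entropy of the embedded state = `vnEntropy` of the matrix -/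
theorem hasEntropy_embOp [DecidableEq ι] {f : ι → Occ n} (hf : Function.Injective f)
    {M : Matrix ι ι ℂ} (hM : M.IsHermitian) :
    HasSum (fun k : Occ n =>
      (entry (cfc (fun z : ℂ => (-(z.re * Real.log z.re) : ℂ)) (embOp f M)) k k).re)
      (Crest.Quantum.vnEntropy M) := by
  rw [cfc_embOp hf hM continuous_eta (by simp)]
  have h := hasSum_entry_diagOp (fun i => (orthonormal_embVec hf hM).1 i)
    (fun m => (-(((hM.eigenvalues m : ℂ)).re * Real.log ((hM.eigenvalues m : ℂ)).re) : ℂ))
  have h2 := h.mapL Complex.reCLM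
  unfold Crest.Quantum.vnEntropy
  rw [dif_pos hM]
  convert h2 using 1
  · rfl
  · rw [Complex.reCLM_apply, Complex.re_sum, ← Finset.sum_neg_distrib]
    refine Finset.sum_congr rfl fun i _ => ?_
    simp only [Complex.ofReal_re]
    rw [Complex.neg_re, ← Complex.ofReal_mul, Complex.ofReal_re]

theorem hasEntropy_embState [DecidableEq ι] {f : ι → Occ n} (hf : Function.Injective f)
    {M : Matrix ι ι ℂ} (hM : Crest.Quantum.IsDensity M) :
    HasEntropy (embState f hf M hM) (Crest.Quantum.vnEntropy M) :=
  hasEntropy_embOp hf hM.1.1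

end emb

end

end Crest.Agent.R331.Emb915
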