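import Mathlib
import Crest.Prelude.Def_FockState
import Crest.Agent.R331.BSn_375
import Crest.Agent.R331.Emb_915

/-!
R331 / [EMB], helper915, part 2.  The prelude's finite beam-splitter output `bsOutput` (box cut-off)
is the frozen `IsBeamSplitterOutput` of the embedded states.
-/

set_option autoImplicit false

open scoped InnerProductSpace ComplexConjugate ComplexOrder
open Crest.MathPhysics.Bosonic InnerProductSpace
open Crest.Agent.R331.BS375 Crest.Agent.R331.Emb915

namespace Crest.Agent.R331.EmbOut915

noncomputable section

variable {n : ℕ}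

/-- change of summation: splittings of `m` versus pairs of indices -/
theorem sum_splitting_eq {ι : Type*} [Fintype ι] {R : Type*} [AddCommMonoid R]
    {f : ι → Occ n} (hf : Function.Injective f) (m : Occ n) (F : Occ n → Occ n → R)
    (hF : ∀ a : Splitting m, F a.fst a.snd ≠ 0 → (∃ i, f i = a.fst) ∧ ∃ j, f j = a.snd) :
    ∑ a : Splitting m, F a.fst a.snd
      = ∑ i, ∑ j, if f i + f j = m then F (f i) (f j) else 0 := by
  classical
  rw [← Fintype.sum_prod_type' (f := fun i j => if f i + f j = m then F (f i) (f j) else 0)]
  rw [← Finset.sum_filter]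
  symm
  refine Finset.sum_of_injOn
    (e := fun x : ι × ι => (fun j => ⟨min (f x.1 j) (m j), Nat.lt_succ_of_le (min_le_right _ _)⟩ :
      Splitting m)) ?_ ?_ ?_ ?_
  · intro x hx y hy hxy
    simp only [Finset.coe_filter, Finset.mem_univ, true_and, Set.mem_ofPred_eq] at hx hy
    have h1 : f x.1 = f y.1 := by
      funext j
      have h := congrArg Fin.val (congrFun hxy j)
      simp only at h
      have h2 := congrFun hx j
      have h3 := congrFun hy j
      simp only [Pi.add_apply] at h2 h3
      omega
    have h2 : f x.2 = f y.2 := by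
      funext j
      have h := congrFun h1 j
      have h2 := congrFun hx j
      have h3 := congrFun hy j
      simp only [Pi.add_apply] at h2 h3
      omega
    exact Prod.ext (hf h1) (hf h2)
  · intro x _
    exact Finset.mem_coe.2 (Finset.mem_univ _)
  · intro a _ ha
    by_contra h0
    obtain ⟨⟨i, hi⟩, ⟨j, hj⟩⟩ := hF a h0
    apply ha
    refine ⟨(i, j), ?_, ?_⟩
    · simp only [Finset.coe_filter, Finset.mem_univ, true_and, Set.mem_ofPred_eq]
      rw [hi, hj, fst_add_snd]
    · funext l
      apply Fin.ext
      have h1 := congrFun hi l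
      have h2 := (a l).is_lt
      simp only [Splitting.fst] at h1
      simp only [h1]
      omega
  · intro x hx
    simp only [Finset.mem_filter, Finset.mem_univ, true_and] at hx
    have h1 : (Splitting.fst (m := m) (fun j => ⟨min (f x.1 j) (m j),
        Nat.lt_succ_of_le (min_le_right _ _)⟩)) = f x.1 := by
      funext j
      have := congrFun hx j
      simp only [Pi.add_apply] at this
      simp only [Splitting.fst]
      omega
    have h2 : (Splitting.snd (m := m) (fun j => ⟨min (f x.1 j) (m j),
        Nat.lt_succ_of_le (min_le_right _ _)⟩)) = f x.2 := by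
      funext j
      have := congrFun hx j
      simp only [Pi.add_apply] at this
      simp only [Splitting.snd]
      omega
    rw [h1, h2]

/-- as `sum_splitting_eq`, when `F` vanishes off `x + y = m` -/
theorem sum_splitting_eq' {ι : Type*} [Fintype ι] {R : Type*} [AddCommMonoid R]
    {f : ι → Occ n} (hf : Function.Injective f) (m : Occ n) (F : Occ n → Occ n → R)
    (hF : ∀ a : Splitting m, F a.fst a.snd ≠ 0 → (∃ i, f i = a.fst) ∧ ∃ j, f j = a.snd)
    (h0 : ∀ x y, m ≠ x + y → F x y = 0) :
    ∑ a : Splitting m, F a.fst a.snd = ∑ i, ∑ j, F (f i) (f j) := by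
  rw [sum_splitting_eq hf m F hF]
  refine Finset.sum_congr rfl fun i _ => Finset.sum_congr rfl fun j _ => ?_
  split_ifs with h
  · rfl
  · exact (h0 _ _ (fun h' => h h'.symm)).symm

variable {ι : Type*} [Fintype ι] [DecidableEq ι]

omit [DecidableEq ι] in
theorem entry_embOp_ne_zero {f : ι → Occ n} {M : Matrix ι ι ℂ} {k l : Occ n}
    (h : entry (embOp f M) k l ≠ 0) : (∃ i, f i = k) ∧ ∃ j, f j = l := by
  constructor
  · by_contra hk
    push Not at hk
    exact h (entry_embOp_left f M l hk)
  · by_contra hl
    push Not at hl
    exact h (entry_embOp_right f M k hl)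

/-- the blocks of the output of embedded states, as a finite sum over the index types -/
theorem outBlock_emb {f : ι → Occ n} (hf : Function.Injective f) (η : ℝ) (ρA ρB : FockState n)
    (A B : Matrix ι ι ℂ) (hA : ρA.op = embOp f A) (hB : ρB.op = embOp f B) (k l e : Occ n) :
    outBlock η ρA ρB k l e
      = ∑ i, ∑ j, ∑ i', ∑ j', (ampOcc η (f i) (f j) k e : ℂ) * A i i' * B j j' *
          (ampOcc η (f i') (f j') l e : ℂ) := by
  unfold outBlock
  rw [hA, hB]
  have inner : ∀ x y : Occ n, ∑ b : Splitting (l + e),
      (ampOcc η x y k e : ℂ) * entry (embOp f A) x b.fst * entry (embOp f B) y b.snd *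
        (ampOcc η b.fst b.snd l e : ℂ)
      = ∑ i', ∑ j', (ampOcc η x y k e : ℂ) * entry (embOp f A) x (f i') *
          entry (embOp f B) y (f j') * (ampOcc η (f i') (f j') l e : ℂ) := by
    intro x y
    refine sum_splitting_eq' hf (l + e) (fun b b' => (ampOcc η x y k e : ℂ) *
      entry (embOp f A) x b * entry (embOp f B) y b' * (ampOcc η b b' l e : ℂ)) ?_ ?_
    · intro a ha
      have h1 : entry (embOp f A) x a.fst ≠ 0 := by
        intro h; apply ha; simp only [h]; ring
      have h2 : entry (embOp f B) y a.snd ≠ 0 := by
        intro h; apply ha; simp only [h]; ring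
      exact ⟨(entry_embOp_ne_zero h1).2, (entry_embOp_ne_zero h2).2⟩
    · intro b b' hb
      simp only [ampOcc_of_ne η hb]
      simp
  have outer := sum_splitting_eq' hf (k + e) (fun x y =>
    ∑ b : Splitting (l + e),
      (ampOcc η x y k e : ℂ) * entry (embOp f A) x b.fst * entry (embOp f B) y b.snd *
        (ampOcc η b.fst b.snd l e : ℂ)) (by
      intro a ha
      obtain ⟨b, _, hb⟩ := Finset.exists_ne_zero_of_sum_ne_zero ha
      have h1 : entry (embOp f A) a.fst b.fst ≠ 0 := by
        intro h; apply hb; simp only [h]; ring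
      have h2 : entry (embOp f B) a.snd b.snd ≠ 0 := by
        intro h; apply hb; simp only [h]; ring
      exact ⟨(entry_embOp_ne_zero h1).1, (entry_embOp_ne_zero h2).1⟩) (by
      intro x y hxy
      refine Finset.sum_eq_zero fun b _ => ?_
      rw [ampOcc_of_ne η hxy]
      simp)
  refine Eq.trans outer ?_
  refine Finset.sum_congr rfl fun i _ => Finset.sum_congr rfl fun j _ => ?_
  rw [inner]
  refine Finset.sum_congr rfl fun i' _ => Finset.sum_congr rfl fun j' _ => ?_
  rw [entry_embOp_apply hf, entry_embOp_apply hf]

/-! ### the box cut-off -/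

/-- the box `k_j ≤ K` inside `Occ n` -/
def box (n K : ℕ) : (Fin n → Fin (K + 1)) → Occ n := fun k j => (k j : ℕ)

theorem box_injective (n K : ℕ) : Function.Injective (box n K) := by
  intro x y h
  funext j
  exact Fin.ext (congrFun h j)

@[simp] theorem box_apply {n K : ℕ} (k : Fin n → Fin (K + 1)) (j : Fin n) :
    box n K k j = (k j : ℕ) := rfl

theorem exists_box {n K : ℕ} {k : Occ n} (h : ∀ j, k j ≤ K) : ∃ i, box n K i = k :=
  ⟨fun j => ⟨k j, Nat.lt_succ_of_le (h j)⟩, rfl⟩

theorem box_le {n K : ℕ} (k : Fin n → Fin (K + 1)) (j : Fin n) : box n K k j ≤ K :=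
  Nat.lt_succ_iff.1 (k j).is_lt

theorem bsAmpN_eq {n K : ℕ} (η : ℝ) (k l : Fin n → Fin (K + 1)) (p q : Fin n → Fin (2 * K + 1)) :
    bsAmpN η k l p q = ampOcc η (box n K k) (box n K l) (box n (2 * K) p) (box n (2 * K) q) := rfl

/-- the output of embedded box states: entries -/
theorem hasSum_outBlock {n K : ℕ} (η : ℝ) (ρA ρB : FockState n)
    (A B : Matrix (Fin n → Fin (K + 1)) (Fin n → Fin (K + 1)) ℂ)
    (hA : ρA.op = embOp (box n K) A) (hB : ρB.op = embOp (box n K) B) (k l : Occ n) :
    HasSum (fun e => outBlock η ρA ρB k l e)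
      (entry (embOp (box n (2 * K)) (bsOutput η A B)) k l) := by
  have hG := outBlock_emb (box_injective n K) η ρA ρB A B hA hB
  simp_rw [hG]
  by_cases hk : ∀ j, k j ≤ 2 * K
  · by_cases hl : ∀ j, l j ≤ 2 * K
    · obtain ⟨p, rfl⟩ := exists_box hk
      obtain ⟨p', rfl⟩ := exists_box hl
      rw [entry_embOp_apply (box_injective n (2 * K))]
      rw [← (box_injective n (2 * K)).hasSum_iff]
      · have h := hasSum_fintype (fun q : Fin n → Fin (2 * K + 1) =>
          ∑ i, ∑ j, ∑ i', ∑ j', (ampOcc η (box n K i) (box n K j) (box n (2 * K) p)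
            (box n (2 * K) q) : ℂ) * A i i' * B j j' *
            (ampOcc η (box n K i') (box n K j') (box n (2 * K) p') (box n (2 * K) q) : ℂ))
        exact h
      · intro e he
        refine Finset.sum_eq_zero fun i _ => Finset.sum_eq_zero fun j _ =>
          Finset.sum_eq_zero fun i' _ => Finset.sum_eq_zero fun j' _ => ?_
        rw [ampOcc_of_ne]
        · simp
        · intro h
          apply he
          obtain ⟨q, hq⟩ := exists_box (K := 2 * K) (k := e) (by
            intro x
            have h1 := congrFun h x
            simp only [Pi.add_apply] at h1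
            have h2 := box_le i x
            have h3 := box_le j x
            omega)
          exact ⟨q, hq⟩
    · have hl' : ∀ i, box n (2 * K) i ≠ l := by
        rintro i rfl
        exact hl (box_le i)
      rw [entry_embOp_right _ _ _ hl']
      convert hasSum_zero using 1
      funext e
      refine Finset.sum_eq_zero fun i _ => Finset.sum_eq_zero fun j _ =>
        Finset.sum_eq_zero fun i' _ => Finset.sum_eq_zero fun j' _ => ?_
      rw [ampOcc_of_ne (k := l)]
      · simp
      · intro h
        apply hl
        intro x
        have h1 := congrFun h x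
        simp only [Pi.add_apply] at h1
        have h2 := box_le i' x
        have h3 := box_le j' x
        omega
  · have hk' : ∀ i, box n (2 * K) i ≠ k := by
      rintro i rfl
      exact hk (box_le i)
    rw [entry_embOp_left _ _ _ hk']
    convert hasSum_zero using 1
    funext e
    refine Finset.sum_eq_zero fun i _ => Finset.sum_eq_zero fun j _ =>
      Finset.sum_eq_zero fun i' _ => Finset.sum_eq_zero fun j' _ => ?_
    rw [ampOcc_of_ne (k := k)]
    · simp
    · intro h
      apply hk
      intro x
      have h1 := congrFun h x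
      simp only [Pi.add_apply] at h1
      have h2 := box_le i x
      have h3 := box_le j x
      omega

end

end Crest.Agent.R331.EmbOut915
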