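import Crest.Agent.R331.SPE_892

/-!
Row 331, base leaf [SP], part 3: states of the Fock space. Spectral decompositions, entropy in
`ℝ≥0∞`, Peierls and Gibbs inequalities, constructors.
-/

set_option autoImplicit false
set_option linter.unusedSectionVars false
set_option linter.style.haveILetI false

open scoped InnerProductSpace ENNReal Topology
open Module.End Filter
open Crest.MathPhysics.Bosonic

noncomputable section

namespace Crest.Agent.R331.SP892

variable {n : ℕ} {ι κ : Type*}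

/-! ### The number basis -/

/-- The number basis as a Hilbert basis. -/
def ketB (n : ℕ) : HilbertBasis (Occ n) ℂ (Fock n) :=
  HilbertBasis.ofRepr (LinearIsometryEquiv.refl ℂ (Fock n))

@[simp] lemma ketB_apply (k : Occ n) : ketB n k = ket k := by
  have h := (ketB n).repr_symm_single k
  rw [← h]
  rfl

lemma entry_eq (T : Fock n →L[ℂ] Fock n) (k l : Occ n) :
    entry T k l = ⟪ketB n k, T (ketB n l)⟫_ℂ := by
  rw [ketB_apply, ketB_apply]; rfl

lemma ket_orthonormal : Orthonormal ℂ (fun k : Occ n => ket k) := by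
  have h := (ketB n).orthonormal
  have e : (fun k : Occ n => ket k) = ketB n := by
    funext k; exact (ketB_apply k).symm
  rw [e]; exact h

@[simp] lemma norm_ket (k : Occ n) : ‖ket k‖ = 1 := ket_orthonormal.1 k

lemma inner_ket (k : Occ n) (x : Fock n) : ⟪ket k, x⟫_ℂ = x k := by
  rw [ket, lp.inner_single_left]
  simp

lemma inner_ket_ket (k l : Occ n) : ⟪(ket k : Fock n), ket l⟫_ℂ = if k = l then 1 else 0 :=
  orthonormal_iff_ite.1 ket_orthonormal k l

lemma entry_conj_symm {T : Fock n →L[ℂ] Fock n} (hT : T.IsPositive) (k l : Occ n) :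
    starRingEnd ℂ (entry T k l) = entry T l k := by
  rw [entry, entry, inner_conj_symm]
  exact hT.inner_left_eq_inner_right _ _

lemma entry_add (S T : Fock n →L[ℂ] Fock n) (k l : Occ n) :
    entry (S + T) k l = entry S k l + entry T k l := by
  rw [entry, add_apply, inner_add_right]; rfl

lemma entry_smul (c : ℂ) (T : Fock n →L[ℂ] Fock n) (k l : Occ n) :
    entry (c • T) k l = c * entry T k l := by
  rw [entry, smul_apply, inner_smul_right]; rfl

/-- Two operators with the same entries agree. -/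
lemma op_ext {S T : Fock n →L[ℂ] Fock n} (h : ∀ k l, entry S k l = entry T k l) : S = T := by
  refine clm_ext_basis (ketB n) fun l => ?_
  have h1 := (ketB n).hasSum_repr (S (ketB n l))
  have h2 := (ketB n).hasSum_repr (T (ketB n l))
  have h3 : ∀ k, (ketB n).repr (S (ketB n l)) k = (ketB n).repr (T (ketB n l)) k := by
    intro k
    rw [(ketB n).repr_apply_apply, (ketB n).repr_apply_apply, ← entry_eq, ← entry_eq, h]
  simp only [h3] at h1
  exact h1.unique h2

/-- Two states with the same entries agree. -/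
lemma state_ext {ρ σ : FockState n} (h : ∀ k l, entry ρ.op k l = entry σ.op k l) : ρ = σ := by
  cases ρ; cases σ
  congr 1
  exact op_ext h

/-! ### Spectral decomposition of a state -/

lemma hasSum_trace_ketB (ρ : FockState n) :
    HasSum (fun k => (⟪ketB n k, ρ.op (ketB n k)⟫_ℂ).re) 1 := by
  have h := ρ.traceOne
  simpa only [entry_eq] using h

lemma trE_state (ρ : FockState n) : trE ρ.op = 1 := by
  have := ((hasSum_iff_trE ρ.pos (ketB n)).1 (hasSum_trace_ketB ρ)).2
  simpa using this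

/-- The trace of a state in any basis is one. -/
lemma hasSum_trace (ρ : FockState n) (b : HilbertBasis ι ℂ (Fock n)) :
    HasSum (fun k => (⟪b k, ρ.op (b k)⟫_ℂ).re) 1 :=
  hasSum_trace_indep ρ.pos (ketB n) b (hasSum_trace_ketB ρ)

lemma diag_nonneg (ρ : FockState n) (x : Fock n) : 0 ≤ (⟪x, ρ.op x⟫_ℂ).re :=
  re_inner_nonneg ρ.pos x

lemma diag_le_one (ρ : FockState n) (b : HilbertBasis ι ℂ (Fock n)) (i : ι) :
    (⟪b i, ρ.op (b i)⟫_ℂ).re ≤ 1 :=
  le_one_of_hasSum (fun _ => diag_nonneg ρ _) (hasSum_trace ρ b) le_rfl i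

/-- Every state has a spectral decomposition, indexed by the occupation tuples. -/
theorem exists_spec (ρ : FockState n) :
    ∃ (e : HilbertBasis (Occ n) ℂ (Fock n)) (p : Occ n → ℝ), IsSpec ρ.op e p ∧ HasSum p 1 := by
  obtain ⟨e, p, h1, h2⟩ := exists_isSpec ρ.pos (ketB n) (by rw [trE_state]; exact ENNReal.one_ne_top)
  rw [trE_state] at h2
  exact ⟨e, p, h1, by simpa using h2⟩

/-- A chosen eigenbasis of a state. -/
def eB (ρ : FockState n) : HilbertBasis (Occ n) ℂ (Fock n) := (exists_spec ρ).choose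

/-- The eigenvalues of a state along `eB`. -/
def ev (ρ : FockState n) : Occ n → ℝ := (exists_spec ρ).choose_spec.choose

lemma isSpec (ρ : FockState n) : IsSpec ρ.op (eB ρ) (ev ρ) :=
  (exists_spec ρ).choose_spec.choose_spec.1

lemma hasSum_ev (ρ : FockState n) : HasSum (ev ρ) 1 :=
  (exists_spec ρ).choose_spec.choose_spec.2

lemma ev_nonneg (ρ : FockState n) (i : Occ n) : 0 ≤ ev ρ i := (isSpec ρ).nonneg i

lemma ev_le_one (ρ : FockState n) (i : Occ n) : ev ρ i ≤ 1 :=
  le_one_of_hasSum (ev_nonneg ρ) (hasSum_ev ρ) le_rfl i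

lemma op_eB (ρ : FockState n) (i : Occ n) : ρ.op (eB ρ i) = (ev ρ i : ℂ) • eB ρ i :=
  (isSpec ρ).eig i

section Spec

variable {ρ : FockState n} {e : HilbertBasis ι ℂ (Fock n)} {p : ι → ℝ}

lemma hasSum_of_spec (h : IsSpec ρ.op e p) : HasSum p 1 :=
  (h.hasSum_iff (ketB n)).1 (hasSum_trace_ketB ρ)

lemma le_one_of_spec (h : IsSpec ρ.op e p) (i : ι) : p i ≤ 1 :=
  le_one_of_hasSum h.nonneg (hasSum_of_spec h) le_rfl i

end Spec

/-! ### Entropy -/

/-- The entropy of a state, in `ℝ≥0∞`. -/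
def SE (ρ : FockState n) : ℝ≥0∞ := vnE ρ.op

lemma SE_eq_spec {ρ : FockState n} {e : HilbertBasis ι ℂ (Fock n)} {p : ι → ℝ}
    (h : IsSpec ρ.op e p) : SE ρ = ∑' i, ENNReal.ofReal (Real.negMulLog (p i)) :=
  vnE_eq_spec h (le_one_of_spec h)

lemma SE_eq (ρ : FockState n) : SE ρ = ∑' i, ENNReal.ofReal (Real.negMulLog (ev ρ i)) :=
  SE_eq_spec (isSpec ρ)

lemma cfc_pos (ρ : FockState n) : (cfc eF ρ.op).IsPositive :=
  (cfc_eF_isSpec (isSpec ρ) (ev_le_one ρ)).isPositive

/-- `HasEntropy` in terms of the `ℝ≥0∞`-valued entropy. -/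
theorem hasEntropy_iff (ρ : FockState n) (s : ℝ) :
    HasEntropy ρ s ↔ 0 ≤ s ∧ SE ρ = ENNReal.ofReal s := by
  rw [SE, vnE, ← hasSum_iff_trE (cfc_pos ρ) (ketB n)]
  unfold HasEntropy
  simp only [entry_eq]
  rfl

/-- `HasEntropy` in terms of the eigenvalues. -/
theorem hasEntropy_iff_spec {ρ : FockState n} {e : HilbertBasis ι ℂ (Fock n)} {p : ι → ℝ}
    (h : IsSpec ρ.op e p) (s : ℝ) :
    HasEntropy ρ s ↔ HasSum (fun i => Real.negMulLog (p i)) s := by
  rw [hasEntropy_iff, SE_eq_spec h,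
    hasSum_iff_tsum_ofReal fun i => Real.negMulLog_nonneg (h.nonneg i) (le_one_of_spec h i)]

theorem hasEntropy_of_ne_top {ρ : FockState n} (h : SE ρ ≠ ∞) : HasEntropy ρ (SE ρ).toReal :=
  (hasEntropy_iff ρ _).2 ⟨ENNReal.toReal_nonneg, (ENNReal.ofReal_toReal h).symm⟩

theorem HasEntropy.nonneg {ρ : FockState n} {s : ℝ} (h : HasEntropy ρ s) : 0 ≤ s :=
  ((hasEntropy_iff ρ s).1 h).1

theorem HasEntropy.SE_eq {ρ : FockState n} {s : ℝ} (h : HasEntropy ρ s) :
    SE ρ = ENNReal.ofReal s :=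
  ((hasEntropy_iff ρ s).1 h).2

theorem HasEntropy.ne_top {ρ : FockState n} {s : ℝ} (h : HasEntropy ρ s) : SE ρ ≠ ∞ := by
  rw [HasEntropy.SE_eq h]; exact ENNReal.ofReal_ne_top

theorem HasEntropy.unique {ρ : FockState n} {s t : ℝ} (h : HasEntropy ρ s)
    (h' : HasEntropy ρ t) : s = t :=
  HasSum.unique h h'

/-- Real-valued entropy (zero when infinite). -/
def entr (ρ : FockState n) : ℝ := (SE ρ).toReal

theorem HasEntropy.entr_eq {ρ : FockState n} {s : ℝ} (h : HasEntropy ρ s) : entr ρ = s := by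
  rw [entr, HasEntropy.SE_eq h, ENNReal.toReal_ofReal (HasEntropy.nonneg h)]

/-- Peierls' inequality for states. -/
theorem SE_le_diag (ρ : FockState n) (b : HilbertBasis κ ℂ (Fock n)) :
    SE ρ ≤ ∑' k, ENNReal.ofReal (Real.negMulLog ((⟪b k, ρ.op (b k)⟫_ℂ).re)) :=
  vnE_le_diag (isSpec ρ) (ev_le_one ρ) b

/-- Gibbs' inequality for states. -/
theorem SE_gibbs (ρ : FockState n) (b : HilbertBasis κ ℂ (Fock n)) {q : κ → ℝ} {Q : ℝ}
    (hq : ∀ k, 0 ≤ q k) (hQ : HasSum q Q) (hQ1 : Q ≤ 1)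
    (h0 : ∀ k, q k = 0 → (⟪b k, ρ.op (b k)⟫_ℂ).re = 0) :
    SE ρ ≤ ∑' k, ENNReal.ofReal (-((⟪b k, ρ.op (b k)⟫_ℂ).re * Real.log (q k))) :=
  gibbs (isSpec ρ) (hasSum_ev ρ) le_rfl b hq hQ hQ1 h0

/-- Gibbs' inequality for states, real form. -/
theorem SE_gibbs_real (ρ : FockState n) (b : HilbertBasis κ ℂ (Fock n)) {q : κ → ℝ} {Q R : ℝ}
    (hq : ∀ k, 0 ≤ q k) (hQ : HasSum q Q) (hQ1 : Q ≤ 1)
    (h0 : ∀ k, q k = 0 → (⟪b k, ρ.op (b k)⟫_ℂ).re = 0)
    (hR : HasSum (fun k => -((⟪b k, ρ.op (b k)⟫_ℂ).re * Real.log (q k))) R) :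
    SE ρ ≤ ENNReal.ofReal R := by
  refine (SE_gibbs ρ b hq hQ hQ1 h0).trans ?_
  rw [tsum_ofReal_eq (fun k => ?_) hR]
  have h1 := Real.log_nonpos (hq k) (le_one_of_hasSum hq hQ hQ1 k)
  have h2 := mul_nonneg (diag_nonneg ρ (b k)) (neg_nonneg.2 h1)
  linarith

/-! ### Constructors -/

/-- A state from a positive operator of trace one in some Hilbert basis. -/
def mkState (T : Fock n →L[ℂ] Fock n) (hT : T.IsPositive) (b : HilbertBasis ι ℂ (Fock n))
    (h : HasSum (fun k => (⟪b k, T (b k)⟫_ℂ).re) 1) : FockState n where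
  op := T
  pos := hT
  traceOne := by
    have := hasSum_trace_indep hT b (ketB n) h
    simpa only [entry_eq] using this

@[simp] lemma mkState_op (T : Fock n →L[ℂ] Fock n) (hT : T.IsPositive)
    (b : HilbertBasis ι ℂ (Fock n)) (h : HasSum (fun k => (⟪b k, T (b k)⟫_ℂ).re) 1) :
    (mkState T hT b h).op = T := rfl

/-- Convex combination of two states. -/
def mix (t : ℝ) (ht : t ∈ Set.Icc (0 : ℝ) 1) (ρ σ : FockState n) : FockState n where
  op := ((1 - t : ℝ) : ℂ) • ρ.op + ((t : ℝ) : ℂ) • σ.op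
  pos := (ρ.pos.smul_of_nonneg (by exact_mod_cast sub_nonneg.2 ht.2)).add
    (σ.pos.smul_of_nonneg (by exact_mod_cast ht.1))
  traceOne := by
    have h := (ρ.traceOne.mul_left (1 - t)).add (σ.traceOne.mul_left t)
    rw [show (1 - t) * 1 + t * 1 = (1 : ℝ) by ring] at h
    have e : (fun k => (entry (((1 - t : ℝ) : ℂ) • ρ.op + ((t : ℝ) : ℂ) • σ.op) k k).re) =
        fun k => (1 - t) * (entry ρ.op k k).re + t * (entry σ.op k k).re := by
      funext k
      rw [entry_add, entry_smul, entry_smul, Complex.add_re, Complex.re_ofReal_mul,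
        Complex.re_ofReal_mul]
    rw [e]
    exact h

/-! ### Diagonal states -/

section DiagOp

variable {H : Type*} [NormedAddCommGroup H] [InnerProductSpace ℂ H] [CompleteSpace H]

/-- The operator `∑ p_i |e_i⟩⟨e_i|` (for summable `p`). -/
def diagOp (e : HilbertBasis ι ℂ H) (p : ι → ℝ) : H →L[ℂ] H :=
  ∑' i, (p i : ℂ) • InnerProductSpace.rankOne ℂ (e i) (e i)

lemma diagOp_summable (e : HilbertBasis ι ℂ H) {p : ι → ℝ} (hp : Summable p) :
    Summable fun i => (p i : ℂ) • InnerProductSpace.rankOne ℂ (e i) (e i) := by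
  refine Summable.of_norm ?_
  refine hp.abs.congr fun i => ?_
  rw [norm_smul, InnerProductSpace.norm_rankOne, e.orthonormal.1 i]
  simp

lemma diagOp_apply (e : HilbertBasis ι ℂ H) {p : ι → ℝ} (hp : Summable p) (j : ι) :
    diagOp e p (e j) = (p j : ℂ) • e j := by
  classical
  have h1 : HasSum (fun i => ((p i : ℂ) • InnerProductSpace.rankOne ℂ (e i) (e i)) (e j))
      (diagOp e p (e j)) :=
    (diagOp_summable e hp).hasSum.mapL (ContinuousLinearMap.apply ℂ H (e j))
  refine h1.unique ?_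
  have h2 : (fun i => ((p i : ℂ) • InnerProductSpace.rankOne ℂ (e i) (e i)) (e j)) =
      fun i => if i = j then (p j : ℂ) • e j else 0 := by
    funext i
    rw [smul_apply, InnerProductSpace.rankOne_apply, orthonormal_iff_ite.1 e.orthonormal i j]
    split_ifs with h
    · rw [h, one_smul]
    · rw [zero_smul, smul_zero]
  rw [h2]
  exact hasSum_ite_eq j _

lemma diagOp_isSpec (e : HilbertBasis ι ℂ H) {p : ι → ℝ} (hp0 : ∀ i, 0 ≤ p i)
    (hp : Summable p) : IsSpec (diagOp e p) e p :=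
  ⟨hp0, diagOp_apply e hp⟩

end DiagOp

/-- The state `∑ p_i |e_i⟩⟨e_i|`. -/
def diagState (e : HilbertBasis ι ℂ (Fock n)) (p : ι → ℝ) (hp0 : ∀ i, 0 ≤ p i)
    (hp : HasSum p 1) : FockState n :=
  mkState (diagOp e p) (diagOp_isSpec e hp0 hp.summable).isPositive e (by
    simpa only [(diagOp_isSpec e hp0 hp.summable).diag] using hp)

lemma diagState_isSpec (e : HilbertBasis ι ℂ (Fock n)) {p : ι → ℝ} (hp0 : ∀ i, 0 ≤ p i)
    (hp : HasSum p 1) : IsSpec (diagState e p hp0 hp).op e p :=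
  diagOp_isSpec e hp0 hp.summable

end Crest.Agent.R331.SP892
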