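import Mathlib
import Crest.Prelude.Def_FockState

/-! Scalar layer for row 331 (EPnI): `b(N) = log (1+1/N)`, `g = gBose`, matching facts. -/

set_option autoImplicit false
open Crest.MathPhysics.Bosonic Real Set Filter Topology

namespace Crest.Agent.R331.Scal587

/-! ### Generic helpers -/

lemma strictMonoOn_Ioi_of_hasDerivAt {f f' : ℝ → ℝ} (h : ∀ x, 0 < x → HasDerivAt f (f' x) x)
    (hpos : ∀ x, 0 < x → 0 < f' x) : StrictMonoOn f (Ioi 0) := by
  apply strictMonoOn_of_deriv_pos (convex_Ioi 0)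
  · intro x hx; exact (h x hx).continuousAt.continuousWithinAt
  · intro x hx
    rw [interior_Ioi] at hx
    rw [(h x hx).deriv]; exact hpos x hx

lemma strictAntiOn_Ioi_of_hasDerivAt {f f' : ℝ → ℝ} (h : ∀ x, 0 < x → HasDerivAt f (f' x) x)
    (hneg : ∀ x, 0 < x → f' x < 0) : StrictAntiOn f (Ioi 0) := by
  apply strictAntiOn_of_deriv_neg (convex_Ioi 0)
  · intro x hx; exact (h x hx).continuousAt.continuousWithinAt
  · intro x hx
    rw [interior_Ioi] at hx
    rw [(h x hx).deriv]; exact hneg x hx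

lemma strictConcaveOn_Ioi_of_hasDerivAt {f f' : ℝ → ℝ} (h : ∀ x, 0 < x → HasDerivAt f (f' x) x)
    (hanti : StrictAntiOn f' (Ioi 0)) : StrictConcaveOn ℝ (Ioi 0) f := by
  apply StrictAntiOn.strictConcaveOn_of_deriv (convex_Ioi 0)
  · intro x hx; exact (h x hx).continuousAt.continuousWithinAt
  · rw [interior_Ioi]
    intro x hx y hy hxy
    rw [(h x hx).deriv, (h y hy).deriv]
    exact hanti hx hy hxy

/-! ### The function `b` -/

/-- inverse temperature `b(N) = log (1 + 1/N)` -/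
noncomputable def bN (N : ℝ) : ℝ := Real.log (1 + 1 / N)

lemma bN_pos {N : ℝ} (hN : 0 < N) : 0 < bN N := by
  unfold bN
  apply Real.log_pos
  have : 0 < 1 / N := by positivity
  linarith

lemma bN_eq {N : ℝ} (hN : 0 < N) : bN N = Real.log (N + 1) - Real.log N := by
  unfold bN
  rw [← Real.log_div (by positivity) hN.ne']
  congr 1
  field_simp

lemma exp_bN {N : ℝ} (hN : 0 < N) : Real.exp (bN N) = (N + 1) / N := by
  unfold bN
  rw [Real.exp_log (by positivity)]
  field_simp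

lemma N_eq {N : ℝ} (hN : 0 < N) : N = 1 / (Real.exp (bN N) - 1) := by
  rw [exp_bN hN]
  field_simp
  ring

lemma hasDerivAt_bN {N : ℝ} (hN : 0 < N) : HasDerivAt bN (-(1 / (N * (N + 1)))) N := by
  have h1 : HasDerivAt (fun x : ℝ => Real.log (x + 1) - Real.log x) (1 / (N + 1) - 1 / N) N := by
    have ha : HasDerivAt (fun x : ℝ => Real.log (x + 1)) (1 / (N + 1)) N := by
      have := (hasDerivAt_id N).add_const (1 : ℝ)
      exact this.log (by simp only [id]; positivity)
    have hb : HasDerivAt (fun x : ℝ => Real.log x) (1 / N) N := by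
      simpa [one_div] using Real.hasDerivAt_log hN.ne'
    exact ha.sub hb
  have h2 : (1 / (N + 1) - 1 / N) = -(1 / (N * (N + 1))) := by field_simp; ring
  rw [h2] at h1
  apply h1.congr_of_eventuallyEq
  filter_upwards [lt_mem_nhds hN] with x hx
  exact bN_eq hx

lemma continuousAt_bN {N : ℝ} (hN : 0 < N) : ContinuousAt bN N := (hasDerivAt_bN hN).continuousAt

lemma strictAntiOn_bN : StrictAntiOn bN (Ioi 0) :=
  strictAntiOn_Ioi_of_hasDerivAt (fun _ hx => hasDerivAt_bN hx) (fun x hx => by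
    have : 0 < 1 / (x * (x + 1)) := by positivity
    linarith)

lemma bN_lower {N : ℝ} (hN : 0 < N) : 2 / (2 * N + 1) < bN N := by
  have h := Real.hasSum_log_one_add_inv hN
  have h1 : bN N = Real.log (1 + N⁻¹) := by simp [bN]
  rw [h1]
  have hpos : ∀ k : ℕ, 0 < (2 : ℝ) * (1 / (2 * k + 1)) * (1 / (2 * N + 1)) ^ (2 * k + 1) := by
    intro k; positivity
  have h2 := sum_le_hasSum (Finset.range 2) (fun k _ => (hpos k).le) h
  have h3 : 0 < (2 : ℝ) * (1 / (2 * (1 : ℕ) + 1)) * (1 / (2 * N + 1)) ^ (2 * 1 + 1) := hpos 1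
  rw [Finset.sum_range_succ, Finset.sum_range_one] at h2
  have h4 : (2 : ℝ) * (1 / (2 * ((0 : ℕ) : ℝ) + 1)) * (1 / (2 * N + 1)) ^ (2 * 0 + 1)
      = 2 / (2 * N + 1) := by
    norm_num
    ring
  rw [h4] at h2
  linarith

lemma bN_upper {N : ℝ} (hN : 0 < N) : bN N < (2 * N + 1) / (2 * (N * (N + 1))) := by
  -- `psi N = (1/2)(1/N + 1/(N+1)) - b N` is strictly decreasing with limit `0`.
  set psi : ℝ → ℝ := fun x => (2 * x + 1) / (2 * (x * (x + 1))) - bN x with hpsi
  have hder : ∀ x, 0 < x → HasDerivAt psi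
      (((2 : ℝ) * (2 * (x * (x + 1))) - (2 * x + 1) * (2 * (2 * x + 1))) / (2 * (x * (x + 1))) ^ 2
        - (-(1 / (x * (x + 1))))) x := by
    intro x hx
    have hn : HasDerivAt (fun x : ℝ => 2 * x + 1) 2 x := by
      simpa using ((hasDerivAt_id x).const_mul (2 : ℝ)).add_const 1
    have hd : HasDerivAt (fun x : ℝ => 2 * (x * (x + 1))) (2 * (2 * x + 1)) x := by
      have h0 : HasDerivAt (fun x : ℝ => x * (x + 1)) (1 * (x + 1) + x * 1) x :=
        (hasDerivAt_id x).mul ((hasDerivAt_id x).add_const 1)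
      exact (h0.const_mul (2 : ℝ)).congr_deriv (by ring)
    exact (hn.div hd (by positivity)).sub (hasDerivAt_bN hx)
  have hneg : ∀ x, 0 < x → (((2 : ℝ) * (2 * (x * (x + 1))) - (2 * x + 1) * (2 * (2 * x + 1))) /
      (2 * (x * (x + 1))) ^ 2 - (-(1 / (x * (x + 1))))) < 0 := by
    intro x hx
    have : (((2 : ℝ) * (2 * (x * (x + 1))) - (2 * x + 1) * (2 * (2 * x + 1))) /
      (2 * (x * (x + 1))) ^ 2 - (-(1 / (x * (x + 1))))) = -(1 / (2 * (x * (x + 1)) ^ 2)) := by
      field_simp; ring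
    rw [this]
    have : 0 < 1 / (2 * (x * (x + 1)) ^ 2) := by positivity
    linarith
  have hanti : StrictAntiOn psi (Ioi 0) := strictAntiOn_Ioi_of_hasDerivAt hder hneg
  have hlim : Tendsto psi atTop (𝓝 0) := by
    have hb : Tendsto bN atTop (𝓝 0) := by
      have h1 : Tendsto (fun x : ℝ => 1 + 1 / x) atTop (𝓝 1) := by
        have := (tendsto_const_nhds (x := (1 : ℝ)) (f := (atTop : Filter ℝ))).add
          (tendsto_inv_atTop_zero (𝕜 := ℝ))
        simpa [one_div] using this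
      have := (Real.continuousAt_log (x := 1) one_ne_zero).tendsto.comp h1
      rw [Real.log_one] at this
      exact this
    have hr : Tendsto (fun x : ℝ => (2 * x + 1) / (2 * (x * (x + 1)))) atTop (𝓝 0) := by
      have h1 : Tendsto (fun x : ℝ => (1 / 2 : ℝ) * x⁻¹ + (1 / 2) * (x + 1)⁻¹) atTop (𝓝 0) := by
        have ha := (tendsto_inv_atTop_zero (𝕜 := ℝ)).const_mul (1 / 2 : ℝ)
        have hb := ((tendsto_inv_atTop_zero (𝕜 := ℝ)).comp
          (tendsto_atTop_add_const_right atTop (1 : ℝ) tendsto_id)).const_mul (1 / 2 : ℝ)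
        simpa [Function.comp_def] using ha.add hb
      apply h1.congr'
      filter_upwards [eventually_gt_atTop 0] with x hx
      field_simp; ring
    simpa [hpsi] using hr.sub hb
  have hpos : 0 < psi N := by
    have h1 : psi (N + 1) < psi N := hanti hN (by simp only [mem_Ioi]; linarith) (by linarith)
    have h2 : 0 ≤ psi (N + 1) := by
      apply le_of_tendsto hlim
      filter_upwards [eventually_gt_atTop (N + 1)] with x hx
      exact (hanti (by simp only [mem_Ioi]; linarith) (by simp only [mem_Ioi]; linarith) hx).le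
    linarith
  simp only [hpsi] at hpos
  linarith

/-! ### The function `g` -/

lemma gBose_zero : gBose 0 = 0 := by simp [gBose]

lemma continuous_gBose : Continuous gBose := by
  unfold gBose
  have h := Real.continuous_mul_log
  exact (h.comp (continuous_id.add continuous_const)).sub h

lemma hasDerivAt_gBose {N : ℝ} (hN : 0 < N) : HasDerivAt gBose (bN N) N := by
  unfold gBose
  have h1 : HasDerivAt (fun x : ℝ => x * Real.log x) (Real.log N + 1) N :=
    Real.hasDerivAt_mul_log hN.ne'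
  have h2 : HasDerivAt (fun x : ℝ => (x + 1) * Real.log (x + 1)) (Real.log (N + 1) + 1) N := by
    have := (Real.hasDerivAt_mul_log (x := N + 1) (by positivity)).comp N
      ((hasDerivAt_id N).add_const 1)
    simpa [Function.comp_def] using this
  exact (h2.sub h1).congr_deriv (by rw [bN_eq hN]; ring)

lemma strictMonoOn_gBose_Ioi : StrictMonoOn gBose (Ioi 0) :=
  strictMonoOn_Ioi_of_hasDerivAt (fun _ hx => hasDerivAt_gBose hx) (fun _ hx => bN_pos hx)

lemma strictMonoOn_gBose : StrictMonoOn gBose (Ici 0) := by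
  apply strictMonoOn_of_deriv_pos (convex_Ici 0) continuous_gBose.continuousOn
  intro x hx
  rw [interior_Ici] at hx
  rw [(hasDerivAt_gBose hx).deriv]; exact bN_pos hx

lemma strictConcaveOn_gBose : StrictConcaveOn ℝ (Ici 0) gBose := by
  apply StrictAntiOn.strictConcaveOn_of_deriv (convex_Ici 0) continuous_gBose.continuousOn
  rw [interior_Ici]
  intro x hx y hy hxy
  rw [(hasDerivAt_gBose hx).deriv, (hasDerivAt_gBose hy).deriv]
  exact strictAntiOn_bN hx hy hxy

lemma gBose_nonneg {t : ℝ} (ht : 0 ≤ t) : 0 ≤ gBose t := by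
  rw [← gBose_zero]
  exact strictMonoOn_gBose.monotoneOn (by simp) ht ht

lemma gBose_pos {t : ℝ} (ht : 0 < t) : 0 < gBose t := by
  have := strictMonoOn_gBose (a := 0) (b := t) (by simp) ht.le ht
  rwa [gBose_zero] at this

lemma gBose_injOn : InjOn gBose (Ici 0) := strictMonoOn_gBose.injOn

lemma log_le_gBose {t : ℝ} (ht : 0 ≤ t) : Real.log (t + 1) ≤ gBose t := by
  unfold gBose
  rcases ht.eq_or_lt with h | h
  · subst h; simp
  · have : Real.log t ≤ Real.log (t + 1) := Real.log_le_log h (by linarith)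
    nlinarith

lemma tendsto_gBose : Tendsto gBose atTop atTop := by
  apply tendsto_atTop_mono' atTop (f₁ := fun t : ℝ => Real.log (t + 1))
  · filter_upwards [eventually_ge_atTop 0] with t ht using log_le_gBose ht
  · exact Real.tendsto_log_atTop.comp (tendsto_atTop_add_const_right atTop (1 : ℝ) tendsto_id)

/-- every nonnegative number is a value of `g` -/
lemma exists_gBose_eq {s : ℝ} (hs : 0 ≤ s) : ∃ t, 0 ≤ t ∧ gBose t = s := by
  have h := (continuous_gBose.continuousOn (s := Ici (0 : ℝ)))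
  obtain ⟨M, hM0, hM⟩ : ∃ M, 0 ≤ M ∧ s ≤ gBose M := by
    obtain ⟨M, hM⟩ := ((tendsto_gBose.eventually_ge_atTop s).and (eventually_ge_atTop 0)).exists
    exact ⟨M, hM.2, hM.1⟩
  have hiv := intermediate_value_Icc hM0 (f := gBose) continuous_gBose.continuousOn
  obtain ⟨t, ht, hts⟩ := hiv ⟨by rw [gBose_zero]; exact hs, hM⟩
  exact ⟨t, ht.1, hts⟩

/-- tangent line inequality for the concave function `g` -/
lemma gBose_le_tangent {N t : ℝ} (hN : 0 < N) (ht : 0 ≤ t) :
    gBose t ≤ gBose N + bN N * (t - N) := by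
  rcases lt_trichotomy t N with h | h | h
  · have := strictConcaveOn_gBose.concaveOn.le_slope_of_hasDerivAt (x := t) (y := N) (f' := bN N)
      ht hN.le h (hasDerivAt_gBose hN)
    rw [slope_def_field, le_div_iff₀ (by linarith)] at this
    nlinarith
  · subst h; simp
  · have := strictConcaveOn_gBose.concaveOn.slope_le_of_hasDerivAt (x := N) (y := t) (f' := bN N)
      hN.le ht h (hasDerivAt_gBose hN)
    rw [slope_def_field, div_le_iff₀ (by linarith)] at this
    nlinarith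

/-! ### Concavity of `1/b` and of `N (N+1) b` -/

lemma hasDerivAt_inv_bN {N : ℝ} (hN : 0 < N) :
    HasDerivAt (fun x => (bN x)⁻¹) (1 / (N * (N + 1) * bN N ^ 2)) N := by
  have h := (hasDerivAt_bN hN).inv (bN_pos hN).ne'
  refine h.congr_deriv ?_
  have := (bN_pos hN).ne'
  field_simp

lemma strictMonoOn_aux : StrictMonoOn (fun x : ℝ => x * (x + 1) * bN x ^ 2) (Ioi 0) := by
  apply strictMonoOn_Ioi_of_hasDerivAt
    (f' := fun x => (2 * x + 1) * bN x ^ 2 + x * (x + 1) * (2 * bN x * (-(1 / (x * (x + 1))))))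
  · intro x hx
    have h0 : HasDerivAt (fun x : ℝ => x * (x + 1)) (1 * (x + 1) + x * 1) x :=
      (hasDerivAt_id x).mul ((hasDerivAt_id x).add_const 1)
    have h1 := h0.mul ((hasDerivAt_bN hx).pow 2)
    refine h1.congr_deriv ?_
    simp only [Nat.cast_ofNat, Nat.add_one_sub_one, pow_one, Pi.pow_apply]
    ring
  · intro x hx
    have hb := bN_pos hx
    have hl := bN_lower hx
    have : (2 * x + 1) * bN x ^ 2 + x * (x + 1) * (2 * bN x * (-(1 / (x * (x + 1)))))
        = bN x * ((2 * x + 1) * bN x - 2) := by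
      field_simp
      ring
    rw [this]
    have h2 : 2 < (2 * x + 1) * bN x := by
      rw [div_lt_iff₀ (by positivity)] at hl
      linarith
    exact mul_pos hb (by linarith)

lemma strictConcaveOn_inv_bN : StrictConcaveOn ℝ (Ioi 0) (fun x => (bN x)⁻¹) := by
  apply strictConcaveOn_Ioi_of_hasDerivAt (fun x hx => hasDerivAt_inv_bN hx)
  intro x hx y hy hxy
  have h := strictMonoOn_aux hx hy hxy
  have hx0 : 0 < x * (x + 1) * bN x ^ 2 := by
    have := bN_pos hx
    have hx' : 0 < x := hx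
    positivity
  exact one_div_lt_one_div_of_lt hx0 h

lemma strictConcaveOn_V : StrictConcaveOn ℝ (Ioi 0) (fun x => x * (x + 1) * bN x) := by
  apply strictConcaveOn_Ioi_of_hasDerivAt (f' := fun x => (2 * x + 1) * bN x - 1)
  · intro x hx
    have h0 : HasDerivAt (fun x : ℝ => x * (x + 1)) (1 * (x + 1) + x * 1) x :=
      (hasDerivAt_id x).mul ((hasDerivAt_id x).add_const 1)
    have h1 := h0.mul (hasDerivAt_bN hx)
    refine h1.congr_deriv ?_
    have hx' : 0 < x := hx
    field_simp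
    ring
  · apply strictAntiOn_Ioi_of_hasDerivAt
      (f' := fun x => 2 * bN x + (2 * x + 1) * (-(1 / (x * (x + 1)))))
    · intro x hx
      have hn : HasDerivAt (fun x : ℝ => 2 * x + 1) 2 x := by
        simpa using ((hasDerivAt_id x).const_mul (2 : ℝ)).add_const 1
      exact (hn.mul (hasDerivAt_bN hx)).sub_const 1
    · intro x hx
      have hu := bN_upper hx
      have : (2 * x + 1) / (2 * (x * (x + 1))) = (1 / 2) * ((2 * x + 1) * (1 / (x * (x + 1)))) := by
        have hx' : 0 < x := hx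
        field_simp
      rw [this] at hu
      linarith

/-! ### Matching facts for finite families -/

section Family

variable {ι : Type*} (s : Finset ι) (η N : ι → ℝ)

/-- `Σ η_X / b_X ≤ 1 / b_C` -/
lemma sum_inv_bN_le (hη : ∀ i ∈ s, 0 ≤ η i) (h1 : ∑ i ∈ s, η i = 1) (hN : ∀ i ∈ s, 0 < N i) :
    ∑ i ∈ s, η i * (bN (N i))⁻¹ ≤ (bN (∑ i ∈ s, η i * N i))⁻¹ := by
  have := strictConcaveOn_inv_bN.concaveOn.le_map_sum (t := s) (w := η) (p := N) hη h1 hN
  simpa [smul_eq_mul] using this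

/-- `Σ η_X N_X (N_X+1) b_X ≤ N_C (N_C+1) b_C` -/
lemma sum_V_le (hη : ∀ i ∈ s, 0 ≤ η i) (h1 : ∑ i ∈ s, η i = 1) (hN : ∀ i ∈ s, 0 < N i) :
    ∑ i ∈ s, η i * (N i * (N i + 1) * bN (N i)) ≤
      (∑ i ∈ s, η i * N i) * (∑ i ∈ s, η i * N i + 1) * bN (∑ i ∈ s, η i * N i) := by
  have := strictConcaveOn_V.concaveOn.le_map_sum (t := s) (w := η) (p := N) hη h1 hN
  simpa [smul_eq_mul] using this

lemma sum_pos' (hη : ∀ i ∈ s, 0 ≤ η i) (h1 : ∑ i ∈ s, η i = 1) (hN : ∀ i ∈ s, 0 < N i) :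
    0 < ∑ i ∈ s, η i * N i := by
  obtain ⟨j, hj, hj0⟩ : ∃ j ∈ s, 0 < η j := by
    by_contra hcon
    push Not at hcon
    have : ∑ i ∈ s, η i ≤ 0 := Finset.sum_nonpos hcon
    linarith
  exact Finset.sum_pos' (fun i hi => mul_nonneg (hη i hi) (hN i hi).le) ⟨j, hj, mul_pos hj0 (hN j hj)⟩

end Family

/-! ### Two inputs -/

/-- the two-input coefficient `lam_X = η_X (b_C + kap) / b_X` -/
noncomputable def lam (ηX kap NC NX : ℝ) : ℝ := ηX * (bN NC + kap) / bN NX

lemma lam_nonneg {ηX kap NC NX : ℝ} (h : 0 ≤ ηX) (hk : 0 ≤ kap) (hC : 0 < NC) (hX : 0 < NX) :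
    0 ≤ lam ηX kap NC NX := by
  unfold lam
  have := bN_pos hC; have := bN_pos hX
  positivity

lemma lam_pos {ηX kap NC NX : ℝ} (h : 0 < ηX) (hk : 0 ≤ kap) (hC : 0 < NC) (hX : 0 < NX) :
    0 < lam ηX kap NC NX := by
  unfold lam
  have := bN_pos hC; have := bN_pos hX
  positivity

lemma lam_mul_b {ηX kap NC NX : ℝ} (hX : 0 < NX) :
    lam ηX kap NC NX * bN NX = ηX * (bN NC + kap) := by
  unfold lam
  have := (bN_pos hX).ne'
  field_simp

/-- matching, `u(b) = b N` -/
lemma matching_N {ηA ηB kap NA NB : ℝ} (hA : 0 < NA) (hB : 0 < NB) :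
    lam ηA kap (ηA * NA + ηB * NB) NA * (bN NA * NA) + lam ηB kap (ηA * NA + ηB * NB) NB * (bN NB * NB)
      = (bN (ηA * NA + ηB * NB) + kap) * (ηA * NA + ηB * NB) := by
  rw [← mul_assoc, ← mul_assoc, lam_mul_b hA, lam_mul_b hB]; ring

/-- matching, `u(-b) = b (N+1)` -/
lemma matching_N1 {ηA ηB kap NA NB : ℝ} (hA : 0 < NA) (hB : 0 < NB) (h1 : ηA + ηB = 1) :
    lam ηA kap (ηA * NA + ηB * NB) NA * (bN NA * (NA + 1)) +
      lam ηB kap (ηA * NA + ηB * NB) NB * (bN NB * (NB + 1))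
      = (bN (ηA * NA + ηB * NB) + kap) * (ηA * NA + ηB * NB + 1) := by
  rw [← mul_assoc, ← mul_assoc, lam_mul_b hA, lam_mul_b hB]
  have : ηB = 1 - ηA := by linarith
  subst this; ring

/-- `(λ_A + λ_B) b_C ≤ b_C + κ` -/
lemma sum_lam_le {ηA ηB kap NA NB : ℝ} (hηA : 0 ≤ ηA) (hηB : 0 ≤ ηB) (h1 : ηA + ηB = 1)
    (hk : 0 ≤ kap) (hA : 0 < NA) (hB : 0 < NB) :
    (lam ηA kap (ηA * NA + ηB * NB) NA + lam ηB kap (ηA * NA + ηB * NB) NB) *
      bN (ηA * NA + ηB * NB) ≤ bN (ηA * NA + ηB * NB) + kap := by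
  have h := strictConcaveOn_inv_bN.concaveOn.2 (x := NA) (y := NB) hA hB hηA hηB h1
  simp only [smul_eq_mul] at h
  have hC : 0 < ηA * NA + ηB * NB := by
    rcases hηA.eq_or_lt with h0 | h0
    · have : ηB = 1 := by linarith
      subst this; rw [← h0]; linarith
    · have := mul_pos h0 hA
      have := mul_nonneg hηB hB.le
      linarith
  have hbC := bN_pos hC
  have : (lam ηA kap (ηA * NA + ηB * NB) NA + lam ηB kap (ηA * NA + ηB * NB) NB) *
      bN (ηA * NA + ηB * NB)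
      = (bN (ηA * NA + ηB * NB) + kap) * bN (ηA * NA + ηB * NB) *
        (ηA * (bN NA)⁻¹ + ηB * (bN NB)⁻¹) := by
    unfold lam; field_simp
  rw [this]
  calc (bN (ηA * NA + ηB * NB) + kap) * bN (ηA * NA + ηB * NB) *
        (ηA * (bN NA)⁻¹ + ηB * (bN NB)⁻¹)
      ≤ (bN (ηA * NA + ηB * NB) + kap) * bN (ηA * NA + ηB * NB) * (bN (ηA * NA + ηB * NB))⁻¹ := by
        apply mul_le_mul_of_nonneg_left h
        positivity
    _ = bN (ηA * NA + ηB * NB) + kap := by field_simp

/-- `λ_A + λ_B ≤ 1` for `κ = 0` -/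
lemma sum_lam_le_one {ηA ηB NA NB : ℝ} (hηA : 0 ≤ ηA) (hηB : 0 ≤ ηB) (h1 : ηA + ηB = 1)
    (hA : 0 < NA) (hB : 0 < NB) :
    lam ηA 0 (ηA * NA + ηB * NB) NA + lam ηB 0 (ηA * NA + ηB * NB) NB ≤ 1 := by
  have h := sum_lam_le hηA hηB h1 le_rfl hA hB
  have hC : 0 < ηA * NA + ηB * NB := by
    rcases hηA.eq_or_lt with h0 | h0
    · have : ηB = 1 := by linarith
      subst this; rw [← h0]; linarith
    · have := mul_pos h0 hA
      have := mul_nonneg hηB hB.le
      linarith
  have hbC := bN_pos hC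
  rw [add_zero] at h
  by_contra hcon
  push Not at hcon
  nlinarith

/-- `Σ λ_X b_X² N_X (N_X+1) ≤ (b_C + κ) b_C N_C (N_C+1)` -/
lemma sum_lam_V_le {ηA ηB kap NA NB : ℝ} (hηA : 0 ≤ ηA) (hηB : 0 ≤ ηB) (h1 : ηA + ηB = 1)
    (hk : 0 ≤ kap) (hA : 0 < NA) (hB : 0 < NB) (hC : 0 < ηA * NA + ηB * NB) :
    lam ηA kap (ηA * NA + ηB * NB) NA * (bN NA ^ 2 * (NA * (NA + 1))) +
      lam ηB kap (ηA * NA + ηB * NB) NB * (bN NB ^ 2 * (NB * (NB + 1)))
      ≤ (bN (ηA * NA + ηB * NB) + kap) * (bN (ηA * NA + ηB * NB) *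
          ((ηA * NA + ηB * NB) * (ηA * NA + ηB * NB + 1))) := by
  have h := strictConcaveOn_V.concaveOn.2 (x := NA) (y := NB) hA hB hηA hηB h1
  simp only [smul_eq_mul] at h
  have e1 : lam ηA kap (ηA * NA + ηB * NB) NA * (bN NA ^ 2 * (NA * (NA + 1)))
      = (bN (ηA * NA + ηB * NB) + kap) * (ηA * (NA * (NA + 1) * bN NA)) := by
    have := lam_mul_b (ηX := ηA) (kap := kap) (NC := ηA * NA + ηB * NB) hA
    calc _ = (lam ηA kap (ηA * NA + ηB * NB) NA * bN NA) * (bN NA * (NA * (NA + 1))) := by ring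
      _ = _ := by rw [this]; ring
  have e2 : lam ηB kap (ηA * NA + ηB * NB) NB * (bN NB ^ 2 * (NB * (NB + 1)))
      = (bN (ηA * NA + ηB * NB) + kap) * (ηB * (NB * (NB + 1) * bN NB)) := by
    have := lam_mul_b (ηX := ηB) (kap := kap) (NC := ηA * NA + ηB * NB) hB
    calc _ = (lam ηB kap (ηA * NA + ηB * NB) NB * bN NB) * (bN NB * (NB * (NB + 1))) := by ring
      _ = _ := by rw [this]; ring
  rw [e1, e2, ← mul_add]
  have hbC := bN_pos hC
  calc _ ≤ (bN (ηA * NA + ηB * NB) + kap) * ((ηA * NA + ηB * NB) * (ηA * NA + ηB * NB + 1) *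
        bN (ηA * NA + ηB * NB)) := by
        apply mul_le_mul_of_nonneg_left h
        positivity
    _ = _ := by ring

/-- `λ_X ≤ 1` for `κ = 0`, from `N_C ≥ η_X N_X` only. -/
lemma lam_le_one {ηX NX NC : ℝ} (h0 : 0 ≤ ηX) (h1 : ηX ≤ 1) (hX : 0 < NX) (hC : 0 < NC)
    (h : ηX * NX ≤ NC) : lam ηX 0 NC NX ≤ 1 := by
  unfold lam
  rw [add_zero, div_le_one (bN_pos hX)]
  rcases h0.eq_or_lt with h00 | h00
  · rw [← h00]; simpa using (bN_pos hX).le
  have hmul : 0 < ηX * NX := mul_pos h00 hX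
  have hb : bN NC ≤ bN (ηX * NX) := strictAntiOn_bN.antitoneOn hmul hC h
  have hj : ηX * bN (ηX * NX) ≤ bN NX := by
    have hconc := strictConcaveOn_log_Ioi.concaveOn.2 (x := 1 + 1 / (ηX * NX)) (y := 1)
      (by simp only [mem_Ioi]; positivity) (by simp) h00.le (by linarith : 0 ≤ 1 - ηX) (by ring)
    simp only [smul_eq_mul, Real.log_one, mul_zero, add_zero, mul_one] at hconc
    have e : ηX * (1 + 1 / (ηX * NX)) + (1 - ηX) = 1 + 1 / NX := by
      field_simp; ring
    rw [e] at hconc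
    exact hconc
  calc ηX * bN NC ≤ ηX * bN (ηX * NX) := mul_le_mul_of_nonneg_left hb h0
    _ ≤ bN NX := hj

end Crest.Agent.R331.Scal587
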