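import Mathlib
import Crest.Prelude.Def_FockState
import Crest.Agent.R331.BSn_375
import Crest.Agent.R331.BSIso_375
import Crest.Agent.R331.SPF_892
import Crest.Agent.R331.Scal_587
import Crest.Agent.R331.Emb_915
import Crest.Agent.R331.EmbOut_915

/-!
R331 / [EMB], helper915, part 3.  `bsOutput` of densities is a density; the frozen output relation for
embedded box states; finite energy; truncation of a `FockState` to a finite index set; box-supported
states are embedded states; transfer of the finite tangent inequality.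
-/

set_option autoImplicit false

open scoped InnerProductSpace ComplexConjugate ComplexOrder
open Crest.MathPhysics.Bosonic InnerProductSpace Crest.Quantum
open Crest.Agent.R331.BS375 Crest.Agent.R331.Emb915 Crest.Agent.R331.EmbOut915

namespace Crest.Agent.R331.Emb3

noncomputable section

variable {n : ℕ} {ι : Type*} [Fintype ι]

/-- the matrix of entries of an operator on a finite index set -/
def truncMat (f : ι → Occ n) (T : Fock n →L[ℂ] Fock n) : Matrix ι ι ℂ :=
  Matrix.of fun i j => entry T (f i) (f j)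

omit [Fintype ι] in
@[simp] theorem truncMat_apply (f : ι → Occ n) (T : Fock n →L[ℂ] Fock n) (i j : ι) :
    truncMat f T i j = entry T (f i) (f j) := rfl

theorem truncMat_posSemidef (f : ι → Occ n) {T : Fock n →L[ℂ] Fock n} (hT : T.IsPositive) :
    (truncMat f T).PosSemidef := by
  refine Matrix.PosSemidef.of_dotProduct_mulVec_nonneg ?_ ?_
  · ext i j
    rw [Matrix.conjTranspose_apply, truncMat_apply, truncMat_apply]
    have h := SP892.entry_conj_symm hT (f j) (f i)
    simpa using h
  · intro x
    have h : star x ⬝ᵥ (truncMat f T).mulVec x = ⟪embVec f x, T (embVec f x)⟫_ℂ := by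
      unfold embVec
      rw [map_sum, sum_inner, dotProduct]
      refine Finset.sum_congr rfl fun i _ => ?_
      rw [inner_sum, Matrix.mulVec, dotProduct, Finset.mul_sum]
      refine Finset.sum_congr rfl fun j _ => ?_
      rw [map_smul, inner_smul_left, inner_smul_right, truncMat_apply]
      unfold entry
      simp only [Pi.star_apply, RCLike.star_def]
      ring
    rw [h]
    exact hT.inner_nonneg_right _

theorem truncMat_embOp [DecidableEq ι] {f : ι → Occ n} (hf : Function.Injective f)
    (M : Matrix ι ι ℂ) : truncMat f (embOp f M) = M := by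
  ext i j
  rw [truncMat_apply, entry_embOp_apply hf]

/-- an operator whose entries vanish off the range of `f` is the embedding of its matrix -/
theorem eq_embOp [DecidableEq ι] {f : ι → Occ n} (hf : Function.Injective f)
    {T : Fock n →L[ℂ] Fock n}
    (h : ∀ k l, entry T k l ≠ 0 → (∃ i, f i = k) ∧ ∃ j, f j = l) :
    T = embOp f (truncMat f T) := by
  refine SP892.op_ext fun k l => ?_
  by_cases hk : ∃ i, f i = k
  · by_cases hl : ∃ j, f j = l
    · obtain ⟨i, rfl⟩ := hk
      obtain ⟨j, rfl⟩ := hl
      rw [entry_embOp_apply hf, truncMat_apply]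
    · rw [entry_embOp_right f _ k (by simpa using hl)]
      by_contra h0
      exact hl (h k l h0).2
  · rw [entry_embOp_left f _ l (by simpa using hk)]
    by_contra h0
    exact hk (h k l h0).1

theorem hasSum_diag_embOp [DecidableEq ι] {f : ι → Occ n} (hf : Function.Injective f)
    (w : Occ n → ℝ) (M : Matrix ι ι ℂ) :
    HasSum (fun k => w k * (entry (embOp f M) k k).re) (∑ i, w (f i) * (M i i).re) := by
  rw [← hf.hasSum_iff]
  · have h := hasSum_fintype (fun i => w (f i) * (M i i).re)
    convert h using 1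
    funext i
    simp only [Function.comp_apply]
    rw [entry_embOp_apply hf]
  · intro k hk
    rw [entry_embOp_left f M k (fun i hi => hk ⟨i, hi⟩)]
    simp

theorem finiteEnergy_embState [DecidableEq ι] {f : ι → Occ n} (hf : Function.Injective f)
    {M : Matrix ι ι ℂ} (hM : IsDensity M) : FiniteEnergy (embState f hf M hM) :=
  (hasSum_diag_embOp hf (fun k => ((∑ j, k j : ℕ) : ℝ)) M).summable

/-- energy of the embedded state -/
theorem hasSum_energy_embState [DecidableEq ι] {f : ι → Occ n} (hf : Function.Injective f)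
    {M : Matrix ι ι ℂ} (hM : IsDensity M) :
    HasSum (fun k : Occ n => ((∑ j, k j : ℕ) : ℝ) * (entry (embState f hf M hM).op k k).re)
      (∑ i, ((∑ j, f i j : ℕ) : ℝ) * (M i i).re) :=
  hasSum_diag_embOp hf (fun k => ((∑ j, k j : ℕ) : ℝ)) M

theorem truncMat_isDensity {f : ι → Occ n} (hf : Function.Injective f) (ρ : FockState n)
    (h : ∀ k l, entry ρ.op k l ≠ 0 → (∃ i, f i = k) ∧ ∃ j, f j = l) :
    IsDensity (truncMat f ρ.op) := by
  classical
  refine ⟨truncMat_posSemidef f ρ.pos, ?_⟩
  have hre : (truncMat f ρ.op).trace.re = 1 := by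
    have h1 := ρ.traceOne
    rw [eq_embOp hf h] at h1
    have h2 := hasSum_diag_embOp hf (fun _ => 1) (truncMat f ρ.op)
    simp only [one_mul] at h2
    rw [← h2.unique h1, Matrix.trace, Complex.re_sum]
    rfl
  have him : (truncMat f ρ.op).trace.im = 0 := by
    have h3 := (truncMat_posSemidef f ρ.pos).trace_nonneg
    exact (Complex.le_def.1 h3).2.symm
  exact Complex.ext (by simpa using hre) (by simpa using him)

/-- a state supported on the range of `f` is an embedded state -/
theorem eq_embState [DecidableEq ι] {f : ι → Occ n} (hf : Function.Injective f) (ρ : FockState n)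
    (h : ∀ k l, entry ρ.op k l ≠ 0 → (∃ i, f i = k) ∧ ∃ j, f j = l) :
    ρ = embState f hf (truncMat f ρ.op) (truncMat_isDensity hf ρ h) := by
  refine SP892.state_ext fun k l => ?_
  change entry ρ.op k l = entry (embOp f (truncMat f ρ.op)) k l
  rw [← eq_embOp hf h]

/-! ### beam-splitter output of box states -/

variable {K : ℕ}

theorem truncMat_eq_bsOutput {η : ℝ} (ρA ρB ρC : FockState n)
    (A B : Matrix (Fin n → Fin (K + 1)) (Fin n → Fin (K + 1)) ℂ)
    (hA : ρA.op = embOp (box n K) A) (hB : ρB.op = embOp (box n K) B)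
    (hC : IsBeamSplitterOutput η ρA ρB ρC) : ρC.op = embOp (box n (2 * K)) (bsOutput η A B) :=
  SP892.op_ext fun k l => (hC k l).unique (hasSum_outBlock η ρA ρB A B hA hB k l)

/-- the finite output of densities is a density -/
theorem bsOutput_isDensity {η : ℝ} (hη : η ∈ Set.Icc (0 : ℝ) 1)
    {A B : Matrix (Fin n → Fin (K + 1)) (Fin n → Fin (K + 1)) ℂ}
    (hA : IsDensity A) (hB : IsDensity B) : IsDensity (bsOutput η A B) := by
  classical
  obtain ⟨ρC, hC⟩ := BS375.exists_output hη (embState (box n K) (box_injective n K) A hA)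
    (embState (box n K) (box_injective n K) B hB)
  have h := truncMat_eq_bsOutput _ _ ρC A B rfl rfl hC
  have h2 := truncMat_isDensity (box_injective n (2 * K)) ρC (by
    intro k l hkl
    rw [h] at hkl
    exact entry_embOp_ne_zero hkl)
  rwa [h, truncMat_embOp (box_injective n (2 * K))] at h2

/-- the frozen output relation for embedded box states -/
theorem isOutput_embState {η : ℝ} (hη : η ∈ Set.Icc (0 : ℝ) 1)
    {A B : Matrix (Fin n → Fin (K + 1)) (Fin n → Fin (K + 1)) ℂ}
    (hA : IsDensity A) (hB : IsDensity B) :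
    IsBeamSplitterOutput η (embState (box n K) (box_injective n K) A hA)
      (embState (box n K) (box_injective n K) B hB)
      (embState (box n (2 * K)) (box_injective n (2 * K)) (bsOutput η A B)
        (bsOutput_isDensity hη hA hB)) :=
  fun k l => hasSum_outBlock η _ _ A B rfl rfl k l

/-- any output of embedded box states is the embedded `bsOutput` -/
theorem output_embState {η : ℝ} (hη : η ∈ Set.Icc (0 : ℝ) 1)
    {A B : Matrix (Fin n → Fin (K + 1)) (Fin n → Fin (K + 1)) ℂ}
    (hA : IsDensity A) (hB : IsDensity B) {ρC : FockState n}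
    (hC : IsBeamSplitterOutput η (embState (box n K) (box_injective n K) A hA)
      (embState (box n K) (box_injective n K) B hB) ρC) :
    ρC = embState (box n (2 * K)) (box_injective n (2 * K)) (bsOutput η A B)
        (bsOutput_isDensity hη hA hB) := by
  refine SP892.state_ext fun k l => ?_
  rw [truncMat_eq_bsOutput _ _ ρC A B rfl rfl hC]
  rfl

/-- a box-supported state: entries vanish unless both indices are in the box -/
def BoxSupp (K : ℕ) (ρ : FockState n) : Prop :=
  ∀ k l, entry ρ.op k l ≠ 0 → (∀ j, k j ≤ K) ∧ ∀ j, l j ≤ K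

theorem BoxSupp.eq_embState {ρ : FockState n} (h : BoxSupp K ρ) :
    ∃ (A : Matrix (Fin n → Fin (K + 1)) (Fin n → Fin (K + 1)) ℂ) (hA : IsDensity A),
      ρ = embState (box n K) (box_injective n K) A hA :=
  ⟨_, _, Emb3.eq_embState (box_injective n K) ρ
    (fun k l hkl => ⟨exists_box (h k l hkl).1, exists_box (h k l hkl).2⟩)⟩

/-- it suffices to look at diagonal entries -/
theorem boxSupp_of_diag {ρ : FockState n}
    (h : ∀ k, (¬ ∀ j, k j ≤ K) → (entry ρ.op k k).re = 0) : BoxSupp K ρ := by
  obtain ⟨S, hS, hSS, hn⟩ := SP892.exists_sqrt ρ.pos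
  have hz : ∀ k, (¬ ∀ j, k j ≤ K) → S (ket k) = 0 := by
    intro k hk
    have h1 := hn (ket k)
    have h2 := h k hk
    unfold entry at h2
    rw [h2] at h1
    exact norm_eq_zero.1 (pow_eq_zero_iff (two_ne_zero)|>.1 h1)
  have hadj : ∀ x y, ⟪x, S y⟫_ℂ = ⟪S x, y⟫_ℂ := fun x y => (hS.isSymmetric x y).symm
  intro k l hkl
  have h3 : entry ρ.op k l = ⟪S (ket k), S (ket l)⟫_ℂ := by
    unfold entry
    rw [← hSS, mul_apply_eq_comp, hadj]
  rw [h3] at hkl
  constructor
  · by_contra hk
    exact hkl (by rw [hz k hk, inner_zero_left])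
  · by_contra hl
    exact hkl (by rw [hz l hl, inner_zero_right])

/-- the tangent inequality for finite matrices, prelude objects only -/
def LINmat : Prop :=
  ∀ (n : ℕ), 1 ≤ n → ∀ (η : ℝ), η ∈ Set.Ioo (0 : ℝ) 1 → ∀ (K : ℕ)
    (A B : Matrix (Fin n → Fin (K + 1)) (Fin n → Fin (K + 1)) ℂ),
    IsDensity A → IsDensity B → ∀ NA NB : ℝ, 0 < NA → 0 < NB →
      n * gBose (η * NA + (1 - η) * NB)
        + Scal587.lam η 0 (η * NA + (1 - η) * NB) NA * (vnEntropy A - n * gBose NA)
        + Scal587.lam (1 - η) 0 (η * NA + (1 - η) * NB) NB * (vnEntropy B - n * gBose NB)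
        ≤ vnEntropy (bsOutput η A B)

/-- the tangent inequality for box-supported Fock states -/
def LINbox : Prop :=
  ∀ (n : ℕ), 1 ≤ n → ∀ (η : ℝ), η ∈ Set.Ioo (0 : ℝ) 1 → ∀ (K : ℕ) (ρA ρB ρC : FockState n),
    BoxSupp K ρA → BoxSupp K ρB → IsBeamSplitterOutput η ρA ρB ρC →
    ∀ sA sB sC : ℝ, HasEntropy ρA sA → HasEntropy ρB sB → HasEntropy ρC sC →
    ∀ NA NB : ℝ, 0 < NA → 0 < NB →
      n * gBose (η * NA + (1 - η) * NB)
        + Scal587.lam η 0 (η * NA + (1 - η) * NB) NA * (sA - n * gBose NA)
        + Scal587.lam (1 - η) 0 (η * NA + (1 - η) * NB) NB * (sB - n * gBose NB) ≤ sC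

theorem linbox_of_linmat (h : LINmat) : LINbox := by
  intro n hn η hη K ρA ρB ρC hA hB hC sA sB sC hsA hsB hsC NA NB hNA hNB
  obtain ⟨A, hA', rfl⟩ := hA.eq_embState
  obtain ⟨B, hB', rfl⟩ := hB.eq_embState
  have hη' : η ∈ Set.Icc (0 : ℝ) 1 := ⟨hη.1.le, hη.2.le⟩
  have hC' := output_embState hη' hA' hB' hC
  subst hC'
  have e1 : sA = vnEntropy A := hsA.unique (hasEntropy_embState (box_injective n K) hA')
  have e2 : sB = vnEntropy B := hsB.unique (hasEntropy_embState (box_injective n K) hB')
  have e3 : sC = vnEntropy (bsOutput η A B) := hsC.unique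
    (hasEntropy_embState (box_injective n (2 * K)) (bsOutput_isDensity hη' hA' hB'))
  rw [e1, e2, e3]
  exact h n hn η hη K A B hA' hB' NA NB hNA hNB

end

end Crest.Agent.R331.Emb3
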