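import Mathlib

/-!
Row 331 (S0514): interface for the operator inequality (LINOP / OPI).

* `par x y = x y / (x + y)` parallel sum of positive numbers;
* `SP n` series-parallel networks in `n` positive variables, `SP.eval`;
* `u t = t / (e^t - 1)` (`u 0 = 1`), `I0`, `I1`, `Z x = I1 x / I0 x` for `x : Fin 4 → ℝ`,
  `I_j x = ∫_{0}^{∞} l^j / ∏ (x i + l) dl`;
* `vec4 p q x y`;
* `Good T fC f`: the superadditivity (transformer) inequality on finitely supported vectors.
-/

set_option autoImplicit false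

open scoped ENNReal

namespace Crest.Agent.R331.NetDefs835

/-- Parallel sum of two (positive) numbers. -/
noncomputable def par (x y : ℝ) : ℝ := x * y / (x + y)

/-- Series-parallel networks in `n` variables. -/
inductive SP (n : ℕ) : Type
  | var (i : Fin n) : SP n
  | par (F G : SP n) : SP n
  | add (F G : SP n) : SP n
  | smul (r : ℝ) (hr : 0 < r) (F : SP n) : SP n

/-- Conductance of a network. -/
noncomputable def SP.eval {n : ℕ} : SP n → (Fin n → ℝ) → ℝ
  | .var i, x => x i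
  | .par F G, x => NetDefs835.par (F.eval x) (G.eval x)
  | .add F G, x => F.eval x + G.eval x
  | .smul r _ F, x => r * F.eval x

/-- `u t = t / (e^t - 1)`, `u 0 = 1`. -/
noncomputable def u (t : ℝ) : ℝ := if t = 0 then 1 else t / (Real.exp t - 1)

/-- `∫_0^∞ 1 / ∏ (x i + l) dl`. -/
noncomputable def I0 (x : Fin 4 → ℝ) : ℝ := ∫ l in Set.Ioi (0 : ℝ), 1 / ∏ i, (x i + l)

/-- `∫_0^∞ l / ∏ (x i + l) dl`. -/
noncomputable def I1 (x : Fin 4 → ℝ) : ℝ := ∫ l in Set.Ioi (0 : ℝ), l / ∏ i, (x i + l)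

/-- The symmetric four-variable mean (172, 776, 830). -/
noncomputable def Z (x : Fin 4 → ℝ) : ℝ := I1 x / I0 x

/-- The scalar input of the operator half (owner: helper776, `Bridge_776.lean`). -/
structure ScalarInput : Prop where
  /-- `Z` is a pointwise limit of series-parallel networks -/
  exists_net : ∃ N : ℕ → SP 4, ∀ x : Fin 4 → ℝ, (∀ i, 0 < x i) →
    Filter.Tendsto (fun M => (N M).eval x) Filter.atTop (nhds (Z x))
  /-- `Z` is positive -/
  pos : ∀ x : Fin 4 → ℝ, (∀ i, 0 < x i) → 0 < Z x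
  /-- `Z (σ_b - σ_t) = π_t - π_b` -/
  formula : ∀ b t : ℝ, Z ![u b, u (-b), u t, u (-t)] * ((u b + u (-b)) - (u t + u (-t)))
    = u t * u (-t) - u b * u (-b)

/-- Superadditivity inequality on finitely supported vectors of the `C` side: `T x` maps them to
arbitrary functions on the index set `σ x` of input `x`; `fC`, `f x` are (real) weights. -/
def Good {σC ι : Type*} {σ : ι → Type*} (T : ∀ x, (σC →₀ ℂ) →ₗ[ℂ] (σ x → ℂ))
    (fC : σC → ℝ) (f : ∀ x, σ x → ℝ) : Prop :=
  ∀ z : σC →₀ ℂ, ∑' p : (Σ x, σ x), ENNReal.ofReal (f p.1 p.2) * ‖T p.1 z p.2‖ₑ ^ 2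
    ≤ ∑' s, ENNReal.ofReal (fC s) * ‖z s‖ₑ ^ 2

end Crest.Agent.R331.NetDefs835
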