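import Mathlib
import Crest.Prelude.Def_FockState
import Crest.Agent.R331.FCov_76
import Crest.Agent.R331.NetDefs_835

/-!
Row 331 (S0514), FINITE MATRIX TRACK (FIN), frozen definitions and leaf statements.  Architect: helper136.

Box cut-off `Bx n K = Fin n → Fin (K+1)` for the inputs, `Bx n (2K)` for the outputs,
`Q = C + ε 1`, only the linear energy penalty `μ (η E_A + (1-η) E_B)`.

Definitions only (no proofs except trivial ones); every leaf of the track is a `def ... : Prop`.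
-/

set_option autoImplicit false

namespace Crest.Agent.R331.FDefs136

open Matrix Crest.Quantum Crest.MathPhysics.Bosonic
open scoped Kronecker ComplexOrder BigOperators

noncomputable section

/-! ### Boxes, ladder matrices, beam splitter -/

/-- occupation numbers at most `K` in each of the `n` modes -/
abbrev Bx (n K : ℕ) : Type := Fin n → Fin (K + 1)

/-- `k` with one more photon in mode `j` equals `l` -/
def succIn {n K : ℕ} (j : Fin n) (k l : Bx n K) : Prop :=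
  ∀ i, (l i : ℕ) = (k i : ℕ) + (if i = j then 1 else 0)

instance {n K : ℕ} (j : Fin n) (k l : Bx n K) : Decidable (succIn j k l) := by
  unfold succIn; infer_instance

/-- truncated annihilation matrix of mode `j`: `ann j |l⟩ = √(l_j) |l - e_j⟩` -/
def ann (n K : ℕ) (j : Fin n) : Matrix (Bx n K) (Bx n K) ℂ :=
  Matrix.of fun k l => if succIn j k l then ((Real.sqrt (l j : ℕ) : ℝ) : ℂ) else 0

/-- number of photons, as a diagonal matrix -/
def num (n K : ℕ) : Matrix (Bx n K) (Bx n K) ℂ :=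
  Matrix.diagonal fun k => ((∑ j, (k j : ℕ) : ℕ) : ℂ)

/-- projection on the top level `k_j = K` -/
def top (n K : ℕ) (j : Fin n) : Matrix (Bx n K) (Bx n K) ℂ :=
  Matrix.diagonal fun k => if (k j : ℕ) = K then 1 else 0

/-- the beam splitter isometry, entries = the frozen `bsAmpN` -/
def bsW (η : ℝ) (n K : ℕ) : Matrix (Bx n (2 * K) × Bx n (2 * K)) (Bx n K × Bx n K) ℂ :=
  Matrix.of fun pq kl => ((bsAmpN η kl.1 kl.2 pq.1 pq.2 : ℝ) : ℂ)

/-- LEAF FW (helper87): for every mode `j` one `FCov76.BS` with the same `ι = bsW`. -/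
structure IsBox {η : ℝ} {n K : ℕ} (j : Fin n)
    (S : FCov76.BS (Bx n K) (Bx n K) (Bx n (2 * K)) (Bx n (2 * K))) : Prop where
  ι : S.ι = bsW η n K
  a : S.a = ann n K j
  b : S.b = ann n K j
  c : S.c = ann n (2 * K) j
  d : S.d = ann n (2 * K) j
  QA : S.QA = top n K j
  QB : S.QB = top n K j
  hA : S.hA = Real.sqrt η
  hB : S.hB = Real.sqrt (1 - η)

/-- LEAF FW (helper87). -/
def FW : Prop := ∀ (η : ℝ) (n K : ℕ) (j : Fin n), 0 < η → η < 1 →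
  ∃ S : FCov76.BS (Bx n K) (Bx n K) (Bx n (2 * K)) (Bx n (2 * K)), IsBox (η := η) j S

/-- Heisenberg picture `Y ↦ W^H (Y ⊗ 1) W` -/
def heis (η : ℝ) {n K : ℕ} (Y : Matrix (Bx n (2 * K)) (Bx n (2 * K)) ℂ) :
    Matrix (Bx n K × Bx n K) (Bx n K × Bx n K) ℂ :=
  (bsW η n K)ᴴ * (Y ⊗ₖ (1 : Matrix (Bx n (2 * K)) (Bx n (2 * K)) ℂ)) * bsW η n K

/-- `P_A Y = Tr_B [(1 ⊗ B) W^H (Y ⊗ 1) W]` (same normal form as `FCov76.BS.PA`) -/
def PA (η : ℝ) {n K : ℕ} (B : Matrix (Bx n K) (Bx n K) ℂ)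
    (Y : Matrix (Bx n (2 * K)) (Bx n (2 * K)) ℂ) : Matrix (Bx n K) (Bx n K) ℂ :=
  FCov76.ptR (((1 : Matrix (Bx n K) (Bx n K) ℂ) ⊗ₖ B) * heis η Y)

/-- `P_B Y = Tr_A [(A ⊗ 1) W^H (Y ⊗ 1) W]`, written with the swapped isometry exactly as
`FCov76.BS.PB` -/
def PB (η : ℝ) {n K : ℕ} (A : Matrix (Bx n K) (Bx n K) ℂ)
    (Y : Matrix (Bx n (2 * K)) (Bx n (2 * K)) ℂ) : Matrix (Bx n K) (Bx n K) ℂ :=
  FCov76.ptR (((1 : Matrix (Bx n K) (Bx n K) ℂ) ⊗ₖ A) *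
    (((bsW η n K).submatrix id Prod.swap)ᴴ *
      (Y ⊗ₖ (1 : Matrix (Bx n (2 * K)) (Bx n (2 * K)) ℂ)) *
      (bsW η n K).submatrix id Prod.swap))

/-- the output state; `= bsOutput η A B` (frozen) is a lemma of leaf FW/EMB -/
def outC (η : ℝ) {n K : ℕ} (A B : Matrix (Bx n K) (Bx n K) ℂ) :
    Matrix (Bx n (2 * K)) (Bx n (2 * K)) ℂ :=
  FCov76.ptR (bsW η n K * (A ⊗ₖ B) * (bsW η n K)ᴴ)

/-- `Q = C + ε 1` -/
def outQ (η ε : ℝ) {n K : ℕ} (A B : Matrix (Bx n K) (Bx n K) ℂ) :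
    Matrix (Bx n (2 * K)) (Bx n (2 * K)) ℂ :=
  outC η A B + (ε : ℂ) • (1 : Matrix (Bx n (2 * K)) (Bx n (2 * K)) ℂ)

/-! ### Scalars -/

/-- `u t = t / (e^t - 1)` -/
abbrev u : ℝ → ℝ := NetDefs835.u

/-- logarithmic mean -/
def LM (x y : ℝ) : ℝ := if x = y then x else (x - y) / (Real.log x - Real.log y)

/-- `H b t = (b u(t) - t u(b)) / (b - t)`; `= u b * u (-t) / u (b - t)` -/
def H (b t : ℝ) : ℝ := if t = b then u b * u (-b) else (b * u t - t * u b) / (b - t)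

/-- optimal potential, `H b t = al b t * u t + (1 - al b t) * u (-t)` -/
def al (b t : ℝ) : ℝ := if t = b then u (-b) * (1 - u b) / b else (u (-b) - u (-t)) / (b - t)

/-- `b_N = log (1 + 1/N)` -/
def bN (N : ℝ) : ℝ := Real.log (1 + 1 / N)

/-- parameters of the track -/
structure Par where
  η : ℝ
  NA : ℝ
  NB : ℝ
  μ : ℝ
  η_pos : 0 < η
  η_lt : η < 1
  NA_pos : 0 < NA
  NB_pos : 0 < NB
  μ_pos : 0 < μ

namespace Par
variable (p : Par)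
def NC : ℝ := p.η * p.NA + (1 - p.η) * p.NB
def bA : ℝ := bN p.NA
def bB : ℝ := bN p.NB
def bC : ℝ := bN p.NC
/-- `β = b_C + μ` -/
def β : ℝ := p.bC + p.μ
def lamA : ℝ := p.η * p.β / p.bA
def lamB : ℝ := (1 - p.η) * p.β / p.bB
def hA : ℝ := Real.sqrt p.η
def hB : ℝ := Real.sqrt (1 - p.η)
end Par

/-! ### Entropy, logarithm, quadratic forms in the eigenbasis -/

section forms
variable {ι : Type*} [Fintype ι] [DecidableEq ι]

/-- logarithm of a Hermitian matrix -/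
def mlog (X : Matrix ι ι ℂ) : Matrix ι ι ℂ :=
  if h : X.IsHermitian then
    (h.eigenvectorUnitary : Matrix ι ι ℂ) *
      Matrix.diagonal (fun i => ((Real.log (h.eigenvalues i) : ℝ) : ℂ)) *
      (h.eigenvectorUnitary : Matrix ι ι ℂ)ᴴ
  else 0

/-- `K_X = - log X` -/
def KL (X : Matrix ι ι ℂ) : Matrix ι ι ℂ := - mlog X

/-- matrix of `Y` in the eigenbasis of `X` -/
def eb {X : Matrix ι ι ℂ} (h : X.IsHermitian) (Y : Matrix ι ι ℂ) : Matrix ι ι ℂ :=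
  (h.eigenvectorUnitary : Matrix ι ι ℂ)ᴴ * Y * (h.eigenvectorUnitary : Matrix ι ι ℂ)

/-- quadratic form with weights `w p_i p_j` in the eigenbasis of `X` (junk `0` if not Hermitian) -/
def qf (X : Matrix ι ι ℂ) (w : ℝ → ℝ → ℝ) (Y : Matrix ι ι ℂ) : ℝ :=
  if h : X.IsHermitian then
    ∑ i, ∑ j, w (h.eigenvalues i) (h.eigenvalues j) * ‖eb h Y i j‖ ^ 2
  else 0

/-- `R_X(Y) = Tr X Y^H Y = Σ p_j |Y_ij|^2` -/
def formR (X Y : Matrix ι ι ℂ) : ℝ := (X * (Yᴴ * Y)).trace.re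

/-- `L_X(Y) = Tr X Y Y^H = Σ p_i |Y_ij|^2` -/
def formL (X Y : Matrix ι ι ℂ) : ℝ := (X * (Y * Yᴴ)).trace.re

/-- Kubo-Mori form -/
def formM (X Y : Matrix ι ι ℂ) : ℝ := qf X LM Y

/-- `H`-form: weight `H(b, t_ij) LM(p_i, p_j)`, `t_ij = log p_i - log p_j` -/
def formH (b : ℝ) (X Y : Matrix ι ι ℂ) : ℝ :=
  qf X (fun x y => H b (Real.log x - Real.log y) * LM x y) Y

/-- slack form `D0(Y) = R(al Y) + L((1-al) Y)` -/
def formD (b : ℝ) (X Y : Matrix ι ι ℂ) : ℝ :=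
  qf X (fun x y => al b (Real.log x - Real.log y) ^ 2 * y
    + (1 - al b (Real.log x - Real.log y)) ^ 2 * x) Y

/-- subtract the mean with respect to `X` -/
def cen (X Y : Matrix ι ι ℂ) : Matrix ι ι ℂ := Y - (X * Y).trace • (1 : Matrix ι ι ℂ)

/-- `G = [K_X, x] + b x` -/
def GG (b : ℝ) (X x : Matrix ι ι ℂ) : Matrix ι ι ℂ :=
  KL X * x - x * KL X + (b : ℂ) • x

/-- centred `ω = (N+1) x0 X - N X x0`, `x0 = x - m` -/
def om (N : ℝ) (m : ℂ) (X x : Matrix ι ι ℂ) : Matrix ι ι ℂ :=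
  ((N + 1 : ℝ) : ℂ) • ((x - m • (1 : Matrix ι ι ℂ)) * X)
    - ((N : ℝ) : ℂ) • (X * (x - m • (1 : Matrix ι ι ℂ)))

end forms

/-- mean photon number of a box state -/
def En {n K : ℕ} (A : Matrix (Bx n K) (Bx n K) ℂ) : ℝ := (A * num n K).trace.re

/-- weight of the top level of mode `j` -/
def Tp {n K : ℕ} (j : Fin n) (A : Matrix (Bx n K) (Bx n K) ℂ) : ℝ := (A * top n K j).trace.re

/-! ### The functional and its minimisers -/

/-- `F(A,B) = S(Q) - λ_A S(A) - λ_B S(B) + μ (η E_A + (1-η) E_B)` -/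
def F (p : Par) (ε : ℝ) {n K : ℕ} (A B : Matrix (Bx n K) (Bx n K) ℂ) : ℝ :=
  vnEntropy (outQ p.η ε A B) - p.lamA * vnEntropy A - p.lamB * vnEntropy B
    + p.μ * (p.η * En A + (1 - p.η) * En B)

/-- `(A,B)` is a minimising pair of density matrices -/
structure IsMin (p : Par) (ε : ℝ) {n K : ℕ} (A B : Matrix (Bx n K) (Bx n K) ℂ) : Prop where
  dA : IsDensity A
  dB : IsDensity B
  le : ∀ A' B' : Matrix (Bx n K) (Bx n K) ℂ, IsDensity A' → IsDensity B' →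
    F p ε A B ≤ F p ε A' B'

/-- LEAF FMIN (299): existence -/
def FMINexists : Prop := ∀ (p : Par) (n K : ℕ) (ε : ℝ), 0 < ε →
  ∃ A B : Matrix (Bx n K) (Bx n K) ℂ, IsMin p ε A B

/-- LEAF FMIN (299): full rank -/
def FMINpos : Prop := ∀ (p : Par) (n K : ℕ) (ε : ℝ), 0 < ε →
  ∀ A B : Matrix (Bx n K) (Bx n K) ℂ, IsMin p ε A B → A.PosDef ∧ B.PosDef

/-- LEAF FMIN (299): Euler-Lagrange -/
def FMINel : Prop := ∀ (p : Par) (n K : ℕ) (ε : ℝ), 0 < ε →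
  ∀ A B : Matrix (Bx n K) (Bx n K) ℂ, IsMin p ε A B →
    (∃ r : ℝ, (p.lamA : ℂ) • KL A
      = PA p.η B (KL (outQ p.η ε A B)) + ((p.μ * p.η : ℝ) : ℂ) • num n K
        + (r : ℂ) • (1 : Matrix (Bx n K) (Bx n K) ℂ)) ∧
    (∃ r : ℝ, (p.lamB : ℂ) • KL B
      = PB p.η A (KL (outQ p.η ε A B)) + ((p.μ * (1 - p.η) : ℝ) : ℂ) • num n K
        + (r : ℂ) • (1 : Matrix (Bx n K) (Bx n K) ℂ))

/-- LEAF FS (477/299): second variation, Kubo-Mori contraction -/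
def FS : Prop := ∀ (p : Par) (n K : ℕ) (ε : ℝ), 0 < ε →
  ∀ A B : Matrix (Bx n K) (Bx n K) ℂ, IsMin p ε A B →
    ∀ Y : Matrix (Bx n (2 * K)) (Bx n (2 * K)) ℂ,
      formM A (cen A (PA p.η B Y)) ≤ p.lamA * formM (outQ p.η ε A B) Y ∧
      formM B (cen B (PB p.η A Y)) ≤ p.lamB * formM (outQ p.η ε A B) Y

/-- LEAF FPHI (280): ANOVA -/
def FANOVA : Prop := ∀ (η ε : ℝ) (n K : ℕ), 0 < η → η < 1 → 0 < ε →
  ∀ A B : Matrix (Bx n K) (Bx n K) ℂ, IsDensity A → IsDensity B →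
    ∀ Y : Matrix (Bx n (2 * K)) (Bx n (2 * K)) ℂ,
      formR A (cen A (PA η B Y)) + formR B (cen B (PB η A Y)) ≤ formR (outQ η ε A B) Y ∧
      formL A (cen A (PA η B Y)) + formL B (cen B (PB η A Y)) ≤ formL (outQ η ε A B) Y

/-- LEAF FOPI (712 + 776/835): the operator inequality with slack at a minimiser
(consequence of `FS`, `FANOVA` and the abstract finite OPI) -/
def FOPI : Prop := ∀ (p : Par) (n K : ℕ) (ε : ℝ), 0 < ε →
  ∀ A B : Matrix (Bx n K) (Bx n K) ℂ, IsMin p ε A B →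
    ∀ Y : Matrix (Bx n (2 * K)) (Bx n (2 * K)) ℂ,
      formH p.bA A (cen A (PA p.η B Y)) + formH p.bB B (cen B (PB p.η A Y))
        + p.μ / p.bC * formD p.bC (outQ p.η ε A B) Y
      ≤ p.β / p.bC * formH p.bC (outQ p.η ε A B) Y

/-! ### The gap inequality and its errors (one mode `j`) -/

section gap
variable (p : Par) (ε : ℝ) {n K : ℕ} (j : Fin n) (A B : Matrix (Bx n K) (Bx n K) ℂ)

/-- mean of `c_j` in the output -/
def mC (η : ℝ) {n K : ℕ} (j : Fin n) (A B : Matrix (Bx n K) (Bx n K) ℂ) : ℂ :=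
  (outC η A B * ann n (2 * K) j).trace

/-- mean of the annihilation operator in an input -/
def mX {n K : ℕ} (j : Fin n) (A : Matrix (Bx n K) (Bx n K) ℂ) : ℂ := (A * ann n K j).trace

/-- `Err_A(Y) = hA P_A [c,Y] - [a, P_A Y]` (`= hA • FCov76.BS.DA`) -/
def ErrA (η : ℝ) {n K : ℕ} (j : Fin n) (B : Matrix (Bx n K) (Bx n K) ℂ)
    (Y : Matrix (Bx n (2 * K)) (Bx n (2 * K)) ℂ) : Matrix (Bx n K) (Bx n K) ℂ :=
  (Real.sqrt η : ℂ) • PA η B (ann n (2 * K) j * Y - Y * ann n (2 * K) j)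
    - (ann n K j * PA η B Y - PA η B Y * ann n K j)

/-- `Err_B(Y) = hB P_B [c,Y] - [b, P_B Y]` -/
def ErrB (η : ℝ) {n K : ℕ} (j : Fin n) (A : Matrix (Bx n K) (Bx n K) ℂ)
    (Y : Matrix (Bx n (2 * K)) (Bx n (2 * K)) ℂ) : Matrix (Bx n K) (Bx n K) ℂ :=
  (Real.sqrt (1 - η) : ℂ) • PB η A (ann n (2 * K) j * Y - Y * ann n (2 * K) j)
    - (ann n K j * PB η A Y - PB η A Y * ann n K j)

/-- `G_Q = [K_Q, c_j] + b_C c_j` -/
def GQ : Matrix (Bx n (2 * K)) (Bx n (2 * K)) ℂ :=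
  GG p.bC (outQ p.η ε A B) (ann n (2 * K) j)

/-- centred `G_Q^c = G_Q - b_C m_C` -/
def GQc : Matrix (Bx n (2 * K)) (Bx n (2 * K)) ℂ :=
  GQ p ε j A B - ((p.bC : ℂ) * mC p.η j A B) • (1 : Matrix _ _ ℂ)

/-- the error functional of the gap inequality -/
def gapErr : ℝ :=
  ε * ((GQc p ε j A B)ᴴ * (ann n (2 * K) j - mC p.η j A B • (1 : Matrix _ _ ℂ))).trace.re
  - p.hA * p.NA * (A * ErrA p.η j B (GQ p ε j A B)ᴴ).trace.re
  - p.hB * p.NB * (B * ErrB p.η j A (GQ p ε j A B)ᴴ).trace.re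
  + ((ErrA p.η j B (KL (outQ p.η ε A B)))ᴴ * om p.NA (mX j A) A (ann n K j)).trace.re
  + ((ErrB p.η j A (KL (outQ p.η ε A B)))ᴴ * om p.NB (mX j B) B (ann n K j)).trace.re

end gap

/-- LEAF FGAP (633 / 76): `(μ/b_C) D0(G_Q^c) ≤ β gapErr` at a minimiser. -/
def FGAP : Prop := ∀ (p : Par) (n K : ℕ) (ε : ℝ) (j : Fin n), 0 < ε →
  ∀ A B : Matrix (Bx n K) (Bx n K) ℂ, IsMin p ε A B →
    p.μ / p.bC * formD p.bC (outQ p.η ε A B) (GQc p ε j A B) ≤ p.β * gapErr p ε j A B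

end

end Crest.Agent.R331.FDefs136
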