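import Mathlib
import Crest.Agent.R331.FDefs2_136

/-!
Row 331 (S0514), FINITE MATRIX TRACK: top of the track.
`LMIN`, `FEMB`, `FSQ`, `FMINexists`, `FOUT`, `FW` imply `FINMU` and `FINMAIN`.
-/

set_option autoImplicit false

namespace Crest.Agent.R331.FDefs136

open Matrix Crest.Quantum Crest.MathPhysics.Bosonic Filter Topology
open scoped Kronecker ComplexOrder BigOperators

noncomputable section

lemma bN_pos' {N : ℝ} (hN : 0 < N) : 0 < bN N := by
  unfold bN
  apply Real.log_pos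
  have : 0 < 1 / N := by positivity
  linarith

lemma gBose_eq' {N : ℝ} (hN : 0 < N) : gBose N = Real.log (N + 1) + N * bN N := by
  unfold gBose bN
  have h : (1 : ℝ) + 1 / N = (N + 1) / N := by field_simp
  rw [h, Real.log_div (by positivity) hN.ne']
  ring

/-! ### The output of densities is a density -/

lemma bsW_iso_zero (η : ℝ) (K : ℕ) : (bsW η 0 K)ᴴ * bsW η 0 K = 1 := by
  ext i j
  have hi : i = j := Subsingleton.elim _ _
  subst hi
  simp [bsW, bsAmpN, Matrix.mul_apply, Matrix.conjTranspose_apply]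

lemma bsW_iso (hFW : FW) {η : ℝ} (n K : ℕ) (h0 : 0 < η) (h1 : η < 1) :
    (bsW η n K)ᴴ * bsW η n K = 1 := by
  rcases Nat.eq_zero_or_pos n with rfl | hn
  · exact bsW_iso_zero η K
  · obtain ⟨S, hS⟩ := hFW η n K ⟨0, hn⟩ h0 h1
    rw [← hS.ι]; exact S.iso

lemma ptR_posSemidef {α β : Type*} [Fintype α] [Fintype β] [DecidableEq α] [DecidableEq β]
    {M : Matrix (α × β) (α × β) ℂ} (hM : M.PosSemidef) : (FCov76.ptR M).PosSemidef := by
  have h : FCov76.ptR M = ∑ j : β, M.submatrix (fun i => (i, j)) (fun i => (i, j)) := by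
    ext i i'
    simp [FCov76.ptR, Matrix.sum_apply]
  rw [h]
  exact Matrix.posSemidef_sum _ fun j _ => hM.submatrix _

lemma isDensity_outC (hFW : FW) {η : ℝ} {n K : ℕ} (h0 : 0 < η) (h1 : η < 1)
    {A B : Matrix (Bx n K) (Bx n K) ℂ} (hA : IsDensity A) (hB : IsDensity B) :
    IsDensity (outC η A B) := by
  have hAB : (A ⊗ₖ B).PosSemidef := hA.1.kronecker hB.1
  refine ⟨?_, ?_⟩
  · unfold outC
    exact ptR_posSemidef (hAB.mul_mul_conjTranspose_same _)
  · unfold outC
    rw [FCov76.trace_ptR, Matrix.trace_mul_comm, ← Matrix.mul_assoc, bsW_iso hFW n K h0 h1,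
      Matrix.one_mul, Matrix.trace_kronecker, hA.2, hB.2, mul_one]

/-! ### The regularisation error -/

lemma epsK_pos (n K : ℕ) : 0 < epsK n K := by unfold epsK; positivity

lemma epsK_le (n K : ℕ) (hK : 1 ≤ K) : epsK n K ≤ 1 / 2 := by
  unfold epsK
  have h : (2 : ℝ) ≤ (K : ℝ) + 1 := by
    have : (1 : ℝ) ≤ K := by exact_mod_cast hK
    linarith
  have h2 : (2 : ℝ) ≤ ((K : ℝ) + 1) ^ (n + 4) := by
    calc (2 : ℝ) ≤ (K : ℝ) + 1 := h
      _ = ((K : ℝ) + 1) ^ 1 := (pow_one _).symm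
      _ ≤ ((K : ℝ) + 1) ^ (n + 4) := pow_le_pow_right₀ (by linarith) (by omega)
  exact one_div_le_one_div_of_le (by norm_num) h2

lemma kap_epsK (n K : ℕ) : kap (epsK n K) = (n + 4 : ℕ) * Real.log ((K : ℝ) + 1) := by
  unfold kap epsK
  rw [one_div_one_div, Real.log_pow]

lemma kap_epsK_nonneg (n K : ℕ) : 0 ≤ kap (epsK n K) := by
  rw [kap_epsK]
  have : 0 ≤ Real.log ((K : ℝ) + 1) := Real.log_nonneg (by
    have : (0 : ℝ) ≤ K := Nat.cast_nonneg K
    linarith)
  positivity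

lemma kap_epsK_le (n K : ℕ) : kap (epsK n K) ≤ (n + 4 : ℕ) * ((K : ℝ) + 1) := by
  rw [kap_epsK]
  have h0 : (0 : ℝ) < (K : ℝ) + 1 := by positivity
  have := Real.log_le_sub_one_of_pos h0
  have h1 : Real.log ((K : ℝ) + 1) ≤ (K : ℝ) + 1 := by linarith
  exact mul_le_mul_of_nonneg_left h1 (by positivity)

/-- `dim * ε (κ + 2) → 0` -/
lemma regErr_tendsto (n : ℕ) : Tendsto (fun K : ℕ =>
    ((2 * K + 1 : ℕ) : ℝ) ^ n * (epsK n K * (kap (epsK n K) + 2))) atTop (𝓝 0) := by
  have hb : ∀ K : ℕ, ((2 * K + 1 : ℕ) : ℝ) ^ n * (epsK n K * (kap (epsK n K) + 2))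
      ≤ (2 ^ n * (n + 6)) * (1 / ((K : ℝ) + 1)) := by
    intro K
    have hK : (0 : ℝ) < (K : ℝ) + 1 := by positivity
    have hK1 : (1 : ℝ) ≤ (K : ℝ) + 1 := by
      have : (0 : ℝ) ≤ K := Nat.cast_nonneg K
      linarith
    have h1 : ((2 * K + 1 : ℕ) : ℝ) ^ n ≤ 2 ^ n * ((K : ℝ) + 1) ^ n := by
      rw [← mul_pow]
      apply pow_le_pow_left₀ (by positivity)
      push_cast; linarith
    have h2 : kap (epsK n K) + 2 ≤ (n + 6) * ((K : ℝ) + 1) := by
      have := kap_epsK_le n K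
      push_cast at this
      nlinarith
    have h3 : 0 ≤ epsK n K * (kap (epsK n K) + 2) := by
      have := kap_epsK_nonneg n K
      have := epsK_pos n K
      positivity
    calc ((2 * K + 1 : ℕ) : ℝ) ^ n * (epsK n K * (kap (epsK n K) + 2))
        ≤ (2 ^ n * ((K : ℝ) + 1) ^ n) * (epsK n K * ((n + 6) * ((K : ℝ) + 1))) := by
          apply mul_le_mul h1 _ h3 (by positivity)
          exact mul_le_mul_of_nonneg_left h2 (epsK_pos n K).le
      _ = (2 ^ n * (n + 6)) * (1 / ((K : ℝ) + 1) ^ 3) := by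
          unfold epsK
          rw [pow_add]
          field_simp
      _ ≤ (2 ^ n * (n + 6)) * (1 / ((K : ℝ) + 1)) := by
          apply mul_le_mul_of_nonneg_left _ (by positivity)
          apply one_div_le_one_div_of_le hK
          calc (K : ℝ) + 1 = ((K : ℝ) + 1) ^ 1 := (pow_one _).symm
            _ ≤ ((K : ℝ) + 1) ^ 3 := pow_le_pow_right₀ hK1 (by norm_num)
  have h0 : ∀ K : ℕ, 0 ≤ ((2 * K + 1 : ℕ) : ℝ) ^ n * (epsK n K * (kap (epsK n K) + 2)) := by
    intro K
    have := kap_epsK_nonneg n K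
    have := epsK_pos n K
    positivity
  have hlim : Tendsto (fun K : ℕ => ((2 : ℝ) ^ n * (n + 6)) * (1 / ((K : ℝ) + 1))) atTop (𝓝 0) := by
    have := (tendsto_one_div_add_atTop_nhds_zero_nat (𝕜 := ℝ)).const_mul ((2 : ℝ) ^ n * (n + 6))
    simpa using this
  exact squeeze_zero h0 hb hlim

lemma card_Bx (n M : ℕ) : Fintype.card (Bx n M) = (M + 1) ^ n := by
  simp [Bx]

/-! ### `LMIN → FINMU` -/

theorem finmu_of (hFW : FW) (hMin : FMINexists) (hL : LMIN) (hE : FEMB) (hS : FSQ) : FINMU := by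
  intro p n K0 A0 B0 hA0 hB0
  by_contra hcon
  push Not at hcon
  set R := vnEntropy (outC p.η A0 B0) - p.lamA * vnEntropy A0 - p.lamB * vnEntropy B0
      + p.μ * (p.η * En A0 + (1 - p.η) * En B0) with hR
  have hδ : 0 < (thVal p n - R) / 2 := by linarith
  obtain ⟨K1, hK1⟩ := hL p n _ hδ
  have hev := (regErr_tendsto n).eventually (gt_mem_nhds hδ)
  obtain ⟨K, hK, hKK0, hKK1, hKp⟩ := (hev.and ((eventually_ge_atTop K0).and
    ((eventually_ge_atTop K1).and (eventually_ge_atTop 1)))).exists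
  obtain ⟨A, B, hA, hB, e1, e2, e3, e4, e5⟩ := hE p.η n K0 K p.η_pos p.η_lt hKK0 A0 B0 hA0 hB0
  obtain ⟨A', B', hmin⟩ := hMin p n K (epsK n K) (epsK_pos n K)
  have h1 := hK1 K hKK1 A' B' hmin
  have h2 := hmin.le A B hA hB
  have hC := isDensity_outC hFW p.η_pos p.η_lt hA hB
  have h3 := hS (Bx n (2 * K)) (outC p.η A B) (epsK n K) (epsK_pos n K) (epsK_le n K hKp) hC
  rw [card_Bx] at h3
  have h4 := (abs_le.1 h3).2
  have h5 : F p (epsK n K) A B ≤ R + ((2 * K + 1 : ℕ) : ℝ) ^ n * (epsK n K * (kap (epsK n K) + 2)) := by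
    unfold F outQ
    rw [hR, e1, e2, e3, e4, ← e5]
    push_cast at h4 ⊢
    linarith
  linarith

/-! ### `FINMU → FINMAIN` -/

theorem finmain_of (hM : FINMU) (hO : FOUT) : FINMAIN := by
  intro η NA NB n K0 h0 h1 hNA hNB A0 B0 hA0 hB0
  rw [← hO η n K0 A0 B0]
  set NC := η * NA + (1 - η) * NB with hNC
  have hNCpos : 0 < NC := by
    have : 0 < 1 - η := by linarith
    positivity
  have hbA := bN_pos' hNA
  have hbB := bN_pos' hNB
  have hbC := bN_pos' hNCpos
  set SC := vnEntropy (outC η A0 B0)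
  set SA := vnEntropy A0
  set SB := vnEntropy B0
  set lA := η * bN NC / bN NA with hlA
  set lB := (1 - η) * bN NC / bN NB with hlB
  -- the inequality for every `μ > 0` is affine in `μ`
  have key : ∀ μ : ℝ, 0 < μ →
      0 ≤ (SC - lA * SA - lB * SB
          - n * (Real.log (NC + 1) - lA * Real.log (NA + 1) - lB * Real.log (NB + 1)))
        + μ * (-(η / bN NA) * SA - ((1 - η) / bN NB) * SB + (η * En A0 + (1 - η) * En B0)
          + n * (η / bN NA * Real.log (NA + 1) + (1 - η) / bN NB * Real.log (NB + 1))) := by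
    intro μ hμ
    have h := hM ⟨η, NA, NB, μ, h0, h1, hNA, hNB, hμ⟩ n K0 A0 B0 hA0 hB0
    simp only [thVal, Par.lamA, Par.lamB, Par.β, Par.bC, Par.bA, Par.bB, Par.NC] at h
    rw [← hNC] at h
    have e1 : η * (bN NC + μ) / bN NA = lA + μ * (η / bN NA) := by rw [hlA]; ring
    have e2 : (1 - η) * (bN NC + μ) / bN NB = lB + μ * ((1 - η) / bN NB) := by rw [hlB]; ring
    rw [e1, e2] at h
    nlinarith [h]
  have hX : 0 ≤ SC - lA * SA - lB * SB
      - n * (Real.log (NC + 1) - lA * Real.log (NA + 1) - lB * Real.log (NB + 1)) := by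
    set X := SC - lA * SA - lB * SB
      - n * (Real.log (NC + 1) - lA * Real.log (NA + 1) - lB * Real.log (NB + 1)) with hXdef
    set Y := -(η / bN NA) * SA - ((1 - η) / bN NB) * SB + (η * En A0 + (1 - η) * En B0)
          + n * (η / bN NA * Real.log (NA + 1) + (1 - η) / bN NB * Real.log (NB + 1)) with hYdef
    have hlim : Tendsto (fun μ : ℝ => X + μ * Y) (𝓝[>] 0) (𝓝 (X + 0 * Y)) := by
      apply Tendsto.mono_left _ nhdsWithin_le_nhds
      exact (continuous_const.add (continuous_id.mul continuous_const)).tendsto 0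
    have : (0 : ℝ) ≤ X + 0 * Y := by
      apply ge_of_tendsto hlim
      filter_upwards [self_mem_nhdsWithin] with μ hμ
      exact key μ hμ
    simpa using this
  rw [gBose_eq' hNCpos, gBose_eq' hNA, gBose_eq' hNB]
  have e3 : lA * (NA * bN NA) = η * NA * bN NC := by
    rw [hlA]; field_simp
  have e4 : lB * (NB * bN NB) = (1 - η) * NB * bN NC := by
    rw [hlB]; field_simp
  have e5 : NC * bN NC = η * NA * bN NC + (1 - η) * NB * bN NC := by rw [hNC]; ring
  have : (n : ℝ) * (Real.log (NC + 1) + NC * bN NC)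
      + lA * (SA - n * (Real.log (NA + 1) + NA * bN NA))
      + lB * (SB - n * (Real.log (NB + 1) + NB * bN NB))
      = n * (Real.log (NC + 1) - lA * Real.log (NA + 1) - lB * Real.log (NB + 1))
        + lA * SA + lB * SB + n * (NC * bN NC - lA * (NA * bN NA) - lB * (NB * bN NB)) := by ring
  rw [this, e3, e4, e5]
  nlinarith [hX]

end

end Crest.Agent.R331.FDefs136
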