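import Crest.Agent.R331.FinPhi_280
import Crest.Agent.R331.FCov_76
import Crest.Prelude.Def_Bosonic

/-!
# [FPHI] dictionary (helper280, row 331)

* `FCov_76.BS` data: `S.PA`, `S.PB`, `S.out` are `FinPhi_280`'s `PA`, `PB`, `Phi` of `S.ι`, hence
  positivity, ANOVA for `R` and `L`, Kadison for the `BS` structure;
* `Q = C + e•1` versions (architecture #13990);
* the frozen `bsOutput` is `Phi` of the amplitude matrix.
-/

set_option autoImplicit false
set_option linter.unusedSectionVars false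
set_option linter.unusedSimpArgs false
set_option linter.unusedDecidableInType false

open Matrix
open scoped Kronecker ComplexOrder

namespace Crest.Agent.R331.FinPhi280

section Q

variable {K : Type*} [Fintype K] [DecidableEq K]

omit [DecidableEq K] in
lemma trace_conj_mul_self_nonneg (Y : Matrix K K ℂ) : 0 ≤ (trace (Yᴴ * Y)).re := by
  classical
  have h := Rq_nonneg (X := (1 : Matrix K K ℂ)) PosSemidef.one Y
  simpa [Rq] using h

/-- `R_{C+e} = R_C + e |Y|²` -/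
lemma Rq_add_eps (C Y : Matrix K K ℂ) (e : ℝ) :
    Rq (C + (e : ℂ) • (1 : Matrix K K ℂ)) Y = Rq C Y + e * (trace (Yᴴ * Y)).re := by
  rw [Rq_add_left, Rq_smul_left]
  simp [Rq]

lemma Lq_add_eps (C Y : Matrix K K ℂ) (e : ℝ) :
    Lq (C + (e : ℂ) • (1 : Matrix K K ℂ)) Y = Lq C Y + e * (trace (Y * Yᴴ)).re := by
  rw [Lq_add_left, Lq_smul_left]
  simp [Lq]

lemma Rq_le_add_eps (C Y : Matrix K K ℂ) {e : ℝ} (he : 0 ≤ e) :
    Rq C Y ≤ Rq (C + (e : ℂ) • (1 : Matrix K K ℂ)) Y := by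
  rw [Rq_add_eps]
  have := mul_nonneg he (trace_conj_mul_self_nonneg Y)
  linarith

lemma Lq_le_add_eps (C Y : Matrix K K ℂ) {e : ℝ} (he : 0 ≤ e) :
    Lq C Y ≤ Lq (C + (e : ℂ) • (1 : Matrix K K ℂ)) Y := by
  rw [Lq_eq_Rq, Lq_eq_Rq]
  exact Rq_le_add_eps C Yᴴ he

variable {I J L : Type*} [Fintype I] [Fintype J] [Fintype L] [DecidableEq I] [DecidableEq J]
  [DecidableEq L] {W : Matrix (K × L) (I × J) ℂ}

/-- ANOVA for `R` against `Q = C + e`, any centring `z` on the right. -/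
theorem anova_R_eps (hW : Wᴴ * W = 1) {A : Matrix I I ℂ} {B : Matrix J J ℂ} (hA : A.PosSemidef)
    (hB : B.PosSemidef) (tA : trace A = 1) (tB : trace B = 1) (Y : Matrix K K ℂ) (z : ℂ) {e : ℝ}
    (he : 0 ≤ e) :
    Rq A (PA W B Y - (trace (Phi W A B * Y)) • (1 : Matrix I I ℂ))
      + Rq B (PB W A Y - (trace (Phi W A B * Y)) • (1 : Matrix J J ℂ))
      ≤ Rq (Phi W A B + (e : ℂ) • (1 : Matrix K K ℂ)) (Y - z • (1 : Matrix K K ℂ)) := by
  have h1 := anova_R W hW hA hB tA tB Y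
  have h2 := Rq_le_add_eps (Phi W A B) (Y - z • (1 : Matrix K K ℂ)) he
  have h3 := Rq_sub_mean_le (Phi_posSemidef W hA hB)
    (by rw [trace_Phi W hW, tA, tB, one_mul]) Y z
  linarith

/-- ANOVA for `L` against `Q = C + e`, any centring `z` on the right. -/
theorem anova_L_eps (hW : Wᴴ * W = 1) {A : Matrix I I ℂ} {B : Matrix J J ℂ} (hA : A.PosSemidef)
    (hB : B.PosSemidef) (tA : trace A = 1) (tB : trace B = 1) (Y : Matrix K K ℂ) (z : ℂ) {e : ℝ}
    (he : 0 ≤ e) :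
    Lq A (PA W B Y - (trace (Phi W A B * Y)) • (1 : Matrix I I ℂ))
      + Lq B (PB W A Y - (trace (Phi W A B * Y)) • (1 : Matrix J J ℂ))
      ≤ Lq (Phi W A B + (e : ℂ) • (1 : Matrix K K ℂ)) (Y - z • (1 : Matrix K K ℂ)) := by
  have h1 := anova_L W hW hA hB tA tB Y
  have h2 := Lq_le_add_eps (Phi W A B) (Y - z • (1 : Matrix K K ℂ)) he
  have h3 := Lq_sub_mean_le (Phi_posSemidef W hA hB)
    (by rw [trace_Phi W hW, tA, tB, one_mul]) Y z
  linarith

/-- `Q = C + e` is positive definite. -/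
theorem posDef_add_eps {C : Matrix K K ℂ} (hC : C.PosSemidef) {e : ℝ} (he : 0 < e) :
    (C + (e : ℂ) • (1 : Matrix K K ℂ)).PosDef := by
  have h1 : ((e : ℂ) • (1 : Matrix K K ℂ)).PosDef :=
    PosDef.one.smul (by exact_mod_cast he)
  exact PosDef.posSemidef_add hC h1

end Q

/-! ### the structure `BS` of `FCov_76` -/

section BSdict

variable {α β γ δ : Type*} [Fintype α] [Fintype β] [Fintype γ] [Fintype δ]
  [DecidableEq α] [DecidableEq β] [DecidableEq γ] [DecidableEq δ] (S : FCov76.BS α β γ δ)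

lemma BS_PA (B : Matrix β β ℂ) (Y : Matrix γ γ ℂ) : S.PA B Y = PA S.ι B Y := rfl

lemma BS_out (A : Matrix α α ℂ) (B : Matrix β β ℂ) : S.out A B = Phi S.ι A B := rfl

lemma BS_PB (A : Matrix α α ℂ) (Y : Matrix γ γ ℂ) : S.PB A Y = PB S.ι A Y := by
  rw [FCov76.BS.PB, FCov76.BS.PA, FCov76.BS.swap_heis]
  ext j j'
  simp only [FCov76.ptR, PB, tr1_apply, Matrix.mul_apply, Fintype.sum_prod_type,
    kroneckerMap_apply, submatrix_apply, Prod.swap_prod_mk, Matrix.one_apply]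
  refine Finset.sum_congr rfl fun i _ => ?_
  rw [Finset.sum_comm]
  refine Finset.sum_congr rfl fun k _ => Finset.sum_congr rfl fun l _ => ?_
  have : S.heis Y (k, l) (i, j') = Gm S.ι Y (k, l) (i, j') := rfl
  rw [this]
  ring

variable {S}

theorem BS_out_posSemidef {A : Matrix α α ℂ} {B : Matrix β β ℂ} (hA : A.PosSemidef)
    (hB : B.PosSemidef) : (S.out A B).PosSemidef := Phi_posSemidef S.ι hA hB

theorem BS_trace_out {A : Matrix α α ℂ} {B : Matrix β β ℂ} (tA : trace A = 1)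
    (tB : trace B = 1) : trace (S.out A B) = 1 := by
  rw [BS_out, trace_Phi S.ι S.iso, tA, tB, one_mul]

theorem BS_PA_posSemidef {B : Matrix β β ℂ} (hB : B.PosSemidef) {Y : Matrix γ γ ℂ}
    (hY : Y.PosSemidef) : (S.PA B Y).PosSemidef := PA_posSemidef S.ι hB hY

theorem BS_PB_posSemidef {A : Matrix α α ℂ} (hA : A.PosSemidef) {Y : Matrix γ γ ℂ}
    (hY : Y.PosSemidef) : (S.PB A Y).PosSemidef := by
  rw [BS_PB]; exact PB_posSemidef S.ι hA hY

theorem BS_anova_R {A : Matrix α α ℂ} {B : Matrix β β ℂ} (hA : A.PosSemidef) (hB : B.PosSemidef)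
    (tA : trace A = 1) (tB : trace B = 1) (Y : Matrix γ γ ℂ) :
    Rq A (S.PA B Y - trace (S.out A B * Y) • (1 : Matrix α α ℂ))
      + Rq B (S.PB A Y - trace (S.out A B * Y) • (1 : Matrix β β ℂ))
      ≤ Rq (S.out A B) (Y - trace (S.out A B * Y) • (1 : Matrix γ γ ℂ)) := by
  rw [BS_PA, BS_PB, BS_out]
  exact anova_R S.ι S.iso hA hB tA tB Y

theorem BS_anova_L {A : Matrix α α ℂ} {B : Matrix β β ℂ} (hA : A.PosSemidef) (hB : B.PosSemidef)
    (tA : trace A = 1) (tB : trace B = 1) (Y : Matrix γ γ ℂ) :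
    Lq A (S.PA B Y - trace (S.out A B * Y) • (1 : Matrix α α ℂ))
      + Lq B (S.PB A Y - trace (S.out A B * Y) • (1 : Matrix β β ℂ))
      ≤ Lq (S.out A B) (Y - trace (S.out A B * Y) • (1 : Matrix γ γ ℂ)) := by
  rw [BS_PA, BS_PB, BS_out]
  exact anova_L S.ι S.iso hA hB tA tB Y

theorem BS_anova_R_eps {A : Matrix α α ℂ} {B : Matrix β β ℂ} (hA : A.PosSemidef)
    (hB : B.PosSemidef) (tA : trace A = 1) (tB : trace B = 1) (Y : Matrix γ γ ℂ) (z : ℂ) {e : ℝ}
    (he : 0 ≤ e) :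
    Rq A (S.PA B Y - trace (S.out A B * Y) • (1 : Matrix α α ℂ))
      + Rq B (S.PB A Y - trace (S.out A B * Y) • (1 : Matrix β β ℂ))
      ≤ Rq (S.out A B + (e : ℂ) • (1 : Matrix γ γ ℂ)) (Y - z • (1 : Matrix γ γ ℂ)) := by
  rw [BS_PA, BS_PB, BS_out]
  exact anova_R_eps S.iso hA hB tA tB Y z he

theorem BS_anova_L_eps {A : Matrix α α ℂ} {B : Matrix β β ℂ} (hA : A.PosSemidef)
    (hB : B.PosSemidef) (tA : trace A = 1) (tB : trace B = 1) (Y : Matrix γ γ ℂ) (z : ℂ) {e : ℝ}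
    (he : 0 ≤ e) :
    Lq A (S.PA B Y - trace (S.out A B * Y) • (1 : Matrix α α ℂ))
      + Lq B (S.PB A Y - trace (S.out A B * Y) • (1 : Matrix β β ℂ))
      ≤ Lq (S.out A B + (e : ℂ) • (1 : Matrix γ γ ℂ)) (Y - z • (1 : Matrix γ γ ℂ)) := by
  rw [BS_PA, BS_PB, BS_out]
  exact anova_L_eps S.iso hA hB tA tB Y z he

theorem BS_kadison_A {A' : Matrix α α ℂ} {B : Matrix β β ℂ} (hA : A'.PosSemidef)
    (hB : B.PosSemidef) (tB : trace B = 1) (Y : Matrix γ γ ℂ) :
    Rq A' (S.PA B Y) ≤ (trace (A' * S.PA B (Yᴴ * Y))).re :=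
  kadison_PA S.ι S.iso hA hB tB Y

theorem BS_kadison_B {A : Matrix α α ℂ} {B' : Matrix β β ℂ} (hA : A.PosSemidef)
    (hB : B'.PosSemidef) (tA : trace A = 1) (Y : Matrix γ γ ℂ) :
    Rq B' (S.PB A Y) ≤ (trace (B' * S.PB A (Yᴴ * Y))).re := by
  rw [BS_PB, BS_PB]
  exact kadison_PB S.ι S.iso hA hB tA Y

end BSdict

/-! ### the frozen `bsOutput` -/

section Frozen

open Crest.MathPhysics.Bosonic

variable {n K : ℕ}

/-- the amplitude matrix of the frozen beam splitter -/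
noncomputable def Wbs (n K : ℕ) (η : ℝ) :
    Matrix ((Fin n → Fin (2 * K + 1)) × (Fin n → Fin (2 * K + 1)))
      ((Fin n → Fin (K + 1)) × (Fin n → Fin (K + 1))) ℂ :=
  Matrix.of fun p x => (bsAmpN η x.1 x.2 p.1 p.2 : ℂ)

theorem bsOutput_eq_Phi (η : ℝ) (A B : Matrix (Fin n → Fin (K + 1)) (Fin n → Fin (K + 1)) ℂ) :
    bsOutput η A B = Phi (Wbs n K η) A B := by
  ext p p'
  simp only [bsOutput, Matrix.of_apply, Phi, tr2_apply, Matrix.mul_apply, Fintype.sum_prod_type,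
    kroneckerMap_apply, Wbs, conjTranspose_apply]
  refine Finset.sum_congr rfl fun q _ => ?_
  simp only [Finset.sum_mul]
  -- LHS: ∑ k l k' l';  RHS: ∑ k' l' k l
  rw [Finset.sum_congr rfl fun k _ => Finset.sum_comm' (s := Finset.univ) (t := fun _ => Finset.univ)
    (t' := Finset.univ) (s' := fun _ => Finset.univ) (by simp)]
  rw [Finset.sum_comm]
  refine Finset.sum_congr rfl fun k' _ => ?_
  rw [Finset.sum_congr rfl fun k _ => Finset.sum_comm]
  rw [Finset.sum_comm]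
  refine Finset.sum_congr rfl fun l' _ => ?_
  refine Finset.sum_congr rfl fun k _ => ?_
  refine Finset.sum_congr rfl fun l _ => ?_
  simp only [Complex.star_def, Complex.conj_ofReal]
  ring

end Frozen

end Crest.Agent.R331.FinPhi280
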