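import Mathlib
import Crest.Prelude.Def_QState
import Crest.Prelude.Def_Bosonic
import Crest.Agent.R331.Gibbs_158

/-! # Finite track, leaf FIN-8 (helper628): limits of the truncated output states

Part A: one-line entropy inequalities for density matrices (vnEntropy):
* `vn_lower`  : `∑_{k∈P} (-(log λ_k) ρ_kk + ρ_kk - (∑_i |ρ_ik|^2)/λ_k) ≤ S(ρ)`,
* `vn_gibbs`  : `S(ρ) ≤ -∑ ρ_kk log q_k + ∑ q_k - 1`.
-/

set_option autoImplicit false
set_option linter.unusedSectionVars false

noncomputable section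

namespace Crest.Agent.R331.Fin8_628

open Crest.Quantum Crest.MathPhysics.Bosonic Matrix Finset Filter Topology
open Crest.Agent.R331.Gibbs158
open scoped ComplexOrder

section entropy

variable {d : Type*} [Fintype d] [DecidableEq d]

lemma vn_eq {ρ : Matrix d d ℂ} (h : ρ.IsHermitian) :
    vnEntropy ρ = ∑ j, Real.negMulLog (h.eigenvalues j) := by
  simp [vnEntropy, h, Real.negMulLog, Finset.sum_neg_distrib]

/-- squared moduli of the eigenvector coordinates -/
def wt {ρ : Matrix d d ℂ} (h : ρ.IsHermitian) (k j : d) : ℝ :=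
  Complex.normSq ((h.eigenvectorUnitary : Matrix d d ℂ) k j)

lemma wt_nonneg {ρ : Matrix d d ℂ} (h : ρ.IsHermitian) (k j : d) : 0 ≤ wt h k j :=
  Complex.normSq_nonneg _

lemma entry_eq {ρ : Matrix d d ℂ} (h : ρ.IsHermitian) (k l : d) :
    ρ k l = ∑ j, (h.eigenvectorUnitary : Matrix d d ℂ) k j * (h.eigenvalues j : ℂ) *
      star ((h.eigenvectorUnitary : Matrix d d ℂ) l j) := by
  conv_lhs => rw [h.spectral_theorem]
  rw [Unitary.conjStarAlgAut_apply, Matrix.mul_apply]
  refine Finset.sum_congr rfl fun j _ => ?_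
  rw [Matrix.mul_diagonal, Matrix.star_apply]
  simp

lemma diag_eq {ρ : Matrix d d ℂ} (h : ρ.IsHermitian) (k : d) :
    (ρ k k).re = ∑ j, wt h k j * h.eigenvalues j := by
  rw [entry_eq h k k, Complex.re_sum]
  refine Finset.sum_congr rfl fun j _ => ?_
  have : (h.eigenvectorUnitary : Matrix d d ℂ) k j * (h.eigenvalues j : ℂ) *
      star ((h.eigenvectorUnitary : Matrix d d ℂ) k j)
      = ((wt h k j * h.eigenvalues j : ℝ) : ℂ) := by
    rw [mul_right_comm, Complex.star_def, Complex.mul_conj, wt]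
    push_cast; ring
  rw [this, Complex.ofReal_re]

lemma sum_wt_row {ρ : Matrix d d ℂ} (h : ρ.IsHermitian) (k : d) : ∑ j, wt h k j = 1 := by
  have h1 : (h.eigenvectorUnitary : Matrix d d ℂ) * star (h.eigenvectorUnitary : Matrix d d ℂ) = 1 :=
    Unitary.coe_mul_star_self _
  have h2 := congrFun (congrFun h1 k) k
  rw [Matrix.mul_apply] at h2
  simp only [Matrix.star_apply, Complex.star_def, Complex.mul_conj, Matrix.one_apply_eq] at h2
  have h3 : ((∑ j, wt h k j : ℝ) : ℂ) = 1 := by
    rw [← h2]; push_cast; rfl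
  exact_mod_cast h3

lemma sum_wt_col {ρ : Matrix d d ℂ} (h : ρ.IsHermitian) (j : d) : ∑ k, wt h k j = 1 := by
  have h1 : star (h.eigenvectorUnitary : Matrix d d ℂ) * (h.eigenvectorUnitary : Matrix d d ℂ) = 1 :=
    Unitary.coe_star_mul_self _
  have h2 := congrFun (congrFun h1 j) j
  rw [Matrix.mul_apply] at h2
  simp only [Matrix.star_apply, Complex.star_def, Matrix.one_apply_eq] at h2
  have h3 : ((∑ k, wt h k j : ℝ) : ℂ) = 1 := by
    rw [← h2]; push_cast
    refine Finset.sum_congr rfl fun k _ => ?_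
    rw [mul_comm, Complex.mul_conj]; rfl
  exact_mod_cast h3

/-- `∑_i |ρ_ik|^2 = ∑_j w_kj λ_j^2` -/
lemma sum_normSq_eq {ρ : Matrix d d ℂ} (h : ρ.IsHermitian) (k : d) :
    ∑ i, Complex.normSq (ρ i k) = ∑ j, wt h k j * h.eigenvalues j ^ 2 := by
  -- (ρ * ρ) k k
  have hU : star (h.eigenvectorUnitary : Matrix d d ℂ) * (h.eigenvectorUnitary : Matrix d d ℂ) = 1 :=
    Unitary.coe_star_mul_self _
  have h1 : ρ * ρ = (h.eigenvectorUnitary : Matrix d d ℂ) *
      diagonal (fun j => ((h.eigenvalues j : ℂ)) ^ 2) *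
      star (h.eigenvectorUnitary : Matrix d d ℂ) := by
    have hs : ρ = (h.eigenvectorUnitary : Matrix d d ℂ) *
      diagonal (fun j => (h.eigenvalues j : ℂ)) *
      star (h.eigenvectorUnitary : Matrix d d ℂ) := by
      conv_lhs => rw [h.spectral_theorem]
      rw [Unitary.conjStarAlgAut_apply]
      rfl
    have hd : diagonal (fun j => ((h.eigenvalues j : ℂ)) ^ 2)
        = diagonal (fun j => (h.eigenvalues j : ℂ)) * diagonal (fun j => (h.eigenvalues j : ℂ)) := by
      rw [diagonal_mul_diagonal]; congr 1; funext j; ring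
    rw [hd]
    conv_lhs => rw [hs]
    calc _ = (h.eigenvectorUnitary : Matrix d d ℂ) * diagonal (fun j => (h.eigenvalues j : ℂ)) *
          (star (h.eigenvectorUnitary : Matrix d d ℂ) * (h.eigenvectorUnitary : Matrix d d ℂ)) *
          diagonal (fun j => (h.eigenvalues j : ℂ)) * star (h.eigenvectorUnitary : Matrix d d ℂ) := by
            simp only [Matrix.mul_assoc]
      _ = _ := by rw [hU]; simp only [Matrix.mul_assoc, Matrix.one_mul]
  have h2 := congrFun (congrFun h1 k) k
  have hL : (ρ * ρ) k k = ((∑ i, Complex.normSq (ρ i k) : ℝ) : ℂ) := by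
    rw [Matrix.mul_apply]; push_cast
    refine Finset.sum_congr rfl fun i _ => ?_
    have : ρ k i = star (ρ i k) := by
      have := congrFun (congrFun h k) i
      rw [Matrix.conjTranspose_apply] at this
      exact this.symm
    rw [this, Complex.star_def, mul_comm, Complex.mul_conj]
  have hR : ((h.eigenvectorUnitary : Matrix d d ℂ) *
      diagonal (fun j => ((h.eigenvalues j : ℂ)) ^ 2) *
      star (h.eigenvectorUnitary : Matrix d d ℂ)) k k
      = ((∑ j, wt h k j * h.eigenvalues j ^ 2 : ℝ) : ℂ) := by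
    rw [Matrix.mul_apply]; push_cast
    refine Finset.sum_congr rfl fun j _ => ?_
    rw [Matrix.mul_diagonal, Matrix.star_apply, mul_right_comm, Complex.star_def, Complex.mul_conj, wt]
  rw [hL, hR] at h2
  exact_mod_cast h2

lemma eig_nonneg {ρ : Matrix d d ℂ} (hρ : IsDensity ρ) (j : d) : 0 ≤ hρ.1.1.eigenvalues j :=
  hρ.1.eigenvalues_nonneg j

lemma sum_eig {ρ : Matrix d d ℂ} (hρ : IsDensity ρ) : ∑ j, hρ.1.1.eigenvalues j = 1 := by
  have := hρ.1.1.trace_eq_sum_eigenvalues
  have h2 : ((∑ j, hρ.1.1.eigenvalues j : ℝ) : ℂ) = 1 := by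
    push_cast; exact this.symm.trans hρ.2
  exact_mod_cast h2

lemma eig_le_one {ρ : Matrix d d ℂ} (hρ : IsDensity ρ) (j : d) : hρ.1.1.eigenvalues j ≤ 1 := by
  rw [← sum_eig hρ]
  exact Finset.single_le_sum (fun i _ => eig_nonneg hρ i) (Finset.mem_univ j)

/-- tangent inequality from below: `-t log t ≥ -t log λ + t - t²/λ`. -/
lemma negMulLog_ge {t lam : ℝ} (ht : 0 ≤ t) (hl : 0 < lam) :
    -Real.log lam * t + t - t ^ 2 / lam ≤ Real.negMulLog t := by
  rcases ht.eq_or_lt with rfl | ht
  · simp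
  · have h := Real.log_le_sub_one_of_pos (show 0 < t / lam by positivity)
    rw [Real.log_div ht.ne' hl.ne'] at h
    have h2 := mul_le_mul_of_nonneg_left h ht.le
    have h3 : t * (t / lam - 1) = t ^ 2 / lam - t := by field_simp
    rw [h3] at h2
    rw [Real.negMulLog]
    nlinarith

/-- tangent inequality from above: `-t log t ≤ -t log q + q - t`. -/
lemma negMulLog_le {t q : ℝ} (ht : 0 ≤ t) (hq : 0 < q) :
    Real.negMulLog t ≤ -Real.log q * t + q - t := by
  rcases ht.eq_or_lt with rfl | ht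
  · simp [hq.le]
  · have h := Real.log_le_sub_one_of_pos (show 0 < q / t by positivity)
    rw [Real.log_div hq.ne' ht.ne'] at h
    have h2 := mul_le_mul_of_nonneg_left h ht.le
    have h3 : t * (q / t - 1) = q - t := by field_simp
    rw [h3] at h2
    rw [Real.negMulLog]
    nlinarith

/-- lower bound for the entropy of a density matrix from a block of its entries. -/
theorem vn_lower {ρ : Matrix d d ℂ} (hρ : IsDensity ρ) (P : Finset d) (lam : d → ℝ)
    (hlam : ∀ k ∈ P, 0 < lam k) :
    ∑ k ∈ P, (-Real.log (lam k) * (ρ k k).re + (ρ k k).re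
      - (∑ i, Complex.normSq (ρ i k)) / lam k) ≤ vnEntropy ρ := by
  have h := hρ.1.1
  have hS : vnEntropy ρ = ∑ k, ∑ j, wt h k j * Real.negMulLog (h.eigenvalues j) := by
    rw [vn_eq h, Finset.sum_comm]
    refine Finset.sum_congr rfl fun j _ => ?_
    rw [← Finset.sum_mul, sum_wt_col, one_mul]
  have hnn : ∀ k j, 0 ≤ wt h k j * Real.negMulLog (h.eigenvalues j) := fun k j =>
    mul_nonneg (wt_nonneg h k j) (Real.negMulLog_nonneg (eig_nonneg hρ j) (eig_le_one hρ j))
  rw [hS]
  refine le_trans (Finset.sum_le_sum fun k hk => ?_)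
    (Finset.sum_le_sum_of_subset_of_nonneg (Finset.subset_univ P)
      fun k _ _ => Finset.sum_nonneg fun j _ => hnn k j)
  rw [diag_eq h k, sum_normSq_eq h k, Finset.mul_sum, Finset.sum_div, ← Finset.sum_add_distrib,
    ← Finset.sum_sub_distrib]
  refine Finset.sum_le_sum fun j _ => ?_
  have := mul_le_mul_of_nonneg_left (negMulLog_ge (eig_nonneg hρ j) (hlam k hk)) (wt_nonneg h k j)
  refine le_trans (le_of_eq ?_) this
  ring

/-- Gibbs' inequality against a positive diagonal weight. -/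
theorem vn_gibbs {ρ : Matrix d d ℂ} (hρ : IsDensity ρ) (q : d → ℝ) (hq : ∀ k, 0 < q k) :
    vnEntropy ρ ≤ ∑ k, -Real.log (q k) * (ρ k k).re + ∑ k, q k - 1 := by
  have h := hρ.1.1
  have hS : vnEntropy ρ = ∑ k, ∑ j, wt h k j * Real.negMulLog (h.eigenvalues j) := by
    rw [vn_eq h, Finset.sum_comm]
    refine Finset.sum_congr rfl fun j _ => ?_
    rw [← Finset.sum_mul, sum_wt_col, one_mul]
  have h1 : (∑ k, ∑ j, wt h k j * h.eigenvalues j) = 1 := by
    rw [Finset.sum_comm]
    rw [← sum_eig hρ]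
    refine Finset.sum_congr rfl fun j _ => ?_
    rw [← Finset.sum_mul, sum_wt_col, one_mul]
  have h2 : ∑ k, q k = ∑ k, ∑ j, wt h k j * q k := by
    refine Finset.sum_congr rfl fun k _ => ?_
    rw [← Finset.sum_mul, sum_wt_row, one_mul]
  rw [hS, ← h1, h2, ← Finset.sum_add_distrib, ← Finset.sum_sub_distrib]
  refine Finset.sum_le_sum fun k _ => ?_
  rw [diag_eq h k, Finset.mul_sum, ← Finset.sum_add_distrib, ← Finset.sum_sub_distrib]
  refine Finset.sum_le_sum fun j _ => ?_
  have := mul_le_mul_of_nonneg_left (negMulLog_le (eig_nonneg hρ j) (hq k)) (wt_nonneg h k j)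
  refine le_trans this (le_of_eq ?_)
  ring

lemma normSq_le_of_psd {ρ : Matrix d d ℂ} (hρ : ρ.PosSemidef) (i k : d) :
    Complex.normSq (ρ i k) ≤ (ρ i i).re * (ρ k k).re := by
  have h1 := (hρ.submatrix ![i, k]).det_nonneg
  rw [Matrix.det_fin_two] at h1
  simp only [Matrix.submatrix_apply, Matrix.cons_val_zero, Matrix.cons_val_one] at h1
  have him : ∀ j, (ρ j j).im = 0 := by
    intro j
    have h2 := congrFun (congrFun hρ.1 j) j
    rw [Matrix.conjTranspose_apply] at h2
    have := congrArg Complex.im h2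
    simp at this
    linarith
  have hki : ρ k i = star (ρ i k) := by
    have := congrFun (congrFun hρ.1 k) i
    rw [Matrix.conjTranspose_apply] at this
    exact this.symm
  rw [hki, Complex.star_def, Complex.mul_conj] at h1
  have h3 := (Complex.le_def.1 h1).1
  simp only [Complex.zero_re, Complex.sub_re, Complex.mul_re, him, Complex.ofReal_re, mul_zero,
    sub_zero] at h3
  linarith

lemma diag_nonneg {ρ : Matrix d d ℂ} (hρ : ρ.PosSemidef) (k : d) : 0 ≤ (ρ k k).re := by
  have := hρ.diag_nonneg (i := k)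
  exact (Complex.le_def.1 this).1

end entropy

/-! ### Part B: boxes -/

section box

/-- box of occupation tuples with at most `m` photons in each mode -/
abbrev Bx (n m : ℕ) : Type := Fin n → Fin (m + 1)

variable {n m : ℕ}

/-- the tuple of natural numbers of a box element -/
def occ (k : Bx n m) : Occ n := fun j => (k j : ℕ)

lemma occ_injective : Function.Injective (occ : Bx n m → Occ n) := by
  intro k l h
  funext j
  exact Fin.ext (congrFun h j)

/-- the box as a finset of occupation tuples -/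
def boxF (n m : ℕ) : Finset (Occ n) := Fintype.piFinset fun _ => Finset.range (m + 1)

lemma mem_boxF {k : Occ n} : k ∈ boxF n m ↔ ∀ j, k j ≤ m := by
  simp [boxF, Fintype.mem_piFinset]

lemma occ_mem (k : Bx n m) : occ k ∈ boxF n m := by
  rw [mem_boxF]; intro j; exact Nat.lt_succ_iff.1 (k j).2

/-- inverse of `occ` on the box -/
def toBx (k : Occ n) (h : k ∈ boxF n m) : Bx n m :=
  fun j => ⟨k j, Nat.lt_succ_iff.2 (mem_boxF.1 h j)⟩

@[simp] lemma occ_toBx (k : Occ n) (h : k ∈ boxF n m) : occ (toBx k h) = k := rfl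

@[simp] lemma toBx_occ (k : Bx n m) (h : occ k ∈ boxF n m) : toBx (occ k) h = k := rfl

lemma sum_boxF {β : Type*} [AddCommMonoid β] (f : Occ n → β) :
    ∑ k ∈ boxF n m, f k = ∑ k : Bx n m, f (occ k) := by
  symm
  refine Finset.sum_bij' (fun k _ => occ k) (fun k hk => toBx k hk) ?_ ?_ ?_ ?_ ?_
  · intro k _; exact occ_mem k
  · intro k _; exact Finset.mem_univ _
  · intro k _; rfl
  · intro k hk; rfl
  · intro k _; rfl

/-- zero extension of a matrix on the box to all occupation tuples -/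
def ext (C : Matrix (Bx n m) (Bx n m) ℂ) (k l : Occ n) : ℂ :=
  if h : k ∈ boxF n m ∧ l ∈ boxF n m then C (toBx k h.1) (toBx l h.2) else 0

@[simp] lemma ext_occ (C : Matrix (Bx n m) (Bx n m) ℂ) (k l : Bx n m) :
    ext C (occ k) (occ l) = C k l := by
  rw [ext, dif_pos ⟨occ_mem k, occ_mem l⟩]; rfl

lemma ext_of_mem (C : Matrix (Bx n m) (Bx n m) ℂ) {k l : Occ n} (hk : k ∈ boxF n m)
    (hl : l ∈ boxF n m) : ext C k l = C (toBx k hk) (toBx l hl) := by
  rw [ext, dif_pos ⟨hk, hl⟩]

lemma ext_left (C : Matrix (Bx n m) (Bx n m) ℂ) {k l : Occ n} (hk : k ∉ boxF n m) :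
    ext C k l = 0 := by
  rw [ext, dif_neg (fun h => hk h.1)]

lemma ext_right (C : Matrix (Bx n m) (Bx n m) ℂ) {k l : Occ n} (hl : l ∉ boxF n m) :
    ext C k l = 0 := by
  rw [ext, dif_neg (fun h => hl h.2)]

/-- diagonal of the zero extension -/
def dg (C : Matrix (Bx n m) (Bx n m) ℂ) (k : Occ n) : ℝ := (ext C k k).re

/-- total photon number of a tuple -/
def tot (k : Occ n) : ℕ := ∑ j, k j

/-- mean total photon number -/
def en (C : Matrix (Bx n m) (Bx n m) ℂ) : ℝ := ∑ k : Bx n m, (tot (occ k) : ℝ) * (C k k).re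

variable {C : Matrix (Bx n m) (Bx n m) ℂ}

lemma dg_occ (k : Bx n m) : dg C (occ k) = (C k k).re := by rw [dg, ext_occ]

lemma dg_nonneg (hC : C.PosSemidef) (k : Occ n) : 0 ≤ dg C k := by
  by_cases hk : k ∈ boxF n m
  · rw [dg, ext_of_mem C hk hk]; exact diag_nonneg hC _
  · rw [dg, ext_left C hk]; simp

lemma dg_zero {k : Occ n} (hk : k ∉ boxF n m) : dg C k = 0 := by
  rw [dg, ext_left C hk]; simp

lemma sum_dg (hC : IsDensity C) : ∑ k ∈ boxF n m, dg C k = 1 := by
  rw [sum_boxF]
  simp only [dg_occ]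
  have h := congrArg Complex.re hC.2
  rw [Matrix.trace, Complex.re_sum] at h
  simpa using h

lemma sum_tot_dg : ∑ k ∈ boxF n m, (tot k : ℝ) * dg C k = en C := by
  rw [sum_boxF]
  simp only [dg_occ]
  rfl

lemma sum_dg_le (hC : IsDensity C) (P : Finset (Occ n)) : ∑ k ∈ P, dg C k ≤ 1 := by
  classical
  rw [← sum_dg hC]
  calc ∑ k ∈ P, dg C k = ∑ k ∈ P with k ∈ boxF n m, dg C k := by
        rw [Finset.sum_filter]
        refine Finset.sum_congr rfl fun k _ => ?_
        split_ifs with h
        · rfl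
        · exact dg_zero h
    _ ≤ ∑ k ∈ boxF n m, dg C k := by
        refine Finset.sum_le_sum_of_subset_of_nonneg ?_ fun k _ _ => dg_nonneg hC.1 k
        intro k hk
        exact (Finset.mem_filter.1 hk).2

lemma dg_le_one (hC : IsDensity C) (k : Occ n) : dg C k ≤ 1 := by
  simpa using sum_dg_le hC {k}

/-- tail estimate outside a box -/
lemma tail_le (hC : IsDensity C) {E : ℝ} (hE : en C ≤ E) (M : ℕ) :
    ∑ k ∈ boxF n m \ boxF n M, dg C k ≤ E / (M + 1) := by
  have hM : (0:ℝ) < (M:ℝ) + 1 := by positivity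
  rw [le_div_iff₀ hM, Finset.sum_mul]
  calc ∑ k ∈ boxF n m \ boxF n M, dg C k * ((M:ℝ) + 1)
      ≤ ∑ k ∈ boxF n m \ boxF n M, (tot k : ℝ) * dg C k := by
        refine Finset.sum_le_sum fun k hk => ?_
        rw [mul_comm]
        refine mul_le_mul_of_nonneg_right ?_ (dg_nonneg hC.1 k)
        have hk2 := (Finset.mem_sdiff.1 hk).2
        rw [mem_boxF] at hk2
        push Not at hk2
        obtain ⟨j, hj⟩ := hk2
        have h1 : k j ≤ tot k := Finset.single_le_sum (f := k) (fun _ _ => Nat.zero_le _)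
          (Finset.mem_univ j)
        have : M + 1 ≤ tot k := by omega
        exact_mod_cast this
    _ ≤ ∑ k ∈ boxF n m, (tot k : ℝ) * dg C k := by
        refine Finset.sum_le_sum_of_subset_of_nonneg Finset.sdiff_subset fun k _ _ => ?_
        exact mul_nonneg (by positivity) (dg_nonneg hC.1 k)
    _ = en C := sum_tot_dg
    _ ≤ E := hE

lemma one_sub_le (hC : IsDensity C) {E : ℝ} (hE : en C ≤ E) (M : ℕ) :
    1 - E / (M + 1) ≤ ∑ k ∈ boxF n M, dg C k := by
  classical
  have h1 := tail_le hC hE M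
  have h2 : ∑ k ∈ boxF n m, dg C k ≤ ∑ k ∈ boxF n m \ boxF n M, dg C k
      + ∑ k ∈ boxF n M, dg C k := by
    rw [← Finset.sum_inter_add_sum_sdiff (boxF n m) (boxF n M), add_comm]
    refine add_le_add le_rfl ?_
    exact Finset.sum_le_sum_of_subset_of_nonneg Finset.inter_subset_right
      fun k _ _ => dg_nonneg hC.1 k
  rw [sum_dg hC] at h2
  linarith

lemma ext_herm (hC : C.IsHermitian) (k l : Occ n) : ext C k l = star (ext C l k) := by
  by_cases hk : k ∈ boxF n m
  · by_cases hl : l ∈ boxF n m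
    · rw [ext_of_mem C hk hl, ext_of_mem C hl hk]
      have := congrFun (congrFun hC (toBx k hk)) (toBx l hl)
      rw [Matrix.conjTranspose_apply] at this
      exact this.symm
    · rw [ext_right C hl, ext_left C hl]; simp
  · rw [ext_left C hk, ext_right C hk]; simp

lemma normSq_ext_le (hC : C.PosSemidef) (i k : Occ n) :
    Complex.normSq (ext C i k) ≤ dg C i * dg C k := by
  by_cases hi : i ∈ boxF n m
  · by_cases hk : k ∈ boxF n m
    · rw [dg, dg, ext_of_mem C hi hk, ext_of_mem C hi hi, ext_of_mem C hk hk]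
      exact normSq_le_of_psd hC _ _
    · rw [ext_right C hk, dg_zero hk]; simp
  · rw [ext_left C hi, dg_zero hi]; simp

/-- entropy lower bound in terms of finitely many entries -/
theorem vn_lower_ext (hC : IsDensity C) {E : ℝ} (hE : en C ≤ E) (P : Finset (Occ n))
    (hP : P ⊆ boxF n m) (lam : Occ n → ℝ) (hlam : ∀ k, 0 < lam k) (L : ℕ) :
    ∑ k ∈ P, (-Real.log (lam k) * dg C k + dg C k
      - (∑ i ∈ boxF n L, Complex.normSq (ext C i k) + E / (L + 1)) / lam k) ≤ vnEntropy C := by
  classical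
  have h1 := vn_lower hC (Finset.univ.filter fun k : Bx n m => occ k ∈ P) (fun k => lam (occ k))
    (fun k _ => hlam _)
  refine le_trans ?_ h1
  have h2 : ∀ f : Occ n → ℝ, ∑ k ∈ P, f k
      = ∑ k ∈ Finset.univ.filter (fun k : Bx n m => occ k ∈ P), f (occ k) := by
    intro f
    symm
    refine Finset.sum_bij' (fun k _ => occ k) (fun k hk => toBx k (hP hk)) ?_ ?_ ?_ ?_ ?_
    · intro k hk; exact (Finset.mem_filter.1 hk).2
    · intro k hk; exact Finset.mem_filter.2 ⟨Finset.mem_univ _, hk⟩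
    · intro k _; rfl
    · intro k hk; rfl
    · intro k _; rfl
  rw [h2]
  refine Finset.sum_le_sum fun k _ => ?_
  rw [dg_occ]
  refine sub_le_sub le_rfl ?_
  refine div_le_div_of_nonneg_right ?_ (hlam _).le
  have h3 : ∑ i, Complex.normSq (C i k) = ∑ i ∈ boxF n m, Complex.normSq (ext C i (occ k)) := by
    rw [sum_boxF]; simp only [ext_occ]
  rw [h3, ← Finset.sum_inter_add_sum_sdiff (boxF n m) (boxF n L)]
  refine add_le_add ?_ ?_
  · exact Finset.sum_le_sum_of_subset_of_nonneg Finset.inter_subset_right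
      fun k _ _ => Complex.normSq_nonneg _
  · refine le_trans (Finset.sum_le_sum fun i _ => ?_) (tail_le hC hE L)
    refine (normSq_ext_le hC.1 i (occ k)).trans ?_
    have := mul_le_mul_of_nonneg_left (dg_le_one hC (occ k)) (dg_nonneg hC.1 i)
    simpa using this

end box

/-! ### Part C: limits along a filter -/

section limits

variable {α : Type*} {F : Filter α} {n : ℕ}

/-- unit tuple of mode `j` -/
def uni (j : Fin n) : Occ n := Pi.single j 1

lemma uni_same (j : Fin n) : uni j j = 1 := by simp [uni]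
lemma uni_ne {i j : Fin n} (h : i ≠ j) : uni j i = 0 := by simp [uni, h]

lemma sub_add_uni {k : Occ n} {j : Fin n} (h : 1 ≤ k j) : k - uni j + uni j = k := by
  funext i
  by_cases hi : i = j
  · subst hi; simp [uni_same]; omega
  · simp [uni_ne hi]

/-- the ladder relation in the limit -/
def LadLim (F : Filter α) (x : ℝ) (c : α → Occ n → Occ n → ℂ) : Prop :=
  ∀ (j : Fin n) (i l : Occ n),
    Tendsto (fun a => ((Real.sqrt ((i j : ℝ) + 1) : ℝ) : ℂ) * c a (i + uni j) l
      - ((x * Real.sqrt (l j : ℝ) : ℝ) : ℂ) * c a i (l - uni j)) F (𝓝 0)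

lemma tendsto_zero_of_mul {f : α → ℂ} {r : ℂ} (hr : r ≠ 0)
    (h : Tendsto (fun a => r * f a) F (𝓝 0)) : Tendsto f F (𝓝 0) := by
  have := h.const_mul r⁻¹
  simp only [← mul_assoc, inv_mul_cancel₀ hr, one_mul, mul_zero] at this
  exact this

lemma offdiag_gt {x : ℝ} {c : α → Occ n → Occ n → ℂ} (h : LadLim F x c) (j : Fin n) :
    ∀ (N : ℕ) (i l : Occ n), l j = N → l j < i j → Tendsto (fun a => c a i l) F (𝓝 0) := by
  intro N
  induction N with
  | zero =>
    intro i l hl hlt
    have hi : 1 ≤ i j := by omega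
    have h1 := h j (i - uni j) l
    rw [sub_add_uni hi] at h1
    simp only [hl, Nat.cast_zero, Real.sqrt_zero, mul_zero, Complex.ofReal_zero, zero_mul,
      sub_zero] at h1
    refine tendsto_zero_of_mul ?_ h1
    have : (0:ℝ) < Real.sqrt ((((i - uni j) j : ℕ) : ℝ) + 1) := Real.sqrt_pos.2 (by positivity)
    exact_mod_cast this.ne'
  | succ N ih =>
    intro i l hl hlt
    have hi : 1 ≤ i j := by omega
    have h1 := h j (i - uni j) l
    rw [sub_add_uni hi] at h1
    have h2 := ih (i - uni j) (l - uni j) (by simp [uni_same, hl]) (by simp [uni_same]; omega)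
    have h3 := h1.add (h2.const_mul ((x * Real.sqrt (l j : ℝ) : ℝ) : ℂ))
    simp only [sub_add_cancel, mul_zero, add_zero] at h3
    refine tendsto_zero_of_mul ?_ h3
    have : (0:ℝ) < Real.sqrt ((((i - uni j) j : ℕ) : ℝ) + 1) := Real.sqrt_pos.2 (by positivity)
    exact_mod_cast this.ne'

lemma offdiag {x : ℝ} {c : α → Occ n → Occ n → ℂ} (h : LadLim F x c)
    (hc : ∀ a i l, c a i l = star (c a l i)) {i l : Occ n} (hil : i ≠ l) :
    Tendsto (fun a => c a i l) F (𝓝 0) := by
  obtain ⟨j, hj⟩ := Function.ne_iff.1 hil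
  rcases lt_or_gt_of_ne hj with h1 | h1
  · have h2 := offdiag_gt h j (i j) l i rfl h1
    have h3 := (continuous_star.tendsto (0:ℂ)).comp h2
    rw [star_zero] at h3
    refine h3.congr fun a => ?_
    exact (hc a i l).symm
  · exact offdiag_gt h j (l j) i l rfl h1

lemma diag_step {x : ℝ} {c : α → Occ n → Occ n → ℂ} (h : LadLim F x c) (j : Fin n) (i : Occ n) :
    Tendsto (fun a => c a (i + uni j) (i + uni j) - (x : ℂ) * c a i i) F (𝓝 0) := by
  have h1 := h j i (i + uni j)
  have e1 : i + uni j - uni j = i := by simp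
  have e2 : (i + uni j) j = i j + 1 := by simp [uni_same]
  rw [e1, e2] at h1
  have hr : ((Real.sqrt ((i j : ℝ) + 1) : ℝ) : ℂ) ≠ 0 := by
    have : (0:ℝ) < Real.sqrt ((i j : ℝ) + 1) := Real.sqrt_pos.2 (by positivity)
    exact_mod_cast this.ne'
  refine tendsto_zero_of_mul hr (h1.congr fun a => ?_)
  push_cast
  ring

lemma diag_lim {x : ℝ} {c : α → Occ n → Occ n → ℂ} (h : LadLim F x c) :
    ∀ (N : ℕ) (k : Occ n), tot k = N →
      Tendsto (fun a => c a k k - (x : ℂ) ^ N * c a 0 0) F (𝓝 0) := by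
  intro N
  induction N with
  | zero =>
    intro k hk
    have : k = 0 := by
      funext j
      have h1 : k j ≤ tot k := Finset.single_le_sum (f := k) (fun _ _ => Nat.zero_le _)
          (Finset.mem_univ j)
      simp only [Pi.zero_apply]; omega
    subst this
    simp only [pow_zero, one_mul, sub_self]
    exact tendsto_const_nhds
  | succ N ih =>
    intro k hk
    have hex : ∃ j, 1 ≤ k j := by
      by_contra hcon
      push Not at hcon
      have : tot k = 0 := by
        unfold tot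
        exact Finset.sum_eq_zero fun j _ => by have := hcon j; omega
      omega
    obtain ⟨j, hj⟩ := hex
    have hk' : tot (k - uni j) = N := by
      have h1 : tot (k - uni j + uni j) = tot (k - uni j) + 1 := by
        unfold tot
        simp only [Pi.add_apply, Finset.sum_add_distrib]
        congr 1
        unfold uni
        rw [Finset.sum_pi_single']
        simp
      rw [sub_add_uni hj] at h1
      omega
    have h1 := diag_step h j (k - uni j)
    rw [sub_add_uni hj] at h1
    have h2 := (ih (k - uni j) hk').const_mul (x : ℂ)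
    have h3 := h1.add h2
    simp only [mul_zero, add_zero] at h3
    refine h3.congr fun a => ?_
    ring

lemma boxF_mono : Monotone (boxF n) := by
  intro M M' h k hk
  rw [mem_boxF] at hk ⊢
  exact fun j => (hk j).trans h

lemma tendsto_boxF : Tendsto (boxF n) atTop atTop := by
  refine tendsto_atTop_finset_of_monotone boxF_mono fun k => ⟨tot k, ?_⟩
  rw [mem_boxF]
  intro j
  exact Finset.single_le_sum (f := k) (fun _ _ => Nat.zero_le _) (Finset.mem_univ j)

lemma tendsto_div_succ (E : ℝ) : Tendsto (fun M : ℕ => E / ((M : ℝ) + 1)) atTop (𝓝 0) := by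
  have h := (tendsto_one_div_add_atTop_nhds_zero_nat (𝕜 := ℝ)).const_mul E
  rw [mul_zero] at h
  refine h.congr fun M => ?_
  ring

variable (m : α → ℕ) (C : ∀ a, Matrix (Bx n (m a)) (Bx n (m a)) ℂ)

lemma ext_diag_ofReal {a : α} (hC : IsDensity (C a)) (k : Occ n) :
    ext (C a) k k = (dg (C a) k : ℂ) := by
  have h := ext_herm hC.1.1 k k
  rw [Complex.star_def] at h
  have := Complex.conj_eq_iff_real.1 h.symm
  obtain ⟨r, hr⟩ := this
  rw [dg, hr, Complex.ofReal_re]

theorem d0_lim (hC : ∀ a, IsDensity (C a)) {E : ℝ} (hE : ∀ a, en (C a) ≤ E) {x : ℝ}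
    (hx0 : 0 < x) (hx1 : x < 1) (hT : LadLim F x (fun a => ext (C a))) :
    Tendsto (fun a => dg (C a) 0) F (𝓝 ((1 - x) ^ n)) := by
  -- diagonal limits, real form
  have hdiag : ∀ k : Occ n, Tendsto (fun a => dg (C a) k - x ^ (tot k) * dg (C a) 0) F (𝓝 0) := by
    intro k
    have h := (Complex.continuous_re.tendsto (0:ℂ)).comp (diag_lim hT (tot k) k rfl)
    rw [Complex.zero_re] at h
    refine h.congr fun a => ?_
    simp only [Function.comp]
    rw [ext_diag_ofReal m C (hC a), ext_diag_ofReal m C (hC a)]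
    rw [← Complex.ofReal_pow, ← Complex.ofReal_mul, ← Complex.ofReal_sub, Complex.ofReal_re]
  have h1x : 0 < (1 - x) ^ n := pow_pos (by linarith) n
  have h1x' : (1 - x) ^ n ≤ 1 := pow_le_one₀ (by linarith) (by linarith)
  -- weights
  have hW : Tendsto (fun M => ∑ k ∈ boxF n M, thW n x k) atTop (𝓝 1) :=
    (hasSum_thW n hx0.le hx1).comp tendsto_boxF
  rw [Metric.tendsto_nhds]
  intro ε hε
  have hev : ∀ᶠ M : ℕ in atTop, E / ((M:ℝ) + 1) < ε / 3 ∧
      |∑ k ∈ boxF n M, thW n x k - 1| < ε / 3 := by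
    refine ((tendsto_div_succ E).eventually_lt_const (by positivity)).and ?_
    have := (Metric.tendsto_nhds.1 hW) (ε / 3) (by positivity)
    simpa [Real.dist_eq] using this
  obtain ⟨M, hM1, hM2⟩ := hev.exists
  -- comparison for the fixed box
  have hsum : Tendsto (fun a => ∑ k ∈ boxF n M, (1 - x) ^ n *
      (dg (C a) k - x ^ (tot k) * dg (C a) 0)) F (𝓝 0) := by
    have := tendsto_finsetSum (boxF n M) fun k _ => (hdiag k).const_mul ((1 - x) ^ n)
    simpa using this
  have hev2 := (Metric.tendsto_nhds.1 hsum) (ε / 3) (by positivity)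
  refine hev2.mono fun a ha => ?_
  rw [Real.dist_eq, sub_zero] at ha
  rw [Real.dist_eq]
  have e1 : ∑ k ∈ boxF n M, (1 - x) ^ n * (dg (C a) k - x ^ (tot k) * dg (C a) 0)
      = (1 - x) ^ n * ∑ k ∈ boxF n M, dg (C a) k
        - (∑ k ∈ boxF n M, thW n x k) * dg (C a) 0 := by
    rw [Finset.mul_sum, Finset.sum_mul, ← Finset.sum_sub_distrib]
    refine Finset.sum_congr rfl fun k _ => ?_
    rw [thW_eq, tot]; ring
  rw [e1] at ha
  have hG1 := sum_dg_le (hC a) (boxF n M)
  have hG2 := one_sub_le (hC a) (hE a) M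
  have hD0 := dg_nonneg (hC a).1 (0 : Occ n)
  have hD1 := dg_le_one (hC a) (0 : Occ n)
  set G := ∑ k ∈ boxF n M, dg (C a) k
  set W := ∑ k ∈ boxF n M, thW n x k
  set D := dg (C a) 0
  rw [abs_lt] at ha hM2 ⊢
  have h3 : |(W - 1) * D| ≤ ε / 3 := by
    rw [abs_mul, abs_of_nonneg hD0]
    have : |W - 1| ≤ ε / 3 := (abs_lt.2 hM2).le
    calc |W - 1| * D ≤ |W - 1| * 1 := mul_le_mul_of_nonneg_left hD1 (abs_nonneg _)
      _ ≤ ε / 3 := by simpa using this
  have h4 : (1 - x) ^ n * (1 - G) ≤ ε / 3 := by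
    have h5 : (1 - x) ^ n * (1 - G) ≤ 1 * (1 - G) :=
      mul_le_mul_of_nonneg_right h1x' (by linarith)
    linarith
  have h4' : 0 ≤ (1 - x) ^ n * (1 - G) := mul_nonneg h1x.le (by linarith)
  rw [abs_le] at h3
  constructor <;> nlinarith

/-- (8a): all entries converge to those of the thermal state. -/
theorem tendsto_ext (hC : ∀ a, IsDensity (C a)) {E : ℝ} (hE : ∀ a, en (C a) ≤ E) {x : ℝ}
    (hx0 : 0 < x) (hx1 : x < 1) (hT : LadLim F x (fun a => ext (C a))) (i l : Occ n) :
    Tendsto (fun a => ext (C a) i l) F (𝓝 (if i = l then ((thW n x i : ℝ) : ℂ) else 0)) := by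
  split_ifs with h
  · subst h
    have h1 := diag_lim hT (tot i) i rfl
    have h2 := (Complex.continuous_ofReal.tendsto _).comp (d0_lim m C hC hE hx0 hx1 hT)
    have h3 := h1.add (h2.const_mul ((x : ℂ) ^ (tot i)))
    have e : (0:ℂ) + (x : ℂ) ^ (tot i) * (((1 - x) ^ n : ℝ) : ℂ) = ((thW n x i : ℝ) : ℂ) := by
      rw [thW_eq, tot]; push_cast; ring
    rw [e] at h3
    refine h3.congr fun a => ?_
    simp only [Function.comp]
    rw [ext_diag_ofReal m C (hC a) 0]
    ring
  · exact offdiag hT (fun a i l => ext_herm (hC a).1.1 i l) h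

lemma tendsto_dg (hC : ∀ a, IsDensity (C a)) {E : ℝ} (hE : ∀ a, en (C a) ≤ E) {x : ℝ}
    (hx0 : 0 < x) (hx1 : x < 1) (hT : LadLim F x (fun a => ext (C a))) (k : Occ n) :
    Tendsto (fun a => dg (C a) k) F (𝓝 (thW n x k)) := by
  have h := (Complex.continuous_re.tendsto _).comp (tendsto_ext m C hC hE hx0 hx1 hT k k)
  rw [if_pos rfl, Complex.ofReal_re] at h
  exact h

lemma hasSum_thermal_entropy (n : ℕ) {N : ℝ} (hN : 0 < N) :
    HasSum (fun k : Occ n => thW n (qN N) k * (-Real.log (thW n (qN N) k))) (n * gBose N) := by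
  have h1 := (hasSum_thW n (qN_nonneg hN.le) (qN_lt_one hN.le)).mul_left (n * Real.log (N + 1))
  have h2 := (hasSum_energy_thW n (qN_nonneg hN.le) (qN_lt_one hN.le)).mul_left (bN N)
  have h3 := h1.add h2
  rw [qN_div hN.le] at h3
  have e : n * Real.log (N + 1) * 1 + bN N * (n * N) = n * gBose N := by
    rw [gBose_eq hN]; ring
  rw [e] at h3
  refine h3.congr_fun ?_
  intro k
  rw [neg_log_thW (qN_pos hN) (qN_lt_one hN.le), neg_log_qN hN, ← mul_neg,
    neg_log_one_sub_qN hN.le]
  ring

/-- (8b): the entropies are asymptotically at least the thermal one. -/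
theorem entropy_liminf (hm : Tendsto m F atTop) (hC : ∀ a, IsDensity (C a)) {E : ℝ}
    (hE : ∀ a, en (C a) ≤ E) {N : ℝ} (hN : 0 < N)
    (hT : LadLim F (qN N) (fun a => ext (C a))) {ε : ℝ} (hε : 0 < ε) :
    ∀ᶠ a in F, n * gBose N - ε ≤ vnEntropy (C a) := by
  classical
  have hx0 := qN_pos hN
  have hx1 := qN_lt_one hN.le
  set lam : Occ n → ℝ := thW n (qN N) with hlam
  have hlpos : ∀ k, 0 < lam k := fun k => thW_pos hx0 hx1 k
  -- choose a finite set P
  obtain ⟨P, hP⟩ : ∃ P : Finset (Occ n), n * gBose N - ε / 3 < ∑ k ∈ P, lam k * (-Real.log (lam k)) := by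
    have h1 : Tendsto (fun P : Finset (Occ n) => ∑ k ∈ P, lam k * (-Real.log (lam k))) atTop
        (𝓝 (n * gBose N)) := hasSum_thermal_entropy n hN
    exact (h1.eventually_const_lt (by linarith)).exists
  -- choose L
  obtain ⟨L, hL⟩ : ∃ L : ℕ, (E / ((L:ℝ) + 1)) * ∑ k ∈ P, 1 / lam k < ε / 3 := by
    have h1 := (tendsto_div_succ E).mul_const (∑ k ∈ P, 1 / lam k)
    rw [zero_mul] at h1
    exact (h1.eventually_lt_const (by positivity)).exists
  -- the limit of the lower bound
  have hlim : Tendsto (fun a => ∑ k ∈ P, (-Real.log (lam k) * dg (C a) k + dg (C a) k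
      - (∑ i ∈ boxF n L, Complex.normSq (ext (C a) i k) + E / (L + 1)) / lam k)) F
      (𝓝 (∑ k ∈ P, (-Real.log (lam k) * lam k + lam k
      - (∑ i ∈ boxF n L, Complex.normSq (if i = k then ((lam i : ℝ) : ℂ) else 0) + E / (L + 1)) / lam k))) := by
    refine tendsto_finsetSum P fun k _ => ?_
    have hd := tendsto_dg m C hC hE hx0 hx1 hT k
    refine ((hd.const_mul _).add hd).sub (Tendsto.div_const (Tendsto.add_const _ ?_) _)
    refine tendsto_finsetSum _ fun i _ => ?_
    exact (Complex.continuous_normSq.tendsto _).comp (tendsto_ext m C hC hE hx0 hx1 hT i k)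
  have hval : n * gBose N - 2 * ε / 3 < ∑ k ∈ P, (-Real.log (lam k) * lam k + lam k
      - (∑ i ∈ boxF n L, Complex.normSq (if i = k then ((lam i : ℝ) : ℂ) else 0) + E / (L + 1)) / lam k) := by
    have h1 : ∑ k ∈ P, (lam k * (-Real.log (lam k)) - E / (L + 1) * (1 / lam k))
        ≤ ∑ k ∈ P, (-Real.log (lam k) * lam k + lam k
      - (∑ i ∈ boxF n L, Complex.normSq (if i = k then ((lam i : ℝ) : ℂ) else 0) + E / (L + 1)) / lam k) := by
      refine Finset.sum_le_sum fun k _ => ?_
      have h2 : ∑ i ∈ boxF n L, Complex.normSq (if i = k then ((lam i : ℝ) : ℂ) else 0)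
          ≤ lam k ^ 2 := by
        have h3 : ∀ i ∈ boxF n L, Complex.normSq (if i = k then ((lam i : ℝ) : ℂ) else 0)
            = if i = k then lam k ^ 2 else 0 := by
          intro i _
          split_ifs with h
          · subst h; rw [Complex.normSq_ofReal]; ring
          · simp
        rw [Finset.sum_congr rfl h3, Finset.sum_ite_eq']
        split_ifs
        · exact le_rfl
        · positivity
      have h4 : (∑ i ∈ boxF n L, Complex.normSq (if i = k then ((lam i : ℝ) : ℂ) else 0)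
          + E / (L + 1)) / lam k ≤ (lam k ^ 2 + E / (L + 1)) / lam k :=
        div_le_div_of_nonneg_right (by linarith) (hlpos k).le
      have h5 : (lam k ^ 2 + E / (L + 1)) / lam k = lam k + E / (L + 1) * (1 / lam k) := by
        have := (hlpos k).ne'
        field_simp
      rw [h5] at h4
      nlinarith
    refine lt_of_lt_of_le ?_ h1
    rw [Finset.sum_sub_distrib, ← Finset.mul_sum]
    linarith
  have hev1 := hlim.eventually_const_lt (show n * gBose N - ε < _ by linarith)
  have hev2 : ∀ᶠ a in F, P ⊆ boxF n (m a) := by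
    have h1 : Tendsto (fun a => boxF n (m a)) F atTop := tendsto_boxF.comp hm
    exact h1.eventually_ge_atTop P
  refine (hev1.and hev2).mono fun a ha => ?_
  exact ha.1.le.trans (vn_lower_ext (hC a) (hE a) P ha.2 lam hlpos L)

end limits

end Crest.Agent.R331.Fin8_628
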