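import Mathlib
import Crest.Prelude.Def_Bosonic
import Crest.Prelude.Def_FockState
import Crest.Agent.R331.FinW_87
import Crest.Agent.R331.FCov_76
import Crest.Agent.R331.Fin8_628
import Crest.Agent.R331.FDefs_136

/-! # Box instance of the truncated beam splitter (helper87, leaf FW of row 331)

`Bx n K = Fin n → Fin (K+1)`, `occ : Bx n K → Occ n` (helper628's names).
`bxBS h n K j : FCov76.BS (Bx n K) (Bx n K) (Bx n (2*K)) (Bx n (2*K))`, one per mode `j`, same `ι`.
-/

set_option autoImplicit false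
set_option linter.unusedSectionVars false
set_option linter.unusedVariables false

noncomputable section

namespace Crest.Agent.R331.FinW87

open Crest.MathPhysics.Bosonic Crest.Agent.R331.BS375 Finset Matrix
open Crest.Agent.R331.Fin8_628 (Bx occ)
open scoped Kronecker

variable {n K : ℕ}

lemma occ_inj : Function.Injective (occ : Bx n K → Occ n) :=
  Crest.Agent.R331.Fin8_628.occ_injective

lemma occ_apply (k : Bx n K) (j : Fin n) : occ k j = (k j : ℕ) := rfl

lemma exists_occ {m : Occ n} (h : ∀ j, m j ≤ K) : ∃ k : Bx n K, occ k = m :=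
  ⟨fun j => ⟨m j, Nat.lt_succ_of_le (h j)⟩, rfl⟩

lemma occ_le (k : Bx n K) (j : Fin n) : occ k j ≤ K := Nat.lt_succ_iff.mp (k j).isLt

lemma exists_occ_iff {m : Occ n} : (∃ k : Bx n K, occ k = m) ↔ ∀ j, m j ≤ K :=
  ⟨fun ⟨k, hk⟩ j => hk ▸ occ_le k j, exists_occ⟩

/-- the box cut-off is admissible. -/
lemma isCut_box : IsCut (occ : Bx n K → Occ n) (occ : Bx n (2 * K) → Occ n) where
  injS := occ_inj
  injT := occ_inj
  downS := fun k l hl => exists_occ fun j => (hl j).trans (occ_le k j)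
  downT := fun k l hl => exists_occ fun j => (hl j).trans (occ_le k j)
  dom := fun k l p hp => exists_occ fun j => by
    have h1 := hp j
    have h2 := occ_le k j
    have h3 := occ_le l j
    simp only [Pi.add_apply] at h1
    omega

/-- the truncated beam splitter on boxes. -/
def Wbx (η : ℝ) (n K : ℕ) :
    Matrix (Bx n (2 * K) × Bx n (2 * K)) (Bx n K × Bx n K) ℂ := iota η occ occ

lemma Wbx_apply (η : ℝ) (p : Bx n (2 * K) × Bx n (2 * K)) (x : Bx n K × Bx n K) :
    Wbx η n K p x = (bsAmpN η x.1 x.2 p.1 p.2 : ℂ) := rfl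

/-- annihilation matrix of mode `j` on the box. -/
abbrev xbx (n K : ℕ) (j : Fin n) : Matrix (Bx n K) (Bx n K) ℂ := ann occ j

/-- top-level projection of mode `j` on the box. -/
abbrev topbx (n K : ℕ) (j : Fin n) : Matrix (Bx n K) (Bx n K) ℂ := top occ j

lemma exists_add_uni_iff (k : Bx n K) (j : Fin n) :
    (∃ k' : Bx n K, occ k' = occ k + uni j) ↔ (k j : ℕ) < K := by
  rw [exists_occ_iff]
  constructor
  · intro h
    have := h j
    simp only [add_uni_self, occ_apply] at this
    omega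
  · intro h i
    by_cases hi : i = j
    · subst hi; simp only [add_uni_self, occ_apply]; omega
    · rw [add_uni_ne _ hi]; exact occ_le k i

lemma topbx_eq (j : Fin n) : topbx n K j
    = Matrix.diagonal fun k : Bx n K => if (k j : ℕ) = K then (1 : ℂ) else 0 := by
  classical
  rw [topbx, top]
  congr 1
  funext k
  by_cases h : (k j : ℕ) = K
  · rw [if_pos h, if_neg]
    rw [exists_add_uni_iff]; omega
  · rw [if_neg h, if_pos]
    rw [exists_add_uni_iff]
    have := occ_le k j
    simp only [occ_apply] at this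
    omega

/-- the abstract beam splitter data of helper76 for mode `j` of the box. -/
def bxBS {η : ℝ} (h : η ∈ Set.Icc (0 : ℝ) 1) (n K : ℕ) (j : Fin n) :
    FCov76.BS (Bx n K) (Bx n K) (Bx n (2 * K)) (Bx n (2 * K)) where
  ι := Wbx η n K
  a := xbx n K j
  b := xbx n K j
  c := xbx n (2 * K) j
  d := xbx n (2 * K) j
  QA := topbx n K j
  QB := topbx n K j
  hA := Real.sqrt η
  hB := Real.sqrt (1 - η)
  hAB := by
    rw [Real.sq_sqrt h.1, Real.sq_sqrt (by linarith [h.2])]; ring
  iso := iota_isometry h.1 h.2 isCut_box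
  H1 := c_iota η isCut_box j
  H2 := d_iota η isCut_box j
  QA_herm := top_conjTranspose _ _
  QA_idem := top_mul_top _ _
  QA_a := top_mul_ann _ _
  QB_herm := top_conjTranspose _ _
  QB_idem := top_mul_top _ _
  QB_b := top_mul_ann _ _
  H3A := a_dag_iota η isCut_box j
  H3B := b_dag_iota η isCut_box j

/-- the frozen truncated output is the abstract one. -/
theorem bsOutput_eq {η : ℝ} (h : η ∈ Set.Icc (0 : ℝ) 1) (j : Fin n)
    (A B : Matrix (Bx n K) (Bx n K) ℂ) :
    bsOutput η A B = (bxBS h n K j).out A B := by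
  ext p p'
  rw [bsOutput, Matrix.of_apply, FCov76.BS.out, FCov76.BS.Phi, FCov76.ptR]
  apply Finset.sum_congr rfl
  intro q _
  have e1 : ∑ k : Bx n K, ∑ l : Bx n K, ∑ k' : Bx n K, ∑ l' : Bx n K,
      (bsAmpN η k l p q : ℂ) * A k k' * B l l' * (bsAmpN η k' l' p' q : ℂ)
      = ∑ x : Bx n K × Bx n K, ∑ y : Bx n K × Bx n K,
        (bsAmpN η x.1 x.2 p q : ℂ) * A x.1 y.1 * B x.2 y.2 * (bsAmpN η y.1 y.2 p' q : ℂ) := by
    simp only [Fintype.sum_prod_type]
  rw [e1, Finset.sum_comm, Matrix.mul_apply]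
  apply Finset.sum_congr rfl
  intro y _
  rw [Matrix.mul_apply, Finset.sum_mul, Matrix.conjTranspose_apply]
  apply Finset.sum_congr rfl
  intro x _
  simp only [bxBS, Wbx_apply, Complex.star_def, Complex.conj_ofReal, Matrix.kroneckerMap_apply]
  ring

/-! ### number operators and energies -/

/-- number matrix of mode `j`. -/
abbrev numbx (n K : ℕ) (j : Fin n) : Matrix (Bx n K) (Bx n K) ℂ := num occ j

lemma numbx_apply (j : Fin n) (k l : Bx n K) :
    numbx n K j k l = if k = l then (((k j : ℕ) : ℕ) : ℂ) else 0 := by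
  unfold numbx num
  rw [Matrix.diagonal_apply]; rfl

lemma xH_mul_x (j : Fin n) : (xbx n K j)ᴴ * xbx n K j = numbx n K j :=
  annH_mul_ann occ_inj (fun _ _ hl => exists_occ fun j => (hl j).trans (occ_le _ j)) j

lemma x_mul_xH (j : Fin n) :
    xbx n K j * (xbx n K j)ᴴ = numbx n K j + 1 - ((K : ℂ) + 1) • topbx n K j := by
  rw [ann_mul_annH occ_inj j]
  rw [Matrix.mul_sub, Matrix.mul_one]
  congr 1
  have ht : top (occ : Bx n K → Occ n) j
      = Matrix.diagonal fun k : Bx n K => if (k j : ℕ) = K then (1 : ℂ) else 0 := topbx_eq j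
  show (num occ j + 1) * top occ j = ((K : ℂ) + 1) • top occ j
  rw [ht]
  unfold num
  rw [← Matrix.diagonal_one, Matrix.diagonal_add,
    Matrix.diagonal_mul_diagonal, ← Matrix.diagonal_smul]
  congr 1
  funext k
  simp only [Pi.smul_apply, smul_eq_mul]
  split_ifs with h
  · have : ((occ k j : ℕ) : ℂ) = (K : ℂ) := by rw [occ_apply]; exact_mod_cast h
    rw [this]
  · simp

/-- the truncated commutation relation `[x, x†] = 1 - (K+1) Π`. -/
lemma x_comm (j : Fin n) :
    xbx n K j * (xbx n K j)ᴴ - (xbx n K j)ᴴ * xbx n K j = 1 - ((K : ℂ) + 1) • topbx n K j := by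
  rw [x_mul_xH, xH_mul_x]; abel

/-! ### helper136's frozen definitions -/

lemma succIn_iff (j : Fin n) (k l : Bx n K) :
    FDefs136.succIn j k l ↔ occ l = occ k + uni j := by
  unfold FDefs136.succIn
  rw [funext_iff]
  apply forall_congr'
  intro i
  by_cases hi : i = j
  · subst hi; simp [occ_apply]
  · rw [if_neg hi, add_uni_ne _ hi]; simp [occ_apply]

lemma ann_eq (j : Fin n) : FDefs136.ann n K j = xbx n K j := by
  classical
  ext k l
  rw [FDefs136.ann, Matrix.of_apply, xbx, ann_apply]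
  by_cases h : FDefs136.succIn j k l
  · rw [if_pos h, if_pos ((succIn_iff j k l).1 h)]; rfl
  · rw [if_neg h, if_neg (fun h' => h ((succIn_iff j k l).2 h'))]

lemma top_eq (j : Fin n) : FDefs136.top n K j = topbx n K j := by
  rw [topbx_eq]; rfl

lemma bsW_eq (η : ℝ) : FDefs136.bsW η n K = Wbx η n K := rfl

lemma num_eq : FDefs136.num n K = ∑ j, numbx n K j := by
  ext k l
  rw [FDefs136.num, Matrix.diagonal_apply, Matrix.sum_apply]
  simp only [numbx_apply]
  by_cases h : k = l
  · simp [h]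
  · simp [h]

lemma isBox_bxBS {η : ℝ} (h : η ∈ Set.Icc (0 : ℝ) 1) (n K : ℕ) (j : Fin n) :
    FDefs136.IsBox (η := η) j (bxBS h n K j) where
  ι := rfl
  a := (ann_eq j).symm
  b := (ann_eq j).symm
  c := (ann_eq j).symm
  d := (ann_eq j).symm
  QA := (top_eq j).symm
  QB := (top_eq j).symm
  hA := rfl
  hB := rfl

/-- LEAF FW. -/
theorem FW_holds : FDefs136.FW := fun η n K j h0 h1 =>
  ⟨bxBS ⟨h0.le, h1.le⟩ n K j, isBox_bxBS ⟨h0.le, h1.le⟩ n K j⟩

/-- the frozen truncated output is helper136's `outC`. -/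
theorem outC_eq_bsOutput {η : ℝ} (h : η ∈ Set.Icc (0 : ℝ) 1)
    (A B : Matrix (Bx n K) (Bx n K) ℂ) :
    FDefs136.outC η A B = bsOutput η A B := by
  ext p p'
  rw [bsOutput, Matrix.of_apply, FDefs136.outC, FCov76.ptR]
  apply Finset.sum_congr rfl
  intro q _
  have e1 : ∑ k : Bx n K, ∑ l : Bx n K, ∑ k' : Bx n K, ∑ l' : Bx n K,
      (bsAmpN η k l p q : ℂ) * A k k' * B l l' * (bsAmpN η k' l' p' q : ℂ)
      = ∑ x : Bx n K × Bx n K, ∑ y : Bx n K × Bx n K,
        (bsAmpN η x.1 x.2 p q : ℂ) * A x.1 y.1 * B x.2 y.2 * (bsAmpN η y.1 y.2 p' q : ℂ) := by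
    simp only [Fintype.sum_prod_type]
  rw [e1, Finset.sum_comm, Matrix.mul_apply]
  apply Finset.sum_congr rfl
  intro y _
  rw [Matrix.mul_apply, Finset.sum_mul, Matrix.conjTranspose_apply]
  apply Finset.sum_congr rfl
  intro x _
  simp only [bsW_eq, Wbx_apply, Complex.star_def, Complex.conj_ofReal, Matrix.kroneckerMap_apply]
  ring

lemma numbx_le (j : Fin n) (k : Bx n K) : ((k j : ℕ) : ℝ) ≤ K := by
  exact_mod_cast occ_le k j

end Crest.Agent.R331.FinW87
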