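import Mathlib
import Crest.Agent.R331.FTop_136
import Crest.Agent.R331.FinPhi2_280
import Crest.Agent.R331.FinWBox_87

/-!
Row 331, FIN track: `FANOVA` by name (from helper280's `anova_R_eps`, `anova_L_eps`).
-/

set_option autoImplicit false

namespace Crest.Agent.R331.FDefs136

open Matrix Crest.Quantum Crest.MathPhysics.Bosonic
open scoped Kronecker ComplexOrder BigOperators

noncomputable section

lemma PA_eq_280 (η : ℝ) {n K : ℕ} (B : Matrix (Bx n K) (Bx n K) ℂ)
    (Y : Matrix (Bx n (2 * K)) (Bx n (2 * K)) ℂ) :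
    PA η B Y = FinPhi280.PA (bsW η n K) B Y := rfl

lemma outC_eq_280 (η : ℝ) {n K : ℕ} (A B : Matrix (Bx n K) (Bx n K) ℂ) :
    outC η A B = FinPhi280.Phi (bsW η n K) A B := rfl

lemma swap_heis_aux {α β γ δ : Type*} [Fintype α] [Fintype β] [Fintype γ] [Fintype δ]
    [DecidableEq δ] (W : Matrix (γ × δ) (α × β) ℂ) (Z : Matrix (γ × δ) (γ × δ) ℂ) :
    (W.submatrix id Prod.swap)ᴴ * Z * (W.submatrix id Prod.swap : Matrix (γ × δ) (β × α) ℂ)
      = (Wᴴ * Z * W).submatrix Prod.swap Prod.swap := by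
  ext ⟨j, i⟩ ⟨j', i'⟩
  simp [Matrix.mul_apply, Matrix.conjTranspose_apply]

lemma PB_eq_280 (η : ℝ) {n K : ℕ} (A : Matrix (Bx n K) (Bx n K) ℂ)
    (Y : Matrix (Bx n (2 * K)) (Bx n (2 * K)) ℂ) :
    PB η A Y = FinPhi280.PB (bsW η n K) A Y := by
  unfold PB
  rw [swap_heis_aux]
  ext j j'
  simp only [FCov76.ptR, FinPhi280.PB, FinPhi280.tr1_apply, Matrix.mul_apply,
    Fintype.sum_prod_type, kroneckerMap_apply, submatrix_apply, Prod.swap_prod_mk,
    Matrix.one_apply]
  refine Finset.sum_congr rfl fun i _ => ?_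
  rw [Finset.sum_comm]
  refine Finset.sum_congr rfl fun k _ => Finset.sum_congr rfl fun l _ => ?_
  have : ((bsW η n K)ᴴ * (Y ⊗ₖ (1 : Matrix (Bx n (2 * K)) (Bx n (2 * K)) ℂ)) * bsW η n K) (k, l)
      (i, j') = FinPhi280.Gm (bsW η n K) Y (k, l) (i, j') := rfl
  rw [← this]
  simp only [Matrix.mul_apply, Fintype.sum_prod_type, kroneckerMap_apply, Matrix.one_apply]
  ring

theorem fanova : FANOVA := by
  intro η ε n K h0 h1 hε A B hA hB Y
  have hW := bsW_iso FinW87.FW_holds n K h0 h1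
  have hA' : (FinPhi280.Phi (bsW η n K) A B * Y).trace = (A * PA η B Y).trace := by
    rw [FinPhi280.trace_Phi_mul_PA]; rfl
  have hB' : (FinPhi280.Phi (bsW η n K) A B * Y).trace = (B * PB η A Y).trace := by
    rw [FinPhi280.trace_Phi_mul_PB, PB_eq_280]
  have hR := FinPhi280.anova_R_eps hW hA.1 hB.1 hA.2 hB.2 Y 0 hε.le
  have hL := FinPhi280.anova_L_eps hW hA.1 hB.1 hA.2 hB.2 Y 0 hε.le
  rw [zero_smul, sub_zero] at hR hL
  constructor
  · unfold formR cen
    rw [← hB']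
    rw [show (A * PA η B Y).trace = (FinPhi280.Phi (bsW η n K) A B * Y).trace from hA'.symm]
    rw [PB_eq_280]
    exact hR
  · unfold formL cen
    rw [← hB']
    rw [show (A * PA η B Y).trace = (FinPhi280.Phi (bsW η n K) A B * Y).trace from hA'.symm]
    rw [PB_eq_280]
    exact hL

end

end Crest.Agent.R331.FDefs136
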