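import Mathlib
import Crest.Agent.R331.Duh_839

/-!
Row 331 (S0514), finite track: spectral forms of a positive definite matrix.

`SpecD X` : a unitary diagonalisation `X = U diag(exp h) Uᴴ` (`h` = logarithms of the eigenvalues).
`rot S Y = Uᴴ Y U` : the matrix `Y` in the eigenbasis, `lg S = U diag(h) Uᴴ = log X`.
`sf S f Y Z = Σ_{k,l} f (h k) (h l) conj(Y_kl) Z_kl` : the sesquilinear forms with weight `f`.
-/

set_option autoImplicit false

open Matrix Finset
open scoped ComplexConjugate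

namespace Crest.Agent.R331.FSpec561

variable {α : Type*} [Fintype α] [DecidableEq α]

/-- a unitary diagonalisation with positive eigenvalues `exp (h k)` -/
structure SpecD (X : Matrix α α ℂ) where
  /-- the unitary -/
  U : Matrix α α ℂ
  /-- logarithms of the eigenvalues -/
  h : α → ℝ
  hU : Uᴴ * U = 1
  hU' : U * Uᴴ = 1
  hX : X = U * diagonal (fun k => ((Real.exp (h k) : ℝ) : ℂ)) * Uᴴ

namespace SpecD

variable {X : Matrix α α ℂ} (S : SpecD X)

/-- `Y` in the eigenbasis -/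
def rot (Y : Matrix α α ℂ) : Matrix α α ℂ := S.Uᴴ * Y * S.U

/-- the logarithm -/
def lg : Matrix α α ℂ := S.U * diagonal (fun k => ((S.h k : ℝ) : ℂ)) * S.Uᴴ

lemma rot_mul (Y Z : Matrix α α ℂ) : S.rot (Y * Z) = S.rot Y * S.rot Z := by
  unfold rot
  calc S.Uᴴ * (Y * Z) * S.U = S.Uᴴ * Y * 1 * Z * S.U := by simp [Matrix.mul_assoc]
    _ = S.Uᴴ * Y * (S.U * S.Uᴴ) * Z * S.U := by rw [S.hU']
    _ = _ := by simp only [Matrix.mul_assoc]

lemma rot_add (Y Z : Matrix α α ℂ) : S.rot (Y + Z) = S.rot Y + S.rot Z := by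
  simp [rot, Matrix.mul_add, Matrix.add_mul]

lemma rot_sub (Y Z : Matrix α α ℂ) : S.rot (Y - Z) = S.rot Y - S.rot Z := by
  simp [rot, Matrix.mul_sub, Matrix.sub_mul]

lemma rot_smul (r : ℂ) (Y : Matrix α α ℂ) : S.rot (r • Y) = r • S.rot Y := by
  simp [rot]

lemma rot_zero : S.rot 0 = 0 := by simp [rot]

lemma rot_one : S.rot 1 = 1 := by simp [rot, S.hU]

lemma rot_neg (Y : Matrix α α ℂ) : S.rot (-Y) = -S.rot Y := by simp [rot]

lemma rot_conjTranspose (Y : Matrix α α ℂ) : S.rot Yᴴ = (S.rot Y)ᴴ := by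
  simp [rot, conjTranspose_mul, Matrix.mul_assoc]

lemma trace_rot (Y : Matrix α α ℂ) : (S.rot Y).trace = Y.trace := by
  unfold rot
  rw [Matrix.trace_mul_cycle, S.hU', Matrix.one_mul]

lemma rot_X : S.rot X = diagonal (fun k => ((Real.exp (S.h k) : ℝ) : ℂ)) := by
  have key : ∀ X' : Matrix α α ℂ,
      X' = S.U * diagonal (fun k => ((Real.exp (S.h k) : ℝ) : ℂ)) * S.Uᴴ →
      S.Uᴴ * X' * S.U = diagonal (fun k => ((Real.exp (S.h k) : ℝ) : ℂ)) := by
    intro X' hX'
    rw [hX']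
    calc S.Uᴴ * (S.U * diagonal (fun k => ((Real.exp (S.h k) : ℝ) : ℂ)) * S.Uᴴ) * S.U
        = (S.Uᴴ * S.U) * diagonal (fun k => ((Real.exp (S.h k) : ℝ) : ℂ)) * (S.Uᴴ * S.U) := by
          simp only [Matrix.mul_assoc]
      _ = _ := by rw [S.hU, Matrix.one_mul, Matrix.mul_one]
  exact key X S.hX

lemma rot_lg : S.rot S.lg = diagonal (fun k => ((S.h k : ℝ) : ℂ)) := by
  unfold rot lg
  calc S.Uᴴ * (S.U * diagonal (fun k => ((S.h k : ℝ) : ℂ)) * S.Uᴴ) * S.U
      = (S.Uᴴ * S.U) * diagonal (fun k => ((S.h k : ℝ) : ℂ)) * (S.Uᴴ * S.U) := by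
        simp only [Matrix.mul_assoc]
    _ = _ := by rw [S.hU, Matrix.one_mul, Matrix.mul_one]

lemma lg_conjTranspose : S.lgᴴ = S.lg := by
  unfold lg
  simp only [conjTranspose_mul, conjTranspose_conjTranspose, diagonal_conjTranspose,
    Matrix.mul_assoc]
  congr 3
  ext k
  simp

include S in
lemma X_isHermitian : X.IsHermitian := by
  have key : ∀ X' : Matrix α α ℂ,
      X' = S.U * diagonal (fun k => ((Real.exp (S.h k) : ℝ) : ℂ)) * S.Uᴴ → X'.IsHermitian := by
    intro X' hX'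
    unfold Matrix.IsHermitian
    rw [hX']
    simp only [conjTranspose_mul, conjTranspose_conjTranspose, diagonal_conjTranspose,
      Matrix.mul_assoc]
    congr 3
    ext k
    simp [← Complex.ofReal_exp, -Complex.ofReal_exp]
  exact key X S.hX

/-- unrotate: a matrix is determined by its rotation -/
lemma rot_inj {Y Z : Matrix α α ℂ} (h : S.rot Y = S.rot Z) : Y = Z := by
  have h1 : S.U * S.rot Y * S.Uᴴ = S.U * S.rot Z * S.Uᴴ := by rw [h]
  unfold rot at h1
  have h2 : ∀ V : Matrix α α ℂ, S.U * (S.Uᴴ * V * S.U) * S.Uᴴ = V := by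
    intro V
    calc S.U * (S.Uᴴ * V * S.U) * S.Uᴴ = (S.U * S.Uᴴ) * V * (S.U * S.Uᴴ) := by
          simp only [Matrix.mul_assoc]
      _ = V := by rw [S.hU', Matrix.one_mul, Matrix.mul_one]
  rwa [h2, h2] at h1

lemma lg_comm : S.lg * X = X * S.lg := by
  apply S.rot_inj
  rw [S.rot_mul, S.rot_mul, S.rot_X, S.rot_lg, diagonal_mul_diagonal, diagonal_mul_diagonal]
  congr 1
  ext k
  ring

lemma rot_comm_apply (x : Matrix α α ℂ) (k l : α) :
    S.rot (S.lg * x - x * S.lg) k l = ((S.h k - S.h l : ℝ) : ℂ) * S.rot x k l := by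
  rw [S.rot_sub, S.rot_mul, S.rot_mul, S.rot_lg]
  rw [Matrix.sub_apply, diagonal_mul, mul_diagonal]
  push_cast
  ring

/-- the form with weight `f` on the (logarithmic) eigenvalues -/
noncomputable def sf (f : ℝ → ℝ → ℝ) (Y Z : Matrix α α ℂ) : ℂ :=
  ∑ k, ∑ l, (f (S.h k) (S.h l) : ℂ) * (conj (S.rot Y k l) * S.rot Z k l)

/-- the quadratic form with weight `f` -/
noncomputable def qf (f : ℝ → ℝ → ℝ) (Y : Matrix α α ℂ) : ℝ :=
  ∑ k, ∑ l, f (S.h k) (S.h l) * ‖S.rot Y k l‖ ^ 2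

lemma sf_self (f : ℝ → ℝ → ℝ) (Y : Matrix α α ℂ) : S.sf f Y Y = (S.qf f Y : ℂ) := by
  unfold sf qf
  push_cast
  refine Finset.sum_congr rfl fun k _ => Finset.sum_congr rfl fun l _ => ?_
  rw [Complex.conj_mul']

/-- weight of left multiplication by `X` -/
noncomputable def wL (x _y : ℝ) : ℝ := Real.exp x
/-- weight of right multiplication by `X` -/
noncomputable def wR (_x y : ℝ) : ℝ := Real.exp y

lemma sf_wL (Y Z : Matrix α α ℂ) : S.sf wL Y Z = (Yᴴ * X * Z).trace := by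
  rw [← S.trace_rot (Yᴴ * X * Z), S.rot_mul, S.rot_mul, S.rot_conjTranspose, S.rot_X]
  unfold sf wL
  simp only [Matrix.trace, Matrix.diag]
  rw [Finset.sum_comm]
  refine Finset.sum_congr rfl fun l _ => ?_
  rw [Matrix.mul_apply]
  refine Finset.sum_congr rfl fun k _ => ?_
  rw [mul_diagonal]
  simp only [conjTranspose_apply, RCLike.star_def]
  ring

lemma sf_wR (Y Z : Matrix α α ℂ) : S.sf wR Y Z = (Yᴴ * Z * X).trace := by
  rw [← S.trace_rot (Yᴴ * Z * X), S.rot_mul, S.rot_mul, S.rot_conjTranspose, S.rot_X]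
  unfold sf wR
  simp only [Matrix.trace, Matrix.diag, mul_diagonal]
  rw [Finset.sum_comm]
  refine Finset.sum_congr rfl fun l _ => ?_
  rw [Matrix.mul_apply, Finset.sum_mul]
  refine Finset.sum_congr rfl fun k _ => ?_
  simp only [conjTranspose_apply, RCLike.star_def]
  ring

end SpecD

end Crest.Agent.R331.FSpec561
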