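import Mathlib
import Crest.Agent.R331.FSpec_561

/-!
Row 331 (S0514), finite track: the core inequality for one truncation level.
-/

set_option autoImplicit false

open Matrix Finset
open scoped ComplexConjugate

namespace Crest.Agent.R331.FCore561

open Crest.Agent.R331.FSpec561

variable {α γ σ : Type*} [Fintype α] [DecidableEq α] [Fintype γ] [DecidableEq γ] [Fintype σ]

/-- the linear functional `N tr(Yᴴ X x₀) - (N+1) tr(Yᴴ x₀ X)` (conjugate linear in `Y`) -/
noncomputable def ell (N : ℝ) (X x0 Y : Matrix α α ℂ) : ℂ :=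
  (N : ℂ) * (Yᴴ * X * x0).trace - ((N : ℂ) + 1) * (Yᴴ * x0 * X).trace

lemma ell_add (N : ℝ) (X x0 Y Z : Matrix α α ℂ) : ell N X x0 (Y + Z) = ell N X x0 Y + ell N X x0 Z := by
  simp [ell, Matrix.add_mul, Matrix.trace_add]
  ring

lemma ell_sub (N : ℝ) (X x0 Y Z : Matrix α α ℂ) : ell N X x0 (Y - Z) = ell N X x0 Y - ell N X x0 Z := by
  simp [ell, Matrix.sub_mul, Matrix.trace_sub]
  ring

lemma ell_smul (N : ℝ) (X x0 Y : Matrix α α ℂ) (r : ℂ) : ell N X x0 (r • Y) = conj r * ell N X x0 Y := by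
  simp [ell, Matrix.trace_smul]
  ring

lemma ell_one (N : ℝ) (X x0 : Matrix α α ℂ) (h : (X * x0).trace = 0) : ell N X x0 1 = 0 := by
  have h2 : (x0 * X).trace = 0 := by rw [Matrix.trace_mul_comm]; exact h
  simp [ell, h, h2]

section scalar

variable {X : Matrix α α ℂ} (S : SpecD X)

lemma sf_add_left (f : ℝ → ℝ → ℝ) (Y Y' Z : Matrix α α ℂ) :
    S.sf f (Y + Y') Z = S.sf f Y Z + S.sf f Y' Z := by
  unfold SpecD.sf
  rw [← Finset.sum_add_distrib]
  refine Finset.sum_congr rfl fun k _ => ?_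
  rw [← Finset.sum_add_distrib]
  refine Finset.sum_congr rfl fun l _ => ?_
  rw [S.rot_add, Matrix.add_apply, map_add]
  ring

/-- the convexity step: for `w = s G + e`,
`q(w) ≥ s Re⟨w, G⟩ + s Re⟨e, G⟩`. -/
lemma convex_step (f : ℝ → ℝ → ℝ) (hf : ∀ x y, 0 ≤ f x y) (s : ℝ) (G e w : Matrix α α ℂ)
    (hw : w = (s : ℂ) • G + e) :
    s * (S.sf f w G).re + s * (S.sf f e G).re ≤ S.qf f w := by
  unfold SpecD.sf SpecD.qf
  rw [Complex.re_sum, Complex.re_sum, Finset.mul_sum, Finset.mul_sum, ← Finset.sum_add_distrib]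
  refine Finset.sum_le_sum fun k _ => ?_
  rw [Complex.re_sum, Complex.re_sum, Finset.mul_sum, Finset.mul_sum, ← Finset.sum_add_distrib]
  refine Finset.sum_le_sum fun l _ => ?_
  have hwkl : S.rot w k l = (s : ℂ) * S.rot G k l + S.rot e k l := by
    rw [hw, S.rot_add, S.rot_smul]
    simp [Matrix.add_apply, Matrix.smul_apply]
  set g := S.rot G k l
  set ee := S.rot e k l
  rw [hwkl, Complex.re_ofReal_mul, Complex.re_ofReal_mul]
  have h1 : ‖(s : ℂ) * g + ee‖ ^ 2 = (s * g.re + ee.re) ^ 2 + (s * g.im + ee.im) ^ 2 := by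
    rw [← Complex.normSq_eq_norm_sq, Complex.normSq_apply]
    simp
    ring
  rw [h1]
  have h2 : (conj ((s : ℂ) * g + ee) * g).re = (s * g.re + ee.re) * g.re + (s * g.im + ee.im) * g.im := by
    simp
    ring
  have h3 : (conj ee * g).re = ee.re * g.re + ee.im * g.im := by
    simp
  rw [h2, h3]
  have := mul_nonneg (hf (S.h k) (S.h l)) (add_nonneg (sq_nonneg ee.re) (sq_nonneg ee.im))
  nlinarith [this]

/-- the linear functional produced by a weight `f` with
`f(x,y) (x - y - b) = b (N e^x - (N+1) e^y)`. -/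
lemma sf_G (f : ℝ → ℝ → ℝ) (b N m : ℝ) (m' : ℂ)
    (hf : ∀ x y, f x y * (x - y - b) = b * (N * Real.exp x - (N + 1) * Real.exp y))
    (x : Matrix α α ℂ) (Y : Matrix α α ℂ) :
    S.sf f Y (S.lg * x - x * S.lg - (b : ℂ) • (x - m' • (1 : Matrix α α ℂ)))
      = (b : ℂ) * ell N X (x - m' • (1 : Matrix α α ℂ)) Y := by
  unfold ell
  rw [← S.sf_wL, ← S.sf_wR]
  unfold SpecD.sf SpecD.wL SpecD.wR
  rw [Finset.mul_sum, Finset.mul_sum, ← Finset.sum_sub_distrib, Finset.mul_sum]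
  refine Finset.sum_congr rfl fun k _ => ?_
  rw [Finset.mul_sum, Finset.mul_sum, ← Finset.sum_sub_distrib, Finset.mul_sum]
  refine Finset.sum_congr rfl fun l _ => ?_
  have h1 : S.rot (S.lg * x - x * S.lg - (b : ℂ) • (x - m' • (1 : Matrix α α ℂ))) k l
      = ((S.h k - S.h l - b : ℝ) : ℂ) * S.rot (x - m' • (1 : Matrix α α ℂ)) k l := by
    rw [S.rot_sub, S.rot_smul, Matrix.sub_apply, S.rot_comm_apply, S.rot_sub, S.rot_smul, S.rot_one,
      Matrix.smul_apply, Matrix.sub_apply, Matrix.smul_apply, smul_eq_mul, smul_eq_mul]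
    by_cases hkl : k = l
    · subst hkl
      push_cast
      simp
    · rw [Matrix.one_apply_ne hkl]
      push_cast
      ring
  rw [h1]
  have h2 := hf (S.h k) (S.h l)
  have h3 : ((f (S.h k) (S.h l) : ℝ) : ℂ) * ((S.h k - S.h l - b : ℝ) : ℂ)
      = (b : ℂ) * ((N : ℂ) * (Real.exp (S.h k) : ℝ) - ((N : ℂ) + 1) * (Real.exp (S.h l) : ℝ)) := by
    rw [← Complex.ofReal_mul, h2]
    push_cast
    ring
  set Z := S.rot (x - m' • (1 : Matrix α α ℂ)) k l
  calc ((f (S.h k) (S.h l) : ℝ) : ℂ) * (conj (S.rot Y k l) * (((S.h k - S.h l - b : ℝ) : ℂ) * Z))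
      = (((f (S.h k) (S.h l) : ℝ) : ℂ) * ((S.h k - S.h l - b : ℝ) : ℂ)) * (conj (S.rot Y k l) * Z) := by
        ring
    _ = _ := by rw [h3]; ring

end scalar

end Crest.Agent.R331.FCore561
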