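import Mathlib
import Crest.Agent.R331.Duh_839

set_option autoImplicit false

/-!
Row 331, finite track, leaf FIN-7 (route independent form).

`h k = log` of the eigenvalues of the (regularised) output `C`, everything in an eigenbasis of `C`.
From a bound on the weighted form of `ψ = (h k - h l - b) * c0 k l` we deduce that
`T = c C - exp(-b) C c` is small and the energy relation.
-/

open Matrix Finset
open scoped ComplexOrder

namespace Crest.Agent.R331.Fin7_380

open Crest.Agent.R331.Duh839 (LMe LMe_symm LMe_pos)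

/-! ### Scalar facts -/

theorem LMe_ge_of_lt {x y : ℝ} (h : y < x) : Real.exp x / (1 + (x - y)) ≤ LMe x y := by
  unfold LMe
  rw [if_neg (ne_of_gt h)]
  have hs : 0 < x - y := sub_pos.2 h
  rw [div_le_div_iff₀ (by linarith) hs]
  have h1 : 1 + (x - y) ≤ Real.exp (x - y) := by
    have := Real.add_one_le_exp (x - y); linarith
  have h2 : Real.exp x = Real.exp (x - y) * Real.exp y := by
    rw [← Real.exp_add]; ring_nf
  have h3 := Real.exp_pos y
  nlinarith [mul_le_mul_of_nonneg_right h1 h3.le]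

theorem LMe_ge (x y : ℝ) : Real.exp (max x y) / (1 + |x - y|) ≤ LMe x y := by
  rcases lt_trichotomy x y with h | h | h
  · rw [max_eq_right h.le, abs_of_neg (by linarith), LMe_symm]
    have := LMe_ge_of_lt h
    rwa [show -(x - y) = y - x by ring]
  · subst h
    simp [LMe]
  · rw [max_eq_left h.le, abs_of_pos (by linarith)]
    exact LMe_ge_of_lt h

theorem LMe_le_of_lt {x y : ℝ} (h : y < x) : LMe x y ≤ Real.exp x := by
  unfold LMe
  rw [if_neg (ne_of_gt h)]
  have hs : 0 < x - y := sub_pos.2 h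
  rw [div_le_iff₀ hs]
  have h1 : 1 - (x - y) ≤ Real.exp (-(x - y)) := by
    have := Real.add_one_le_exp (-(x - y)); linarith
  have h2 : Real.exp y = Real.exp x * Real.exp (-(x - y)) := by
    rw [← Real.exp_add]; ring_nf
  have h3 := Real.exp_pos x
  nlinarith [mul_le_mul_of_nonneg_left h1 h3.le]

theorem LMe_le (x y : ℝ) : LMe x y ≤ Real.exp (max x y) := by
  rcases lt_trichotomy x y with h | h | h
  · rw [max_eq_right h.le, LMe_symm]; exact LMe_le_of_lt h
  · subst h
    simp [LMe]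
  · rw [max_eq_left h.le]
    exact LMe_le_of_lt h

/-- the constant of the leaf -/
noncomputable def Cb (b : ℝ) : ℝ := 2 / b + 2 * (2 + b)

theorem Cb_pos {b : ℝ} (hb : 0 < b) : 0 < Cb b := by unfold Cb; positivity

theorem scal_key {b : ℝ} (hb : 0 < b) (x y : ℝ) :
    |Real.exp y - Real.exp (-b) * Real.exp x| ≤
      Cb b * Real.exp (max x y) * (|x - y - b| / (2 + |x - y|)) := by
  have hCb := Cb_pos hb
  have h2b : 0 < 2 / b := by positivity
  rcases le_total x y with h | h
  · -- `t ≤ 0`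
    rw [max_eq_right h, abs_of_nonpos (by linarith : x - y ≤ 0),
      abs_of_neg (by linarith : x - y - b < 0)]
    have e1 : Real.exp (-b) * Real.exp x = Real.exp y * Real.exp (x - y - b) := by
      rw [← Real.exp_add, ← Real.exp_add]; ring_nf
    have hy := Real.exp_pos y
    have h1 : Real.exp (x - y - b) ≤ 1 := by
      rw [← Real.exp_zero]; exact Real.exp_le_exp.2 (by linarith)
    have h0 := Real.exp_pos (x - y - b)
    rw [e1, show Real.exp y - Real.exp y * Real.exp (x - y - b)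
      = Real.exp y * (1 - Real.exp (x - y - b)) by ring, abs_of_nonneg (by nlinarith)]
    have h3 : (1 : ℝ) ≤ Cb b * (-(x - y - b) / (2 + -(x - y))) := by
      rw [← mul_div_assoc, le_div_iff₀ (by linarith)]
      unfold Cb
      have hs : 0 ≤ y - x := by linarith
      have : (2 / b) * b = 2 := by field_simp
      nlinarith [mul_nonneg h2b.le hs, mul_nonneg hb.le hs]
    calc Real.exp y * (1 - Real.exp (x - y - b)) ≤ Real.exp y * 1 := by
          apply mul_le_mul_of_nonneg_left _ hy.le; linarith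
      _ ≤ Real.exp y * (Cb b * (-(x - y - b) / (2 + -(x - y)))) :=
          mul_le_mul_of_nonneg_left h3 hy.le
      _ = _ := by ring
  · rw [max_eq_left h, abs_of_nonneg (by linarith : 0 ≤ x - y)]
    have hx := Real.exp_pos x
    have e1 : Real.exp y = Real.exp x * Real.exp (-(x - y)) := by
      rw [← Real.exp_add]; ring_nf
    rw [e1, show Real.exp x * Real.exp (-(x - y)) - Real.exp (-b) * Real.exp x
      = Real.exp x * (Real.exp (-(x - y)) - Real.exp (-b)) by ring, abs_mul,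
      abs_of_pos hx]
    have hmain : |Real.exp (-(x - y)) - Real.exp (-b)| ≤
        Cb b * (|x - y - b| / (2 + (x - y))) := by
      rw [← mul_div_assoc, le_div_iff₀ (by linarith)]
      rcases le_total (x - y) b with h' | h'
      · -- `0 ≤ t ≤ b`
        rw [abs_of_nonpos (by linarith : x - y - b ≤ 0),
          abs_of_nonneg (by
            have := Real.exp_le_exp.2 (by linarith : -b ≤ -(x - y)); linarith)]
        have a1 : Real.exp (-(x - y)) - Real.exp (-b) ≤ b - (x - y) := by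
          have e2 : Real.exp (-b) = Real.exp (-(x - y)) * Real.exp (-(b - (x - y))) := by
            rw [← Real.exp_add]; ring_nf
          have a2 : 1 - (b - (x - y)) ≤ Real.exp (-(b - (x - y))) := by
            have := Real.add_one_le_exp (-(b - (x - y))); linarith
          have a3 : Real.exp (-(x - y)) ≤ 1 := by
            rw [← Real.exp_zero]; exact Real.exp_le_exp.2 (by linarith)
          have a4 := Real.exp_pos (-(x - y))
          rw [e2]
          nlinarith
        have a5 : 0 ≤ Real.exp (-(x - y)) - Real.exp (-b) := by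
          have := Real.exp_le_exp.2 (by linarith : -b ≤ -(x - y)); linarith
        calc (Real.exp (-(x - y)) - Real.exp (-b)) * (2 + (x - y))
            ≤ (b - (x - y)) * (2 + b) := by
              apply mul_le_mul a1 (by linarith) (by linarith) (by linarith)
          _ ≤ Cb b * -(x - y - b) := by
              unfold Cb
              have : 0 ≤ b - (x - y) := by linarith
              nlinarith [mul_nonneg h2b.le this, mul_nonneg hb.le this]
      · -- `t ≥ b`
        rw [abs_of_nonneg (by linarith : 0 ≤ x - y - b),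
          abs_of_nonpos (by
            have := Real.exp_le_exp.2 (by linarith : -(x - y) ≤ -b); linarith)]
        have hs : 0 ≤ x - y - b := by linarith
        have e2 : Real.exp (-(x - y)) = Real.exp (-b) * Real.exp (-(x - y - b)) := by
          rw [← Real.exp_add]; ring_nf
        have a1 : Real.exp (-b) ≤ 1 := by
          rw [← Real.exp_zero]; exact Real.exp_le_exp.2 (by linarith)
        have a2 : 1 - (x - y - b) ≤ Real.exp (-(x - y - b)) := by
          have := Real.add_one_le_exp (-(x - y - b)); linarith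
        have a3 : Real.exp (-(x - y - b)) ≤ 1 := by
          rw [← Real.exp_zero]; exact Real.exp_le_exp.2 (by linarith)
        have a4 := Real.exp_pos (-b)
        have a5 := Real.exp_pos (-(x - y - b))
        have a6 : -(Real.exp (-(x - y)) - Real.exp (-b)) ≤ 1 - Real.exp (-(x - y - b)) := by
          rw [e2]; nlinarith
        have a7 : 0 ≤ -(Real.exp (-(x - y)) - Real.exp (-b)) := by
          rw [e2]; nlinarith
        rcases le_total (x - y - b) 1 with h'' | h''
        · calc -(Real.exp (-(x - y)) - Real.exp (-b)) * (2 + (x - y))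
              ≤ (x - y - b) * (3 + b) := by
                apply mul_le_mul (by linarith) (by linarith) (by linarith) (by linarith)
            _ ≤ Cb b * (x - y - b) := by
                unfold Cb
                nlinarith [mul_nonneg h2b.le hs, mul_nonneg hb.le hs]
        · calc -(Real.exp (-(x - y)) - Real.exp (-b)) * (2 + (x - y))
              ≤ 1 * (2 + (x - y)) := by
                apply mul_le_mul_of_nonneg_right _ (by linarith); linarith
            _ ≤ Cb b * (x - y - b) := by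
                unfold Cb
                nlinarith [mul_nonneg h2b.le hs, mul_nonneg hb.le hs]
    calc Real.exp x * |Real.exp (-(x - y)) - Real.exp (-b)|
        ≤ Real.exp x * (Cb b * (|x - y - b| / (2 + (x - y)))) :=
          mul_le_mul_of_nonneg_left hmain hx.le
      _ = _ := by ring

/-! ### The weighted form -/

variable {κ : Type*} [Fintype κ]

/-- `M`-form with weight `w(t)`, `t = log r_k - log r_l`, in the eigenbasis. -/
noncomputable def wForm (h : κ → ℝ) (w : ℝ → ℝ) (Y : Matrix κ κ ℂ) : ℝ :=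
  ∑ k, ∑ l, LMe (h k) (h l) * w (h k - h l) * ‖Y k l‖ ^ 2

/-- `ψ = [log C, c0] - b c0` in the eigenbasis -/
noncomputable def psi (h : κ → ℝ) (b : ℝ) (c0 : Matrix κ κ ℂ) : Matrix κ κ ℂ :=
  Matrix.of fun k l => ((h k - h l - b : ℝ) : ℂ) * c0 k l

/-- `T = c C - x C c` in the eigenbasis -/
noncomputable def Tm (h : κ → ℝ) (b : ℝ) (c : Matrix κ κ ℂ) : Matrix κ κ ℂ :=
  Matrix.of fun k l => ((Real.exp (h l) - Real.exp (-b) * Real.exp (h k) : ℝ) : ℂ) * c k l

theorem term_le {b : ℝ} (hb : 0 < b) (x y : ℝ) (z : ℂ) :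
    ‖((Real.exp y - Real.exp (-b) * Real.exp x : ℝ) : ℂ) * z‖ ^ 2 / Real.exp (max x y) ≤
      Cb b ^ 2 * (LMe x y * (1 / (2 + |x - y|)) * ‖((x - y - b : ℝ) : ℂ) * z‖ ^ 2) := by
  have hm := Real.exp_pos (max x y)
  have ht : 0 ≤ |x - y| := abs_nonneg _
  rw [norm_mul, norm_mul, Complex.norm_real, Complex.norm_real, Real.norm_eq_abs, Real.norm_eq_abs,
    mul_pow, mul_pow]
  have h1 := scal_key hb x y
  have h2 : |Real.exp y - Real.exp (-b) * Real.exp x| ^ 2 ≤
      (Cb b * Real.exp (max x y) * (|x - y - b| / (2 + |x - y|))) ^ 2 :=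
    pow_le_pow_left₀ (abs_nonneg _) h1 2
  have h3 := LMe_ge x y
  have h4 : Real.exp (max x y) * (1 / (2 + |x - y|) ^ 2) ≤ LMe x y * (1 / (2 + |x - y|)) := by
    have h5 : Real.exp (max x y) * (1 / (2 + |x - y|) ^ 2) =
        (Real.exp (max x y) * (1 / (2 + |x - y|))) * (1 / (2 + |x - y|)) := by
      rw [pow_two]; field_simp
    rw [h5]
    apply mul_le_mul_of_nonneg_right _ (by positivity)
    refine le_trans ?_ h3
    rw [mul_one_div]
    apply div_le_div_of_nonneg_left hm.le (by linarith) (by linarith)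
  calc |Real.exp y - Real.exp (-b) * Real.exp x| ^ 2 * ‖z‖ ^ 2 / Real.exp (max x y)
      ≤ (Cb b * Real.exp (max x y) * (|x - y - b| / (2 + |x - y|))) ^ 2 * ‖z‖ ^ 2
          / Real.exp (max x y) := by
        gcongr
    _ = Cb b ^ 2 * ((Real.exp (max x y) * (1 / (2 + |x - y|) ^ 2)) *
          (|x - y - b| ^ 2 * ‖z‖ ^ 2)) := by
        field_simp
    _ ≤ Cb b ^ 2 * (LMe x y * (1 / (2 + |x - y|)) * (|x - y - b| ^ 2 * ‖z‖ ^ 2)) := by
        gcongr

/-- **(b)** the main estimate in the eigenbasis -/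
theorem T_small {b : ℝ} (hb : 0 < b) (h : κ → ℝ) (c0 : Matrix κ κ ℂ) {E : ℝ}
    (hE : wForm h (fun t => 1 / (2 + |t|)) (psi h b c0) ≤ E) :
    ∑ k, ∑ l, ‖Tm h b c0 k l‖ ^ 2 / Real.exp (max (h k) (h l)) ≤ Cb b ^ 2 * E := by
  refine le_trans ?_ (mul_le_mul_of_nonneg_left hE (sq_nonneg _))
  unfold wForm
  rw [Finset.mul_sum]
  refine Finset.sum_le_sum fun k _ => ?_
  rw [Finset.mul_sum]
  refine Finset.sum_le_sum fun l _ => ?_
  exact term_le hb (h k) (h l) (c0 k l)

/-! ### Pairing with an arbitrary matrix -/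

theorem Tm_pairing {b : ℝ} (hb : 0 < b) (h : κ → ℝ) (c0 Y : Matrix κ κ ℂ) {E : ℝ}
    (hE : wForm h (fun t => 1 / (2 + |t|)) (psi h b c0) ≤ E) :
    ‖∑ k, ∑ l, star (Y k l) * Tm h b c0 k l‖ ≤
      Cb b * √E * √(∑ k, ∑ l, Real.exp (max (h k) (h l)) * ‖Y k l‖ ^ 2) := by
  have hT := T_small hb h c0 hE
  have hC := Cb_pos hb
  have hE0 : 0 ≤ E := by
    refine le_trans ?_ hE
    unfold wForm
    refine Finset.sum_nonneg fun k _ => Finset.sum_nonneg fun l _ => ?_
    have := LMe_pos (h k) (h l)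
    positivity
  have e1 : ‖∑ k, ∑ l, star (Y k l) * Tm h b c0 k l‖ ≤
      ∑ p : κ × κ, (√(Real.exp (max (h p.1) (h p.2))) * ‖Y p.1 p.2‖) *
        (‖Tm h b c0 p.1 p.2‖ / √(Real.exp (max (h p.1) (h p.2)))) := by
    rw [← Finset.univ_product_univ, Finset.sum_product]
    refine (norm_sum_le _ _).trans (Finset.sum_le_sum fun k _ => ?_)
    refine (norm_sum_le _ _).trans (Finset.sum_le_sum fun l _ => ?_)
    rw [norm_mul, norm_star]
    have hs : 0 < √(Real.exp (max (h k) (h l))) := Real.sqrt_pos.2 (Real.exp_pos _)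
    apply le_of_eq
    field_simp
  refine e1.trans ((Real.sum_mul_le_sqrt_mul_sqrt _ _ _).trans ?_)
  rw [mul_comm]
  have e2 : ∑ p : κ × κ, (√(Real.exp (max (h p.1) (h p.2))) * ‖Y p.1 p.2‖) ^ 2 =
      ∑ k, ∑ l, Real.exp (max (h k) (h l)) * ‖Y k l‖ ^ 2 := by
    rw [← Finset.univ_product_univ, Finset.sum_product]
    refine Finset.sum_congr rfl fun k _ => Finset.sum_congr rfl fun l _ => ?_
    rw [mul_pow, Real.sq_sqrt (Real.exp_pos _).le]
  have e3 : ∑ p : κ × κ, (‖Tm h b c0 p.1 p.2‖ / √(Real.exp (max (h p.1) (h p.2)))) ^ 2 =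
      ∑ k, ∑ l, ‖Tm h b c0 k l‖ ^ 2 / Real.exp (max (h k) (h l)) := by
    rw [← Finset.univ_product_univ, Finset.sum_product]
    refine Finset.sum_congr rfl fun k _ => Finset.sum_congr rfl fun l _ => ?_
    rw [div_pow, Real.sq_sqrt (Real.exp_pos _).le]
  rw [e2, e3]
  apply mul_le_mul_of_nonneg_right _ (Real.sqrt_nonneg _)
  calc √(∑ k, ∑ l, ‖Tm h b c0 k l‖ ^ 2 / Real.exp (max (h k) (h l)))
      ≤ √(Cb b ^ 2 * E) := Real.sqrt_le_sqrt hT
    _ = Cb b * √E := by rw [Real.sqrt_mul (sq_nonneg _), Real.sqrt_sq hC.le]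

/-! ### Matrix form -/

variable [DecidableEq κ]

/-- `c C - x C c` -/
noncomputable def Tmat (C : Matrix κ κ ℂ) (b : ℝ) (c : Matrix κ κ ℂ) : Matrix κ κ ℂ :=
  c * C - ((Real.exp (-b) : ℝ) : ℂ) • (C * c)

open Crest.Agent.R331.Duh839 (dg)

theorem Tmat_dg (h : κ → ℝ) (b : ℝ) (c : Matrix κ κ ℂ) :
    Tmat (dg fun k => Real.exp (h k)) b c = Tm h b c := by
  ext k l
  unfold Tmat Tm
  rw [Matrix.sub_apply, Matrix.smul_apply, Matrix.mul_diagonal, Matrix.diagonal_mul,
    Matrix.of_apply]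
  push_cast
  simp only [smul_eq_mul]
  ring

/-- a matrix `C` is diagonalised by `U` with log-eigenvalues `h` -/
structure Diag (C : Matrix κ κ ℂ) (U : Matrix κ κ ℂ) (h : κ → ℝ) : Prop where
  unit : Uᴴ * U = 1
  eq : C = U * dg (fun k => Real.exp (h k)) * Uᴴ

namespace Diag

variable {C U : Matrix κ κ ℂ} {h : κ → ℝ}

theorem unit' (H : Diag C U h) : U * Uᴴ = 1 := mul_eq_one_comm.1 H.unit

theorem conj_C (H : Diag C U h) : Uᴴ * C * U = dg (fun k => Real.exp (h k)) := by
  rw [H.eq]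
  calc Uᴴ * (U * dg (fun k => Real.exp (h k)) * Uᴴ) * U
      = (Uᴴ * U) * dg (fun k => Real.exp (h k)) * (Uᴴ * U) := by simp only [Matrix.mul_assoc]
    _ = _ := by rw [H.unit]; simp

theorem conj_T (H : Diag C U h) (b : ℝ) (c : Matrix κ κ ℂ) :
    Uᴴ * Tmat C b c * U = Tm h b (Uᴴ * c * U) := by
  rw [← Tmat_dg, ← H.conj_C]
  unfold Tmat
  have h1 : (Uᴴ * c * U) * (Uᴴ * C * U) = Uᴴ * (c * C) * U := by
    calc (Uᴴ * c * U) * (Uᴴ * C * U) = Uᴴ * c * (U * Uᴴ) * C * U := by
          simp only [Matrix.mul_assoc]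
      _ = _ := by rw [H.unit']; simp [Matrix.mul_assoc]
  have h2 : (Uᴴ * C * U) * (Uᴴ * c * U) = Uᴴ * (C * c) * U := by
    calc (Uᴴ * C * U) * (Uᴴ * c * U) = Uᴴ * C * (U * Uᴴ) * c * U := by
          simp only [Matrix.mul_assoc]
      _ = _ := by rw [H.unit']; simp [Matrix.mul_assoc]
  rw [h1, h2, Matrix.mul_sub, Matrix.sub_mul, Matrix.mul_smul, Matrix.smul_mul]

theorem trace_conj (H : Diag C U h) (Y T : Matrix κ κ ℂ) :
    trace (Yᴴ * T) = ∑ k, ∑ l, star ((Uᴴ * Y * U) k l) * (Uᴴ * T * U) k l := by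
  have h1 : trace (Yᴴ * T) = trace ((Uᴴ * Y * U)ᴴ * (Uᴴ * T * U)) := by
    rw [Matrix.conjTranspose_mul, Matrix.conjTranspose_mul, Matrix.conjTranspose_conjTranspose]
    calc trace (Yᴴ * T) = trace (Yᴴ * T * (U * Uᴴ)) := by rw [H.unit']; simp
      _ = trace (Yᴴ * T * U * Uᴴ) := by simp only [Matrix.mul_assoc]
      _ = trace (Uᴴ * (Yᴴ * T * U)) := by rw [trace_mul_comm]
      _ = trace (Uᴴ * Yᴴ * (U * Uᴴ) * T * U) := by rw [H.unit']; simp [Matrix.mul_assoc]
      _ = _ := by simp only [Matrix.mul_assoc]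
  rw [h1, Matrix.trace, Finset.sum_comm]
  refine Finset.sum_congr rfl fun l _ => ?_
  rw [Matrix.diag_apply, Matrix.mul_apply]
  refine Finset.sum_congr rfl fun k _ => ?_
  rw [Matrix.conjTranspose_apply]

/-- `∑ r_l |Y'_{kl}|² = Tr C YᴴY`. -/
theorem trace_right (H : Diag C U h) (Y : Matrix κ κ ℂ) :
    (trace (C * (Yᴴ * Y))).re = ∑ k, ∑ l, Real.exp (h l) * ‖(Uᴴ * Y * U) k l‖ ^ 2 := by
  have h1 : trace (C * (Yᴴ * Y)) = trace (Yᴴ * (Y * C)) := by
    rw [← Matrix.mul_assoc Yᴴ, trace_mul_comm C]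
  rw [h1, H.trace_conj]
  have h2 : Uᴴ * (Y * C) * U = (Uᴴ * Y * U) * dg (fun k => Real.exp (h k)) := by
    rw [← H.conj_C]
    calc Uᴴ * (Y * C) * U = Uᴴ * Y * (U * Uᴴ) * C * U := by
          rw [H.unit']; simp [Matrix.mul_assoc]
      _ = _ := by simp only [Matrix.mul_assoc]
  rw [h2, Complex.re_sum]
  refine Finset.sum_congr rfl fun k _ => ?_
  rw [Complex.re_sum]
  refine Finset.sum_congr rfl fun l _ => ?_
  rw [Matrix.mul_diagonal, ← mul_assoc, Complex.star_def, ← Complex.normSq_eq_conj_mul_self,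
    ← Complex.ofReal_mul, Complex.ofReal_re, Complex.normSq_eq_norm_sq]
  ring

/-- `∑ r_k |Y'_{kl}|² = Tr C YYᴴ`. -/
theorem trace_left (H : Diag C U h) (Y : Matrix κ κ ℂ) :
    (trace (C * (Y * Yᴴ))).re = ∑ k, ∑ l, Real.exp (h k) * ‖(Uᴴ * Y * U) k l‖ ^ 2 := by
  have h1 : trace (C * (Y * Yᴴ)) = trace (Yᴴ * (C * Y)) := by
    rw [← Matrix.mul_assoc C, trace_mul_comm (C * Y)]
  rw [h1, H.trace_conj]
  have h2 : Uᴴ * (C * Y) * U = dg (fun k => Real.exp (h k)) * (Uᴴ * Y * U) := by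
    rw [← H.conj_C]
    calc Uᴴ * (C * Y) * U = Uᴴ * C * (U * Uᴴ) * Y * U := by
          rw [H.unit']; simp [Matrix.mul_assoc]
      _ = _ := by simp only [Matrix.mul_assoc]
  rw [h2, Complex.re_sum]
  refine Finset.sum_congr rfl fun k _ => ?_
  rw [Complex.re_sum]
  refine Finset.sum_congr rfl fun l _ => ?_
  rw [Matrix.diagonal_mul, mul_left_comm, Complex.star_def, ← Complex.normSq_eq_conj_mul_self,
    ← Complex.ofReal_mul, Complex.ofReal_re, Complex.normSq_eq_norm_sq]

/-- the `L + R` form of `Y` -/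
noncomputable def LR (C Y : Matrix κ κ ℂ) : ℝ := (trace (C * (Yᴴ * Y))).re + (trace (C * (Y * Yᴴ))).re

/-- **(7d)** pairing of `T = c0 C - x C c0` with an arbitrary matrix `Y`. -/
theorem pairing (H : Diag C U h) {b : ℝ} (hb : 0 < b) (c0 Y : Matrix κ κ ℂ) {E : ℝ}
    (hE : wForm h (fun t => 1 / (2 + |t|)) (psi h b (Uᴴ * c0 * U)) ≤ E) :
    ‖trace (Yᴴ * Tmat C b c0)‖ ≤ Cb b * √E * √(LR C Y) := by
  rw [H.trace_conj, H.conj_T]
  refine (Tm_pairing hb h _ _ hE).trans ?_
  have hC := Cb_pos hb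
  apply mul_le_mul_of_nonneg_left _ (by positivity)
  apply Real.sqrt_le_sqrt
  unfold LR
  rw [H.trace_right, H.trace_left, ← Finset.sum_add_distrib]
  refine Finset.sum_le_sum fun k _ => ?_
  rw [← Finset.sum_add_distrib]
  refine Finset.sum_le_sum fun l _ => ?_
  rw [← add_mul]
  apply mul_le_mul_of_nonneg_right _ (by positivity)
  rcases le_total (h k) (h l) with h' | h'
  · rw [max_eq_right h']; linarith [Real.exp_pos (h k)]
  · rw [max_eq_left h']; linarith [Real.exp_pos (h l)]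

end Diag

theorem exists_diag {C : Matrix κ κ ℂ} (hC : C.PosDef) :
    ∃ U : Matrix κ κ ℂ, ∃ h : κ → ℝ, Diag C U h := by
  have hH := hC.isHermitian
  refine ⟨(hH.eigenvectorUnitary : Matrix κ κ ℂ), fun k => Real.log (hH.eigenvalues k), ?_, ?_⟩
  · have := Unitary.coe_star_mul_self hH.eigenvectorUnitary
    rwa [Matrix.star_eq_conjTranspose] at this
  · have h1 := hH.spectral_theorem
    rw [Unitary.conjStarAlgAut_apply] at h1
    rw [Matrix.star_eq_conjTranspose] at h1
    conv_lhs => rw [h1]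
    congr 2
    ext i j
    by_cases hij : i = j
    · subst hij
      simp [Real.exp_log (hC.eigenvalues_pos i)]
    · simp [hij]

/-! ### Consequences for entries, energy -/

namespace Diag

variable {C U : Matrix κ κ ℂ} {h : κ → ℝ}

theorem isHermitian (H : Diag C U h) : C.IsHermitian := by
  unfold Matrix.IsHermitian
  rw [H.eq, Matrix.conjTranspose_mul, Matrix.conjTranspose_mul, Matrix.conjTranspose_conjTranspose,
    ← Matrix.mul_assoc]
  congr 2
  rw [dg, Matrix.diagonal_conjTranspose]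
  congr 1
  ext i
  rw [Pi.star_apply, Complex.star_def, Complex.conj_ofReal]

theorem LR_single (C : Matrix κ κ ℂ) (k l : κ) :
    LR C (Matrix.single k l (1 : ℂ)) = (C l l).re + (C k k).re := by
  unfold LR
  have e1 : (Matrix.single k l (1 : ℂ))ᴴ * Matrix.single k l (1 : ℂ) = Matrix.single l l 1 := by
    rw [Matrix.conjTranspose_single, Matrix.single_mul_single_same]; simp
  have e2 : Matrix.single k l (1 : ℂ) * (Matrix.single k l (1 : ℂ))ᴴ = Matrix.single k k 1 := by
    rw [Matrix.conjTranspose_single, Matrix.single_mul_single_same]; simp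
  rw [e1, e2]
  have e3 : ∀ i : κ, trace (C * Matrix.single i i (1 : ℂ)) = C i i := by
    intro i
    rw [Matrix.trace_mul_single]; simp
  rw [e3, e3]

/-- entries of `T0 = c0 C - x C c0` (in the original basis) -/
theorem entry_le (H : Diag C U h) {b : ℝ} (hb : 0 < b) (c0 : Matrix κ κ ℂ) {E : ℝ}
    (hE : wForm h (fun t => 1 / (2 + |t|)) (psi h b (Uᴴ * c0 * U)) ≤ E) (k l : κ) :
    ‖Tmat C b c0 k l‖ ≤ Cb b * √E * √((C l l).re + (C k k).re) := by
  have := H.pairing hb c0 (Matrix.single k l (1 : ℂ)) hE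
  rw [LR_single] at this
  have e : trace ((Matrix.single k l (1 : ℂ))ᴴ * Tmat C b c0) = Tmat C b c0 k l := by
    rw [Matrix.conjTranspose_single, trace_mul_comm, Matrix.trace_mul_single]; simp
  rwa [e] at this

theorem Tmat_sub (C c : Matrix κ κ ℂ) (b : ℝ) (m : ℂ) :
    Tmat C b (c - m • (1 : Matrix κ κ ℂ)) = Tmat C b c - (m * ((1 - Real.exp (-b) : ℝ) : ℂ)) • C := by
  unfold Tmat
  rw [Matrix.sub_mul, Matrix.mul_sub, Matrix.smul_mul, Matrix.mul_smul, Matrix.one_mul,
    Matrix.mul_one]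
  push_cast
  ext i j
  simp only [Matrix.sub_apply, Matrix.smul_apply, smul_eq_mul]
  ring

/-- entries of `T = c C - x C c` -/
theorem entry_le' (H : Diag C U h) {b : ℝ} (hb : 0 < b) (c : Matrix κ κ ℂ) (m : ℂ) {E : ℝ}
    (hE : wForm h (fun t => 1 / (2 + |t|)) (psi h b (Uᴴ * (c - m • (1 : Matrix κ κ ℂ)) * U)) ≤ E)
    (k l : κ) :
    ‖Tmat C b c k l‖ ≤ Cb b * √E * √((C l l).re + (C k k).re) + ‖m‖ * ‖C k l‖ := by
  have h1 := H.entry_le hb _ hE k l
  rw [Tmat_sub, Matrix.sub_apply, Matrix.smul_apply, smul_eq_mul] at h1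
  have h2 : ‖m * ((1 - Real.exp (-b) : ℝ) : ℂ) * C k l‖ ≤ ‖m‖ * ‖C k l‖ := by
    rw [norm_mul, norm_mul, Complex.norm_real, Real.norm_eq_abs]
    have h3 : |1 - Real.exp (-b)| ≤ 1 := by
      have h4 := Real.exp_pos (-b)
      have h5 : Real.exp (-b) ≤ 1 := by
        rw [← Real.exp_zero]; exact Real.exp_le_exp.2 (by linarith)
      rw [abs_of_nonneg (by linarith)]; linarith
    calc ‖m‖ * |1 - Real.exp (-b)| * ‖C k l‖ ≤ ‖m‖ * 1 * ‖C k l‖ := by gcongr
      _ = _ := by ring
  have h6 : Tmat C b c k l = (Tmat C b c k l - m * ((1 - Real.exp (-b) : ℝ) : ℂ) * C k l) +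
      m * ((1 - Real.exp (-b) : ℝ) : ℂ) * C k l := by ring
  rw [h6]
  refine (norm_add_le _ _).trans ?_
  linarith

/-- the energy relation, centred form -/
theorem energy0 (H : Diag C U h) {b : ℝ} (hb : 0 < b) (c0 : Matrix κ κ ℂ) {E : ℝ}
    (hE : wForm h (fun t => 1 / (2 + |t|)) (psi h b (Uᴴ * c0 * U)) ≤ E) :
    |(trace (C * (c0ᴴ * c0))).re - Real.exp (-b) * (trace (C * (c0 * c0ᴴ))).re| ≤
      Cb b * √E * √(LR C c0) := by
  have h1 := H.pairing hb c0 c0 hE
  have h2 : trace (c0ᴴ * Tmat C b c0) =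
      trace (C * (c0ᴴ * c0)) - ((Real.exp (-b) : ℝ) : ℂ) * trace (C * (c0 * c0ᴴ)) := by
    unfold Tmat
    rw [Matrix.mul_sub, Matrix.trace_sub, Matrix.mul_smul, Matrix.trace_smul, smul_eq_mul,
      ← Matrix.mul_assoc, trace_mul_comm (c0ᴴ * c0) C, trace_mul_comm c0ᴴ (C * c0),
      Matrix.mul_assoc C c0]
  rw [h2] at h1
  refine le_trans ?_ h1
  refine le_trans (le_of_eq ?_) (Complex.abs_re_le_norm _)
  congr 1
  rw [Complex.sub_re, Complex.re_ofReal_mul]

/-- `Tr C c0ᴴc0 = Tr C cᴴc - |m|²` for `c0 = c - m`, `m = Tr C c`, `Tr C = 1`. -/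
theorem centre_right (hH : C.IsHermitian) (htr : trace C = 1) (c : Matrix κ κ ℂ) {m : ℂ}
    (hm : m = trace (C * c)) :
    trace (C * ((c - m • (1 : Matrix κ κ ℂ))ᴴ * (c - m • (1 : Matrix κ κ ℂ)))) =
      trace (C * (cᴴ * c)) - star m * m := by
  have h1 : trace (C * cᴴ) = star m := by
    rw [hm, ← Matrix.trace_conjTranspose, Matrix.conjTranspose_mul, hH.eq, trace_mul_comm]
  rw [Matrix.conjTranspose_sub, Matrix.conjTranspose_smul, Matrix.conjTranspose_one,
    Matrix.sub_mul, Matrix.mul_sub, Matrix.mul_sub, Matrix.mul_sub, Matrix.mul_sub, Matrix.mul_sub,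
    Matrix.smul_mul, Matrix.mul_smul, Matrix.smul_mul, Matrix.mul_smul, Matrix.one_mul,
    Matrix.mul_one, Matrix.one_mul]
  simp only [Matrix.mul_smul, Matrix.trace_sub, Matrix.trace_smul, smul_eq_mul, Matrix.mul_one, h1,
    ← hm, htr]
  ring

theorem centre_left (hH : C.IsHermitian) (htr : trace C = 1) (c : Matrix κ κ ℂ) {m : ℂ}
    (hm : m = trace (C * c)) :
    trace (C * ((c - m • (1 : Matrix κ κ ℂ)) * (c - m • (1 : Matrix κ κ ℂ))ᴴ)) =
      trace (C * (c * cᴴ)) - star m * m := by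
  have h1 : trace (C * cᴴ) = star m := by
    rw [hm, ← Matrix.trace_conjTranspose, Matrix.conjTranspose_mul, hH.eq, trace_mul_comm]
  rw [Matrix.conjTranspose_sub, Matrix.conjTranspose_smul, Matrix.conjTranspose_one,
    Matrix.sub_mul, Matrix.mul_sub, Matrix.mul_sub, Matrix.mul_sub, Matrix.mul_sub, Matrix.mul_sub,
    Matrix.smul_mul, Matrix.mul_smul, Matrix.smul_mul, Matrix.mul_smul, Matrix.one_mul,
    Matrix.mul_one, Matrix.one_mul]
  simp only [Matrix.mul_smul, Matrix.trace_sub, Matrix.trace_smul, smul_eq_mul, Matrix.mul_one, h1,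
    ← hm, htr]
  ring

/-- **energy relation** -/
theorem energy (H : Diag C U h) (htr : trace C = 1) {b : ℝ} (hb : 0 < b) (c : Matrix κ κ ℂ)
    {m : ℂ} (hm : m = trace (C * c)) {E : ℝ}
    (hE : wForm h (fun t => 1 / (2 + |t|)) (psi h b (Uᴴ * (c - m • (1 : Matrix κ κ ℂ)) * U)) ≤ E) :
    |(trace (C * (cᴴ * c))).re - Real.exp (-b) * (trace (C * (c * cᴴ))).re
        - (1 - Real.exp (-b)) * ‖m‖ ^ 2| ≤ Cb b * √E * √(LR C c) := by
  have h1 := H.energy0 hb _ hE
  have hmm : (star m * m).re = ‖m‖ ^ 2 := by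
    rw [Complex.star_def, ← Complex.normSq_eq_conj_mul_self, Complex.ofReal_re,
      Complex.normSq_eq_norm_sq]
  have h2 : LR C (c - m • (1 : Matrix κ κ ℂ)) ≤ LR C c := by
    unfold LR
    rw [centre_right H.isHermitian htr c hm, centre_left H.isHermitian htr c hm,
      Complex.sub_re, Complex.sub_re, hmm]
    have : 0 ≤ ‖m‖ ^ 2 := sq_nonneg _
    linarith
  rw [centre_right H.isHermitian htr c hm, centre_left H.isHermitian htr c hm,
      Complex.sub_re, Complex.sub_re, hmm] at h1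
  have hC := Cb_pos hb
  refine le_trans (le_of_eq ?_) (h1.trans (mul_le_mul_of_nonneg_left (Real.sqrt_le_sqrt h2)
    (by positivity)))
  congr 1
  ring

end Diag

end Crest.Agent.R331.Fin7_380
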