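import Mathlib
import Crest.Agent.R331.FCur_380
import Crest.Agent.R331.Fin8_628

set_option autoImplicit false
set_option linter.unusedSectionVars false

/-!
Row 331, finite track, leaf FCUR part B: truncated annihilation matrices on the boxes and the
passage from the slack to the ladder relation (`LadLim`) and to the energy bound.
-/

open Matrix Finset Filter Topology
open scoped ComplexOrder

namespace Crest.Agent.R331.FCur380

open Crest.Quantum Crest.MathPhysics.Bosonic
open Crest.Agent.R331.Fin7_380 (Diag)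
open Crest.Agent.R331.Fin7_380.Diag (LR LR_single)
open Crest.Agent.R331.Fin8_628 (Bx occ boxF toBx ext tot en uni LadLim occ_injective mem_boxF occ_mem
  occ_toBx toBx_occ ext_occ ext_of_mem ext_left ext_right sub_add_uni uni_same uni_ne normSq_ext_le
  dg dg_occ dg_nonneg dg_le_one)

variable {n m : ℕ}

/-- truncated annihilation matrix of mode `j` on the box -/
noncomputable def ann (n m : ℕ) (j : Fin n) : Matrix (Bx n m) (Bx n m) ℂ :=
  Matrix.of fun k l => if occ k + uni j = occ l then ((Real.sqrt ((l j : ℕ) : ℝ) : ℝ) : ℂ) else 0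

theorem ann_apply (j : Fin n) (k l : Bx n m) :
    ann n m j k l = if occ k + uni j = occ l then ((Real.sqrt ((l j : ℕ) : ℝ) : ℝ) : ℂ) else 0 := rfl

theorem ann_mul (j : Fin n) (C : Matrix (Bx n m) (Bx n m) ℂ) (k l : Bx n m) :
    (ann n m j * C) k l =
      ((Real.sqrt (((k j : ℕ) : ℝ) + 1) : ℝ) : ℂ) * ext C (occ k + uni j) (occ l) := by
  rw [Matrix.mul_apply]
  by_cases hk : occ k + uni j ∈ boxF n m
  · rw [Finset.sum_eq_single (toBx (occ k + uni j) hk)]
    · rw [ann_apply, occ_toBx, if_pos rfl, ext_of_mem C hk (occ_mem l), toBx_occ]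
      congr 3
      have : ((toBx (occ k + uni j) hk j : ℕ)) = (k j : ℕ) + 1 := by
        change (occ k + uni j) j = _
        simp [uni_same, occ]
      rw [this]; push_cast; rfl
    · intro p _ hp
      rw [ann_apply, if_neg, zero_mul]
      intro h
      apply hp
      apply occ_injective
      rw [occ_toBx, h]
    · intro h; exact absurd (Finset.mem_univ _) h
  · rw [ext_left C hk, mul_zero]
    refine Finset.sum_eq_zero fun p _ => ?_
    rw [ann_apply, if_neg, zero_mul]
    intro h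
    exact hk (h ▸ occ_mem p)

theorem mul_ann (j : Fin n) (C : Matrix (Bx n m) (Bx n m) ℂ) (k l : Bx n m) :
    (C * ann n m j) k l =
      ((Real.sqrt ((l j : ℕ) : ℝ) : ℝ) : ℂ) * ext C (occ k) (occ l - uni j) := by
  rw [Matrix.mul_apply]
  by_cases hl : 1 ≤ (l j : ℕ)
  · have hl' : 1 ≤ occ l j := hl
    have hmem : occ l - uni j ∈ boxF n m := by
      rw [mem_boxF]
      intro i
      have := (mem_boxF.1 (occ_mem l)) i
      have h2 : (occ l - uni j) i ≤ occ l i := by
        change occ l i - uni j i ≤ occ l i; omega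
      omega
    rw [Finset.sum_eq_single (toBx (occ l - uni j) hmem)]
    · rw [ann_apply, occ_toBx, if_pos (sub_add_uni hl'), ext_of_mem C (occ_mem k) hmem, toBx_occ,
        mul_comm]
    · intro p _ hp
      rw [ann_apply, if_neg, mul_zero]
      intro h
      apply hp
      apply occ_injective
      rw [occ_toBx, ← h]
      funext i
      change _ = (occ p i + uni j i) - uni j i
      omega
    · intro h; exact absurd (Finset.mem_univ _) h
  · have h0 : (l j : ℕ) = 0 := by omega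
    rw [h0]
    simp only [Nat.cast_zero, Real.sqrt_zero, Complex.ofReal_zero, zero_mul]
    refine Finset.sum_eq_zero fun p _ => ?_
    rw [ann_apply, if_neg, mul_zero]
    intro h
    have h1 := congrFun h j
    have h2 : occ p j + 1 = occ l j := by
      have : (occ p + uni j) j = occ p j + 1 := by
        change occ p j + uni j j = _; rw [uni_same]
      rw [← this]; exact h1
    have h3 : occ l j = 0 := h0
    omega

theorem trace_ann (j : Fin n) : trace (ann n m j) = 0 := by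
  rw [Matrix.trace]
  refine Finset.sum_eq_zero fun k _ => ?_
  rw [Matrix.diag_apply, ann_apply, if_neg]
  intro h
  have h1 := congrFun h j
  have h2 : (occ k + uni j) j = occ k j + 1 := by
    change occ k j + uni j j = _; rw [uni_same]
  rw [h2] at h1
  omega

theorem annH_mul_ann (j : Fin n) :
    (ann n m j)ᴴ * ann n m j = diagonal fun k : Bx n m => (((k j : ℕ) : ℝ) : ℂ) := by
  ext k l
  rw [Matrix.mul_apply, Matrix.diagonal_apply]
  by_cases hkl : k = l
  · subst hkl
    rw [if_pos rfl]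
    by_cases hl : 1 ≤ (k j : ℕ)
    · have hl' : 1 ≤ occ k j := hl
      have hmem : occ k - uni j ∈ boxF n m := by
        rw [mem_boxF]
        intro i
        have := (mem_boxF.1 (occ_mem k)) i
        have h2 : (occ k - uni j) i ≤ occ k i := by
          change occ k i - uni j i ≤ occ k i; omega
        omega
      rw [Finset.sum_eq_single (toBx (occ k - uni j) hmem)]
      · rw [Matrix.conjTranspose_apply, ann_apply, occ_toBx, if_pos (sub_add_uni hl'),
          Complex.star_def, Complex.conj_ofReal, ← Complex.ofReal_mul,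
          Real.mul_self_sqrt (Nat.cast_nonneg _)]
      · intro p _ hp
        rw [ann_apply, if_neg, mul_zero]
        intro h
        apply hp
        apply occ_injective
        rw [occ_toBx, ← h]
        funext i
        change _ = (occ p i + uni j i) - uni j i
        omega
      · intro h; exact absurd (Finset.mem_univ _) h
    · have h0 : (k j : ℕ) = 0 := by omega
      rw [h0]
      simp only [Nat.cast_zero, Complex.ofReal_zero]
      refine Finset.sum_eq_zero fun p _ => ?_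
      rw [ann_apply, if_neg, mul_zero]
      intro h
      have h1 := congrFun h j
      have h2 : (occ p + uni j) j = occ p j + 1 := by
        change occ p j + uni j j = _; rw [uni_same]
      have h3 : occ k j = 0 := h0
      rw [h2] at h1
      omega
  · rw [if_neg hkl]
    refine Finset.sum_eq_zero fun p _ => ?_
    rw [Matrix.conjTranspose_apply, ann_apply, ann_apply]
    by_cases h1 : occ p + uni j = occ k
    · rw [if_pos h1, if_neg, mul_zero]
      intro h2
      apply hkl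
      apply occ_injective
      rw [← h1, ← h2]
    · rw [if_neg h1, star_zero, zero_mul]

theorem ann_mul_annH (j : Fin n) :
    ann n m j * (ann n m j)ᴴ = diagonal fun k : Bx n m =>
      (((if occ k + uni j ∈ boxF n m then ((k j : ℕ) : ℝ) + 1 else 0) : ℝ) : ℂ) := by
  ext k l
  rw [Matrix.mul_apply, Matrix.diagonal_apply]
  by_cases hk : occ k + uni j ∈ boxF n m
  · rw [Finset.sum_eq_single (toBx (occ k + uni j) hk)]
    · rw [Matrix.conjTranspose_apply, ann_apply, ann_apply, occ_toBx, if_pos rfl]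
      by_cases hkl : k = l
      · subst hkl
        rw [if_pos rfl, if_pos rfl, if_pos hk, Complex.star_def, Complex.conj_ofReal,
          ← Complex.ofReal_mul, Real.mul_self_sqrt (Nat.cast_nonneg _)]
        have : ((toBx (occ k + uni j) hk j : ℕ)) = (k j : ℕ) + 1 := by
          change (occ k + uni j) j = _
          simp [uni_same, occ]
        rw [this]; push_cast; rfl
      · rw [if_neg hkl, if_neg, star_zero, mul_zero]
        intro h
        apply hkl
        apply occ_injective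
        exact (add_right_cancel h).symm
    · intro p _ hp
      rw [ann_apply, if_neg, zero_mul]
      intro h
      apply hp
      apply occ_injective
      rw [occ_toBx, h]
    · intro h; exact absurd (Finset.mem_univ _) h
  · rw [if_neg hk, Complex.ofReal_zero]
    have : (if k = l then (0 : ℂ) else 0) = 0 := by split_ifs <;> rfl
    rw [this]
    refine Finset.sum_eq_zero fun p _ => ?_
    rw [ann_apply, if_neg, zero_mul]
    intro h
    exact hk (h ▸ occ_mem p)

/-- `j`-th mode energy -/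
noncomputable def enj (C : Matrix (Bx n m) (Bx n m) ℂ) (j : Fin n) : ℝ :=
  ∑ k : Bx n m, ((k j : ℕ) : ℝ) * (C k k).re

theorem en_eq (C : Matrix (Bx n m) (Bx n m) ℂ) : en C = ∑ j, enj C j := by
  unfold en enj
  rw [Finset.sum_comm]
  refine Finset.sum_congr rfl fun k _ => ?_
  rw [tot, ← Finset.sum_mul]
  congr 1
  rw [Nat.cast_sum]
  rfl

theorem trace_mul_diagonal_re (C : Matrix (Bx n m) (Bx n m) ℂ) (d : Bx n m → ℝ) :
    (trace (C * diagonal fun k => (d k : ℂ))).re = ∑ k, d k * (C k k).re := by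
  rw [Matrix.trace, Complex.re_sum]
  refine Finset.sum_congr rfl fun k _ => ?_
  rw [Matrix.diag_apply, Matrix.mul_diagonal, mul_comm, Complex.re_ofReal_mul]

theorem trace_annH_ann (C : Matrix (Bx n m) (Bx n m) ℂ) (j : Fin n) :
    (trace (C * ((ann n m j)ᴴ * ann n m j))).re = enj C j := by
  rw [annH_mul_ann, trace_mul_diagonal_re]
  rfl

theorem diag_re_nonneg {C : Matrix (Bx n m) (Bx n m) ℂ} (hC : C.PosSemidef) (k : Bx n m) :
    0 ≤ (C k k).re := by
  rw [← dg_occ]; exact dg_nonneg hC _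

theorem sum_diag {C : Matrix (Bx n m) (Bx n m) ℂ} (hC : IsDensity C) : ∑ k, (C k k).re = 1 := by
  have h := congrArg Complex.re hC.2
  rw [Matrix.trace, Complex.re_sum] at h
  simpa using h

theorem enj_nonneg {C : Matrix (Bx n m) (Bx n m) ℂ} (hC : C.PosSemidef) (j : Fin n) :
    0 ≤ enj C j :=
  Finset.sum_nonneg fun k _ => mul_nonneg (Nat.cast_nonneg _) (diag_re_nonneg hC k)

theorem enj_le_en {C : Matrix (Bx n m) (Bx n m) ℂ} (hC : C.PosSemidef) (j : Fin n) :
    enj C j ≤ en C := by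
  rw [en_eq]
  exact Finset.single_le_sum (f := fun j => enj C j) (fun i _ => enj_nonneg hC i)
    (Finset.mem_univ j)

theorem trace_ann_annH_le {C : Matrix (Bx n m) (Bx n m) ℂ} (hC : IsDensity C) (j : Fin n) :
    (trace (C * (ann n m j * (ann n m j)ᴴ))).re ≤
      (trace (C * ((ann n m j)ᴴ * ann n m j))).re + 1 := by
  have hs := sum_diag hC
  rw [ann_mul_annH, annH_mul_ann, trace_mul_diagonal_re, trace_mul_diagonal_re]
  refine le_trans ?_ (le_of_eq (congrArg (fun z => (∑ k : Bx n m, ((k j : ℕ) : ℝ) * (C k k).re) + z) hs))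
  rw [← Finset.sum_add_distrib]
  refine Finset.sum_le_sum fun k _ => ?_
  have h1 := diag_re_nonneg hC.1 k
  have h2 : (0 : ℝ) ≤ ((k j : ℕ) : ℝ) := Nat.cast_nonneg _
  split_ifs
  · linarith
  · nlinarith

theorem trace_annH_ann_le (j : Fin n) :
    (trace ((ann n m j)ᴴ * ann n m j)).re ≤ ((m : ℝ) + 1) ^ (n + 1) := by
  rw [annH_mul_ann, Matrix.trace_diagonal, Complex.re_sum]
  calc ∑ k : Bx n m, ((((k j : ℕ) : ℝ) : ℂ)).re ≤ ∑ k : Bx n m, ((m : ℝ) + 1) := by
        refine Finset.sum_le_sum fun k _ => ?_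
        rw [Complex.ofReal_re]
        have : (k j : ℕ) ≤ m := Nat.lt_succ_iff.1 (k j).2
        have h2 : ((k j : ℕ) : ℝ) ≤ m := by exact_mod_cast this
        linarith
    _ = ((m : ℝ) + 1) ^ (n + 1) := by
        rw [Finset.sum_const, nsmul_eq_mul, Finset.card_univ]
        simp only [Fintype.card_fun, Fintype.card_fin]
        push_cast
        ring

theorem norm_entry_le {C : Matrix (Bx n m) (Bx n m) ℂ} (hC : IsDensity C) (k l : Bx n m) :
    ‖C k l‖ ≤ 1 := by
  have h1 := Fin8_628.normSq_le_of_psd hC.1 k l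
  have h2 : ∀ k, (C k k).re ≤ 1 := by
    intro k; rw [← dg_occ]; exact dg_le_one hC _
  have h3 : ∀ k, 0 ≤ (C k k).re := fun k => diag_re_nonneg hC.1 k
  have h4 : ‖C k l‖ ^ 2 ≤ 1 := by
    refine le_trans ?_ (show (C k k).re * (C l l).re ≤ 1 by nlinarith [h2 k, h2 l, h3 k, h3 l])
    rw [← Complex.normSq_eq_norm_sq]; exact h1
  nlinarith [norm_nonneg (C k l)]

/-! ### The limit -/

section limit

open Crest.Agent.R331.Gibbs158 (qN)

variable {α : Type*} {F : Filter α} {n : ℕ}

theorem wmat_Q (N ε : ℝ) (C c : Matrix (Bx n m) (Bx n m) ℂ) :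
    wmat N (C + (ε : ℂ) • (1 : Matrix (Bx n m) (Bx n m) ℂ)) c = wmat N C c + (ε : ℂ) • c := by
  unfold wmat
  rw [Matrix.mul_add, Matrix.add_mul, Matrix.mul_smul, Matrix.smul_mul, Matrix.mul_one,
    Matrix.one_mul]
  push_cast
  ext i j
  simp only [Matrix.sub_apply, Matrix.smul_apply, Matrix.add_apply, smul_eq_mul]
  ring

/-- quantitative ladder relation, one matrix element -/
theorem ladder_le {C U : Matrix (Bx n m) (Bx n m) ℂ} {h : Bx n m → ℝ} {ε N : ℝ} (hN : 0 < N)
    (hε : 0 ≤ ε) (hC : IsDensity C)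
    (H : Diag (C + (ε : ℂ) • (1 : Matrix (Bx n m) (Bx n m) ℂ)) U h) (j : Fin n) (μ : ℂ)
    (k l : Bx n m) :
    ‖((((N + 1) * Real.sqrt (((k j : ℕ) : ℝ) + 1) : ℝ)) : ℂ) * ext C (occ k + uni j) (occ l) -
      (((N * Real.sqrt ((l j : ℕ) : ℝ) : ℝ)) : ℂ) * ext C (occ k) (occ l - uni j)‖ ≤
      √(2 + 2 * ε) * √(slk h (Real.log (1 + 1 / N))
        (Uᴴ * (ann n m j - μ • (1 : Matrix (Bx n m) (Bx n m) ℂ)) * U)) / Real.log (1 + 1 / N) +
      ‖μ‖ * (1 + ε) + ε * Real.sqrt ((l j : ℕ) : ℝ) := by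
  have hb := b_pos hN
  set Q := C + (ε : ℂ) • (1 : Matrix (Bx n m) (Bx n m) ℂ) with hQ
  have h1 := current_entry H hN (ann n m j) μ k l
  set S := √(slk h (Real.log (1 + 1 / N))
        (Uᴴ * (ann n m j - μ • (1 : Matrix (Bx n m) (Bx n m) ℂ)) * U)) with hS
  have hre : ∀ k, (C k k).re ≤ 1 := by
    intro k
    exact (Complex.re_le_norm _).trans (norm_entry_le hC k k)
  have hQd : ∀ k, (Q k k).re ≤ 1 + ε := by
    intro k
    rw [hQ, Matrix.add_apply, Matrix.smul_apply, Matrix.one_apply_eq, smul_eq_mul, mul_one,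
      Complex.add_re, Complex.ofReal_re]
    linarith [hre k]
  have hQn : ‖Q k l‖ ≤ 1 + ε := by
    rw [hQ, Matrix.add_apply, Matrix.smul_apply, smul_eq_mul]
    refine (norm_add_le _ _).trans ?_
    have h2 : ‖(ε : ℂ) * (1 : Matrix (Bx n m) (Bx n m) ℂ) k l‖ ≤ ε := by
      rw [norm_mul, Complex.norm_real, Real.norm_eq_abs, abs_of_nonneg hε, Matrix.one_apply]
      split_ifs <;> simp [hε]
    linarith [norm_entry_le hC k l]
  have h2 : ‖wmat N Q (ann n m j) k l - μ * Q k l‖ ≤
      √(2 + 2 * ε) * S / Real.log (1 + 1 / N) := by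
    rw [le_div_iff₀ hb, mul_comm]
    refine h1.trans ?_
    apply mul_le_mul_of_nonneg_right _ (Real.sqrt_nonneg _)
    apply Real.sqrt_le_sqrt
    linarith [hQd k, hQd l]
  have h3 : ((((N + 1) * Real.sqrt (((k j : ℕ) : ℝ) + 1) : ℝ)) : ℂ) *
      ext C (occ k + uni j) (occ l) -
      (((N * Real.sqrt ((l j : ℕ) : ℝ) : ℝ)) : ℂ) * ext C (occ k) (occ l - uni j) =
      (wmat N Q (ann n m j) k l - μ * Q k l) + μ * Q k l - (ε : ℂ) * ann n m j k l := by
    rw [hQ, wmat_Q]
    rw [Matrix.add_apply (wmat N C (ann n m j)), Matrix.smul_apply (ε : ℂ) (ann n m j)]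
    unfold wmat
    rw [Matrix.sub_apply, Matrix.smul_apply, Matrix.smul_apply, ann_mul, mul_ann]
    push_cast
    simp only [smul_eq_mul]
    ring
  rw [h3]
  refine (norm_sub_le _ _).trans ?_
  have h4 : ‖(ε : ℂ) * ann n m j k l‖ ≤ ε * Real.sqrt ((l j : ℕ) : ℝ) := by
    rw [norm_mul, Complex.norm_real, Real.norm_eq_abs, abs_of_nonneg hε, ann_apply]
    apply mul_le_mul_of_nonneg_left _ hε
    split_ifs
    · rw [Complex.norm_real, Real.norm_eq_abs, abs_of_nonneg (Real.sqrt_nonneg _)]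
    · rw [norm_zero]; exact Real.sqrt_nonneg _
  have h5 : ‖μ * Q k l‖ ≤ ‖μ‖ * (1 + ε) := by
    rw [norm_mul]; exact mul_le_mul_of_nonneg_left hQn (norm_nonneg _)
  have h6 := norm_add_le (wmat N Q (ann n m j) k l - μ * Q k l) (μ * Q k l)
  linarith

/-- **the ladder relation in the limit** -/
theorem ladLim {m : α → ℕ} (hm : Tendsto m F atTop)
    {C U : ∀ a, Matrix (Bx n (m a)) (Bx n (m a)) ℂ} {h : ∀ a, Bx n (m a) → ℝ} {ε : α → ℝ} {N : ℝ}
    (hN : 0 < N) (hC : ∀ a, IsDensity (C a)) (hε : ∀ a, 0 ≤ ε a) (hε0 : Tendsto ε F (𝓝 0))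
    (H : ∀ a, Diag (C a + ((ε a : ℝ) : ℂ) • (1 : Matrix (Bx n (m a)) (Bx n (m a)) ℂ)) (U a) (h a))
    (μ : Fin n → α → ℂ) (hμ : ∀ j, Tendsto (μ j) F (𝓝 0))
    (hs : ∀ j, Tendsto (fun a => slk (h a) (Real.log (1 + 1 / N))
      ((U a)ᴴ * (ann n (m a) j - μ j a • (1 : Matrix (Bx n (m a)) (Bx n (m a)) ℂ)) * U a)) F (𝓝 0)) :
    LadLim F (qN N) (fun a => ext (C a)) := by
  intro j i l
  have hb := b_pos hN
  have hN1 : (0 : ℝ) < N + 1 := by linarith
  -- the error term
  have herr : Tendsto (fun a => (√(2 + 2 * ε a) * √(slk (h a) (Real.log (1 + 1 / N))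
      ((U a)ᴴ * (ann n (m a) j - μ j a • (1 : Matrix (Bx n (m a)) (Bx n (m a)) ℂ)) * U a)) /
        Real.log (1 + 1 / N) + ‖μ j a‖ * (1 + ε a) + ε a * Real.sqrt (l j : ℝ)) / (N + 1))
      F (𝓝 0) := by
    have h1 : Tendsto (fun a => √(2 + 2 * ε a)) F (𝓝 (√(2 + 2 * 0))) :=
      ((hε0.const_mul 2).const_add 2).sqrt
    have h2 := (hs j).sqrt
    rw [Real.sqrt_zero] at h2
    have h3 := ((h1.mul h2).div_const (Real.log (1 + 1 / N))).add
      (((hμ j).norm).mul (hε0.const_add 1))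
    have h4 := (h3.add (hε0.mul_const (Real.sqrt (l j : ℝ)))).div_const (N + 1)
    simpa using h4
  have hmi : ∀ᶠ a in F, i ∈ boxF n (m a) ∧ l ∈ boxF n (m a) := by
    have h1 : ∀ᶠ a in F, (tot i + tot l) ≤ m a := hm.eventually_ge_atTop _
    filter_upwards [h1] with a ha
    constructor
    · rw [mem_boxF]; intro r
      have : i r ≤ tot i := Finset.single_le_sum (f := fun r => i r) (fun _ _ => Nat.zero_le _)
        (Finset.mem_univ r)
      omega
    · rw [mem_boxF]; intro r
      have : l r ≤ tot l := Finset.single_le_sum (f := fun r => l r) (fun _ _ => Nat.zero_le _)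
        (Finset.mem_univ r)
      omega
  refine squeeze_zero_norm' ?_ herr
  filter_upwards [hmi] with a ha
  have h1 := ladder_le hN (hε a) (hC a) (H a) j (μ j a) (toBx i ha.1) (toBx l ha.2)
  rw [occ_toBx, occ_toBx] at h1
  have e1 : ((toBx i ha.1 j : ℕ) : ℝ) = (i j : ℝ) := rfl
  have e2 : ((toBx l ha.2 j : ℕ) : ℝ) = (l j : ℝ) := rfl
  rw [e1, e2] at h1
  rw [le_div_iff₀ hN1]
  refine le_trans (le_of_eq ?_) h1
  have e3 : qN N * (N + 1) = N := by
    unfold qN; field_simp
  have e4 : ∀ z : ℂ, ‖z‖ * (N + 1) = ‖((N + 1 : ℝ) : ℂ) * z‖ := by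
    intro z
    rw [norm_mul, Complex.norm_real, Real.norm_eq_abs, abs_of_pos hN1, mul_comm]
  rw [e4]
  congr 1
  rw [mul_sub]
  have e5 : ((N + 1 : ℝ) : ℂ) * (((qN N * Real.sqrt (l j : ℝ) : ℝ) : ℂ) *
      ext (C a) i (l - uni j)) = ((N * Real.sqrt (l j : ℝ) : ℝ) : ℂ) * ext (C a) i (l - uni j) := by
    rw [← mul_assoc, ← Complex.ofReal_mul]
    congr 2
    rw [← mul_assoc, mul_comm (N + 1) (qN N), e3]
  rw [e5, ← mul_assoc, ← Complex.ofReal_mul]

/-- upper bound for the energy of one mode -/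
theorem enj_le {C U : Matrix (Bx n m) (Bx n m) ℂ} {h : Bx n m → ℝ} {ε N E : ℝ} (hN : 0 < N)
    (hε : 0 ≤ ε) (hC : IsDensity C)
    (H : Diag (C + (ε : ℂ) • (1 : Matrix (Bx n m) (Bx n m) ℂ)) U h) (j : Fin n) {μ : ℂ}
    (hμ : μ = trace (C * ann n m j)) (hE : en C ≤ E) :
    enj C j ≤ N + ‖μ‖ ^ 2 + √(2 * E + 1 + 2 * (ε * ((m : ℝ) + 1) ^ (n + 1))) *
      √(slk h (Real.log (1 + 1 / N))
        (Uᴴ * (ann n m j - μ • (1 : Matrix (Bx n m) (Bx n m) ℂ)) * U)) / Real.log (1 + 1 / N) := by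
  have hb := b_pos hN
  have h1 := energy_le hN H hC.1.1 (ann n m j) (trace_ann j) hμ hε (trace_ann_annH_le hC j)
  rw [trace_annH_ann] at h1
  set S := √(slk h (Real.log (1 + 1 / N))
        (Uᴴ * (ann n m j - μ • (1 : Matrix (Bx n m) (Bx n m) ℂ)) * U)) with hS
  have h2 : enj C j - N - ‖μ‖ ^ 2 ≤ √(2 * E + 1 + 2 * (ε * ((m : ℝ) + 1) ^ (n + 1))) * S /
      Real.log (1 + 1 / N) := by
    rw [le_div_iff₀ hb, mul_comm]
    refine h1.trans ?_
    apply mul_le_mul_of_nonneg_right _ (Real.sqrt_nonneg _)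
    apply Real.sqrt_le_sqrt
    have h3 := (enj_le_en hC.1 j).trans hE
    have h4 := mul_le_mul_of_nonneg_left (trace_annH_ann_le (n := n) (m := m) j) hε
    linarith
  linarith

/-- **energy in the limit** -/
theorem energy_limsup {m : α → ℕ}
    {C U : ∀ a, Matrix (Bx n (m a)) (Bx n (m a)) ℂ} {h : ∀ a, Bx n (m a) → ℝ} {ε : α → ℝ} {N E : ℝ}
    (hN : 0 < N) (hC : ∀ a, IsDensity (C a)) (hε : ∀ a, 0 ≤ ε a)
    (hε0 : Tendsto (fun a => ε a * ((m a : ℝ) + 1) ^ (n + 1)) F (𝓝 0))
    (H : ∀ a, Diag (C a + ((ε a : ℝ) : ℂ) • (1 : Matrix (Bx n (m a)) (Bx n (m a)) ℂ)) (U a) (h a))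
    (hE : ∀ a, en (C a) ≤ E)
    (hμ : ∀ j, Tendsto (fun a => trace (C a * ann n (m a) j)) F (𝓝 0))
    (hs : ∀ j, Tendsto (fun a => slk (h a) (Real.log (1 + 1 / N))
      ((U a)ᴴ * (ann n (m a) j - trace (C a * ann n (m a) j) •
        (1 : Matrix (Bx n (m a)) (Bx n (m a)) ℂ)) * U a)) F (𝓝 0))
    {δ : ℝ} (hδ : 0 < δ) : ∀ᶠ a in F, en (C a) ≤ n * N + δ := by
  have hj : ∀ j, Tendsto (fun a => N + ‖trace (C a * ann n (m a) j)‖ ^ 2 +
      √(2 * E + 1 + 2 * (ε a * ((m a : ℝ) + 1) ^ (n + 1))) *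
      √(slk (h a) (Real.log (1 + 1 / N)) ((U a)ᴴ * (ann n (m a) j -
        trace (C a * ann n (m a) j) • (1 : Matrix (Bx n (m a)) (Bx n (m a)) ℂ)) * U a)) /
        Real.log (1 + 1 / N)) F (𝓝 N) := by
    intro j
    have h1 : Tendsto (fun a => √(2 * E + 1 + 2 * (ε a * ((m a : ℝ) + 1) ^ (n + 1)))) F
        (𝓝 (√(2 * E + 1 + 2 * 0))) := ((hε0.const_mul 2).const_add (2 * E + 1)).sqrt
    have h2 := (hs j).sqrt
    rw [Real.sqrt_zero] at h2
    have h3 := (((hμ j).norm.pow 2).const_add N).add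
      ((h1.mul h2).div_const (Real.log (1 + 1 / N)))
    simpa using h3
  have hsum : Tendsto (fun a => ∑ j, (N + ‖trace (C a * ann n (m a) j)‖ ^ 2 +
      √(2 * E + 1 + 2 * (ε a * ((m a : ℝ) + 1) ^ (n + 1))) *
      √(slk (h a) (Real.log (1 + 1 / N)) ((U a)ᴴ * (ann n (m a) j -
        trace (C a * ann n (m a) j) • (1 : Matrix (Bx n (m a)) (Bx n (m a)) ℂ)) * U a)) /
        Real.log (1 + 1 / N))) F (𝓝 (∑ _j : Fin n, N)) :=
    tendsto_finsetSum _ fun j _ => hj j
  rw [Finset.sum_const, Finset.card_univ, Fintype.card_fin, nsmul_eq_mul] at hsum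
  filter_upwards [hsum.eventually_le_const (show (n : ℝ) * N < n * N + δ by linarith)] with a ha
  refine le_trans ?_ ha
  rw [en_eq]
  exact Finset.sum_le_sum fun j _ => enj_le hN (hε a) (hC a) (H a) j rfl (hE a)

end limit

end Crest.Agent.R331.FCur380
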