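import Mathlib
import Crest.Agent.R331.FCurB_380
import Crest.Agent.R331.FDefs_136

set_option autoImplicit false
set_option linter.unusedSectionVars false

/-!
Row 331, finite track, leaf FCUR part C: the interface with the frozen definitions `FDefs_136`.
-/

open Matrix Finset Filter Topology
open scoped ComplexOrder

namespace Crest.Agent.R331.FCur380

open Crest.Quantum Crest.MathPhysics.Bosonic
open Crest.Agent.R331.Fin7_380 (Diag)
open Crest.Agent.R331.Fin8_628 (occ boxF toBx ext tot en uni LadLim uni_same uni_ne)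
open Crest.Agent.R331.FDefs136 (Par outC outQ GQc formD mC GG KL mlog qf eb al succIn)
open Crest.Agent.R331.Gibbs158 (qN)

variable {n K : ℕ}

theorem succIn_iff (j : Fin n) (k l : FDefs136.Bx n K) :
    succIn j k l ↔ (occ (m := K) k : Occ n) + uni j = occ (m := K) l := by
  unfold succIn
  constructor
  · intro h
    funext i
    have h1 := h i
    change occ (m := K) k i + uni j i = occ (m := K) l i
    by_cases hi : i = j
    · subst hi
      rw [if_pos rfl] at h1
      rw [uni_same]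
      exact h1.symm
    · rw [if_neg hi] at h1
      rw [uni_ne hi]
      exact h1.symm
  · intro h i
    have h1 := congrFun h i
    have h2 : (occ (m := K) k + uni j) i = (k i : ℕ) + uni j i := rfl
    rw [h2] at h1
    have h3 : occ (m := K) l i = (l i : ℕ) := rfl
    rw [h3] at h1
    by_cases hi : i = j
    · subst hi
      rw [uni_same] at h1
      rw [if_pos rfl]; exact h1.symm
    · rw [uni_ne hi] at h1
      rw [if_neg hi]; exact h1.symm

theorem ann_eq (n K : ℕ) (j : Fin n) : FDefs136.ann n K j = ann n K j := by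
  ext k l
  rw [ann_apply]
  unfold FDefs136.ann
  rw [Matrix.of_apply]
  by_cases h : succIn j k l
  · rw [if_pos h, if_pos ((succIn_iff j k l).1 h)]
  · rw [if_neg h, if_neg (fun h' => h ((succIn_iff j k l).2 h'))]

section generic

variable {κ : Type*} [Fintype κ] [DecidableEq κ]

/-- the eigen-decomposition used by `FDefs136` -/
theorem diag_of_posDef {Q : Matrix κ κ ℂ} (hQ : Q.PosDef) :
    Diag Q (hQ.isHermitian.eigenvectorUnitary : Matrix κ κ ℂ)
      (fun k => Real.log (hQ.isHermitian.eigenvalues k)) := by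
  have hH := hQ.isHermitian
  refine ⟨?_, ?_⟩
  · have := Unitary.coe_star_mul_self hH.eigenvectorUnitary
    rwa [Matrix.star_eq_conjTranspose] at this
  · have h1 := hH.spectral_theorem
    rw [Unitary.conjStarAlgAut_apply] at h1
    rw [Matrix.star_eq_conjTranspose] at h1
    conv_lhs => rw [h1]
    congr 2
    ext i j
    by_cases hij : i = j
    · subst hij
      simp [Real.exp_log (hQ.eigenvalues_pos i)]
    · simp [hij]

theorem eb_G {Q : Matrix κ κ ℂ} (hQ : Q.PosDef) (b : ℝ) (x : Matrix κ κ ℂ) (μ : ℂ) (i j : κ) :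
    eb hQ.isHermitian (GG b Q x - ((b : ℂ) * μ) • (1 : Matrix κ κ ℂ)) i j =
      ((b - (Real.log (hQ.isHermitian.eigenvalues i) - Real.log (hQ.isHermitian.eigenvalues j)) : ℝ)
        : ℂ) * ((hQ.isHermitian.eigenvectorUnitary : Matrix κ κ ℂ)ᴴ *
          (x - μ • (1 : Matrix κ κ ℂ)) * (hQ.isHermitian.eigenvectorUnitary : Matrix κ κ ℂ)) i j := by
  have H := diag_of_posDef hQ
  set U := (hQ.isHermitian.eigenvectorUnitary : Matrix κ κ ℂ) with hU
  have hKL : KL Q = - (U * Matrix.diagonal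
      (fun i => ((Real.log (hQ.isHermitian.eigenvalues i) : ℝ) : ℂ)) * Uᴴ) := by
    unfold KL mlog
    rw [dif_pos hQ.isHermitian]
  set L := Matrix.diagonal (fun i => ((Real.log (hQ.isHermitian.eigenvalues i) : ℝ) : ℂ)) with hL
  have e1 : Uᴴ * (KL Q * x) * U = - (L * (Uᴴ * x * U)) := by
    rw [hKL]
    calc Uᴴ * (-(U * L * Uᴴ) * x) * U = -((Uᴴ * U) * L * (Uᴴ * x * U)) := by
          simp only [Matrix.mul_assoc, Matrix.neg_mul, Matrix.mul_neg]
      _ = _ := by rw [H.unit, Matrix.one_mul]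
  have e2 : Uᴴ * (x * KL Q) * U = - ((Uᴴ * x * U) * L) := by
    rw [hKL]
    calc Uᴴ * (x * -(U * L * Uᴴ)) * U = -((Uᴴ * x * U) * L * (Uᴴ * U)) := by
          simp only [Matrix.mul_assoc, Matrix.neg_mul, Matrix.mul_neg]
      _ = _ := by rw [H.unit, Matrix.mul_one]
  have e3 : Uᴴ * (1 : Matrix κ κ ℂ) * U = 1 := by rw [Matrix.mul_one, H.unit]
  unfold eb GG
  rw [← hU]
  have e4 : Uᴴ * (KL Q * x - x * KL Q + (b : ℂ) • x - ((b : ℂ) * μ) • (1 : Matrix κ κ ℂ)) * U =
      -(L * (Uᴴ * x * U)) + (Uᴴ * x * U) * L + (b : ℂ) • (Uᴴ * x * U) -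
        ((b : ℂ) * μ) • (1 : Matrix κ κ ℂ) := by
    rw [Matrix.mul_sub, Matrix.mul_add, Matrix.mul_sub, Matrix.sub_mul, Matrix.add_mul,
      Matrix.sub_mul, e1, e2, Matrix.mul_smul, Matrix.smul_mul, Matrix.mul_smul, Matrix.smul_mul, e3]
    abel
  have e5 : Uᴴ * (x - μ • (1 : Matrix κ κ ℂ)) * U = Uᴴ * x * U - μ • (1 : Matrix κ κ ℂ) := by
    rw [Matrix.mul_sub, Matrix.sub_mul, Matrix.mul_smul, Matrix.smul_mul, e3]
  rw [e4, e5]
  simp only [Matrix.sub_apply, Matrix.add_apply, Matrix.neg_apply, Matrix.smul_apply, smul_eq_mul,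
    hL, Matrix.diagonal_mul, Matrix.mul_diagonal]
  by_cases hij : i = j
  · subst hij
    rw [Matrix.one_apply_eq]
    push_cast
    ring
  · rw [Matrix.one_apply_ne hij]
    push_cast
    ring

/-- `D0(G_Q^c)` is the slack `slk` of part A -/
theorem formD_eq {Q : Matrix κ κ ℂ} (hQ : Q.PosDef) {b : ℝ} (x : Matrix κ κ ℂ) (μ : ℂ) :
    formD b Q (GG b Q x - ((b : ℂ) * μ) • (1 : Matrix κ κ ℂ)) =
      slk (fun k => Real.log (hQ.isHermitian.eigenvalues k)) b
        ((hQ.isHermitian.eigenvectorUnitary : Matrix κ κ ℂ)ᴴ *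
          (x - μ • (1 : Matrix κ κ ℂ)) * (hQ.isHermitian.eigenvectorUnitary : Matrix κ κ ℂ)) := by
  have hal : ∀ t, t ≠ b → al b t = (FDefs136.u (-b) - FDefs136.u (-t)) / (b - t) := by
    intro t ht
    unfold al
    rw [if_neg ht]
  rw [← slk_eq _ _ _ (al b) hal]
  unfold formD qf D0
  rw [dif_pos hQ.isHermitian]
  refine Finset.sum_congr rfl fun i _ => Finset.sum_congr rfl fun j _ => ?_
  rw [eb_G hQ, Matrix.of_apply, Real.exp_log (hQ.eigenvalues_pos i),
    Real.exp_log (hQ.eigenvalues_pos j)]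
  ring

end generic

theorem outQ_posDef {η ε : ℝ} (hε : 0 < ε) {A B : Matrix (FDefs136.Bx n K) (FDefs136.Bx n K) ℂ}
    (hC : (outC η A B).PosSemidef) : (outQ η ε A B).PosDef := by
  unfold outQ
  refine Matrix.PosDef.posSemidef_add hC ?_
  rw [Matrix.smul_one_eq_diagonal]
  refine Matrix.PosDef.diagonal fun i => ?_
  exact_mod_cast hε

/-- **FCUR**: slack `→ 0`, means `→ 0` imply the ladder relation and the energy bound. -/
theorem fcur (p : Par) (n : ℕ) {α : Type*} {F : Filter α} {K : α → ℕ} (hK : Tendsto K F atTop)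
    (A B : ∀ a, Matrix (FDefs136.Bx n (K a)) (FDefs136.Bx n (K a)) ℂ) (ε : α → ℝ)
    (hε : ∀ a, 0 < ε a) (hε0 : Tendsto (fun a => ε a * ((2 * K a : ℕ) + 1 : ℝ) ^ (n + 1)) F (𝓝 0))
    (hC : ∀ a, IsDensity (outC p.η (A a) (B a)))
    (hm : ∀ j, Tendsto (fun a => mC p.η j (A a) (B a)) F (𝓝 0))
    (hD : ∀ j, Tendsto (fun a => formD p.bC (outQ p.η (ε a) (A a) (B a))
      (GQc p (ε a) j (A a) (B a))) F (𝓝 0)) {E : ℝ}
    (hE : ∀ a, en (n := n) (m := 2 * K a) (outC p.η (A a) (B a)) ≤ E) :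
    LadLim F (qN p.NC) (fun a => ext (n := n) (m := 2 * K a) (outC p.η (A a) (B a))) ∧
      ∀ δ : ℝ, 0 < δ → ∀ᶠ a in F,
        en (n := n) (m := 2 * K a) (outC p.η (A a) (B a)) ≤ n * p.NC + δ := by
  have hQ : ∀ a, (outQ p.η (ε a) (A a) (B a)).PosDef := fun a => outQ_posDef (hε a) (hC a).1
  have H : ∀ a, Diag (outQ p.η (ε a) (A a) (B a)) _ _ := fun a => diag_of_posDef (hQ a)
  have hNC : 0 < p.NC := by
    unfold Par.NC
    have h1 := p.η_pos
    have h2 := p.η_lt
    have h3 := p.NA_pos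
    have h4 := p.NB_pos
    have h5 : 0 < 1 - p.η := by linarith
    positivity
  have hm2 : Tendsto (fun a => 2 * K a) F atTop :=
    (Filter.tendsto_id.const_mul_atTop' (by norm_num)).comp hK
  have hε1 : Tendsto ε F (𝓝 0) := by
    refine squeeze_zero (fun a => (hε a).le) (fun a => ?_) hε0
    have h1 : (1 : ℝ) ≤ ((2 * K a : ℕ) + 1 : ℝ) ^ (n + 1) := by
      apply one_le_pow₀
      have : (0 : ℝ) ≤ ((2 * K a : ℕ) : ℝ) := Nat.cast_nonneg _
      linarith
    nlinarith [(hε a).le]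
  have hslk : ∀ j, Tendsto (fun a => slk (fun k => Real.log ((hQ a).isHermitian.eigenvalues k))
      (Real.log (1 + 1 / p.NC)) (((hQ a).isHermitian.eigenvectorUnitary :
        Matrix (FDefs136.Bx n (2 * K a)) (FDefs136.Bx n (2 * K a)) ℂ)ᴴ *
      (ann n (2 * K a) j - (outC p.η (A a) (B a) * ann n (2 * K a) j).trace •
        (1 : Matrix (FDefs136.Bx n (2 * K a)) (FDefs136.Bx n (2 * K a)) ℂ)) *
        ((hQ a).isHermitian.eigenvectorUnitary :
        Matrix (FDefs136.Bx n (2 * K a)) (FDefs136.Bx n (2 * K a)) ℂ))) F (𝓝 0) := by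
    intro j
    refine (hD j).congr fun a => ?_
    unfold GQc FDefs136.GQ
    rw [formD_eq (hQ a), ann_eq]
    unfold mC
    rw [ann_eq]
    rfl
  have hm' : ∀ j, Tendsto (fun a => (outC p.η (A a) (B a) * ann n (2 * K a) j).trace) F (𝓝 0) := by
    intro j
    refine (hm j).congr fun a => ?_
    unfold mC
    rw [ann_eq]
  refine ⟨?_, ?_⟩
  · exact ladLim (m := fun a => 2 * K a) hm2 hNC hC (fun a => (hε a).le) hε1 H
      (fun j a => (outC p.η (A a) (B a) * ann n (2 * K a) j).trace) hm' hslk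
  · intro δ hδ
    exact energy_limsup (m := fun a => 2 * K a) hNC hC (fun a => (hε a).le) hε0 H hE hm' hslk hδ

end Crest.Agent.R331.FCur380
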