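import Mathlib

/-!
Row 331 (EPnI), finite-matrix track: leaf FEDGE (helper633).

* `cs` : trace Cauchy-Schwarz for a positive semidefinite weight;
* `comm_identity`, `G_row` : commutator identity with the hard-wall boundary term;
* `E_contr` : conditional expectation is a contraction for the form `L`;
* `edge_weight` : the weight of the top level is controlled by the Euler-Lagrange equation;
* `mean_eq`  : the means are controlled;
* `sum_log_sq_le` : `∑ p log² p ≤ 4 log² d + 3`.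
-/

set_option autoImplicit false
set_option linter.unusedSectionVars false

namespace Crest.Agent.R331.FEdge633

open Matrix
open scoped ComplexOrder Kronecker

variable {m n l : Type*} [Fintype m] [Fintype n] [Fintype l] [DecidableEq m] [DecidableEq n]
  [DecidableEq l]

/-- Frobenius Cauchy-Schwarz. -/
theorem frob_cs (P Q : Matrix m n ℂ) :
    ‖trace (P * Qᴴ)‖ ^ 2 ≤ (trace (P * Pᴴ)).re * (trace (Q * Qᴴ)).re := by
  have e1 : ∀ R : Matrix m n ℂ, (trace (R * Rᴴ)).re = ∑ i, ∑ j, ‖R i j‖ ^ 2 := by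
    intro R
    simp only [Matrix.trace, Matrix.diag_apply, Matrix.mul_apply, conjTranspose_apply,
      Complex.re_sum]
    refine Finset.sum_congr rfl fun i _ => Finset.sum_congr rfl fun j _ => ?_
    rw [← Complex.normSq_eq_norm_sq, RCLike.star_def, Complex.mul_conj]
    simp
  have e2 : ‖trace (P * Qᴴ)‖ ≤ ∑ x : m × n, ‖P x.1 x.2‖ * ‖Q x.1 x.2‖ := by
    simp only [Matrix.trace, Matrix.diag_apply, Matrix.mul_apply, conjTranspose_apply]
    rw [Fintype.sum_prod_type]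
    refine (norm_sum_le _ _).trans (Finset.sum_le_sum fun i _ => ?_)
    refine (norm_sum_le _ _).trans (Finset.sum_le_sum fun j _ => ?_)
    rw [norm_mul, norm_star]
  rw [e1 P, e1 Q]
  have e3 := Finset.sum_mul_sq_le_sq_mul_sq Finset.univ (fun x : m × n => ‖P x.1 x.2‖)
    (fun x : m × n => ‖Q x.1 x.2‖)
  rw [Fintype.sum_prod_type (f := fun x : m × n => ‖P x.1 x.2‖ ^ 2),
    Fintype.sum_prod_type (f := fun x : m × n => ‖Q x.1 x.2‖ ^ 2)] at e3
  exact (pow_le_pow_left₀ (norm_nonneg _) e2 2).trans e3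

open scoped MatrixOrder in
theorem exists_sq {ρ : Matrix m m ℂ} (hρ : ρ.PosSemidef) : ∃ B : Matrix m m ℂ, ρ = Bᴴ * B := by
  obtain ⟨B, hB⟩ := CStarAlgebra.nonneg_iff_eq_star_mul_self.mp hρ.nonneg
  exact ⟨B, hB⟩

theorem key_sq (B : Matrix m m ℂ) (U V : Matrix m n ℂ) :
    trace (Bᴴ * B * (U * Vᴴ)) = trace ((B * U) * (B * V)ᴴ) := by
  rw [conjTranspose_mul, Matrix.mul_assoc Bᴴ, Matrix.trace_mul_comm Bᴴ]
  congr 1
  simp only [Matrix.mul_assoc]

/-- Trace Cauchy-Schwarz with a positive semidefinite weight on the left (form `L`). -/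
theorem cs {ρ : Matrix m m ℂ} (hρ : ρ.PosSemidef) (X Z : Matrix m n ℂ) :
    ‖trace (ρ * (X * Zᴴ))‖ ^ 2 ≤ (trace (ρ * (X * Xᴴ))).re * (trace (ρ * (Z * Zᴴ))).re := by
  obtain ⟨B, rfl⟩ := exists_sq hρ
  rw [key_sq, key_sq, key_sq]
  exact frob_cs _ _

theorem L_nonneg {ρ : Matrix m m ℂ} (hρ : ρ.PosSemidef) (X : Matrix m n ℂ) :
    0 ≤ (trace (ρ * (X * Xᴴ))).re := by
  obtain ⟨B, rfl⟩ := exists_sq hρ
  rw [key_sq]
  have h : (B * X * (B * X)ᴴ).PosSemidef := Matrix.posSemidef_self_mul_conjTranspose _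
  have := h.trace_nonneg
  exact (Complex.le_def.1 this).1

theorem cs' {ρ : Matrix m m ℂ} (hρ : ρ.PosSemidef) (X Z : Matrix m n ℂ) {x z : ℝ} (hx : 0 ≤ x)
    (hz : 0 ≤ z) (hX : (trace (ρ * (X * Xᴴ))).re ≤ x ^ 2) (hZ : (trace (ρ * (Z * Zᴴ))).re ≤ z ^ 2) :
    ‖trace (ρ * (X * Zᴴ))‖ ≤ x * z := by
  have h := cs hρ X Z
  have h2 : ‖trace (ρ * (X * Zᴴ))‖ ^ 2 ≤ (x * z) ^ 2 := by
    rw [mul_pow]
    exact h.trans (mul_le_mul hX hZ (L_nonneg hρ Z) (by positivity))
  exact abs_le_of_sq_le_sq' h2 (by positivity) |>.2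

/-! ### Partial trace and the conditional expectation -/

/-- Partial trace over the second factor. -/
def pt (M : Matrix (m × n) (m × n) ℂ) : Matrix m m ℂ := Matrix.of fun i i' => ∑ j, M (i, j) (i', j)

theorem trace_pt_mul (M : Matrix (m × n) (m × n) ℂ) (X : Matrix m m ℂ) :
    trace (pt M * X) = trace (M * (X ⊗ₖ (1 : Matrix n n ℂ))) := by
  simp only [Matrix.trace, Matrix.diag_apply, Matrix.mul_apply, pt, Matrix.of_apply,
    Fintype.sum_prod_type, kroneckerMap_apply, Matrix.one_apply]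
  refine Finset.sum_congr rfl fun i _ => ?_
  simp only [mul_ite, mul_one, mul_zero, Finset.sum_ite_eq', Finset.mem_univ, if_true,
    Finset.sum_mul]
  rw [Finset.sum_comm]

/-- The conditional expectation `E Z = Tr₂ [(1 ⊗ B) Z]`. -/
def Ex (B : Matrix n n ℂ) (Z : Matrix (m × n) (m × n) ℂ) : Matrix m m ℂ :=
  pt (((1 : Matrix m m ℂ) ⊗ₖ B) * Z)

theorem trace_Ex (A X : Matrix m m ℂ) (B : Matrix n n ℂ) (Z : Matrix (m × n) (m × n) ℂ) :
    trace (A * (Ex B Z * X)) = trace ((A ⊗ₖ B) * (Z * (X ⊗ₖ (1 : Matrix n n ℂ)))) := by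
  rw [← Matrix.mul_assoc, Matrix.trace_mul_cycle, Matrix.trace_mul_comm, Ex, trace_pt_mul,
    Matrix.trace_mul_comm, ← Matrix.mul_assoc]
  have h1 : (X * A) ⊗ₖ (1 : Matrix n n ℂ) = (X ⊗ₖ (1 : Matrix n n ℂ)) * (A ⊗ₖ (1 : Matrix n n ℂ)) := by
    rw [← Matrix.mul_kronecker_mul, Matrix.one_mul]
  have h2 : (A ⊗ₖ (1 : Matrix n n ℂ)) * ((1 : Matrix m m ℂ) ⊗ₖ B) = A ⊗ₖ B := by
    rw [← Matrix.mul_kronecker_mul, Matrix.one_mul, Matrix.mul_one]
  rw [h1, Matrix.mul_assoc (X ⊗ₖ (1 : Matrix n n ℂ)), h2, ← Matrix.mul_assoc (A ⊗ₖ B),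
    Matrix.trace_mul_comm (A ⊗ₖ B * Z), ← Matrix.mul_assoc]

/-- The conditional expectation is a contraction for the form `L`. -/
theorem E_contr {A : Matrix m m ℂ} {B : Matrix n n ℂ} (hA : A.PosSemidef) (hB : B.PosSemidef)
    (htB : trace B = 1) (Z : Matrix (m × n) (m × n) ℂ) :
    (trace (A * (Ex B Z * (Ex B Z)ᴴ))).re ≤ (trace ((A ⊗ₖ B) * (Z * Zᴴ))).re := by
  have hAB : (A ⊗ₖ B).PosSemidef := hA.kronecker hB
  set e := (trace (A * (Ex B Z * (Ex B Z)ᴴ))).re with he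
  have h0 : 0 ≤ e := L_nonneg hA _
  have h1 := cs hAB Z ((Ex B Z) ⊗ₖ (1 : Matrix n n ℂ))
  have h2 : ((Ex B Z) ⊗ₖ (1 : Matrix n n ℂ))ᴴ = (Ex B Z)ᴴ ⊗ₖ (1 : Matrix n n ℂ) := by
    rw [Matrix.conjTranspose_kronecker, Matrix.conjTranspose_one]
  rw [h2, ← trace_Ex] at h1
  have h3 : trace ((A ⊗ₖ B) * ((Ex B Z) ⊗ₖ (1 : Matrix n n ℂ) * ((Ex B Z)ᴴ ⊗ₖ (1 : Matrix n n ℂ))))
      = trace (A * (Ex B Z * (Ex B Z)ᴴ)) := by
    rw [← Matrix.mul_kronecker_mul, ← Matrix.mul_kronecker_mul, Matrix.trace_kronecker,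
      Matrix.mul_one, Matrix.mul_one, htB, mul_one]
  rw [h3, ← he] at h1
  have h4 : e ≤ ‖trace (A * (Ex B Z * (Ex B Z)ᴴ))‖ := Complex.re_le_norm _
  have h5 : e * e ≤ (trace ((A ⊗ₖ B) * (Z * Zᴴ))).re * e := by
    calc e * e = e ^ 2 := by ring
      _ ≤ _ := (pow_le_pow_left₀ h0 h4 2).trans h1
  rcases h0.eq_or_lt with h | h
  · rw [← h]; exact L_nonneg hAB _
  · exact le_of_mul_le_mul_right h5 h

/-! ### The commutator identity with boundary term -/

section comm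

variable {p q : Type*} [Fintype p] [Fintype q] [DecidableEq p] [DecidableEq q]

/-- the boundary operator `G = Wᴴ (hA c - hB d) - a Wᴴ`. -/
def G (W : Matrix (p × q) (m × n) ℂ) (a : Matrix m m ℂ) (c : Matrix p p ℂ) (d : Matrix q q ℂ)
    (hA hB : ℂ) : Matrix (m × n) (p × q) ℂ :=
  Wᴴ * (hA • (c ⊗ₖ (1 : Matrix q q ℂ)) - hB • ((1 : Matrix p p ℂ) ⊗ₖ d)) -
    (a ⊗ₖ (1 : Matrix n n ℂ)) * Wᴴ

theorem comm_identity (W : Matrix (p × q) (m × n) ℂ) (a : Matrix m m ℂ) (c : Matrix p p ℂ)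
    (d : Matrix q q ℂ) (hA hB : ℂ)
    (H : W * (a ⊗ₖ (1 : Matrix n n ℂ)) =
      (hA • (c ⊗ₖ (1 : Matrix q q ℂ)) - hB • ((1 : Matrix p p ℂ) ⊗ₖ d)) * W) (K : Matrix p p ℂ) :
    (a ⊗ₖ (1 : Matrix n n ℂ)) * (Wᴴ * (K ⊗ₖ (1 : Matrix q q ℂ)) * W) -
      (Wᴴ * (K ⊗ₖ (1 : Matrix q q ℂ)) * W) * (a ⊗ₖ (1 : Matrix n n ℂ)) =
    hA • (Wᴴ * ((c * K - K * c) ⊗ₖ (1 : Matrix q q ℂ)) * W) -
      G W a c d hA hB * (K ⊗ₖ (1 : Matrix q q ℂ)) * W := by
  set D := hA • (c ⊗ₖ (1 : Matrix q q ℂ)) - hB • ((1 : Matrix p p ℂ) ⊗ₖ d) with hD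
  set K' := K ⊗ₖ (1 : Matrix q q ℂ) with hK'
  have h1 : (Wᴴ * K' * W) * (a ⊗ₖ (1 : Matrix n n ℂ)) = Wᴴ * (K' * D) * W := by
    rw [Matrix.mul_assoc, H]; simp only [Matrix.mul_assoc]
  have h2 : (a ⊗ₖ (1 : Matrix n n ℂ)) * (Wᴴ * K' * W) = Wᴴ * (D * K') * W - G W a c d hA hB * K' * W := by
    rw [G, ← hD]
    simp only [Matrix.sub_mul, Matrix.mul_assoc]
    abel
  have h3 : D * K' - K' * D = hA • ((c * K - K * c) ⊗ₖ (1 : Matrix q q ℂ)) := by
    have e1 : (c ⊗ₖ (1 : Matrix q q ℂ)) * K' = (c * K) ⊗ₖ (1 : Matrix q q ℂ) := by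
      rw [hK', ← Matrix.mul_kronecker_mul, Matrix.one_mul]
    have e2 : K' * (c ⊗ₖ (1 : Matrix q q ℂ)) = (K * c) ⊗ₖ (1 : Matrix q q ℂ) := by
      rw [hK', ← Matrix.mul_kronecker_mul, Matrix.one_mul]
    have e3 : ((1 : Matrix p p ℂ) ⊗ₖ d) * K' = K ⊗ₖ d := by
      rw [hK', ← Matrix.mul_kronecker_mul, Matrix.one_mul, Matrix.mul_one]
    have e4 : K' * ((1 : Matrix p p ℂ) ⊗ₖ d) = K ⊗ₖ d := by
      rw [hK', ← Matrix.mul_kronecker_mul, Matrix.one_mul, Matrix.mul_one]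
    have e5 : (c * K - K * c) ⊗ₖ (1 : Matrix q q ℂ) =
        (c * K) ⊗ₖ (1 : Matrix q q ℂ) - (K * c) ⊗ₖ (1 : Matrix q q ℂ) := by
      ext ⟨i, j⟩ ⟨i', j'⟩
      simp [kroneckerMap_apply, sub_mul]
    rw [hD, Matrix.sub_mul, Matrix.mul_sub, Matrix.smul_mul, Matrix.smul_mul, Matrix.mul_smul,
      Matrix.mul_smul, e1, e2, e3, e4, e5, smul_sub]
    abel
  rw [h1, h2]
  clear_value D K'
  have h4 : Wᴴ * (D * K') * W - G W a c d hA hB * K' * W - Wᴴ * (K' * D) * W =
      Wᴴ * (D * K' - K' * D) * W - G W a c d hA hB * K' * W := by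
    rw [Matrix.mul_sub, Matrix.sub_mul]; abel
  rw [h4, h3, Matrix.mul_smul, Matrix.smul_mul]

/-- From the creation relation on the rows below the top level: `Q G = G`, `Q` the projection on
the top level. `R = 1 - Q`. -/
theorem G_row (W : Matrix (p × q) (m × n) ℂ) (a Q : Matrix m m ℂ) (c : Matrix p p ℂ)
    (d : Matrix q q ℂ) (hA hB : ℂ) (hQ : Qᴴ = Q)
    (H3 : (star hA • (cᴴ ⊗ₖ (1 : Matrix q q ℂ)) - star hB • ((1 : Matrix p p ℂ) ⊗ₖ dᴴ)) * W *
        ((1 - Q) ⊗ₖ (1 : Matrix n n ℂ)) = W * ((aᴴ * (1 - Q)) ⊗ₖ (1 : Matrix n n ℂ))) :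
    (Q ⊗ₖ (1 : Matrix n n ℂ)) * G W a c d hA hB = G W a c d hA hB := by
  have h := congrArg conjTranspose H3
  have hQ' : (1 - Q)ᴴ = 1 - Q := by rw [conjTranspose_sub, conjTranspose_one, hQ]
  rw [conjTranspose_mul, conjTranspose_mul, conjTranspose_mul, conjTranspose_sub,
    conjTranspose_smul, conjTranspose_smul, conjTranspose_kronecker, conjTranspose_kronecker,
    conjTranspose_kronecker, conjTranspose_kronecker, conjTranspose_mul, conjTranspose_one,
    conjTranspose_one, conjTranspose_one, conjTranspose_conjTranspose, conjTranspose_conjTranspose,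
    conjTranspose_conjTranspose, hQ', star_star, star_star] at h
  have h2 : ((1 - Q) ⊗ₖ (1 : Matrix n n ℂ)) * G W a c d hA hB = 0 := by
    rw [G, Matrix.mul_sub, h, ← Matrix.mul_assoc, ← Matrix.mul_kronecker_mul, Matrix.one_mul,
      sub_self]
  have h3 : (1 - Q) ⊗ₖ (1 : Matrix n n ℂ) = 1 - Q ⊗ₖ (1 : Matrix n n ℂ) := by
    have h31 : (1 : Matrix m m ℂ) ⊗ₖ (1 : Matrix n n ℂ) = 1 := Matrix.one_kronecker_one
    rw [← h31]
    ext ⟨i, j⟩ ⟨i', j'⟩
    rw [Matrix.sub_apply, kroneckerMap_apply, kroneckerMap_apply, kroneckerMap_apply,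
      Matrix.sub_apply, sub_mul]
  rw [h3, Matrix.sub_mul, Matrix.one_mul, sub_eq_zero] at h2
  exact h2.symm

end comm

/-! ### The weight of the top level -/

/-- **Edge weight.** `A` a density matrix satisfying the Euler-Lagrange equation
`r Y - lam Kh + s diag ν = c`, with `Tr A Y Yᴴ ≤ κ²`, `Tr A Kh Khᴴ ≤ v²`; `T` a set of indices with
`K ≤ ν` on `T`; `p = Tr A 1_T`, `E = Tr A ν`. Then `s (K - E) p ≤ r κ (p + √p) + lam v √p`. -/
theorem edge_weight {A Y Kh : Matrix m m ℂ} (hA : A.PosSemidef) (htr : trace A = 1)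
    (ν : m → ℝ) (T : Finset m) {K r lam s c κ v p E : ℝ}
    (hνT : ∀ k ∈ T, K ≤ ν k) (hr : 0 ≤ r) (hlam : 0 ≤ lam) (hs : 0 ≤ s) (hκ : 0 ≤ κ) (hv : 0 ≤ v)
    (hY : (trace (A * (Y * Yᴴ))).re ≤ κ ^ 2) (hK : (trace (A * (Kh * Khᴴ))).re ≤ v ^ 2)
    (hK0 : 0 ≤ (trace (A * Kh)).re)
    (hEL : (r : ℂ) • Y - (lam : ℂ) • Kh + (s : ℂ) • diagonal (fun k => (ν k : ℂ)) =
      (c : ℂ) • (1 : Matrix m m ℂ))
    (hp : p = ∑ k ∈ T, (A k k).re) (hE : E = ∑ k, ν k * (A k k).re) :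
    s * (K - E) * p ≤ r * κ * (p + √p) + lam * v * √p := by
  classical
  have hdiag : ∀ k, 0 ≤ (A k k).re := fun k => (Complex.le_def.1 (hA.diag_nonneg (i := k))).1
  have hp0 : 0 ≤ p := by rw [hp]; exact Finset.sum_nonneg fun k _ => hdiag k
  set Q : Matrix m m ℂ := diagonal (fun k => if k ∈ T then 1 else 0) with hQ
  have hQQ : Q * Qᴴ = Q := by
    rw [hQ, diagonal_conjTranspose, diagonal_mul_diagonal]
    congr 1
    ext k
    by_cases h : k ∈ T <;> simp [h]
  have hQH : Qᴴ = Q := by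
    rw [hQ, diagonal_conjTranspose]
    congr 1
    ext k
    by_cases h : k ∈ T <;> simp [h]
  have hAQ : (trace (A * Q)).re = p := by
    rw [hp, hQ, Matrix.trace, Complex.re_sum, ← Finset.sum_filter_add_sum_filter_not _ (· ∈ T)]
    simp only [Matrix.diag_apply, mul_diagonal]
    rw [Finset.filter_mem_eq_inter, Finset.univ_inter]
    rw [Finset.sum_eq_zero (s := Finset.filter (fun x => x ∉ T) Finset.univ), add_zero]
    · refine Finset.sum_congr rfl fun k hk => ?_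
      simp [hk]
    · intro k hk
      rw [Finset.mem_filter] at hk
      simp [hk.2]
  have hsq : (√p) ^ 2 = p := Real.sq_sqrt hp0
  have hQ2 : (trace (A * (Q * Qᴴ))).re ≤ (√p) ^ 2 := by rw [hQQ, hAQ, hsq]
  have h1 : |(trace (A * (Y * Q))).re| ≤ κ * √p := by
    have := cs' hA Y Q hκ (Real.sqrt_nonneg p) hY hQ2
    rw [hQH] at this
    exact (Complex.abs_re_le_norm _).trans this
  have h2 : |(trace (A * (Kh * Q))).re| ≤ v * √p := by
    have := cs' hA Kh Q hv (Real.sqrt_nonneg p) hK hQ2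
    rw [hQH] at this
    exact (Complex.abs_re_le_norm _).trans this
  have h3 : |(trace (A * Y)).re| ≤ κ := by
    have := cs' hA Y 1 hκ (zero_le_one) hY (by simp [htr])
    rw [conjTranspose_one, Matrix.mul_one, mul_one] at this
    exact (Complex.abs_re_le_norm _).trans this
  have h4 : (trace (A * (diagonal (fun k => (ν k : ℂ)) * Q))).re = ∑ k ∈ T, ν k * (A k k).re := by
    rw [hQ, diagonal_mul_diagonal, Matrix.trace, Complex.re_sum,
      ← Finset.sum_filter_add_sum_filter_not _ (· ∈ T)]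
    simp only [Matrix.diag_apply, mul_diagonal]
    rw [Finset.filter_mem_eq_inter, Finset.univ_inter]
    rw [Finset.sum_eq_zero (s := Finset.filter (fun x => x ∉ T) Finset.univ), add_zero]
    · refine Finset.sum_congr rfl fun k hk => ?_
      simp [hk, mul_comm]
    · intro k hk
      rw [Finset.mem_filter] at hk
      simp [hk.2]
  have h4' : K * p ≤ (trace (A * (diagonal (fun k => (ν k : ℂ)) * Q))).re := by
    rw [h4, hp, Finset.mul_sum]
    exact Finset.sum_le_sum fun k hk => mul_le_mul_of_nonneg_right (hνT k hk) (hdiag k)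
  have h5 : (trace (A * diagonal (fun k => (ν k : ℂ)))).re = E := by
    rw [hE, Matrix.trace, Complex.re_sum]
    refine Finset.sum_congr rfl fun k _ => ?_
    simp [mul_diagonal, mul_comm]
  have e1 : r * (trace (A * (Y * Q))).re - lam * (trace (A * (Kh * Q))).re +
      s * (trace (A * (diagonal (fun k => (ν k : ℂ)) * Q))).re = c * p := by
    have := congrArg (fun M : Matrix m m ℂ => (trace (A * (M * Q))).re) hEL
    simp only [Matrix.add_mul, Matrix.sub_mul, Matrix.mul_add, Matrix.mul_sub, Matrix.smul_mul,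
      Matrix.mul_smul, trace_add, trace_sub, trace_smul, Matrix.one_mul, Complex.add_re,
      Complex.sub_re, smul_eq_mul, Complex.re_ofReal_mul] at this
    rw [hAQ] at this
    exact this
  have e2 : r * (trace (A * Y)).re - lam * (trace (A * Kh)).re + s * E = c := by
    have := congrArg (fun M : Matrix m m ℂ => (trace (A * M)).re) hEL
    simp only [Matrix.mul_add, Matrix.mul_sub, Matrix.mul_smul, trace_add, trace_sub, trace_smul,
      Matrix.mul_one, Complex.add_re, Complex.sub_re, smul_eq_mul, Complex.re_ofReal_mul, htr,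
      Complex.one_re, mul_one] at this
    rw [h5] at this
    exact this
  have f1 := (abs_le.1 h1).1
  have f2 := (abs_le.1 h2).2
  have f3 := (abs_le.1 h3).2
  have g1 : s * (K * p) ≤ s * (trace (A * (diagonal (fun k => (ν k : ℂ)) * Q))).re :=
    mul_le_mul_of_nonneg_left h4' hs
  have g2 : lam * (trace (A * (Kh * Q))).re ≤ lam * (v * √p) := mul_le_mul_of_nonneg_left f2 hlam
  have g3 : -(r * (κ * √p)) ≤ r * (trace (A * (Y * Q))).re := by
    have := mul_le_mul_of_nonneg_left f1 hr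
    linarith
  have g4 : p * (r * (trace (A * Y)).re) ≤ p * (r * κ) :=
    mul_le_mul_of_nonneg_left (mul_le_mul_of_nonneg_left f3 hr) hp0
  have g5 : 0 ≤ p * (lam * (trace (A * Kh)).re) := by positivity
  have g6 : c * p = p * (r * (trace (A * Y)).re) - p * (lam * (trace (A * Kh)).re) + p * (s * E) := by
    rw [← e2]; ring
  nlinarith [e1, g1, g2, g3, g4, g5, g6]

/-- Consequence: `√p ≤ (2 r κ + lam v) / (s (K - E))`. -/
theorem edge_weight' {A Y Kh : Matrix m m ℂ} (hA : A.PosSemidef) (htr : trace A = 1)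
    (ν : m → ℝ) (T : Finset m) {K r lam s c κ v p E : ℝ}
    (hνT : ∀ k ∈ T, K ≤ ν k) (hr : 0 ≤ r) (hlam : 0 ≤ lam) (hs : 0 < s) (hκ : 0 ≤ κ) (hv : 0 ≤ v)
    (hY : (trace (A * (Y * Yᴴ))).re ≤ κ ^ 2) (hK : (trace (A * (Kh * Khᴴ))).re ≤ v ^ 2)
    (hK0 : 0 ≤ (trace (A * Kh)).re)
    (hEL : (r : ℂ) • Y - (lam : ℂ) • Kh + (s : ℂ) • diagonal (fun k => (ν k : ℂ)) =
      (c : ℂ) • (1 : Matrix m m ℂ))
    (hp : p = ∑ k ∈ T, (A k k).re) (hE : E = ∑ k, ν k * (A k k).re) (hKE : E < K) :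
    p ≤ ((2 * r * κ + lam * v) / (s * (K - E))) ^ 2 := by
  classical
  have h := edge_weight hA htr ν T hνT hr hlam hs.le hκ hv hY hK hK0 hEL hp hE
  have hdiag : ∀ k, 0 ≤ (A k k).re := fun k => (Complex.le_def.1 (hA.diag_nonneg (i := k))).1
  have hp0 : 0 ≤ p := by rw [hp]; exact Finset.sum_nonneg fun k _ => hdiag k
  have hp1 : p ≤ 1 := by
    rw [hp]
    have : (trace A).re = 1 := by rw [htr]; simp
    rw [Matrix.trace, Complex.re_sum] at this
    rw [← this]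
    exact Finset.sum_le_univ_sum_of_nonneg hdiag
  have hpp : p ≤ √p := by
    have h1 : √p ≤ 1 := Real.sqrt_le_one.2 hp1
    nlinarith [Real.sq_sqrt hp0, Real.sqrt_nonneg p]
  have hden : 0 < s * (K - E) := mul_pos hs (by linarith)
  have hmain : s * (K - E) * p ≤ (2 * r * κ + lam * v) * √p := by
    have : r * κ * (p + √p) ≤ r * κ * (√p + √p) := by gcongr
    nlinarith
  have h3 : √p ≤ (2 * r * κ + lam * v) / (s * (K - E)) := by
    rw [le_div_iff₀ hden]
    rcases (Real.sqrt_nonneg p).eq_or_lt with h0 | h0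
    · rw [← h0, zero_mul]; positivity
    · have h5 : (√p * (s * (K - E))) * √p ≤ (2 * r * κ + lam * v) * √p := by
        have : √p * (s * (K - E)) * √p = s * (K - E) * p := by
          rw [mul_right_comm, Real.mul_self_sqrt hp0]; ring
        rw [this]; exact hmain
      exact le_of_mul_le_mul_right h5 h0
  calc p = (√p) ^ 2 := (Real.sq_sqrt hp0).symm
    _ ≤ _ := pow_le_pow_left₀ (Real.sqrt_nonneg p) h3 2

/-- **Means.** If `r Y - lam Kh + s N = c`, `[a, N] = a`, `A` commutes with `Kh` and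
`[a, Y] = h F - Err` with `Tr A F = 0` then `s Tr A a = r Tr A Err`. -/
theorem mean_eq {A Y Kh N a F Err : Matrix m m ℂ} {r lam s c h : ℂ}
    (hEL : r • Y - lam • Kh + s • N = c • (1 : Matrix m m ℂ)) (haN : a * N - N * a = a)
    (hcom : A * Kh = Kh * A) (hY : a * Y - Y * a = h • F - Err) (hF : trace (A * F) = 0) :
    s * trace (A * a) = r * trace (A * Err) := by
  have h1 : trace (A * (a * Kh - Kh * a)) = 0 := by
    rw [Matrix.mul_sub, trace_sub, ← Matrix.mul_assoc A Kh, hcom, ← Matrix.mul_assoc A a,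
      Matrix.trace_mul_comm (A * a), ← Matrix.mul_assoc Kh, Matrix.mul_assoc, sub_eq_zero]
  have h2 := congrArg (fun M : Matrix m m ℂ => trace (A * (a * M - M * a))) hEL
  have h3 : trace (A * (a * (r • Y - lam • Kh + s • N) - (r • Y - lam • Kh + s • N) * a)) =
      r * trace (A * (a * Y - Y * a)) - lam * trace (A * (a * Kh - Kh * a)) +
        s * trace (A * (a * N - N * a)) := by
    simp only [Matrix.mul_add, Matrix.mul_sub, Matrix.add_mul, Matrix.sub_mul, Matrix.mul_smul,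
      Matrix.smul_mul, trace_add, trace_sub, trace_smul, smul_eq_mul]
    ring
  have h4 : trace (A * (a * (c • (1 : Matrix m m ℂ)) - (c • (1 : Matrix m m ℂ)) * a)) = 0 := by
    simp
  try simp only [] at h2
  rw [h3, h4, h1, haN, hY, Matrix.mul_sub, trace_sub, Matrix.mul_smul, trace_smul, hF] at h2
  simp only [smul_zero, mul_zero, sub_zero, zero_sub] at h2
  linear_combination h2

/-! ### `∑ p log² p ≤ 4 log² d + 3` -/

theorem mul_log_sq_le {x : ℝ} (hx : 0 ≤ x) (hx1 : x ≤ 1) : x * Real.log x ^ 2 ≤ 3 * √x := by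
  rcases hx.eq_or_lt with h | h
  · rw [← h]; simp
  · -- `√x log² x ≤ 3`: with `y = x^{-1/8}`: `log (1/x) = 8 log y ≤ 8 (y/e)`...
    have h0 : 0 ≤ -Real.log x := by linarith [Real.log_nonpos hx hx1]
    -- use `exp t ≥ (t^2) / ...`
    set t := -Real.log x with ht
    have hxe : x = Real.exp (-t) := by rw [ht, neg_neg, Real.exp_log h]
    have hsq : √x = Real.exp (-t / 2) := by
      rw [hxe, Real.sqrt_eq_rpow, ← Real.exp_mul]; ring_nf
    have hlog : Real.log x = -t := by rw [ht]; ring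
    have key : t ^ 2 * Real.exp (-t / 2) ≤ 3 := by
      have h1 : Real.exp 1 * (t / 4) ≤ Real.exp (t / 4) := by
        have := Real.add_one_le_exp (t / 4 - 1)
        have h2 : Real.exp (t / 4) = Real.exp 1 * Real.exp (t / 4 - 1) := by
          rw [← Real.exp_add]; ring_nf
        rw [h2]
        have h3 : 0 < Real.exp 1 := Real.exp_pos 1
        nlinarith
      have h2 : (Real.exp 1 * (t / 4)) ^ 2 ≤ Real.exp (t / 4) ^ 2 :=
        pow_le_pow_left₀ (by positivity) h1 2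
      have h3 : Real.exp (t / 4) ^ 2 = Real.exp (t / 2) := by
        rw [← Real.exp_nat_mul]; ring_nf
      have h4 : Real.exp (-t / 2) * Real.exp (t / 2) = 1 := by
        rw [← Real.exp_add]; ring_nf; exact Real.exp_zero
      have h5 : (2.7 : ℝ) < Real.exp 1 := by linarith [Real.exp_one_gt_d9]
      have h6 : (2.7 : ℝ) ^ 2 * (t / 4) ^ 2 ≤ Real.exp (t / 2) := by
        rw [← h3]
        refine le_trans ?_ h2
        rw [mul_pow]
        gcongr
      have h7 : 0 < Real.exp (-t / 2) := Real.exp_pos _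
      have h8 := mul_le_mul_of_nonneg_left h6 h7.le
      rw [h4] at h8
      nlinarith
    rw [hlog, hsq]
    have h8 : x = Real.exp (-t / 2) * Real.exp (-t / 2) := by
      rw [← Real.exp_add, hxe]; ring_nf
    have h7 : 0 < Real.exp (-t / 2) := Real.exp_pos _
    calc x * (-t) ^ 2 = Real.exp (-t / 2) * (t ^ 2 * Real.exp (-t / 2)) := by rw [h8]; ring
      _ ≤ Real.exp (-t / 2) * 3 := mul_le_mul_of_nonneg_left key h7.le
      _ = 3 * Real.exp (-t / 2) := by ring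

theorem sum_log_sq_le {ι : Type*} [Fintype ι] (p : ι → ℝ) (hp : ∀ i, 0 ≤ p i)
    (hsum : ∑ i, p i ≤ 1) (hcard : 1 ≤ Fintype.card ι) :
    ∑ i, p i * Real.log (p i) ^ 2 ≤ 4 * Real.log (Fintype.card ι) ^ 2 + 3 := by
  obtain ⟨D, hD⟩ : ∃ D : ℝ, D = (Fintype.card ι : ℝ) := ⟨_, rfl⟩
  rw [← hD]
  have hD1 : 1 ≤ D := by rw [hD]; exact_mod_cast hcard
  have hp1 : ∀ i, p i ≤ 1 := fun i =>
    (Finset.single_le_sum (fun j _ => hp j) (Finset.mem_univ i)).trans hsum
  have hterm : ∀ i, p i * Real.log (p i) ^ 2 ≤ p i * (4 * Real.log D ^ 2) + 3 / D := by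
    intro i
    by_cases h : 1 / D ^ 2 ≤ p i
    · have hpos : 0 < p i := lt_of_lt_of_le (by positivity) h
      have h1 : -(2 * Real.log D) ≤ Real.log (p i) := by
        have := Real.log_le_log (by positivity) h
        rw [one_div, Real.log_inv, Real.log_pow] at this
        push_cast at this
        linarith
      have h2 : Real.log (p i) ≤ 0 := Real.log_nonpos (hp i) (hp1 i)
      have h3 : Real.log (p i) ^ 2 ≤ 4 * Real.log D ^ 2 := by
        have h0 : 0 ≤ Real.log D := Real.log_nonneg hD1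
        nlinarith
      have h4 : 0 ≤ 3 / D := by positivity
      nlinarith [mul_le_mul_of_nonneg_left h3 (hp i)]
    · push Not at h
      have h1 := mul_log_sq_le (hp i) (hp1 i)
      have h2 : √(p i) ≤ 1 / D := by
        rw [show (1 : ℝ) / D = √(1 / D ^ 2) by
          rw [Real.sqrt_div zero_le_one, Real.sqrt_one, Real.sqrt_sq (by positivity)]]
        exact Real.sqrt_le_sqrt h.le
      have h3 : 0 ≤ p i * (4 * Real.log D ^ 2) := mul_nonneg (hp i) (by positivity)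
      calc p i * Real.log (p i) ^ 2 ≤ 3 * √(p i) := h1
        _ ≤ 3 * (1 / D) := by gcongr
        _ = 3 / D := by ring
        _ ≤ _ := by linarith
  calc ∑ i, p i * Real.log (p i) ^ 2 ≤ ∑ i, (p i * (4 * Real.log D ^ 2) + 3 / D) :=
        Finset.sum_le_sum fun i _ => hterm i
    _ = (∑ i, p i) * (4 * Real.log D ^ 2) + D * (3 / D) := by
        rw [Finset.sum_add_distrib, ← Finset.sum_mul, Finset.sum_const, Finset.card_univ,
          nsmul_eq_mul, hD]
    _ ≤ 1 * (4 * Real.log D ^ 2) + 3 := by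
        have : D * (3 / D) = 3 := by field_simp
        rw [this]
        gcongr
    _ = _ := by ring

end Crest.Agent.R331.FEdge633
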