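import Mathlib
import Crest.Agent.R331.FinWBox_87
import Crest.Agent.R331.FCovB_76

/-! # Norm bound of the boundary defect `EA` for the box (helper87, row 331) -/

set_option autoImplicit false
set_option linter.unusedSectionVars false

noncomputable section

namespace Crest.Agent.R331.FinW87

open Crest.MathPhysics.Bosonic Crest.Agent.R331.BS375 Finset Matrix
open Crest.Agent.R331.Fin8_628 (Bx occ)
open scoped Kronecker ComplexOrder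

section abs
variable {α β γ δ : Type*} [Fintype α] [Fintype β] [Fintype γ] [Fintype δ]
    [DecidableEq α] [DecidableEq β] [DecidableEq γ] [DecidableEq δ]

/-- `M Mᴴ ≤ e` implies `Mᴴ M ≤ e`. -/
lemma flip_bound {m k : Type*} [Fintype m] [Fintype k] [DecidableEq m] [DecidableEq k]
    {e : ℝ} (he : 0 < e) (M : Matrix m k ℂ)
    (h : ((e : ℂ) • (1 : Matrix m m ℂ) - M * Mᴴ).PosSemidef) :
    ((e : ℂ) • (1 : Matrix k k ℂ) - Mᴴ * M).PosSemidef := by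
  have h1 : (Mᴴ * ((e : ℂ) • (1 : Matrix m m ℂ) - M * Mᴴ) * M).PosSemidef :=
    h.conjTranspose_mul_mul_same M
  have h2 : (((e : ℂ) • (1 : Matrix k k ℂ) - Mᴴ * M)ᴴ * ((e : ℂ) • (1 : Matrix k k ℂ) - Mᴴ * M)).PosSemidef :=
    Matrix.posSemidef_conjTranspose_mul_self _
  have h3 := (h1.add h2).smul (show (0 : ℝ) ≤ e⁻¹ by positivity)
  have h4 : (e : ℂ) • (1 : Matrix k k ℂ) - Mᴴ * M
      = (e⁻¹ : ℝ) • (Mᴴ * ((e : ℂ) • (1 : Matrix m m ℂ) - M * Mᴴ) * M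
        + ((e : ℂ) • (1 : Matrix k k ℂ) - Mᴴ * M)ᴴ * ((e : ℂ) • (1 : Matrix k k ℂ) - Mᴴ * M)) := by
    have e1 : ((e : ℂ) • (1 : Matrix k k ℂ) - Mᴴ * M)ᴴ = (e : ℂ) • (1 : Matrix k k ℂ) - Mᴴ * M := by
      simp [Matrix.conjTranspose_sub, Matrix.conjTranspose_smul, Matrix.conjTranspose_mul]
    rw [e1]
    have e2 : Mᴴ * ((e : ℂ) • (1 : Matrix m m ℂ) - M * Mᴴ) * M
        + ((e : ℂ) • (1 : Matrix k k ℂ) - Mᴴ * M) * ((e : ℂ) • (1 : Matrix k k ℂ) - Mᴴ * M)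
        = (e : ℂ) • ((e : ℂ) • (1 : Matrix k k ℂ) - Mᴴ * M) := by
      simp only [Matrix.mul_sub, Matrix.sub_mul, Matrix.mul_smul, Matrix.smul_mul, Matrix.mul_one,
        Matrix.one_mul, Matrix.mul_assoc, smul_sub]
      abel
    rw [e2]
    rw [← Complex.coe_smul, smul_smul]
    push_cast
    rw [inv_mul_cancel₀ (by exact_mod_cast he.ne'), one_smul]
  rw [h4]
  exact h3

/-- abstract bound of `EA` by `c cᴴ ⊗ 1 + 1 ⊗ d dᴴ` on the range of `ι`. -/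
theorem EA_bound (S : FCov76.BS α β γ δ) {e : ℝ} (he : 0 < e)
    (h : ((e : ℂ) • (1 : Matrix (α × β) (α × β) ℂ)
      - S.ιᴴ * ((S.c * S.cᴴ) ⊗ₖ (1 : Matrix δ δ ℂ)
        + (1 : Matrix γ γ ℂ) ⊗ₖ (S.d * S.dᴴ)) * S.ι).PosSemidef) :
    ((e : ℂ) • (1 : Matrix (γ × δ) (γ × δ) ℂ) - S.EAᴴ * S.EA).PosSemidef := by
  apply flip_bound he
  set C : Matrix (γ × δ) (γ × δ) ℂ := S.c ⊗ₖ (1 : Matrix δ δ ℂ) with hC
  set D : Matrix (γ × δ) (γ × δ) ℂ := (1 : Matrix γ γ ℂ) ⊗ₖ S.d with hD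
  set Q : Matrix (α × β) (α × β) ℂ := S.QA ⊗ₖ (1 : Matrix β β ℂ) with hQ
  set R : Matrix (γ × δ) (γ × δ) ℂ := (S.hA : ℂ) • C - (S.hB : ℂ) • D with hR
  have hQH : Qᴴ = Q := by
    rw [hQ, Matrix.conjTranspose_kronecker, S.QA_herm, Matrix.conjTranspose_one]
  have hQQ : Q * Q = Q := by
    rw [hQ, ← Matrix.mul_kronecker_mul, S.QA_idem, Matrix.one_mul]
  have hEA : S.EA = Q * S.ιᴴ * R := by
    rw [← S.QA_EA]
    have : S.EA = S.ιᴴ * R - (S.a ⊗ₖ (1 : Matrix β β ℂ)) * S.ιᴴ := rfl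
    rw [this, Matrix.mul_sub, ← Matrix.mul_assoc, ← Matrix.mul_assoc,
      ← Matrix.mul_kronecker_mul, S.QA_a]
    simp [hQ]
  have hCC : (S.c * S.cᴴ) ⊗ₖ (1 : Matrix δ δ ℂ) = C * Cᴴ := by
    rw [hC, Matrix.conjTranspose_kronecker, ← Matrix.mul_kronecker_mul, Matrix.conjTranspose_one,
      Matrix.mul_one]
  have hDD : (1 : Matrix γ γ ℂ) ⊗ₖ (S.d * S.dᴴ) = D * Dᴴ := by
    rw [hD, Matrix.conjTranspose_kronecker, ← Matrix.mul_kronecker_mul, Matrix.conjTranspose_one,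
      Matrix.mul_one]
  rw [hCC, hDD] at h
  -- `C Cᴴ + D Dᴴ - R Rᴴ` is a square
  set P : Matrix (γ × δ) (γ × δ) ℂ := (S.hB : ℂ) • C + (S.hA : ℂ) • D with hP
  have hsq : C * Cᴴ + D * Dᴴ - R * Rᴴ = P * Pᴴ := by
    have h1 : ((S.hA : ℂ)) ^ 2 + ((S.hB : ℂ)) ^ 2 = 1 := by
      have := S.hAB
      exact_mod_cast this
    rw [hR, hP]
    simp only [Matrix.conjTranspose_sub, Matrix.conjTranspose_add, Matrix.conjTranspose_smul,
      Complex.star_def, Complex.conj_ofReal, Matrix.sub_mul, Matrix.mul_sub, Matrix.add_mul,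
      Matrix.mul_add, Matrix.smul_mul, Matrix.mul_smul, smul_smul]
    have h2 : C * Cᴴ + D * Dᴴ = ((S.hA : ℂ) ^ 2 + (S.hB : ℂ) ^ 2) • (C * Cᴴ)
        + ((S.hA : ℂ) ^ 2 + (S.hB : ℂ) ^ 2) • (D * Dᴴ) := by rw [h1, one_smul, one_smul]
    rw [h2]
    module
  have key : (e : ℂ) • (1 : Matrix (α × β) (α × β) ℂ) - S.EA * S.EAᴴ
      = Q * ((e : ℂ) • (1 : Matrix (α × β) (α × β) ℂ) - S.ιᴴ * (C * Cᴴ + D * Dᴴ) * S.ι) * Qᴴ
        + (Q * S.ιᴴ * P) * (Q * S.ιᴴ * P)ᴴ + (e : ℂ) • ((1 - Q) * (1 - Q)ᴴ) := by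
    have h1 : (Q * S.ιᴴ * P) * (Q * S.ιᴴ * P)ᴴ = Q * (S.ιᴴ * (P * Pᴴ) * S.ι) * Q := by
      simp only [Matrix.conjTranspose_mul, Matrix.conjTranspose_conjTranspose, hQH, Matrix.mul_assoc]
    have h2 : S.EA * S.EAᴴ = Q * (S.ιᴴ * (R * Rᴴ) * S.ι) * Q := by
      rw [hEA]
      simp only [Matrix.conjTranspose_mul, Matrix.conjTranspose_conjTranspose, hQH, Matrix.mul_assoc]
    have h3 : (1 - Q) * (1 - Q)ᴴ = 1 - Q := by
      rw [Matrix.conjTranspose_sub, hQH, Matrix.conjTranspose_one, Matrix.mul_sub, Matrix.sub_mul,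
        Matrix.sub_mul, hQQ]
      simp
    rw [h1, h2, h3, hQH, ← hsq]
    have h4 : Q * ((e : ℂ) • (1 : Matrix (α × β) (α × β) ℂ)) * Q = (e : ℂ) • Q := by
      rw [Matrix.mul_smul, Matrix.mul_one, Matrix.smul_mul, hQQ]
    simp only [Matrix.mul_sub, Matrix.sub_mul, h4, smul_sub]
    abel
  rw [key]
  refine ((h.mul_mul_conjTranspose_same Q).add (Matrix.posSemidef_self_mul_conjTranspose _)).add ?_
  have := (Matrix.posSemidef_self_mul_conjTranspose (1 - Q)).smul (show (0 : ℝ) ≤ e from he.le)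
  rw [← Complex.coe_smul] at this
  exact this

/-- the same for the second input. -/
theorem EA_swap_bound (S : FCov76.BS α β γ δ) {e : ℝ} (he : 0 < e)
    (h : ((e : ℂ) • (1 : Matrix (α × β) (α × β) ℂ)
      - S.ιᴴ * ((S.c * S.cᴴ) ⊗ₖ (1 : Matrix δ δ ℂ)
        + (1 : Matrix γ γ ℂ) ⊗ₖ (S.d * S.dᴴ)) * S.ι).PosSemidef) :
    ((e : ℂ) • (1 : Matrix (γ × δ) (γ × δ) ℂ) - S.swap.EAᴴ * S.swap.EA).PosSemidef := by
  apply EA_bound S.swap he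
  have h1 : (e : ℂ) • (1 : Matrix (β × α) (β × α) ℂ)
      - S.swap.ιᴴ * ((S.swap.c * S.swap.cᴴ) ⊗ₖ (1 : Matrix δ δ ℂ)
        + (1 : Matrix γ γ ℂ) ⊗ₖ (S.swap.d * S.swap.dᴴ)) * S.swap.ι
      = ((e : ℂ) • (1 : Matrix (α × β) (α × β) ℂ)
      - S.ιᴴ * ((S.c * S.cᴴ) ⊗ₖ (1 : Matrix δ δ ℂ)
        + (1 : Matrix γ γ ℂ) ⊗ₖ (S.d * S.dᴴ)) * S.ι).submatrix Prod.swap Prod.swap := by
    have e1 : S.swap.ι = S.ι.submatrix id Prod.swap := rfl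
    have e2 : S.swap.c = S.c := rfl
    have e3 : S.swap.d = -S.d := rfl
    rw [e1, e2, e3]
    ext x y
    simp only [Matrix.sub_apply, Matrix.smul_apply, Matrix.submatrix_apply, Matrix.mul_apply,
      Matrix.conjTranspose_submatrix, Matrix.conjTranspose_neg, Matrix.neg_mul, Matrix.mul_neg,
      neg_neg, id_eq]
    congr 2
    simp [Matrix.one_apply, Prod.ext_iff, and_comm]
  rw [h1]
  exact h.submatrix _

end abs

variable {n K : ℕ}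

/-- `W^H (x x^H ⊗ 1 + 1 ⊗ x x^H) W ≤ 2K + 2` on the box. -/
theorem box_ladder_bound {η : ℝ} (h : η ∈ Set.Icc (0 : ℝ) 1) (j : Fin n) :
    (((2 * K + 2 : ℝ) : ℂ) • (1 : Matrix (Bx n K × Bx n K) (Bx n K × Bx n K) ℂ)
      - (Wbx η n K)ᴴ * ((xbx n (2 * K) j * (xbx n (2 * K) j)ᴴ) ⊗ₖ
          (1 : Matrix (Bx n (2 * K)) (Bx n (2 * K)) ℂ)
        + (1 : Matrix (Bx n (2 * K)) (Bx n (2 * K)) ℂ) ⊗ₖ
          (xbx n (2 * K) j * (xbx n (2 * K) j)ᴴ)) * Wbx η n K).PosSemidef := by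
  classical
  have hiso : (Wbx η n K)ᴴ * Wbx η n K = 1 := iota_isometry h.1 h.2 isCut_box
  have hnum := num_iota η (occ : Bx n K → Occ n) (occ : Bx n (2 * K) → Occ n) j
  have e1 : (xbx n (2 * K) j * (xbx n (2 * K) j)ᴴ) ⊗ₖ
          (1 : Matrix (Bx n (2 * K)) (Bx n (2 * K)) ℂ)
        + (1 : Matrix (Bx n (2 * K)) (Bx n (2 * K)) ℂ) ⊗ₖ
          (xbx n (2 * K) j * (xbx n (2 * K) j)ᴴ)
      = (numbx n (2 * K) j ⊗ₖ (1 : Matrix (Bx n (2 * K)) (Bx n (2 * K)) ℂ)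
        + (1 : Matrix (Bx n (2 * K)) (Bx n (2 * K)) ℂ) ⊗ₖ numbx n (2 * K) j)
        + (2 : ℂ) • 1
        - (((2 * K : ℕ) : ℂ) + 1) • (topbx n (2 * K) j ⊗ₖ
            (1 : Matrix (Bx n (2 * K)) (Bx n (2 * K)) ℂ)
          + (1 : Matrix (Bx n (2 * K)) (Bx n (2 * K)) ℂ) ⊗ₖ topbx n (2 * K) j) := by
    rw [x_mul_xH]
    ext x y
    simp only [Matrix.add_apply, Matrix.sub_apply, Matrix.smul_apply, Matrix.kroneckerMap_apply,
      smul_eq_mul]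
    have h1 : (1 : Matrix (Bx n (2 * K) × Bx n (2 * K)) (Bx n (2 * K) × Bx n (2 * K)) ℂ) x y
        = (1 : Matrix (Bx n (2 * K)) (Bx n (2 * K)) ℂ) x.1 y.1
          * (1 : Matrix (Bx n (2 * K)) (Bx n (2 * K)) ℂ) x.2 y.2 := by
      rw [← Matrix.one_kronecker_one, Matrix.kroneckerMap_apply]
    rw [h1]
    ring
  have e2 : (Wbx η n K)ᴴ * (numbx n (2 * K) j ⊗ₖ (1 : Matrix (Bx n (2 * K)) (Bx n (2 * K)) ℂ)
        + (1 : Matrix (Bx n (2 * K)) (Bx n (2 * K)) ℂ) ⊗ₖ numbx n (2 * K) j) * Wbx η n K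
      = numbx n K j ⊗ₖ (1 : Matrix (Bx n K) (Bx n K) ℂ)
        + (1 : Matrix (Bx n K) (Bx n K) ℂ) ⊗ₖ numbx n K j := by
    have : (numbx n (2 * K) j ⊗ₖ (1 : Matrix (Bx n (2 * K)) (Bx n (2 * K)) ℂ)
        + (1 : Matrix (Bx n (2 * K)) (Bx n (2 * K)) ℂ) ⊗ₖ numbx n (2 * K) j) * Wbx η n K
        = Wbx η n K * (numbx n K j ⊗ₖ (1 : Matrix (Bx n K) (Bx n K) ℂ)
        + (1 : Matrix (Bx n K) (Bx n K) ℂ) ⊗ₖ numbx n K j) := hnum
    rw [Matrix.mul_assoc, this, ← Matrix.mul_assoc, hiso, Matrix.one_mul]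
  set T : Matrix (Bx n (2 * K) × Bx n (2 * K)) (Bx n (2 * K) × Bx n (2 * K)) ℂ :=
    topbx n (2 * K) j ⊗ₖ (1 : Matrix (Bx n (2 * K)) (Bx n (2 * K)) ℂ)
          + (1 : Matrix (Bx n (2 * K)) (Bx n (2 * K)) ℂ) ⊗ₖ topbx n (2 * K) j with hT
  have hTpos : T.PosSemidef := by
    rw [hT, topbx_eq, kron_diag_left, kron_diag_right, Matrix.diagonal_add,
      Matrix.posSemidef_diagonal_iff]
    intro x
    split_ifs <;> norm_num
  have e3 : ((2 * K + 2 : ℝ) : ℂ) • (1 : Matrix (Bx n K × Bx n K) (Bx n K × Bx n K) ℂ)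
      - (Wbx η n K)ᴴ * ((xbx n (2 * K) j * (xbx n (2 * K) j)ᴴ) ⊗ₖ
          (1 : Matrix (Bx n (2 * K)) (Bx n (2 * K)) ℂ)
        + (1 : Matrix (Bx n (2 * K)) (Bx n (2 * K)) ℂ) ⊗ₖ
          (xbx n (2 * K) j * (xbx n (2 * K) j)ᴴ)) * Wbx η n K
      = (Matrix.diagonal fun x : Bx n K × Bx n K =>
          (((2 * K : ℝ) - (x.1 j : ℕ) - (x.2 j : ℕ) : ℝ) : ℂ))
        + (2 * K + 1 : ℝ) • ((Wbx η n K)ᴴ * T * Wbx η n K) := by
    rw [e1, Matrix.mul_sub, Matrix.mul_add, Matrix.sub_mul, Matrix.add_mul, e2,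
      Matrix.mul_smul, Matrix.mul_one, Matrix.smul_mul, hiso, Matrix.mul_smul, Matrix.smul_mul]
    have e4 : numbx n K j ⊗ₖ (1 : Matrix (Bx n K) (Bx n K) ℂ)
        + (1 : Matrix (Bx n K) (Bx n K) ℂ) ⊗ₖ numbx n K j
        = Matrix.diagonal fun x : Bx n K × Bx n K => (((x.1 j : ℕ) : ℂ) + ((x.2 j : ℕ) : ℂ)) := by
      show num occ j ⊗ₖ (1 : Matrix (Bx n K) (Bx n K) ℂ)
        + (1 : Matrix (Bx n K) (Bx n K) ℂ) ⊗ₖ num occ j = _
      rw [num, kron_diag_left, kron_diag_right, Matrix.diagonal_add]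
      rfl
    rw [e4]
    ext x y
    simp only [Matrix.add_apply, Matrix.sub_apply, Matrix.smul_apply, Matrix.diagonal_apply,
      Matrix.one_apply, smul_eq_mul, Complex.real_smul]
    split_ifs with hxy
    · push_cast; ring
    · push_cast; ring
  rw [e3]
  refine Matrix.PosSemidef.add ?_ ?_
  · rw [Matrix.posSemidef_diagonal_iff]
    intro x
    have h1 := numbx_le (K := K) j x.1
    have h2 := numbx_le (K := K) j x.2
    have : (0 : ℝ) ≤ 2 * K - (x.1 j : ℕ) - (x.2 j : ℕ) := by linarith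
    exact_mod_cast this
  · exact (hTpos.conjTranspose_mul_mul_same _).smul (by positivity)

/-- **hE for the box**, input `A`. -/
theorem hE_box {η : ℝ} (h : η ∈ Set.Icc (0 : ℝ) 1) (j : Fin n) :
    (((2 * K + 2 : ℝ) : ℂ) • (1 : Matrix (Bx n (2 * K) × Bx n (2 * K))
        (Bx n (2 * K) × Bx n (2 * K)) ℂ)
      - (bxBS h n K j).EAᴴ * (bxBS h n K j).EA).PosSemidef :=
  EA_bound (bxBS h n K j) (by positivity) (box_ladder_bound h j)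

/-- **hE for the box**, input `B`. -/
theorem hE_box_swap {η : ℝ} (h : η ∈ Set.Icc (0 : ℝ) 1) (j : Fin n) :
    (((2 * K + 2 : ℝ) : ℂ) • (1 : Matrix (Bx n (2 * K) × Bx n (2 * K))
        (Bx n (2 * K) × Bx n (2 * K)) ℂ)
      - (bxBS h n K j).swap.EAᴴ * (bxBS h n K j).swap.EA).PosSemidef :=
  EA_swap_bound (bxBS h n K j) (by positivity) (box_ladder_bound h j)

/-- the same for any `S` with helper136's `IsBox` (input `A`). -/
theorem hE_isBox {η : ℝ} (h : η ∈ Set.Icc (0 : ℝ) 1) (j : Fin n)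
    {S : FCov76.BS (Bx n K) (Bx n K) (Bx n (2 * K)) (Bx n (2 * K))}
    (hS : FDefs136.IsBox (η := η) j S) :
    (((2 * K + 2 : ℝ) : ℂ) • (1 : Matrix (Bx n (2 * K) × Bx n (2 * K))
        (Bx n (2 * K) × Bx n (2 * K)) ℂ) - S.EAᴴ * S.EA).PosSemidef ∧
    (((2 * K + 2 : ℝ) : ℂ) • (1 : Matrix (Bx n (2 * K) × Bx n (2 * K))
        (Bx n (2 * K) × Bx n (2 * K)) ℂ) - S.swap.EAᴴ * S.swap.EA).PosSemidef := by
  have h1 : (((2 * K + 2 : ℝ) : ℂ) • (1 : Matrix (Bx n K × Bx n K) (Bx n K × Bx n K) ℂ)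
      - S.ιᴴ * ((S.c * S.cᴴ) ⊗ₖ (1 : Matrix (Bx n (2 * K)) (Bx n (2 * K)) ℂ)
        + (1 : Matrix (Bx n (2 * K)) (Bx n (2 * K)) ℂ) ⊗ₖ (S.d * S.dᴴ)) * S.ι).PosSemidef := by
    rw [hS.ι, hS.c, hS.d, ann_eq, bsW_eq]
    exact box_ladder_bound h j
  exact ⟨EA_bound S (by positivity) h1, EA_swap_bound S (by positivity) h1⟩

lemma diag_posSemidef {ι : Type*} [Fintype ι] [DecidableEq ι] (d : ι → ℝ) (h : ∀ i, 0 ≤ d i) :
    (Matrix.diagonal fun i => (d i : ℂ)).PosSemidef := by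
  rw [Matrix.posSemidef_diagonal_iff]
  intro i
  exact_mod_cast h i

end Crest.Agent.R331.FinW87
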