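import Crest.Agent.R331.FGapInst_633
import Crest.Agent.R331.FEdge_633
import Crest.Agent.R331.FDefs2_136
import Crest.Agent.R331.FinWE_87

/-!
Row 331 (EPnI), finite-matrix track, leaf FEDGE (helper633): `FDefs136.FEDGE` by name.
-/

set_option autoImplicit false
set_option linter.unusedSectionVars false

namespace Crest.Agent.R331.FEdgeInst633

open Matrix Crest.Quantum Crest.Agent.R331.FDefs136 Crest.Agent.R331.FGapInst633
open scoped Kronecker ComplexOrder BigOperators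

noncomputable section

/-! ### functions of a Hermitian matrix -/

section spec
variable {ι : Type*} [Fintype ι] [DecidableEq ι]

/-- `U diag f Uᴴ` -/
def sp {X : Matrix ι ι ℂ} (h : X.IsHermitian) (f : ι → ℝ) : Matrix ι ι ℂ :=
  (h.eigenvectorUnitary : Matrix ι ι ℂ) * diagonal (fun i => ((f i : ℝ) : ℂ)) *
    (h.eigenvectorUnitary : Matrix ι ι ℂ)ᴴ

variable {X : Matrix ι ι ℂ} (h : X.IsHermitian)

theorem eU' : (h.eigenvectorUnitary : Matrix ι ι ℂ) * (h.eigenvectorUnitary : Matrix ι ι ℂ)ᴴ = 1 :=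
  mul_eq_one_comm.1 (eU h)

theorem sp_mul (f g : ι → ℝ) : sp h f * sp h g = sp h (fun i => f i * g i) := by
  unfold sp
  set U := (h.eigenvectorUnitary : Matrix ι ι ℂ) with hU
  have h1 : Uᴴ * U = 1 := eU h
  calc U * diagonal (fun i => ((f i : ℝ) : ℂ)) * Uᴴ * (U * diagonal (fun i => ((g i : ℝ) : ℂ)) * Uᴴ)
      = U * (diagonal (fun i => ((f i : ℝ) : ℂ)) * (Uᴴ * U) *
          diagonal (fun i => ((g i : ℝ) : ℂ))) * Uᴴ := by simp only [Matrix.mul_assoc]
    _ = _ := by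
      rw [h1, Matrix.mul_one, diagonal_mul_diagonal]
      push_cast
      rfl

theorem sp_trace (f : ι → ℝ) : (sp h f).trace = ((∑ i, f i : ℝ) : ℂ) := by
  unfold sp
  rw [Matrix.trace_mul_comm, ← Matrix.mul_assoc, eU h, Matrix.one_mul, Matrix.trace_diagonal]
  push_cast
  rfl

theorem sp_conj (f : ι → ℝ) : (sp h f)ᴴ = sp h f := by
  unfold sp
  rw [conjTranspose_mul, conjTranspose_mul, conjTranspose_conjTranspose, diagonal_conjTranspose,
    Matrix.mul_assoc]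
  congr 3
  ext i
  simp

theorem sp_const (c : ℝ) : sp h (fun _ => c) = (c : ℂ) • (1 : Matrix ι ι ℂ) := by
  have h1 : diagonal (fun _ : ι => (c : ℂ)) = (c : ℂ) • (1 : Matrix ι ι ℂ) := by
    rw [← Matrix.diagonal_one, ← Matrix.diagonal_smul]
    congr 1
    ext i
    simp
  unfold sp
  rw [h1, Matrix.mul_smul, Matrix.smul_mul, Matrix.mul_one, eU' h]

theorem sp_sub (f g : ι → ℝ) : sp h f - sp h g = sp h (fun i => f i - g i) := by
  unfold sp
  rw [← Matrix.sub_mul, ← Matrix.mul_sub, diagonal_sub]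
  push_cast
  rfl

theorem sp_psd {f : ι → ℝ} (hf : ∀ i, 0 ≤ f i) : (sp h f).PosSemidef := by
  unfold sp
  refine Matrix.PosSemidef.mul_mul_conjTranspose_same ?_ _
  refine Matrix.PosSemidef.diagonal (fun i => ?_)
  show (0 : ℂ) ≤ ((f i : ℝ) : ℂ)
  exact_mod_cast hf i

theorem sp_self : X = sp h h.eigenvalues := eX h

theorem KL_eq : KL X = sp h (fun i => -Real.log (h.eigenvalues i)) := eK h

include h in
theorem KL_conj : (KL X)ᴴ = KL X := by rw [KL_eq h, sp_conj]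

theorem self_mul_sp (f : ι → ℝ) : X * sp h f = sp h (fun i => h.eigenvalues i * f i) := by
  have h1 := sp_mul h h.eigenvalues f
  rwa [← sp_self h] at h1

theorem sp_mul_self (f : ι → ℝ) : sp h f * X = sp h (fun i => f i * h.eigenvalues i) := by
  have h1 := sp_mul h f h.eigenvalues
  rwa [← sp_self h] at h1

include h in
theorem KL_comm : X * KL X = KL X * X := by
  rw [KL_eq h, self_mul_sp, sp_mul_self]
  congr 1
  ext i
  ring

/-- eigenvalues of `C + ε` -/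
theorem eig_mem {C : Matrix ι ι ℂ} (hC : IsDensity C) {ε : ℝ}
    (hQ : (C + (ε : ℂ) • (1 : Matrix ι ι ℂ)).IsHermitian) (i : ι) :
    ε ≤ hQ.eigenvalues i ∧ hQ.eigenvalues i ≤ 1 + ε := by
  set U := (hQ.eigenvectorUnitary : Matrix ι ι ℂ) with hU
  have h1 : Uᴴ * U = 1 := eU hQ
  have h2 : Uᴴ * (C + (ε : ℂ) • (1 : Matrix ι ι ℂ)) * U =
      diagonal (fun i => ((hQ.eigenvalues i : ℝ) : ℂ)) := by
    conv_lhs => rw [sp_self hQ, sp]
    rw [← hU]
    calc Uᴴ * (U * diagonal (fun i => ((hQ.eigenvalues i : ℝ) : ℂ)) * Uᴴ) * U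
        = (Uᴴ * U) * diagonal (fun i => ((hQ.eigenvalues i : ℝ) : ℂ)) * (Uᴴ * U) := by
          simp only [Matrix.mul_assoc]
      _ = _ := by rw [h1, Matrix.one_mul, Matrix.mul_one]
  have h3 : Uᴴ * C * U = diagonal (fun i => ((hQ.eigenvalues i - ε : ℝ) : ℂ)) := by
    rw [Matrix.mul_add, Matrix.add_mul, Matrix.mul_smul, Matrix.smul_mul, Matrix.mul_one, h1] at h2
    have h2' := eq_sub_iff_add_eq.2 h2
    rw [h2']
    generalize hQ.eigenvalues = q
    ext a b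
    by_cases hab : a = b
    · subst hab; simp
    · simp [hab]
  have h4 : (Uᴴ * C * U).PosSemidef := hC.1.conjTranspose_mul_mul_same U
  have h5 : ∀ k, 0 ≤ hQ.eigenvalues k - ε := by
    intro k
    have := h4.diag_nonneg (i := k)
    rw [h3, diagonal_apply_eq] at this
    exact_mod_cast this
  have h6 : ∑ k, (hQ.eigenvalues k - ε) = 1 := by
    have h7 : (Uᴴ * C * U).trace = 1 := by
      rw [Matrix.trace_mul_comm, ← Matrix.mul_assoc, mul_eq_one_comm.1 h1, Matrix.one_mul, hC.2]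
    rw [h3, Matrix.trace_diagonal] at h7
    exact_mod_cast h7
  refine ⟨by linarith [h5 i], ?_⟩
  have := Finset.single_le_sum (fun k _ => h5 k) (Finset.mem_univ i)
  rw [h6] at this
  linarith

theorem kap_pos {ε : ℝ} (h0 : 0 < ε) (h2 : ε ≤ 1 / 2) : 0 < kap ε := by
  unfold kap
  apply Real.log_pos
  rw [lt_div_iff₀ h0]
  linarith

theorem abs_log_le {ε q : ℝ} (h0 : 0 < ε) (h2 : ε ≤ 1 / 2) (h3 : ε ≤ q) (h4 : q ≤ 1 + ε) :
    |-Real.log q| ≤ kap ε := by
  have hq : 0 < q := lt_of_lt_of_le h0 h3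
  have e1 : kap ε = -Real.log ε := by rw [kap, one_div, Real.log_inv]
  rw [e1, abs_le]
  constructor
  · have : Real.log q ≤ -Real.log ε := by
      rw [← Real.log_inv]
      apply Real.log_le_log hq
      refine h4.trans ?_
      rw [← one_div, le_div_iff₀ h0]
      nlinarith
    linarith
  · have := Real.log_le_log h0 h3
    linarith

/-- `K_Q² ≤ κ²` -/
theorem KQ_bound {C : Matrix ι ι ℂ} (hC : IsDensity C) {ε : ℝ} (h0 : 0 < ε) (h2 : ε ≤ 1 / 2) :
    (((kap ε ^ 2 : ℝ) : ℂ) • (1 : Matrix ι ι ℂ) -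
      (KL (C + (ε : ℂ) • (1 : Matrix ι ι ℂ)))ᴴ * KL (C + (ε : ℂ) • (1 : Matrix ι ι ℂ))).PosSemidef := by
  have hQ : (C + (ε : ℂ) • (1 : Matrix ι ι ℂ)).IsHermitian := by
    rw [Matrix.IsHermitian, conjTranspose_add, conjTranspose_smul, conjTranspose_one, hC.1.1.eq]
    simp
  rw [KL_eq hQ, sp_conj, sp_mul, ← sp_const hQ, sp_sub]
  refine sp_psd hQ fun i => ?_
  obtain ⟨h3, h4⟩ := eig_mem hC hQ i
  have h5 := abs_log_le h0 h2 h3 h4
  have h6 := sq_le_sq' (by linarith [(abs_le.1 h5).1]) (abs_le.1 h5).2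
  nlinarith

/-- `Tr A K_A² ≤ (2 log d + 2)²` -/
theorem v_bound {A : Matrix ι ι ℂ} (hA : IsDensity A) :
    (A * (KL A * (KL A)ᴴ)).trace.re ≤ (2 * Real.log (Fintype.card ι) + 2) ^ 2 := by
  have h : A.IsHermitian := hA.1.1
  have hsum : ∑ i, h.eigenvalues i = 1 := by
    have h1 := sp_trace h h.eigenvalues
    rw [← sp_self h, hA.2] at h1
    exact_mod_cast h1.symm
  have h0 : ∀ i, 0 ≤ h.eigenvalues i := fun i => hA.1.eigenvalues_nonneg i
  have hcard : 1 ≤ Fintype.card ι := by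
    rw [Nat.one_le_iff_ne_zero]
    intro h1
    have : IsEmpty ι := Fintype.card_eq_zero_iff.1 h1
    simp at hsum
  rw [KL_conj h, KL_eq h, sp_mul, self_mul_sp, sp_trace, Complex.ofReal_re]
  have h3 := FEdge633.sum_log_sq_le h.eigenvalues h0 hsum.le hcard
  have h4 : 0 ≤ Real.log (Fintype.card ι) := Real.log_natCast_nonneg _
  have h5 : ∑ i, h.eigenvalues i * (-Real.log (h.eigenvalues i) * -Real.log (h.eigenvalues i)) =
      ∑ i, h.eigenvalues i * Real.log (h.eigenvalues i) ^ 2 :=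
    Finset.sum_congr rfl fun i _ => by ring
  rw [h5]
  nlinarith

theorem KL_mean_nonneg {A : Matrix ι ι ℂ} (hA : IsDensity A) : 0 ≤ (A * KL A).trace.re := by
  have h : A.IsHermitian := hA.1.1
  have hsum : ∑ i, h.eigenvalues i = 1 := by
    have h1 := sp_trace h h.eigenvalues
    rw [← sp_self h, hA.2] at h1
    exact_mod_cast h1.symm
  have h0 : ∀ i, 0 ≤ h.eigenvalues i := fun i => hA.1.eigenvalues_nonneg i
  rw [KL_eq h, self_mul_sp, sp_trace, Complex.ofReal_re]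
  refine Finset.sum_nonneg fun i _ => mul_nonneg (h0 i) ?_
  have : h.eigenvalues i ≤ 1 := by
    rw [← hsum]; exact Finset.single_le_sum (fun k _ => h0 k) (Finset.mem_univ i)
  linarith [Real.log_nonpos (h0 i) this]

end spec

section bs
variable {α β γ δ : Type*} [Fintype α] [Fintype β] [Fintype γ] [Fintype δ]
  [DecidableEq α] [DecidableEq β] [DecidableEq γ] [DecidableEq δ]

theorem isDensity_out (S : FCov76.BS α β γ δ) {A : Matrix α α ℂ} {B : Matrix β β ℂ}
    (hA : IsDensity A) (hB : IsDensity B) : IsDensity (S.out A B) :=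
  ⟨S.out_posSemidef hA.1 hB.1, by rw [S.trace_out, hA.2, hB.2, mul_one]⟩

theorem herm_out_eps (S : FCov76.BS α β γ δ) {A : Matrix α α ℂ} {B : Matrix β β ℂ}
    (hA : IsDensity A) (hB : IsDensity B) (ε : ℝ) :
    (S.out A B + (ε : ℂ) • (1 : Matrix γ γ ℂ)).IsHermitian := by
  rw [Matrix.IsHermitian, conjTranspose_add, conjTranspose_smul, conjTranspose_one,
    (isDensity_out S hA hB).1.1.eq]
  simp

/-- `Tr C K_Q² ≤ κ²` -/
theorem C_bound (S : FCov76.BS α β γ δ) {A : Matrix α α ℂ} {B : Matrix β β ℂ}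
    (hA : IsDensity A) (hB : IsDensity B) {ε : ℝ} (h0 : 0 < ε) (h2 : ε ≤ 1 / 2) :
    (S.out A B * ((KL (S.out A B + (ε : ℂ) • (1 : Matrix γ γ ℂ)))ᴴ *
      KL (S.out A B + (ε : ℂ) • (1 : Matrix γ γ ℂ)))).trace.re ≤ kap ε ^ 2 := by
  have h1 := FCov76.trace_mono (isDensity_out S hA hB).1 (KQ_bound (isDensity_out S hA hB) h0 h2)
  rw [Matrix.mul_smul, Matrix.mul_one, trace_smul, (isDensity_out S hA hB).2, smul_eq_mul,
    mul_one, Complex.ofReal_re] at h1
  exact h1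

/-- `Tr A Y Yᴴ ≤ κ²` for `Y = P_A K_Q` -/
theorem Y_bound (S : FCov76.BS α β γ δ) {A : Matrix α α ℂ} {B : Matrix β β ℂ}
    (hA : IsDensity A) (hB : IsDensity B) {ε : ℝ} (h0 : 0 < ε) (h2 : ε ≤ 1 / 2) :
    (A * (S.PA B (KL (S.out A B + (ε : ℂ) • (1 : Matrix γ γ ℂ))) *
      (S.PA B (KL (S.out A B + (ε : ℂ) • (1 : Matrix γ γ ℂ))))ᴴ)).trace.re ≤ kap ε ^ 2 := by
  refine le_trans ?_ (C_bound S hA hB h0 h2)
  have hK := KL_conj (herm_out_eps S hA hB ε)
  set KQ := KL (S.out A B + (ε : ℂ) • (1 : Matrix γ γ ℂ)) with hKQ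
  have hY : (S.PA B KQ)ᴴ = S.PA B KQ := by rw [← S.PA_conjTranspose hB.1.1.eq, hK]
  have e1 : S.PA B KQ * (S.PA B KQ)ᴴ = (S.PA B KQ)ᴴ * S.PA B KQ := by rw [hY]
  rw [e1, S.PA_eq_ex]
  have h3 := FCov76.trace_mono hA.1 (FCov76.kadison hB.1 hB.2 (S.heis KQ))
  rw [FCov76.trace_mul_ex] at h3
  refine h3.trans ?_
  have h4 := FCov76.trace_mono (hA.1.kronecker hB.1) (S.heis_kadison KQ)
  refine h4.trans (le_of_eq ?_)
  rw [FCov76.BS.out, S.trace_Phi_mul]

end bs

/-! ### one side -/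

section side
variable {n K : ℕ}

theorem diag_re_nonneg {ι : Type*} {A : Matrix ι ι ℂ} [Fintype ι] (hA : A.PosSemidef) (k : ι) :
    0 ≤ (A k k).re := (Complex.le_def.1 (hA.diag_nonneg (i := k))).1

theorem En_eq (A : Matrix (Bx n K) (Bx n K) ℂ) :
    En A = ∑ k : Bx n K, ((∑ i, (k i : ℕ) : ℕ) : ℝ) * (A k k).re := by
  rw [En, num, Matrix.trace, Complex.re_sum]
  refine Finset.sum_congr rfl fun k _ => ?_
  rw [Matrix.diag_apply, Matrix.mul_diagonal, mul_comm, ← Complex.ofReal_natCast,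
    Complex.re_ofReal_mul]

theorem En_nonneg {A : Matrix (Bx n K) (Bx n K) ℂ} (hA : A.PosSemidef) : 0 ≤ En A := by
  rw [En_eq]
  exact Finset.sum_nonneg fun k _ => mul_nonneg (Nat.cast_nonneg _) (diag_re_nonneg hA k)

theorem Tp_eq (j : Fin n) (A : Matrix (Bx n K) (Bx n K) ℂ) :
    Tp j A = ∑ k ∈ Finset.univ.filter (fun k : Bx n K => (k j : ℕ) = K), (A k k).re := by
  rw [Tp, top, Matrix.trace, Complex.re_sum, Finset.sum_filter]
  refine Finset.sum_congr rfl fun k _ => ?_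
  rw [Matrix.diag_apply, Matrix.mul_diagonal]
  split_ifs <;> simp

theorem Tp_nonneg (j : Fin n) {A : Matrix (Bx n K) (Bx n K) ℂ} (hA : A.PosSemidef) :
    0 ≤ Tp j A := by
  rw [Tp_eq]
  exact Finset.sum_nonneg fun k _ => diag_re_nonneg hA k

set_option maxHeartbeats 2000000 in
/-- edge weight and mean of one input -/
theorem side (S : FCov76.BS (Bx n K) (Bx n K) (Bx n (2 * K)) (Bx n (2 * K))) (j : Fin n)
    (hSa : S.a = ann n K j) (hSQ : S.QA = top n K j) (hA0 : 0 < S.hA)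
    {A B : Matrix (Bx n K) (Bx n K) ℂ} (hA : IsDensity A) (hB : IsDensity B)
    {ε μ lam r : ℝ} (h0 : 0 < ε) (h2 : ε ≤ 1 / 2) (hμ : 0 < μ) (hlam : 0 ≤ lam)
    (EL : (lam : ℂ) • KL A = S.PA B (KL (S.out A B + (ε : ℂ) • (1 : Matrix _ _ ℂ)))
      + ((μ * S.hA ^ 2 : ℝ) : ℂ) • num n K + (r : ℂ) • (1 : Matrix _ _ ℂ))
    (hE : (((2 * K + 2 : ℝ) : ℂ) • (1 : Matrix (Bx n (2 * K) × Bx n (2 * K))
        (Bx n (2 * K) × Bx n (2 * K)) ℂ) - S.EAᴴ * S.EA).PosSemidef)
    (hK : 2 * (En A + 1) ≤ K) :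
    Tp j A ≤ (4 * (1 + lam) / (μ * S.hA ^ 2) * (kap ε + n * Real.log (2 * K + 2) + 1) / K) ^ 2 ∧
    ‖mX j A‖ ≤ 4 * (1 + lam) / (μ * S.hA ^ 2) * kap ε * Real.sqrt ((K + 1) * Tp j A) := by
  have hEn : 0 ≤ En A := En_nonneg hA.1
  have hT0 : 0 ≤ Tp j A := Tp_nonneg j hA.1
  have hkap : 0 < kap ε := kap_pos h0 h2
  have hs : 0 < μ * S.hA ^ 2 := by positivity
  have hK2 : (2 : ℝ) ≤ K := by linarith
  have hK0 : (0 : ℝ) < K := by linarith
  have hlogd : 0 ≤ Real.log (Fintype.card (Bx n K)) := Real.log_natCast_nonneg _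
  have hlogd2 : Real.log (Fintype.card (Bx n K)) ≤ n * Real.log (2 * K + 2) := by
    have e1 : ((Fintype.card (Bx n K) : ℕ) : ℝ) = ((K : ℝ) + 1) ^ n := by
      simp [Bx]
    rw [e1, Real.log_pow]
    refine mul_le_mul_of_nonneg_left (Real.log_le_log (by positivity) (by linarith))
      (Nat.cast_nonneg _)
  constructor
  · have h := FEdge633.edge_weight' hA.1 hA.2 (fun k : Bx n K => ((∑ i, (k i : ℕ) : ℕ) : ℝ))
      (Finset.univ.filter fun k : Bx n K => (k j : ℕ) = K) (K := (K : ℝ)) (r := 1) (lam := lam)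
      (s := μ * S.hA ^ 2) (c := -r) (κ := kap ε)
      (v := 2 * Real.log (Fintype.card (Bx n K)) + 2) (p := Tp j A) (E := En A)
      (Y := S.PA B (KL (S.out A B + (ε : ℂ) • (1 : Matrix _ _ ℂ)))) (Kh := KL A)
      (by
        intro k hk
        rw [Finset.mem_filter] at hk
        have h1 : (k j : ℕ) ≤ ∑ i, (k i : ℕ) :=
          Finset.single_le_sum (f := fun i => (k i : ℕ)) (fun i _ => Nat.zero_le _)
            (Finset.mem_univ j)
        rw [hk.2] at h1
        exact_mod_cast h1)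
      zero_le_one hlam hs hkap.le (by positivity) (Y_bound S hA hB h0 h2) (v_bound hA)
      (KL_mean_nonneg hA)
      (by
        rw [EL, num]
        have e1 : (fun k : Bx n K => ((((∑ i, (k i : ℕ) : ℕ) : ℝ)) : ℂ)) =
            fun k : Bx n K => ((∑ i, (k i : ℕ) : ℕ) : ℂ) := by
          funext k
          rw [Complex.ofReal_natCast]
        rw [e1]
        push_cast
        module)
      (Tp_eq j A) (En_eq A) (by linarith)
    refine h.trans (pow_le_pow_left₀ (by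
      have : En A < K := by linarith
      have : 0 < (K : ℝ) - En A := by linarith
      positivity) ?_ 2)
    have hKE : (K : ℝ) / 2 ≤ K - En A := by linarith
    have e1 : (2 * 1 * kap ε + lam * (2 * Real.log (Fintype.card (Bx n K)) + 2)) ≤
        2 * (1 + lam) * (kap ε + n * Real.log (2 * K + 2) + 1) := by
      have f1 : lam * (2 * Real.log (Fintype.card (Bx n K)) + 2) ≤
          lam * (2 * (n * Real.log (2 * K + 2)) + 2) := by gcongr
      have f2 : 0 ≤ (n : ℝ) * Real.log (2 * K + 2) := hlogd.trans hlogd2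
      nlinarith [mul_nonneg hlam hkap.le]
    calc (2 * 1 * kap ε + lam * (2 * Real.log (Fintype.card (Bx n K)) + 2)) /
          (μ * S.hA ^ 2 * (K - En A))
        ≤ (2 * (1 + lam) * (kap ε + n * Real.log (2 * K + 2) + 1)) /
          (μ * S.hA ^ 2 * (K / 2)) := by
          gcongr
          have : 0 ≤ Real.log (2 * (K : ℝ) + 2) := Real.log_nonneg (by linarith)
          positivity
      _ = 4 * (1 + lam) / (μ * S.hA ^ 2) * (kap ε + n * Real.log (2 * K + 2) + 1) / K := by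
          field_simp
          ring
  · have hA0' : S.hA ≠ 0 := hA0.ne'
    have hcomC : S.out A B * KL (S.out A B + (ε : ℂ) • (1 : Matrix _ _ ℂ)) =
        KL (S.out A B + (ε : ℂ) • (1 : Matrix _ _ ℂ)) * S.out A B := by
      have := KL_comm (herm_out_eps S hA hB ε)
      rw [Matrix.add_mul, Matrix.mul_add, Matrix.smul_mul, Matrix.mul_smul, Matrix.one_mul,
        Matrix.mul_one] at this
      exact add_right_cancel this
    have hm := FGap633.mean_A S (A := A) (B := B) (by rw [hSa]; exact ann_comm_num j) (r : ℂ) EL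
      (KL_comm hA.1.1) hcomC
    have hb := S.trace_ErrA_bound hA.1 hB.1 hB.2 hE
      (KL (S.out A B + (ε : ℂ) • (1 : Matrix _ _ ℂ)))
    rw [← hm, hSQ, hSa] at hb
    have hb2 : (μ * S.hA ^ 2 * ‖mX j A‖) ^ 2 ≤ Tp j A * ((2 * K + 2) * kap ε ^ 2) := by
      have e1 : ‖((μ * S.hA ^ 2 : ℝ) : ℂ) * (A * ann n K j).trace‖ = μ * S.hA ^ 2 * ‖mX j A‖ := by
        rw [norm_mul, Complex.norm_real, Real.norm_of_nonneg hs.le, mX]
      rw [e1] at hb
      refine hb.trans ?_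
      have e2 : (A * top n K j).trace.re = Tp j A := rfl
      rw [e2]
      gcongr
      exact C_bound S hA hB h0 h2
    have hb3 : μ * S.hA ^ 2 * ‖mX j A‖ ≤ 2 * kap ε * Real.sqrt ((K + 1) * Tp j A) := by
      apply abs_le_of_sq_le_sq' _ (by positivity) |>.2
      refine hb2.trans ?_
      rw [mul_pow, mul_pow, Real.sq_sqrt (by positivity)]
      nlinarith [mul_nonneg (mul_nonneg hT0 (sq_nonneg (kap ε))) (by linarith : (0 : ℝ) ≤ K + 1)]
    have hb4 : ‖mX j A‖ ≤ 2 * kap ε * Real.sqrt ((K + 1) * Tp j A) / (μ * S.hA ^ 2) := by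
      rw [le_div_iff₀ hs]
      linarith
    refine hb4.trans ?_
    have e3 : 4 * (1 + lam) / (μ * S.hA ^ 2) * kap ε * Real.sqrt ((K + 1) * Tp j A) =
        (4 * (1 + lam) * kap ε * Real.sqrt ((K + 1) * Tp j A)) / (μ * S.hA ^ 2) := by ring
    rw [e3]
    apply div_le_div_of_nonneg_right _ hs.le
    have : 0 ≤ kap ε * Real.sqrt ((K + 1) * Tp j A) := by positivity
    nlinarith

end side

set_option maxHeartbeats 1000000 in
/-- **LEAF FEDGE** -/
theorem fedge (hW : FW) (hEL : FMINel) : FEDGE := by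
  intro p
  have h1η : 0 < 1 - p.η := by linarith [p.η_lt]
  have hNC0 : 0 < p.NC := by
    have := p.NA_pos; have := p.NB_pos; have := p.η_pos
    unfold Par.NC; positivity
  have hbA : 0 < p.bA := bN_pos p.NA_pos
  have hbB : 0 < p.bB := bN_pos p.NB_pos
  have hbC : 0 < p.bC := bN_pos hNC0
  have hμ := p.μ_pos
  have hη := p.η_pos
  have hβ : 0 < p.β := by unfold Par.β; positivity
  have hlA : 0 ≤ p.lamA := by unfold Par.lamA; positivity
  have hlB : 0 ≤ p.lamB := by unfold Par.lamB; positivity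
  refine ⟨4 * (1 + p.lamA) / (p.μ * p.η) + 4 * (1 + p.lamB) / (p.μ * (1 - p.η)), by positivity, ?_⟩
  intro n K j ε h0 h2 A B hmin hK
  obtain ⟨S, hS⟩ := hW p.η n K j p.η_pos p.η_lt
  obtain ⟨⟨rA, hELA⟩, ⟨rB, hELB⟩⟩ := hEL p n K ε h0 A B hmin
  have hhA : S.hA ^ 2 = p.η := by rw [hS.hA, Real.sq_sqrt p.η_pos.le]
  have hhB : S.hB ^ 2 = 1 - p.η := by rw [hS.hB, Real.sq_sqrt h1η.le]
  have hA0 : 0 < S.hA := by rw [hS.hA]; exact Real.sqrt_pos.2 p.η_pos
  have hB0 : 0 < S.hB := by rw [hS.hB]; exact Real.sqrt_pos.2 h1η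
  have hEnA := En_nonneg hmin.dA.1
  have hEnB := En_nonneg hmin.dB.1
  have hQdef : outQ p.η ε A B = S.out A B + (ε : ℂ) • (1 : Matrix _ _ ℂ) := by
    rw [out_inst hS, outQ]
  obtain ⟨hE1, hE2⟩ := FinW87.hE_isBox ⟨p.η_pos.le, p.η_lt.le⟩ j hS
  obtain ⟨a1, a2⟩ := side S j hS.a hS.QA hA0 hmin.dA hmin.dB h0 h2 hμ hlA
    (r := rA) (by rw [hELA, hhA, PA_inst hS, hQdef]) hE1 (by linarith)
  have hswap : S.swap.out B A = S.out A B := S.swap_out A B
  have hsw : S.swap.hA ^ 2 = 1 - p.η := hhB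
  have hPB : S.swap.PA A (KL (S.swap.out B A + (ε : ℂ) • (1 : Matrix _ _ ℂ))) =
      PB p.η A (KL (outQ p.η ε A B)) := by
    rw [hswap, ← hQdef, ← PB_inst hS]
    rfl
  obtain ⟨b1, b2⟩ := side S.swap j hS.b hS.QB hB0 hmin.dB hmin.dA h0 h2 hμ hlB
    (r := rB) (by rw [hELB, hPB, hsw]) hE2 (by linarith)
  rw [hhA] at a1 a2
  rw [hsw] at b1 b2
  have hkap : 0 < kap ε := kap_pos h0 h2
  have hlog : 0 ≤ Real.log (2 * (K : ℝ) + 2) :=
    Real.log_nonneg (by have : (0 : ℝ) ≤ K := Nat.cast_nonneg K; linarith)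
  have cA : 0 ≤ 4 * (1 + p.lamA) / (p.μ * p.η) := by positivity
  have cB : 0 ≤ 4 * (1 + p.lamB) / (p.μ * (1 - p.η)) := by positivity
  refine ⟨a1.trans ?_, b1.trans ?_, a2.trans ?_, b2.trans ?_⟩
  · gcongr
    linarith
  · gcongr
    linarith
  · gcongr
    linarith
  · gcongr
    linarith

end

end Crest.Agent.R331.FEdgeInst633
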