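import Mathlib
import Crest.Agent.R331.Fin8_628

/-! # Finite track, leaf FLIM (helper628), part 1: embedding of a box into a larger box -/

set_option autoImplicit false
set_option linter.unusedSectionVars false

noncomputable section

namespace Crest.Agent.R331.FLim_628

open Crest.Quantum Crest.MathPhysics.Bosonic Matrix Finset Filter Topology
open Crest.Agent.R331.Gibbs158 Crest.Agent.R331.Fin8_628
open scoped ComplexOrder

section entropy

variable {d e : Type*} [Fintype d] [DecidableEq d] [Fintype e] [DecidableEq e]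

/-- entropy through the roots of the characteristic polynomial -/
lemma vn_roots {A : Matrix d d ℂ} (h : A.IsHermitian) :
    vnEntropy A = (A.charpoly.roots.map (fun z : ℂ => Real.negMulLog z.re)).sum := by
  rw [vn_eq h, h.roots_charpoly_eq_eigenvalues, Multiset.map_map]
  rfl

/-- entropy of a matrix given in diagonalised form -/
lemma vn_of_diag {A : Matrix d d ℂ} (U : Matrix d d ℂ) (hU : star U * U = 1) (f : d → ℝ)
    (hA : A = U * diagonal (fun i => (f i : ℂ)) * star U) :
    vnEntropy A = ∑ i, Real.negMulLog (f i) := by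
  have hH : A.IsHermitian := by
    rw [hA, Matrix.IsHermitian, Matrix.conjTranspose_mul, Matrix.conjTranspose_mul]
    rw [← Matrix.star_eq_conjTranspose, ← Matrix.star_eq_conjTranspose, star_star,
      Matrix.star_eq_conjTranspose, Matrix.diagonal_conjTranspose, Matrix.mul_assoc]
    congr 2
    congr 1
    funext i
    simp
  have hchar : A.charpoly = ∏ i, (Polynomial.X - Polynomial.C ((f i : ℂ))) := by
    rw [hA, Matrix.charpoly_mul_comm, ← Matrix.mul_assoc, hU, Matrix.one_mul,
      Matrix.charpoly_diagonal]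
  have h2 : (∏ i, (Polynomial.X - Polynomial.C ((f i : ℂ)))).roots
      = Finset.univ.val.map (fun i => (f i : ℂ)) := by
    rw [← Polynomial.roots_multiset_prod_X_sub_C (Finset.univ.val.map (fun i => (f i : ℂ))),
      Multiset.map_map]
    rfl
  rw [vn_roots hH, hchar, h2, Multiset.map_map]
  rfl

/-- entropy is invariant under isometric embedding -/
lemma vn_isometry {A : Matrix d d ℂ} (hA : A.IsHermitian) (V : Matrix e d ℂ) (hV : Vᴴ * V = 1) :
    vnEntropy (V * A * Vᴴ) = vnEntropy A := by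
  have hH : (V * A * Vᴴ).IsHermitian := by
    rw [Matrix.IsHermitian, Matrix.conjTranspose_mul, Matrix.conjTranspose_mul,
      Matrix.conjTranspose_conjTranspose, hA.eq, Matrix.mul_assoc]
  have h := Matrix.charpoly_mul_comm' (V * A) Vᴴ
  rw [← Matrix.mul_assoc, hV, Matrix.one_mul] at h
  have hc : (Polynomial.X ^ (Fintype.card d) * (V * A * Vᴴ).charpoly).roots
      = (Polynomial.X ^ (Fintype.card e) * A.charpoly).roots := by
    rw [h]
  have hX : ∀ m : ℕ, (Polynomial.X ^ m : Polynomial ℂ) ≠ 0 := fun m => pow_ne_zero _ Polynomial.X_ne_zero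
  rw [Polynomial.roots_mul (mul_ne_zero (hX _) (Matrix.charpoly_monic _).ne_zero),
    Polynomial.roots_mul (mul_ne_zero (hX _) (Matrix.charpoly_monic _).ne_zero)] at hc
  have h2 := congrArg (fun s : Multiset ℂ => (s.map (fun z : ℂ => Real.negMulLog z.re)).sum) hc
  simp only [Multiset.map_add, Multiset.sum_add, Polynomial.roots_X_pow, Multiset.map_nsmul,
    Multiset.map_singleton, Complex.zero_re, Real.negMulLog_zero, Multiset.sum_nsmul,
    Multiset.sum_singleton, smul_zero, zero_add] at h2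
  rw [vn_roots hH, vn_roots hA]
  exact h2

/-- `S(C + ε) = ∑ η(λ_i + ε)` -/
lemma vn_add_smul {C : Matrix d d ℂ} (hC : C.IsHermitian) (ε : ℝ) :
    vnEntropy (C + (ε : ℂ) • (1 : Matrix d d ℂ)) = ∑ i, Real.negMulLog (hC.eigenvalues i + ε) := by
  have hU : star (hC.eigenvectorUnitary : Matrix d d ℂ) * (hC.eigenvectorUnitary : Matrix d d ℂ) = 1 :=
    Unitary.coe_star_mul_self _
  have hU' : (hC.eigenvectorUnitary : Matrix d d ℂ) * star (hC.eigenvectorUnitary : Matrix d d ℂ) = 1 :=
    Unitary.coe_mul_star_self _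
  refine vn_of_diag (hC.eigenvectorUnitary : Matrix d d ℂ) hU _ ?_
  have hs : C = (hC.eigenvectorUnitary : Matrix d d ℂ) *
      diagonal (fun j => (hC.eigenvalues j : ℂ)) *
      star (hC.eigenvectorUnitary : Matrix d d ℂ) := by
    conv_lhs => rw [hC.spectral_theorem]
    rw [Unitary.conjStarAlgAut_apply]
    rfl
  have hd : diagonal (fun i => ((hC.eigenvalues i + ε : ℝ) : ℂ))
      = diagonal (fun i => (hC.eigenvalues i : ℂ)) + (ε : ℂ) • (1 : Matrix d d ℂ) := by
    rw [← Matrix.diagonal_one, ← Matrix.diagonal_smul, Matrix.diagonal_add]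
    congr 1
    funext i
    simp
  rw [hd, Matrix.mul_add, Matrix.add_mul, ← hs, Matrix.mul_smul, Matrix.smul_mul, Matrix.mul_one, hU']

lemma negMulLog_add_le {x y : ℝ} (hx : 0 ≤ x) (hy : 0 ≤ y) :
    Real.negMulLog (x + y) ≤ Real.negMulLog x + Real.negMulLog y := by
  rcases hx.eq_or_lt with rfl | hx
  · simp
  rcases hy.eq_or_lt with rfl | hy
  · simp
  have h1 : Real.log x ≤ Real.log (x + y) := Real.log_le_log hx (by linarith)
  have h2 : Real.log y ≤ Real.log (x + y) := Real.log_le_log hy (by linarith)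
  unfold Real.negMulLog
  nlinarith

/-- (FL2) -/
lemma vn_add_smul_le {C : Matrix d d ℂ} (hC : C.PosSemidef) {ε : ℝ} (hε : 0 ≤ ε) :
    vnEntropy (C + (ε : ℂ) • (1 : Matrix d d ℂ))
      ≤ vnEntropy C + Fintype.card d * Real.negMulLog ε := by
  rw [vn_add_smul hC.1, vn_eq hC.1]
  calc ∑ i, Real.negMulLog (hC.1.eigenvalues i + ε)
      ≤ ∑ i, (Real.negMulLog (hC.1.eigenvalues i) + Real.negMulLog ε) :=
        Finset.sum_le_sum fun i _ => negMulLog_add_le (hC.eigenvalues_nonneg i) hε
    _ = _ := by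
        rw [Finset.sum_add_distrib, Finset.sum_const, nsmul_eq_mul, Finset.card_univ]

/-- lower bound: `S(C) - card * ε ≤ S(C + ε)` -/
lemma le_vn_add_smul {C : Matrix d d ℂ} (hC : IsDensity C) {ε : ℝ} (hε : 0 < ε) :
    vnEntropy C - Fintype.card d * ε * (1 + ε)
      ≤ vnEntropy (C + (ε : ℂ) • (1 : Matrix d d ℂ)) := by
  rw [vn_add_smul hC.1.1, vn_eq hC.1.1]
  have key : ∀ i, Real.negMulLog (hC.1.1.eigenvalues i) - ε * (1 + ε)
      ≤ Real.negMulLog (hC.1.1.eigenvalues i + ε) := by
    intro i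
    have h0 := eig_nonneg hC i
    have h1 := eig_le_one hC i
    set t := hC.1.1.eigenvalues i
    -- -(t+ε) log (t+ε) ≥ -t log t - ε(1+ε)
    have hpos : 0 < t + ε := by linarith
    have e1 : Real.negMulLog (t + ε) = -t * Real.log (t + ε) - ε * Real.log (t + ε) := by
      unfold Real.negMulLog; ring
    have h2 : Real.log (t + ε) ≤ t + ε - 1 := Real.log_le_sub_one_of_pos hpos
    have h3 : ε * Real.log (t + ε) ≤ ε * ε := mul_le_mul_of_nonneg_left (by linarith) hε.le
    have h4 : Real.negMulLog t ≤ -t * Real.log (t + ε) + ε := by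
      have := negMulLog_le h0 hpos
      have e2 : -Real.log (t + ε) * t + (t + ε) - t = -t * Real.log (t + ε) + ε := by ring
      linarith
    rw [e1]
    nlinarith
  calc ∑ i, Real.negMulLog (hC.1.1.eigenvalues i) - Fintype.card d * ε * (1 + ε)
      = ∑ i, (Real.negMulLog (hC.1.1.eigenvalues i) - ε * (1 + ε)) := by
        rw [Finset.sum_sub_distrib, Finset.sum_const, nsmul_eq_mul, Finset.card_univ, mul_assoc]
    _ ≤ _ := Finset.sum_le_sum fun i _ => key i

end entropy

/-! ### embedding a box -/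

section embed

variable {n K0 K : ℕ}

/-- zero extension of a matrix on the box `K0` to the box `K` -/
def up (K : ℕ) (A : Matrix (Bx n K0) (Bx n K0) ℂ) : Matrix (Bx n K) (Bx n K) ℂ :=
  Matrix.of fun k l => ext A (occ k) (occ l)

lemma boxF_sub (h : K0 ≤ K) : boxF n K0 ⊆ boxF n K := boxF_mono h

lemma ext_up (h : K0 ≤ K) (A : Matrix (Bx n K0) (Bx n K0) ℂ) (k l : Occ n) :
    ext (up K A) k l = ext A k l := by
  by_cases hk : k ∈ boxF n K
  · by_cases hl : l ∈ boxF n K
    · rw [ext_of_mem _ hk hl]; rfl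
    · rw [ext_right _ hl, ext_right A (fun h' => hl (boxF_sub h h'))]
  · rw [ext_left _ hk, ext_left A (fun h' => hk (boxF_sub h h'))]

/-- inclusion matrix -/
def incl (n K0 K : ℕ) : Matrix (Bx n K) (Bx n K0) ℂ :=
  Matrix.of fun k i => if occ k = occ i then 1 else 0

lemma incl_isometry (h : K0 ≤ K) : (incl n K0 K)ᴴ * incl n K0 K = 1 := by
  ext i j
  rw [Matrix.mul_apply, Matrix.one_apply]
  have hi : occ i ∈ boxF n K := boxF_sub h (occ_mem i)
  rw [Finset.sum_eq_single (toBx (occ i) hi)]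
  · by_cases hij : i = j
    · subst hij; simp [Matrix.conjTranspose_apply, incl]
    · have : occ i ≠ occ j := fun h' => hij (occ_injective h')
      simp [Matrix.conjTranspose_apply, incl, hij, this]
  · intro k _ hk
    have : occ k ≠ occ i := fun h' => hk (occ_injective (by rw [h']; rfl))
    simp [Matrix.conjTranspose_apply, incl, this]
  · intro h'; exact absurd (Finset.mem_univ _) h'

lemma up_eq (A : Matrix (Bx n K0) (Bx n K0) ℂ) :
    up K A = incl n K0 K * A * (incl n K0 K)ᴴ := by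
  ext k l
  rw [Matrix.mul_apply]
  simp only [Matrix.mul_apply, incl, Matrix.of_apply, Matrix.conjTranspose_apply, up]
  by_cases hk : occ k ∈ boxF n K0
  · by_cases hl : occ l ∈ boxF n K0
    · rw [ext_of_mem A hk hl, Finset.sum_eq_single (toBx (occ l) hl)]
      · rw [Finset.sum_eq_single (toBx (occ k) hk)]
        · simp
        · intro i _ hi
          have : occ k ≠ occ i := fun h' => hi (occ_injective (by rw [← h']; rfl))
          simp [this]
        · intro h'; exact absurd (Finset.mem_univ _) h'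
      · intro i _ hi
        have : occ l ≠ occ i := fun h' => hi (occ_injective (by rw [← h']; rfl))
        simp [this]
      · intro h'; exact absurd (Finset.mem_univ _) h'
    · rw [ext_right A hl]
      symm
      refine Finset.sum_eq_zero fun i _ => ?_
      have : occ l ≠ occ i := fun h' => hl (h' ▸ occ_mem i)
      simp [this]
  · rw [ext_left A hk]
    symm
    refine Finset.sum_eq_zero fun i _ => ?_
    have : ∀ j : Bx n K0, occ k ≠ occ j := fun j h' => hk (h' ▸ occ_mem j)
    simp [this]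

lemma up_isDensity (h : K0 ≤ K) {A : Matrix (Bx n K0) (Bx n K0) ℂ} (hA : IsDensity A) :
    IsDensity (up K A) := by
  rw [up_eq]
  refine ⟨hA.1.mul_mul_conjTranspose_same _, ?_⟩
  rw [Matrix.trace_mul_cycle, incl_isometry h, Matrix.one_mul, hA.2]

lemma vn_up (h : K0 ≤ K) {A : Matrix (Bx n K0) (Bx n K0) ℂ} (hA : A.IsHermitian) :
    vnEntropy (up K A) = vnEntropy A := by
  rw [up_eq]
  exact vn_isometry hA _ (incl_isometry h)

lemma en_up (h : K0 ≤ K) (A : Matrix (Bx n K0) (Bx n K0) ℂ) : en (up K A) = en A := by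
  rw [← sum_tot_dg, ← sum_tot_dg]
  have h1 : ∀ k, dg (up K A) k = dg A k := fun k => by rw [dg, dg, ext_up h]
  simp only [h1]
  symm
  refine Finset.sum_subset (boxF_sub h) fun k _ hk => ?_
  rw [dg_zero hk, mul_zero]

lemma bsOutput_eq (η : ℝ) (A B : Matrix (Bx n K) (Bx n K) ℂ) (p p' : Bx n (2 * K)) :
    bsOutput η A B p p' = ∑ q ∈ boxF n (2 * K), ∑ k ∈ boxF n K, ∑ l ∈ boxF n K,
      ∑ k' ∈ boxF n K, ∑ l' ∈ boxF n K,
        (ampOcc η k l (occ p) q : ℂ) * ext A k k' * ext B l l' * (ampOcc η k' l' (occ p') q : ℂ) := by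
  simp only [sum_boxF, ext_occ]
  rfl

lemma ampOcc_zero {η : ℝ} {k l p q : Occ n} (h : ∃ j, p j + q j ≠ k j + l j) :
    ampOcc η k l p q = 0 := by
  obtain ⟨j, hj⟩ := h
  unfold ampOcc
  refine Finset.prod_eq_zero (Finset.mem_univ j) ?_
  unfold bsAmp
  rw [if_neg hj]

lemma bsOutput_up (η : ℝ) (h : K0 ≤ K) (A B : Matrix (Bx n K0) (Bx n K0) ℂ) :
    bsOutput η (up K A) (up K B) = up (2 * K) (bsOutput η A B) := by
  ext p p'
  rw [bsOutput_eq]
  simp only [ext_up h]
  have hred : ∀ (f : Occ n → ℂ), (∀ k, k ∉ boxF n K0 → f k = 0) →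
      ∑ k ∈ boxF n K, f k = ∑ k ∈ boxF n K0, f k := by
    intro f hf
    symm
    exact Finset.sum_subset (boxF_sub h) fun k _ hk => hf k hk
  have h1 : ∀ q : Occ n, (∑ k ∈ boxF n K, ∑ l ∈ boxF n K, ∑ k' ∈ boxF n K, ∑ l' ∈ boxF n K,
        (ampOcc η k l (occ p) q : ℂ) * ext A k k' * ext B l l' * (ampOcc η k' l' (occ p') q : ℂ))
      = ∑ k ∈ boxF n K0, ∑ l ∈ boxF n K0, ∑ k' ∈ boxF n K0, ∑ l' ∈ boxF n K0,
        (ampOcc η k l (occ p) q : ℂ) * ext A k k' * ext B l l' * (ampOcc η k' l' (occ p') q : ℂ) := by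
    intro q
    rw [hred _ (fun k hk => Finset.sum_eq_zero fun l _ => Finset.sum_eq_zero fun k' _ =>
      Finset.sum_eq_zero fun l' _ => by rw [ext_left A hk]; ring)]
    refine Finset.sum_congr rfl fun k _ => ?_
    rw [hred _ (fun l hl => Finset.sum_eq_zero fun k' _ =>
      Finset.sum_eq_zero fun l' _ => by rw [ext_left B hl]; ring)]
    refine Finset.sum_congr rfl fun l _ => ?_
    rw [hred _ (fun k' hk' => Finset.sum_eq_zero fun l' _ => by rw [ext_right A hk']; ring)]
    refine Finset.sum_congr rfl fun k' _ => ?_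
    rw [hred _ (fun l' hl' => by rw [ext_right B hl']; ring)]
  simp only [h1]
  have hz : ∀ (r : Occ n) (q : Occ n), (r ∉ boxF n (2 * K0) ∨ q ∉ boxF n (2 * K0)) →
      ∀ k ∈ boxF n K0, ∀ l ∈ boxF n K0, ampOcc η k l r q = 0 := by
    intro r q hrq k hk l hl
    rw [mem_boxF] at hk hl
    apply ampOcc_zero
    rcases hrq with hr | hr
    · rw [mem_boxF] at hr; push Not at hr
      obtain ⟨j, hj⟩ := hr
      exact ⟨j, by have := hk j; have := hl j; omega⟩
    · rw [mem_boxF] at hr; push Not at hr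
      obtain ⟨j, hj⟩ := hr
      exact ⟨j, by have := hk j; have := hl j; omega⟩
  have h2 : (∑ q ∈ boxF n (2 * K), ∑ k ∈ boxF n K0, ∑ l ∈ boxF n K0, ∑ k' ∈ boxF n K0,
        ∑ l' ∈ boxF n K0,
        (ampOcc η k l (occ p) q : ℂ) * ext A k k' * ext B l l' * (ampOcc η k' l' (occ p') q : ℂ))
      = ∑ q ∈ boxF n (2 * K0), ∑ k ∈ boxF n K0, ∑ l ∈ boxF n K0, ∑ k' ∈ boxF n K0,
        ∑ l' ∈ boxF n K0,
        (ampOcc η k l (occ p) q : ℂ) * ext A k k' * ext B l l' * (ampOcc η k' l' (occ p') q : ℂ) := by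
    symm
    refine Finset.sum_subset (boxF_sub (by omega)) fun q _ hq => ?_
    refine Finset.sum_eq_zero fun k hk => Finset.sum_eq_zero fun l hl => Finset.sum_eq_zero
      fun k' _ => Finset.sum_eq_zero fun l' _ => ?_
    rw [hz _ q (Or.inr hq) k hk l hl]; simp
  rw [h2]
  simp only [up, Matrix.of_apply]
  by_cases hp : occ p ∈ boxF n (2 * K0)
  · by_cases hp' : occ p' ∈ boxF n (2 * K0)
    · rw [ext_of_mem _ hp hp', bsOutput_eq]
      rfl
    · rw [ext_right _ hp']
      refine Finset.sum_eq_zero fun q _ => Finset.sum_eq_zero fun k _ => Finset.sum_eq_zero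
        fun l _ => Finset.sum_eq_zero fun k' hk' => Finset.sum_eq_zero fun l' hl' => ?_
      rw [hz _ q (Or.inl hp') k' hk' l' hl']; simp
  · rw [ext_left _ hp]
    refine Finset.sum_eq_zero fun q _ => Finset.sum_eq_zero fun k hk => Finset.sum_eq_zero
        fun l hl => Finset.sum_eq_zero fun k' _ => Finset.sum_eq_zero fun l' _ => ?_
    rw [hz _ q (Or.inl hp) k hk l hl]; simp

end embed

end Crest.Agent.R331.FLim_628
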