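import Mathlib

/-!
# [FIN-2] The two-input channel given by a finite isometry (helper280, row 331)

Abstract finite matrices: `W : Matrix (K × L) (I × J) ℂ` with `Wᴴ * W = 1`,
`Phi W A B = Tr_L (W (A ⊗ B) Wᴴ)`, `G W Y = Wᴴ (Y ⊗ 1) W`,
`PA W B Y = Tr_J ((1 ⊗ B) G Y)`, `PB W A Y = Tr_I ((A ⊗ 1) G Y)`.
-/

set_option autoImplicit false
set_option linter.unusedSectionVars false
set_option linter.unusedSimpArgs false
set_option linter.unusedDecidableInType false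

open Matrix
open scoped Kronecker ComplexOrder

namespace Crest.Agent.R331.FinPhi280

section Basic

variable {K L : Type*} [Fintype K] [Fintype L]

/-- partial trace over the second factor -/
def tr2 (M : Matrix (K × L) (K × L) ℂ) : Matrix K K ℂ := Matrix.of fun k k' => ∑ l, M (k, l) (k', l)

/-- partial trace over the first factor -/
def tr1 (M : Matrix (K × L) (K × L) ℂ) : Matrix L L ℂ := Matrix.of fun l l' => ∑ k, M (k, l) (k, l')

@[simp] lemma tr2_apply (M : Matrix (K × L) (K × L) ℂ) (k k' : K) :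
    tr2 M k k' = ∑ l, M (k, l) (k', l) := rfl

@[simp] lemma tr1_apply (M : Matrix (K × L) (K × L) ℂ) (l l' : L) :
    tr1 M l l' = ∑ k, M (k, l) (k, l') := rfl

lemma tr2_add (M N : Matrix (K × L) (K × L) ℂ) : tr2 (M + N) = tr2 M + tr2 N := by
  ext; simp [Finset.sum_add_distrib]

lemma tr1_add (M N : Matrix (K × L) (K × L) ℂ) : tr1 (M + N) = tr1 M + tr1 N := by
  ext; simp [Finset.sum_add_distrib]

lemma tr2_sub (M N : Matrix (K × L) (K × L) ℂ) : tr2 (M - N) = tr2 M - tr2 N := by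
  ext; simp [Finset.sum_sub_distrib]

lemma tr1_sub (M N : Matrix (K × L) (K × L) ℂ) : tr1 (M - N) = tr1 M - tr1 N := by
  ext; simp [Finset.sum_sub_distrib]

lemma tr2_smul (c : ℂ) (M : Matrix (K × L) (K × L) ℂ) : tr2 (c • M) = c • tr2 M := by
  ext; simp [Finset.mul_sum]

lemma tr1_smul (c : ℂ) (M : Matrix (K × L) (K × L) ℂ) : tr1 (c • M) = c • tr1 M := by
  ext; simp [Finset.mul_sum]

lemma tr2_zero : tr2 (0 : Matrix (K × L) (K × L) ℂ) = 0 := by ext; simp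

lemma tr1_zero : tr1 (0 : Matrix (K × L) (K × L) ℂ) = 0 := by ext; simp

lemma tr2_sum {ι : Type*} (s : Finset ι) (f : ι → Matrix (K × L) (K × L) ℂ) :
    tr2 (∑ x ∈ s, f x) = ∑ x ∈ s, tr2 (f x) := by
  ext k k'
  simp only [tr2_apply, Matrix.sum_apply]
  exact Finset.sum_comm

lemma tr1_sum {ι : Type*} (s : Finset ι) (f : ι → Matrix (K × L) (K × L) ℂ) :
    tr1 (∑ x ∈ s, f x) = ∑ x ∈ s, tr1 (f x) := by
  ext k k'
  simp only [tr1_apply, Matrix.sum_apply]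
  exact Finset.sum_comm

lemma tr2_conjTranspose (M : Matrix (K × L) (K × L) ℂ) : tr2 Mᴴ = (tr2 M)ᴴ := by
  ext; simp [conjTranspose_apply]

lemma tr1_conjTranspose (M : Matrix (K × L) (K × L) ℂ) : tr1 Mᴴ = (tr1 M)ᴴ := by
  ext; simp [conjTranspose_apply]

lemma trace_tr2 (M : Matrix (K × L) (K × L) ℂ) : trace (tr2 M) = trace M := by
  simp [trace, Fintype.sum_prod_type]

lemma trace_tr1 (M : Matrix (K × L) (K × L) ℂ) : trace (tr1 M) = trace M := by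
  simp only [trace, diag_apply, tr1_apply, Fintype.sum_prod_type]
  exact Finset.sum_comm

variable [DecidableEq L] [DecidableEq K]

lemma tr2_mul_kron_one (M : Matrix (K × L) (K × L) ℂ) (Y : Matrix K K ℂ) :
    tr2 (M * (Y ⊗ₖ (1 : Matrix L L ℂ))) = tr2 M * Y := by
  ext k k'
  simp only [tr2_apply, mul_apply, kroneckerMap_apply, Fintype.sum_prod_type, one_apply, mul_ite,
    mul_one, mul_zero, Finset.sum_ite_eq', Finset.mem_univ, if_true, Finset.sum_mul]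
  exact Finset.sum_comm

lemma tr2_kron_one_mul (M : Matrix (K × L) (K × L) ℂ) (Y : Matrix K K ℂ) :
    tr2 ((Y ⊗ₖ (1 : Matrix L L ℂ)) * M) = Y * tr2 M := by
  ext k k'
  simp only [tr2_apply, mul_apply, kroneckerMap_apply, Fintype.sum_prod_type, one_apply, mul_ite,
    mul_one, mul_zero, ite_mul, zero_mul, Finset.sum_ite_eq, Finset.mem_univ, if_true,
    Finset.mul_sum]
  exact Finset.sum_comm

lemma tr1_mul_one_kron (M : Matrix (K × L) (K × L) ℂ) (Z : Matrix L L ℂ) :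
    tr1 (M * ((1 : Matrix K K ℂ) ⊗ₖ Z)) = tr1 M * Z := by
  ext l l'
  have h : ∀ k k' : K, (∑ l'', M (k, l) (k', l'') * ((1 : Matrix K K ℂ) k' k * Z l'' l'))
      = if k' = k then ∑ l'', M (k, l) (k', l'') * Z l'' l' else 0 := by
    intro k k'
    by_cases hk : k' = k
    · subst hk; simp
    · simp [hk, one_apply_ne hk]
  simp only [tr1_apply, mul_apply, kroneckerMap_apply, Fintype.sum_prod_type, h,
    Finset.sum_ite_eq', Finset.mem_univ, if_true, Finset.sum_mul]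
  exact Finset.sum_comm

lemma tr1_one_kron_mul (M : Matrix (K × L) (K × L) ℂ) (Z : Matrix L L ℂ) :
    tr1 (((1 : Matrix K K ℂ) ⊗ₖ Z) * M) = Z * tr1 M := by
  ext l l'
  have h : ∀ k k' : K, (∑ l'', ((1 : Matrix K K ℂ) k k' * Z l l'') * M (k', l'') (k, l'))
      = if k = k' then ∑ l'', Z l l'' * M (k', l'') (k, l') else 0 := by
    intro k k'
    by_cases hk : k = k'
    · subst hk; simp
    · simp [hk, one_apply_ne hk]
  simp only [tr1_apply, mul_apply, kroneckerMap_apply, Fintype.sum_prod_type, h,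
    Finset.sum_ite_eq, Finset.mem_univ, if_true, Finset.mul_sum]
  exact Finset.sum_comm

/-- partial cyclicity -/
lemma tr2_one_kron_comm (M : Matrix (K × L) (K × L) ℂ) (Z : Matrix L L ℂ) :
    tr2 (((1 : Matrix K K ℂ) ⊗ₖ Z) * M) = tr2 (M * ((1 : Matrix K K ℂ) ⊗ₖ Z)) := by
  ext k k'
  simp only [tr2_apply, mul_apply, kroneckerMap_apply, Fintype.sum_prod_type, one_apply, ite_mul,
    one_mul, zero_mul, mul_ite, mul_zero, Finset.sum_ite_irrel, Finset.sum_const_zero,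
    Finset.sum_ite_eq, Finset.sum_ite_eq', Finset.mem_univ, if_true]
  rw [Finset.sum_comm]
  refine Finset.sum_congr rfl fun l _ => Finset.sum_congr rfl fun l' _ => mul_comm _ _

/-- partial cyclicity -/
lemma tr1_kron_one_comm (M : Matrix (K × L) (K × L) ℂ) (Y : Matrix K K ℂ) :
    tr1 ((Y ⊗ₖ (1 : Matrix L L ℂ)) * M) = tr1 (M * (Y ⊗ₖ (1 : Matrix L L ℂ))) := by
  ext l l'
  simp only [tr1_apply, mul_apply, kroneckerMap_apply, Fintype.sum_prod_type, one_apply, ite_mul,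
    one_mul, zero_mul, mul_one, mul_ite, mul_zero, Finset.sum_ite_irrel, Finset.sum_const_zero,
    Finset.sum_ite_eq, Finset.sum_ite_eq', Finset.mem_univ, if_true]
  rw [Finset.sum_comm]
  refine Finset.sum_congr rfl fun l _ => Finset.sum_congr rfl fun l' _ => mul_comm _ _

lemma trace_tr2_mul (M : Matrix (K × L) (K × L) ℂ) (Y : Matrix K K ℂ) :
    trace (tr2 M * Y) = trace (M * (Y ⊗ₖ (1 : Matrix L L ℂ))) := by
  rw [← tr2_mul_kron_one, trace_tr2]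

lemma trace_tr1_mul (M : Matrix (K × L) (K × L) ℂ) (Z : Matrix L L ℂ) :
    trace (tr1 M * Z) = trace (M * ((1 : Matrix K K ℂ) ⊗ₖ Z)) := by
  rw [← tr1_mul_one_kron, trace_tr1]

omit [DecidableEq L] [DecidableEq K] in
lemma tr2_posSemidef {M : Matrix (K × L) (K × L) ℂ} (hM : M.PosSemidef) : (tr2 M).PosSemidef := by
  have : tr2 M = ∑ l, M.submatrix (fun k => (k, l)) (fun k => (k, l)) := by
    ext k k'; simp [Matrix.sum_apply]
  rw [this]
  exact posSemidef_sum _ fun l _ => hM.submatrix _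

omit [DecidableEq L] [DecidableEq K] in
lemma tr1_posSemidef {M : Matrix (K × L) (K × L) ℂ} (hM : M.PosSemidef) : (tr1 M).PosSemidef := by
  have : tr1 M = ∑ k, M.submatrix (fun l => (k, l)) (fun l => (k, l)) := by
    ext k k'; simp [Matrix.sum_apply]
  rw [this]
  exact posSemidef_sum _ fun l _ => hM.submatrix _

omit [DecidableEq L] [DecidableEq K] in
lemma tr2_kron (A : Matrix K K ℂ) (B : Matrix L L ℂ) : tr2 (A ⊗ₖ B) = trace B • A := by
  ext k k'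
  simp [trace, Finset.mul_sum, mul_comm]

omit [DecidableEq L] [DecidableEq K] in
lemma tr1_kron (A : Matrix K K ℂ) (B : Matrix L L ℂ) : tr1 (A ⊗ₖ B) = trace A • B := by
  ext k k'
  simp [trace, Finset.sum_mul]

end Basic

section Forms

variable {I : Type*} [Fintype I]

/-- `R_X(Y,Z) = Tr X Y* Z` -/
def Rf (X Y Z : Matrix I I ℂ) : ℂ := trace (X * (Yᴴ * Z))

/-- `L_X(Y,Z) = Tr X Z Y*` -/
def Lf (X Y Z : Matrix I I ℂ) : ℂ := trace (X * (Z * Yᴴ))

/-- `R_X(Y) = Tr X Y* Y` -/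
def Rq (X Y : Matrix I I ℂ) : ℝ := (trace (X * (Yᴴ * Y))).re

/-- `L_X(Y) = Tr X Y Y*` -/
def Lq (X Y : Matrix I I ℂ) : ℝ := (trace (X * (Y * Yᴴ))).re

lemma Rq_eq (X Y : Matrix I I ℂ) : Rq X Y = (Rf X Y Y).re := rfl

lemma Lq_eq (X Y : Matrix I I ℂ) : Lq X Y = (Lf X Y Y).re := rfl

lemma Lq_eq_Rq (X Y : Matrix I I ℂ) : Lq X Y = Rq X Yᴴ := by
  simp [Lq, Rq, conjTranspose_conjTranspose]

lemma Rf_add_right (X Y Z Z' : Matrix I I ℂ) : Rf X Y (Z + Z') = Rf X Y Z + Rf X Y Z' := by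
  simp [Rf, Matrix.mul_add, trace_add]

lemma Rf_sub_right (X Y Z Z' : Matrix I I ℂ) : Rf X Y (Z - Z') = Rf X Y Z - Rf X Y Z' := by
  simp [Rf, Matrix.mul_sub, trace_sub]

lemma Rf_sub_left (X Y Y' Z : Matrix I I ℂ) : Rf X (Y - Y') Z = Rf X Y Z - Rf X Y' Z := by
  simp [Rf, Matrix.mul_sub, Matrix.sub_mul, trace_sub, conjTranspose_sub]

lemma Rf_add_left (X Y Y' Z : Matrix I I ℂ) : Rf X (Y + Y') Z = Rf X Y Z + Rf X Y' Z := by
  simp [Rf, Matrix.mul_add, Matrix.add_mul, trace_add, conjTranspose_add]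

lemma Rf_smul_right (X Y Z : Matrix I I ℂ) (c : ℂ) : Rf X Y (c • Z) = c * Rf X Y Z := by
  simp [Rf, trace_smul]

lemma Rf_smul_left (X Y Z : Matrix I I ℂ) (c : ℂ) : Rf X (c • Y) Z = star c * Rf X Y Z := by
  simp [Rf, trace_smul, conjTranspose_smul]

lemma Rf_conj {X : Matrix I I ℂ} (hX : X.IsHermitian) (Y Z : Matrix I I ℂ) :
    star (Rf X Y Z) = Rf X Z Y := by
  unfold Rf
  rw [← trace_conjTranspose, conjTranspose_mul, conjTranspose_mul, conjTranspose_conjTranspose,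
    hX.eq, trace_mul_comm]

lemma Rf_conj_re {X : Matrix I I ℂ} (hX : X.IsHermitian) (Y Z : Matrix I I ℂ) :
    (Rf X Z Y).re = (Rf X Y Z).re := by
  rw [← Rf_conj hX Y Z]; simp

lemma Rq_nonneg {X : Matrix I I ℂ} (hX : X.PosSemidef) (Y : Matrix I I ℂ) : 0 ≤ Rq X Y := by
  unfold Rq
  have h : trace (X * (Yᴴ * Y)) = trace (Y * X * Yᴴ) := by
    rw [← Matrix.mul_assoc, trace_mul_comm, ← Matrix.mul_assoc]
  rw [h]
  have := (hX.mul_mul_conjTranspose_same Y).trace_nonneg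
  exact (Complex.le_def.mp this).1

lemma Lq_nonneg {X : Matrix I I ℂ} (hX : X.PosSemidef) (Y : Matrix I I ℂ) : 0 ≤ Lq X Y := by
  rw [Lq_eq_Rq]; exact Rq_nonneg hX _

lemma Rq_smul (X Y : Matrix I I ℂ) (c : ℂ) : Rq X (c • Y) = Complex.normSq c * Rq X Y := by
  simp only [Rq, conjTranspose_smul, Matrix.smul_mul, Matrix.mul_smul, trace_smul, smul_eq_mul,
    smul_smul]
  have : star c * c = (Complex.normSq c : ℂ) := by
    rw [Complex.star_def, mul_comm, Complex.mul_conj]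
  rw [← mul_assoc, mul_comm c (star c), this, Complex.re_ofReal_mul]

lemma Lq_smul (X Y : Matrix I I ℂ) (c : ℂ) : Lq X (c • Y) = Complex.normSq c * Lq X Y := by
  rw [Lq_eq_Rq, Lq_eq_Rq, conjTranspose_smul, Rq_smul]
  simp

/-- three-term expansion -/
lemma Rq_sub_sub {X : Matrix I I ℂ} (hX : X.IsHermitian) (g u v : Matrix I I ℂ) :
    Rq X (g - u - v) = Rq X g + Rq X u + Rq X v - 2 * (Rf X u g).re - 2 * (Rf X v g).re
      + 2 * (Rf X u v).re := by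
  simp only [Rq_eq, Rf_sub_left, Rf_sub_right, Complex.sub_re]
  rw [Rf_conj_re hX u g, Rf_conj_re hX v g, Rf_conj_re hX u v]
  ring

lemma Rq_sub {X : Matrix I I ℂ} (hX : X.IsHermitian) (g u : Matrix I I ℂ) :
    Rq X (g - u) = Rq X g + Rq X u - 2 * (Rf X u g).re := by
  simp only [Rq_eq, Rf_sub_left, Rf_sub_right, Complex.sub_re]
  rw [Rf_conj_re hX u g]
  ring

lemma Rq_add_left (X X' Y : Matrix I I ℂ) : Rq (X + X') Y = Rq X Y + Rq X' Y := by
  simp [Rq, Matrix.add_mul, trace_add]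

lemma Lq_add_left (X X' Y : Matrix I I ℂ) : Lq (X + X') Y = Lq X Y + Lq X' Y := by
  simp [Lq, Matrix.add_mul, trace_add]

lemma Rq_smul_left (r : ℝ) (X Y : Matrix I I ℂ) : Rq ((r : ℂ) • X) Y = r * Rq X Y := by
  simp [Rq, trace_smul]

lemma Lq_smul_left (r : ℝ) (X Y : Matrix I I ℂ) : Lq ((r : ℂ) • X) Y = r * Lq X Y := by
  simp [Lq, trace_smul]

variable [DecidableEq I]

/-- subtracting the mean decreases `R`. -/
lemma Rq_sub_mean {X : Matrix I I ℂ} (hX : X.PosSemidef) (htr : trace X = 1) (Y : Matrix I I ℂ)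
    (z : ℂ) : Rq X (Y - trace (X * Y) • (1 : Matrix I I ℂ))
      = Rq X (Y - z • (1 : Matrix I I ℂ)) - Complex.normSq (trace (X * Y) - z) := by
  have e : ∀ c : ℂ, Rq X (Y - c • (1 : Matrix I I ℂ))
      = Rq X Y + Complex.normSq c - 2 * (star c * trace (X * Y)).re := by
    intro c
    rw [Rq_sub hX.1, Rq_smul, Rf_smul_left]
    simp [Rq, Rf, htr]
  rw [e, e, Complex.normSq_sub]
  simp only [Complex.star_def, Complex.mul_re, Complex.conj_re, Complex.conj_im]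
  simp only [Complex.normSq_apply]
  ring

lemma Rq_sub_mean_le {X : Matrix I I ℂ} (hX : X.PosSemidef) (htr : trace X = 1)
    (Y : Matrix I I ℂ) (z : ℂ) : Rq X (Y - trace (X * Y) • (1 : Matrix I I ℂ))
      ≤ Rq X (Y - z • (1 : Matrix I I ℂ)) := by
  rw [Rq_sub_mean hX htr Y z]
  linarith [Complex.normSq_nonneg (trace (X * Y) - z)]

lemma Lq_sub_mean_le {X : Matrix I I ℂ} (hX : X.PosSemidef) (htr : trace X = 1)
    (Y : Matrix I I ℂ) (z : ℂ) : Lq X (Y - trace (X * Y) • (1 : Matrix I I ℂ))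
      ≤ Lq X (Y - z • (1 : Matrix I I ℂ)) := by
  rw [Lq_eq_Rq, Lq_eq_Rq]
  have h1 : (Y - trace (X * Y) • (1 : Matrix I I ℂ))ᴴ
      = Yᴴ - trace (X * Yᴴ) • (1 : Matrix I I ℂ) := by
    rw [conjTranspose_sub, conjTranspose_smul, conjTranspose_one, ← trace_conjTranspose,
      conjTranspose_mul, hX.1.eq, trace_mul_comm]
  have h2 : (Y - z • (1 : Matrix I I ℂ))ᴴ = Yᴴ - star z • (1 : Matrix I I ℂ) := by
    rw [conjTranspose_sub, conjTranspose_smul, conjTranspose_one]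
  rw [h1, h2]
  exact Rq_sub_mean_le hX htr _ _

end Forms

section Channel

variable {I J K L : Type*} [Fintype I] [DecidableEq I] [Fintype J] [DecidableEq J]
  [Fintype K] [DecidableEq K] [Fintype L] [DecidableEq L]

/-- output state on `K` of the input pair `(A, B)` -/
def Phi (W : Matrix (K × L) (I × J) ℂ) (A : Matrix I I ℂ) (B : Matrix J J ℂ) : Matrix K K ℂ :=
  tr2 (W * (A ⊗ₖ B) * Wᴴ)

/-- Heisenberg picture on both inputs -/
def Gm (W : Matrix (K × L) (I × J) ℂ) (Y : Matrix K K ℂ) : Matrix (I × J) (I × J) ℂ :=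
  Wᴴ * (Y ⊗ₖ (1 : Matrix L L ℂ)) * W

/-- conditional expectation to the first input -/
def PA (W : Matrix (K × L) (I × J) ℂ) (B : Matrix J J ℂ) (Y : Matrix K K ℂ) : Matrix I I ℂ :=
  tr2 (((1 : Matrix I I ℂ) ⊗ₖ B) * Gm W Y)

/-- conditional expectation to the second input -/
def PB (W : Matrix (K × L) (I × J) ℂ) (A : Matrix I I ℂ) (Y : Matrix K K ℂ) : Matrix J J ℂ :=
  tr1 ((A ⊗ₖ (1 : Matrix J J ℂ)) * Gm W Y)

variable (W : Matrix (K × L) (I × J) ℂ)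

/-! ### linearity -/

lemma Gm_add (Y Z : Matrix K K ℂ) : Gm W (Y + Z) = Gm W Y + Gm W Z := by
  simp [Gm, add_kronecker, Matrix.mul_add, Matrix.add_mul]

lemma Gm_smul (c : ℂ) (Y : Matrix K K ℂ) : Gm W (c • Y) = c • Gm W Y := by
  simp [Gm, smul_kronecker]

lemma Gm_neg (Y : Matrix K K ℂ) : Gm W (-Y) = -Gm W Y := by
  have := Gm_smul W (-1) Y
  simpa using this

lemma Gm_sub (Y Z : Matrix K K ℂ) : Gm W (Y - Z) = Gm W Y - Gm W Z := by
  rw [sub_eq_add_neg, Gm_add, Gm_neg, ← sub_eq_add_neg]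

lemma Gm_conjTranspose (Y : Matrix K K ℂ) : Gm W Yᴴ = (Gm W Y)ᴴ := by
  simp [Gm, conjTranspose_mul, conjTranspose_kronecker, Matrix.mul_assoc]

lemma Gm_one (hW : Wᴴ * W = 1) : Gm W (1 : Matrix K K ℂ) = 1 := by
  simp [Gm, hW]

lemma PA_add (B : Matrix J J ℂ) (Y Z : Matrix K K ℂ) : PA W B (Y + Z) = PA W B Y + PA W B Z := by
  simp [PA, Gm_add, Matrix.mul_add, tr2_add]

lemma PA_sub (B : Matrix J J ℂ) (Y Z : Matrix K K ℂ) : PA W B (Y - Z) = PA W B Y - PA W B Z := by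
  simp [PA, Gm_sub, Matrix.mul_sub, tr2_sub]

lemma PA_smul (B : Matrix J J ℂ) (c : ℂ) (Y : Matrix K K ℂ) : PA W B (c • Y) = c • PA W B Y := by
  simp [PA, Gm_smul, tr2_smul]

lemma PB_add (A : Matrix I I ℂ) (Y Z : Matrix K K ℂ) : PB W A (Y + Z) = PB W A Y + PB W A Z := by
  simp [PB, Gm_add, Matrix.mul_add, tr1_add]

lemma PB_sub (A : Matrix I I ℂ) (Y Z : Matrix K K ℂ) : PB W A (Y - Z) = PB W A Y - PB W A Z := by
  simp [PB, Gm_sub, Matrix.mul_sub, tr1_sub]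

lemma PB_smul (A : Matrix I I ℂ) (c : ℂ) (Y : Matrix K K ℂ) : PB W A (c • Y) = c • PB W A Y := by
  simp [PB, Gm_smul, tr1_smul]

lemma PA_one (hW : Wᴴ * W = 1) {B : Matrix J J ℂ} (hB : trace B = 1) :
    PA W B (1 : Matrix K K ℂ) = 1 := by
  rw [PA, Gm_one W hW, Matrix.mul_one, tr2_kron, hB, one_smul]

lemma PB_one (hW : Wᴴ * W = 1) {A : Matrix I I ℂ} (hA : trace A = 1) :
    PB W A (1 : Matrix K K ℂ) = 1 := by
  rw [PB, Gm_one W hW, Matrix.mul_one, tr1_kron, hA, one_smul]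

lemma PA_conjTranspose {B : Matrix J J ℂ} (hB : B.IsHermitian) (Y : Matrix K K ℂ) :
    PA W B Yᴴ = (PA W B Y)ᴴ := by
  rw [PA, PA, ← tr2_conjTranspose, conjTranspose_mul, conjTranspose_kronecker, hB.eq,
    conjTranspose_one, Gm_conjTranspose, tr2_one_kron_comm]

lemma PB_conjTranspose {A : Matrix I I ℂ} (hA : A.IsHermitian) (Y : Matrix K K ℂ) :
    PB W A Yᴴ = (PB W A Y)ᴴ := by
  rw [PB, PB, ← tr1_conjTranspose, conjTranspose_mul, conjTranspose_kronecker, hA.eq,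
    conjTranspose_one, Gm_conjTranspose, tr1_kron_one_comm]

/-! ### the state picture -/

lemma Phi_add_left (A A' : Matrix I I ℂ) (B : Matrix J J ℂ) :
    Phi W (A + A') B = Phi W A B + Phi W A' B := by
  simp [Phi, add_kronecker, Matrix.mul_add, Matrix.add_mul, tr2_add]

lemma Phi_add_right (A : Matrix I I ℂ) (B B' : Matrix J J ℂ) :
    Phi W A (B + B') = Phi W A B + Phi W A B' := by
  simp [Phi, kronecker_add, Matrix.mul_add, Matrix.add_mul, tr2_add]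

lemma Phi_smul_left (c : ℂ) (A : Matrix I I ℂ) (B : Matrix J J ℂ) :
    Phi W (c • A) B = c • Phi W A B := by
  simp [Phi, smul_kronecker, tr2_smul]

lemma Phi_smul_right (c : ℂ) (A : Matrix I I ℂ) (B : Matrix J J ℂ) :
    Phi W A (c • B) = c • Phi W A B := by
  simp [Phi, kronecker_smul, tr2_smul]

lemma Phi_sub_left (A A' : Matrix I I ℂ) (B : Matrix J J ℂ) :
    Phi W (A - A') B = Phi W A B - Phi W A' B := by
  have h := Phi_add_left W (A - A') A' B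
  rw [sub_add_cancel] at h
  rw [h]; abel

lemma Phi_sub_right (A : Matrix I I ℂ) (B B' : Matrix J J ℂ) :
    Phi W A (B - B') = Phi W A B - Phi W A B' := by
  have h := Phi_add_right W A (B - B') B'
  rw [sub_add_cancel] at h
  rw [h]; abel

lemma Phi_posSemidef {A : Matrix I I ℂ} {B : Matrix J J ℂ} (hA : A.PosSemidef)
    (hB : B.PosSemidef) : (Phi W A B).PosSemidef :=
  tr2_posSemidef ((hA.kronecker hB).mul_mul_conjTranspose_same W)

lemma trace_Phi (hW : Wᴴ * W = 1) (A : Matrix I I ℂ) (B : Matrix J J ℂ) :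
    trace (Phi W A B) = trace A * trace B := by
  rw [Phi, trace_tr2, trace_mul_comm, ← Matrix.mul_assoc, hW, Matrix.one_mul, trace_kronecker]

/-- trace duality, both inputs -/
lemma trace_Phi_mul (A : Matrix I I ℂ) (B : Matrix J J ℂ) (Y : Matrix K K ℂ) :
    trace (Phi W A B * Y) = trace ((A ⊗ₖ B) * Gm W Y) := by
  rw [Phi, trace_tr2_mul, Gm, Matrix.mul_assoc, Matrix.mul_assoc, trace_mul_comm,
    Matrix.mul_assoc, Matrix.mul_assoc]

lemma kron_eq_left (A : Matrix I I ℂ) (B : Matrix J J ℂ) :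
    A ⊗ₖ B = (A ⊗ₖ (1 : Matrix J J ℂ)) * ((1 : Matrix I I ℂ) ⊗ₖ B) := by
  rw [← mul_kronecker_mul, Matrix.mul_one, Matrix.one_mul]

lemma kron_eq_right (A : Matrix I I ℂ) (B : Matrix J J ℂ) :
    A ⊗ₖ B = ((1 : Matrix I I ℂ) ⊗ₖ B) * (A ⊗ₖ (1 : Matrix J J ℂ)) := by
  rw [← mul_kronecker_mul, Matrix.mul_one, Matrix.one_mul]

lemma tr2_kron_mul (A : Matrix I I ℂ) (B : Matrix J J ℂ) (M : Matrix (I × J) (I × J) ℂ) :
    tr2 ((A ⊗ₖ B) * M) = A * tr2 (((1 : Matrix I I ℂ) ⊗ₖ B) * M) := by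
  rw [kron_eq_left, Matrix.mul_assoc, tr2_kron_one_mul]

lemma tr1_kron_mul (A : Matrix I I ℂ) (B : Matrix J J ℂ) (M : Matrix (I × J) (I × J) ℂ) :
    tr1 ((A ⊗ₖ B) * M) = B * tr1 ((A ⊗ₖ (1 : Matrix J J ℂ)) * M) := by
  rw [kron_eq_right, Matrix.mul_assoc, tr1_one_kron_mul]

/-- `Tr Φ(A',B) Y = Tr A' (PA B Y)` -/
lemma trace_Phi_mul_PA (A' : Matrix I I ℂ) (B : Matrix J J ℂ) (Y : Matrix K K ℂ) :
    trace (Phi W A' B * Y) = trace (A' * PA W B Y) := by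
  rw [trace_Phi_mul, ← trace_tr2, tr2_kron_mul, PA]

/-- `Tr Φ(A,B') Y = Tr B' (PB A Y)` -/
lemma trace_Phi_mul_PB (A : Matrix I I ℂ) (B' : Matrix J J ℂ) (Y : Matrix K K ℂ) :
    trace (Phi W A B' * Y) = trace (B' * PB W A Y) := by
  rw [trace_Phi_mul, ← trace_tr1, tr1_kron_mul, PB]

/-! ### the ANOVA inequality -/

omit [Fintype I] [DecidableEq I] in
lemma rect_nonneg {N : Type*} [Fintype N] {X : Matrix I I ℂ} [Fintype I] (hX : X.PosSemidef)
    (Y : Matrix N I ℂ) : 0 ≤ (trace (X * (Yᴴ * Y))).re := by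
  have h : trace (X * (Yᴴ * Y)) = trace (Y * X * Yᴴ) := by
    rw [← Matrix.mul_assoc, trace_mul_comm, ← Matrix.mul_assoc]
  rw [h]
  exact (Complex.le_def.mp (hX.mul_mul_conjTranspose_same Y).trace_nonneg).1

/-- the Heisenberg picture is a Kadison-Schwarz map -/
lemma Rq_Gm_le (hW : Wᴴ * W = 1) {A : Matrix I I ℂ} {B : Matrix J J ℂ} (hA : A.PosSemidef)
    (hB : B.PosSemidef) (Z : Matrix K K ℂ) :
    Rq (A ⊗ₖ B) (Gm W Z) ≤ Rq (Phi W A B) Z := by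
  have h1 : Rq (Phi W A B) Z = (trace ((A ⊗ₖ B) * Gm W (Zᴴ * Z))).re := by
    rw [Rq, trace_Phi_mul]
  have h2 := rect_nonneg (hA.kronecker hB)
    ((1 - W * Wᴴ) * (Z ⊗ₖ (1 : Matrix L L ℂ)) * W)
  have hP : (1 - W * Wᴴ)ᴴ * (1 - W * Wᴴ) = 1 - W * Wᴴ := by
    rw [conjTranspose_sub, conjTranspose_one, conjTranspose_mul, conjTranspose_conjTranspose,
      Matrix.sub_mul, Matrix.one_mul, Matrix.mul_sub, Matrix.mul_one]
    have : W * Wᴴ * (W * Wᴴ) = W * Wᴴ := by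
      rw [Matrix.mul_assoc, ← Matrix.mul_assoc Wᴴ W Wᴴ, hW, Matrix.one_mul]
    rw [this, sub_self, sub_zero]
  have h3 : ((1 - W * Wᴴ) * (Z ⊗ₖ (1 : Matrix L L ℂ)) * W)ᴴ
      * ((1 - W * Wᴴ) * (Z ⊗ₖ (1 : Matrix L L ℂ)) * W)
      = Gm W (Zᴴ * Z) - (Gm W Z)ᴴ * Gm W Z := by
    have e1 : ((1 - W * Wᴴ) * (Z ⊗ₖ (1 : Matrix L L ℂ)) * W)ᴴ
      * ((1 - W * Wᴴ) * (Z ⊗ₖ (1 : Matrix L L ℂ)) * W)
      = Wᴴ * (Zᴴ ⊗ₖ (1 : Matrix L L ℂ)) * ((1 - W * Wᴴ)ᴴ * (1 - W * Wᴴ))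
        * ((Z ⊗ₖ (1 : Matrix L L ℂ)) * W) := by
      simp only [conjTranspose_mul, conjTranspose_kronecker, conjTranspose_one, Matrix.mul_assoc]
    rw [e1, hP, Matrix.mul_sub, Matrix.sub_mul, Matrix.mul_one]
    congr 1
    · rw [Gm, ← Matrix.one_mul (1 : Matrix L L ℂ), mul_kronecker_mul]
      simp only [Matrix.mul_assoc, Matrix.one_mul]
    · rw [← Gm_conjTranspose, Gm, Gm]
      simp only [Matrix.mul_assoc]
  rw [h3, Matrix.mul_sub, trace_sub, Complex.sub_re] at h2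
  rw [h1, Rq]
  linarith

lemma Rf_kron_left {A : Matrix I I ℂ} {B : Matrix J J ℂ} (a : Matrix I I ℂ)
    (M : Matrix (I × J) (I × J) ℂ) : Rf (A ⊗ₖ B) (a ⊗ₖ (1 : Matrix J J ℂ)) M
      = Rf A a (tr2 (((1 : Matrix I I ℂ) ⊗ₖ B) * M)) := by
  rw [Rf, Rf, conjTranspose_kronecker, conjTranspose_one, ← Matrix.mul_assoc, ← mul_kronecker_mul,
    Matrix.mul_one, ← trace_tr2, tr2_kron_mul, Matrix.mul_assoc]

lemma Rf_kron_right {A : Matrix I I ℂ} {B : Matrix J J ℂ} (b : Matrix J J ℂ)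
    (M : Matrix (I × J) (I × J) ℂ) : Rf (A ⊗ₖ B) ((1 : Matrix I I ℂ) ⊗ₖ b) M
      = Rf B b (tr1 ((A ⊗ₖ (1 : Matrix J J ℂ)) * M)) := by
  rw [Rf, Rf, conjTranspose_kronecker, conjTranspose_one, ← Matrix.mul_assoc, ← mul_kronecker_mul,
    Matrix.mul_one, ← trace_tr1, tr1_kron_mul, Matrix.mul_assoc]

/-- orthogonal decomposition in `L²(A ⊗ B)` -/
theorem anova_prod {A : Matrix I I ℂ} {B : Matrix J J ℂ} (hA : A.PosSemidef) (hB : B.PosSemidef)
    (tA : trace A = 1) (tB : trace B = 1) (M : Matrix (I × J) (I × J) ℂ) :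
    Rq A (tr2 (((1 : Matrix I I ℂ) ⊗ₖ B) * M) - trace ((A ⊗ₖ B) * M) • (1 : Matrix I I ℂ))
      + Rq B (tr1 ((A ⊗ₖ (1 : Matrix J J ℂ)) * M) - trace ((A ⊗ₖ B) * M) • (1 : Matrix J J ℂ))
      ≤ Rq (A ⊗ₖ B) (M - trace ((A ⊗ₖ B) * M) • (1 : Matrix (I × J) (I × J) ℂ)) := by
  set m : ℂ := trace ((A ⊗ₖ B) * M) with hm
  set a : Matrix I I ℂ := tr2 (((1 : Matrix I I ℂ) ⊗ₖ B) * M) - m • (1 : Matrix I I ℂ) with ha
  set b : Matrix J J ℂ := tr1 ((A ⊗ₖ (1 : Matrix J J ℂ)) * M) - m • (1 : Matrix J J ℂ) with hb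
  set g : Matrix (I × J) (I × J) ℂ := M - m • (1 : Matrix (I × J) (I × J) ℂ) with hg
  have hρ := hA.kronecker hB
  have h0 := Rq_nonneg hρ (g - a ⊗ₖ (1 : Matrix J J ℂ) - (1 : Matrix I I ℂ) ⊗ₖ b)
  rw [Rq_sub_sub hρ.1] at h0
  have ha' : tr2 (((1 : Matrix I I ℂ) ⊗ₖ B) * g) = a := by
    rw [hg, Matrix.mul_sub, tr2_sub, Matrix.mul_smul, Matrix.mul_one, tr2_smul, tr2_kron, tB,
      one_smul]
  have hb' : tr1 ((A ⊗ₖ (1 : Matrix J J ℂ)) * g) = b := by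
    rw [hg, Matrix.mul_sub, tr1_sub, Matrix.mul_smul, Matrix.mul_one, tr1_smul, tr1_kron, tA,
      one_smul]
  have e1 : Rf (A ⊗ₖ B) (a ⊗ₖ (1 : Matrix J J ℂ)) g = Rf A a a := by
    rw [Rf_kron_left, ha']
  have e2 : Rf (A ⊗ₖ B) ((1 : Matrix I I ℂ) ⊗ₖ b) g = Rf B b b := by
    rw [Rf_kron_right, hb']
  have e3 : Rq (A ⊗ₖ B) (a ⊗ₖ (1 : Matrix J J ℂ)) = Rq A a := by
    rw [Rq_eq, Rf_kron_left, ← mul_kronecker_mul, Matrix.one_mul, Matrix.mul_one, tr2_kron, tB,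
      one_smul, Rq_eq]
  have e4 : Rq (A ⊗ₖ B) ((1 : Matrix I I ℂ) ⊗ₖ b) = Rq B b := by
    rw [Rq_eq, Rf_kron_right, ← mul_kronecker_mul, Matrix.one_mul, Matrix.mul_one, tr1_kron, tA,
      one_smul, Rq_eq]
  have hbm : trace (B * b) = 0 := by
    rw [hb, Matrix.mul_sub, trace_sub, Matrix.mul_smul, Matrix.mul_one, trace_smul, tB,
      ← tr1_kron_mul, trace_tr1, ← hm]
    simp
  have e5 : Rf (A ⊗ₖ B) (a ⊗ₖ (1 : Matrix J J ℂ)) ((1 : Matrix I I ℂ) ⊗ₖ b) = 0 := by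
    rw [Rf_kron_left, ← mul_kronecker_mul, Matrix.one_mul, tr2_kron, hbm, zero_smul]
    simp [Rf]
  rw [e1, e2, e3, e4, e5, ← Rq_eq, ← Rq_eq] at h0
  simp only [Complex.zero_re, mul_zero, add_zero] at h0
  linarith

/-- [FIN-2](A), right form: `R_A(PA Y - m) + R_B(PB Y - m) ≤ R_C(Y - m)`, `m = Tr C Y`. -/
theorem anova_R (hW : Wᴴ * W = 1) {A : Matrix I I ℂ} {B : Matrix J J ℂ} (hA : A.PosSemidef)
    (hB : B.PosSemidef) (tA : trace A = 1) (tB : trace B = 1) (Y : Matrix K K ℂ) :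
    Rq A (PA W B Y - trace (Phi W A B * Y) • (1 : Matrix I I ℂ))
      + Rq B (PB W A Y - trace (Phi W A B * Y) • (1 : Matrix J J ℂ))
      ≤ Rq (Phi W A B) (Y - trace (Phi W A B * Y) • (1 : Matrix K K ℂ)) := by
  have h := anova_prod hA hB tA tB (Gm W Y)
  rw [← trace_Phi_mul] at h
  have h2 := Rq_Gm_le W hW hA hB (Y - trace (Phi W A B * Y) • (1 : Matrix K K ℂ))
  rw [Gm_sub, Gm_smul, Gm_one W hW] at h2
  exact h.trans h2

lemma trace_Phi_conj {A : Matrix I I ℂ} {B : Matrix J J ℂ} (hA : A.PosSemidef)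
    (hB : B.PosSemidef) (Y : Matrix K K ℂ) :
    trace (Phi W A B * Yᴴ) = star (trace (Phi W A B * Y)) := by
  rw [← trace_conjTranspose, conjTranspose_mul, (Phi_posSemidef W hA hB).1.eq, trace_mul_comm]

/-- [FIN-2](A), left form. -/
theorem anova_L (hW : Wᴴ * W = 1) {A : Matrix I I ℂ} {B : Matrix J J ℂ} (hA : A.PosSemidef)
    (hB : B.PosSemidef) (tA : trace A = 1) (tB : trace B = 1) (Y : Matrix K K ℂ) :
    Lq A (PA W B Y - trace (Phi W A B * Y) • (1 : Matrix I I ℂ))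
      + Lq B (PB W A Y - trace (Phi W A B * Y) • (1 : Matrix J J ℂ))
      ≤ Lq (Phi W A B) (Y - trace (Phi W A B * Y) • (1 : Matrix K K ℂ)) := by
  have h := anova_R W hW hA hB tA tB Yᴴ
  rw [trace_Phi_conj W hA hB, PA_conjTranspose W hB.1, PB_conjTranspose W hA.1] at h
  simp only [Lq_eq_Rq, conjTranspose_sub, conjTranspose_smul, conjTranspose_one]
  exact h

/-! ### Kadison-Schwarz and positivity of the conditional expectations -/

theorem kadison_PA (hW : Wᴴ * W = 1) {A' : Matrix I I ℂ} {B : Matrix J J ℂ} (hA : A'.PosSemidef)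
    (hB : B.PosSemidef) (tB : trace B = 1) (Y : Matrix K K ℂ) :
    Rq A' (PA W B Y) ≤ (trace (A' * PA W B (Yᴴ * Y))).re := by
  have hρ := hA.kronecker hB
  have h0 := Rq_nonneg hρ (Gm W Y - PA W B Y ⊗ₖ (1 : Matrix J J ℂ))
  rw [Rq_sub hρ.1, Rf_kron_left] at h0
  have e3 : Rq (A' ⊗ₖ B) (PA W B Y ⊗ₖ (1 : Matrix J J ℂ)) = Rq A' (PA W B Y) := by
    rw [Rq_eq, Rf_kron_left, ← mul_kronecker_mul, Matrix.one_mul, Matrix.mul_one, tr2_kron, tB,
      one_smul, Rq_eq]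
  have e1 : Rf A' (PA W B Y) (tr2 (((1 : Matrix I I ℂ) ⊗ₖ B) * Gm W Y))
      = Rf A' (PA W B Y) (PA W B Y) := rfl
  rw [e3, e1, ← Rq_eq] at h0
  have h2 := Rq_Gm_le W hW hA hB Y
  have h3 : Rq (Phi W A' B) Y = (trace (A' * PA W B (Yᴴ * Y))).re := by
    rw [← trace_Phi_mul_PA]; rfl
  rw [h3] at h2
  linarith

theorem kadison_PB (hW : Wᴴ * W = 1) {A : Matrix I I ℂ} {B' : Matrix J J ℂ} (hA : A.PosSemidef)
    (hB : B'.PosSemidef) (tA : trace A = 1) (Y : Matrix K K ℂ) :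
    Rq B' (PB W A Y) ≤ (trace (B' * PB W A (Yᴴ * Y))).re := by
  have hρ := hA.kronecker hB
  have h0 := Rq_nonneg hρ (Gm W Y - (1 : Matrix I I ℂ) ⊗ₖ PB W A Y)
  rw [Rq_sub hρ.1, Rf_kron_right] at h0
  have e3 : Rq (A ⊗ₖ B') ((1 : Matrix I I ℂ) ⊗ₖ PB W A Y) = Rq B' (PB W A Y) := by
    rw [Rq_eq, Rf_kron_right, ← mul_kronecker_mul, Matrix.one_mul, Matrix.mul_one, tr1_kron, tA,
      one_smul, Rq_eq]
  have e1 : Rf B' (PB W A Y) (tr1 ((A ⊗ₖ (1 : Matrix J J ℂ)) * Gm W Y))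
      = Rf B' (PB W A Y) (PB W A Y) := rfl
  rw [e3, e1, ← Rq_eq] at h0
  have h2 := Rq_Gm_le W hW hA hB Y
  have h3 : Rq (Phi W A B') Y = (trace (B' * PB W A (Yᴴ * Y))).re := by
    rw [← trace_Phi_mul_PB]; rfl
  rw [h3] at h2
  linarith

omit [DecidableEq K] in
open scoped MatrixOrder in
/-- `Tr X Y ≥ 0` for positive semidefinite `X`, `Y`. -/
lemma trace_mul_nonneg {X Y : Matrix K K ℂ} (hX : X.PosSemidef) (hY : Y.PosSemidef) :
    0 ≤ (trace (X * Y)).re := by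
  classical
  obtain ⟨Z, hZ⟩ := CStarAlgebra.nonneg_iff_eq_star_mul_self.mp hY.nonneg
  rw [hZ, star_eq_conjTranspose]
  exact Rq_nonneg hX Z

omit [DecidableEq K] [Fintype I] [DecidableEq I] in
lemma quad_eq_trace [Fintype I] (P : Matrix I I ℂ) (v : I → ℂ) :
    star v ⬝ᵥ (P *ᵥ v) = trace (vecMulVec v (star v) * P) := by
  rw [vecMulVec_mul, trace_vecMulVec, dotProduct_mulVec]
  exact (dotProduct_comm _ _)

theorem PA_posSemidef {B : Matrix J J ℂ} (hB : B.PosSemidef) {Y : Matrix K K ℂ}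
    (hY : Y.PosSemidef) : (PA W B Y).PosSemidef := by
  have hH : (PA W B Y).IsHermitian := by
    have := PA_conjTranspose W hB.1 Y
    rw [hY.1.eq] at this
    exact this.symm
  refine PosSemidef.of_dotProduct_mulVec_nonneg hH fun v => ?_
  rw [Complex.le_def]
  have him : (star v ⬝ᵥ (PA W B Y *ᵥ v)).im = 0 := by
    have h := hH.im_star_dotProduct_mulVec_self v
    simpa using h
  refine ⟨?_, by rw [him]; rfl⟩
  rw [quad_eq_trace, ← trace_Phi_mul_PA]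
  exact trace_mul_nonneg (Phi_posSemidef W (posSemidef_vecMulVec_self_star v) hB) hY

theorem PB_posSemidef {A : Matrix I I ℂ} (hA : A.PosSemidef) {Y : Matrix K K ℂ}
    (hY : Y.PosSemidef) : (PB W A Y).PosSemidef := by
  have hH : (PB W A Y).IsHermitian := by
    have := PB_conjTranspose W hA.1 Y
    rw [hY.1.eq] at this
    exact this.symm
  refine PosSemidef.of_dotProduct_mulVec_nonneg hH fun v => ?_
  rw [Complex.le_def]
  have him : (star v ⬝ᵥ (PB W A Y *ᵥ v)).im = 0 := by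
    have h := hH.im_star_dotProduct_mulVec_self v
    simpa using h
  refine ⟨?_, by rw [him]; rfl⟩
  rw [quad_eq_trace, ← trace_Phi_mul_PB]
  exact trace_mul_nonneg (Phi_posSemidef W hA (posSemidef_vecMulVec_self_star v)) hY

/-! ### versions with an admixture `Ĉ = (1-d) C + d σ` -/

/-- `∑ R_X(P̃ Y - mean) ≤ (1-d) R_Ĉ(Y - z)` for every number `z`; `P̃ = (1-d) P`,
`mean = (1-d) Tr C Y`, `Ĉ = (1-d) C + S`, `S ≥ 0` arbitrary. -/
theorem anova_R_adm (hW : Wᴴ * W = 1) {A : Matrix I I ℂ} {B : Matrix J J ℂ} (hA : A.PosSemidef)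
    (hB : B.PosSemidef) (tA : trace A = 1) (tB : trace B = 1) {d : ℝ} (hd : d ≤ 1)
    {S : Matrix K K ℂ} (hS : S.PosSemidef) (Y : Matrix K K ℂ) (z : ℂ) :
    Rq A (((1 - d : ℝ) : ℂ) • PA W B Y
        - (((1 - d : ℝ) : ℂ) * trace (Phi W A B * Y)) • (1 : Matrix I I ℂ))
      + Rq B (((1 - d : ℝ) : ℂ) • PB W A Y
        - (((1 - d : ℝ) : ℂ) * trace (Phi W A B * Y)) • (1 : Matrix J J ℂ))
      ≤ (1 - d) * Rq (((1 - d : ℝ) : ℂ) • Phi W A B + S) (Y - z • (1 : Matrix K K ℂ)) := by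
  have h := anova_R W hW hA hB tA tB Y
  have h1 := Rq_sub_mean_le (Phi_posSemidef W hA hB)
    (by rw [trace_Phi W hW, tA, tB, one_mul]) Y z
  have h2 := Rq_nonneg hS (Y - z • (1 : Matrix K K ℂ))
  rw [← smul_smul, ← smul_sub, ← smul_smul, ← smul_sub, Rq_smul, Rq_smul, Rq_add_left,
    Rq_smul_left, Complex.normSq_ofReal]
  have hd' : 0 ≤ 1 - d := by linarith
  have h3 : 0 ≤ (1 - d) * Rq S (Y - z • (1 : Matrix K K ℂ)) := mul_nonneg hd' h2
  nlinarith [mul_nonneg hd' hd', mul_nonneg (mul_nonneg hd' hd') (sub_nonneg.mpr (h.trans h1))]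

theorem anova_L_adm (hW : Wᴴ * W = 1) {A : Matrix I I ℂ} {B : Matrix J J ℂ} (hA : A.PosSemidef)
    (hB : B.PosSemidef) (tA : trace A = 1) (tB : trace B = 1) {d : ℝ} (hd : d ≤ 1)
    {S : Matrix K K ℂ} (hS : S.PosSemidef) (Y : Matrix K K ℂ) (z : ℂ) :
    Lq A (((1 - d : ℝ) : ℂ) • PA W B Y
        - (((1 - d : ℝ) : ℂ) * trace (Phi W A B * Y)) • (1 : Matrix I I ℂ))
      + Lq B (((1 - d : ℝ) : ℂ) • PB W A Y
        - (((1 - d : ℝ) : ℂ) * trace (Phi W A B * Y)) • (1 : Matrix J J ℂ))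
      ≤ (1 - d) * Lq (((1 - d : ℝ) : ℂ) • Phi W A B + S) (Y - z • (1 : Matrix K K ℂ)) := by
  have h := anova_L W hW hA hB tA tB Y
  have h1 := Lq_sub_mean_le (Phi_posSemidef W hA hB)
    (by rw [trace_Phi W hW, tA, tB, one_mul]) Y z
  have h2 := Lq_nonneg hS (Y - z • (1 : Matrix K K ℂ))
  rw [← smul_smul, ← smul_sub, ← smul_smul, ← smul_sub, Lq_smul, Lq_smul, Lq_add_left,
    Lq_smul_left, Complex.normSq_ofReal]
  have hd' : 0 ≤ 1 - d := by linarith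
  have h3 : 0 ≤ (1 - d) * Lq S (Y - z • (1 : Matrix K K ℂ)) := mul_nonneg hd' h2
  nlinarith [mul_nonneg hd' hd', mul_nonneg (mul_nonneg hd' hd') (sub_nonneg.mpr (h.trans h1))]

end Channel

end Crest.Agent.R331.FinPhi280
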