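import Mathlib
import Crest.Agent.R331.FEmb_628
import Crest.Agent.R331.FDefs_136
import Crest.Agent.R331.FinPhi_280

/-! # Finite track, leaf FLIM (helper628), part 2

* `outC_eq_bsOutput`, `outC_isDensity`, `En_eq_en`;
* FL3: a uniform asymptotic lower bound of `F` gives the finite main theorem (`K → ∞`, `μ → 0`).
-/

set_option autoImplicit false
set_option linter.unusedSectionVars false

noncomputable section

namespace Crest.Agent.R331.FLim_628

open Crest.Quantum Crest.MathPhysics.Bosonic Matrix Finset Filter Topology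
open Crest.Agent.R331.Gibbs158 Crest.Agent.R331.Fin8_628
open scoped ComplexOrder Kronecker

section basic

variable {n K : ℕ}

lemma sum4_comm {ι : Type*} [Fintype ι] (f : ι → ι → ι → ι → ℂ) :
    ∑ k', ∑ l', ∑ k, ∑ l, f k l k' l' = ∑ k, ∑ l, ∑ k', ∑ l', f k l k' l' := by
  calc ∑ k', ∑ l', ∑ k, ∑ l, f k l k' l'
      = ∑ k', ∑ k, ∑ l', ∑ l, f k l k' l' :=
        Finset.sum_congr rfl fun k' _ => Finset.sum_comm
    _ = ∑ k, ∑ k', ∑ l', ∑ l, f k l k' l' := Finset.sum_comm
    _ = ∑ k, ∑ k', ∑ l, ∑ l', f k l k' l' :=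
        Finset.sum_congr rfl fun k _ => Finset.sum_congr rfl fun k' _ => Finset.sum_comm
    _ = ∑ k, ∑ l, ∑ k', ∑ l', f k l k' l' :=
        Finset.sum_congr rfl fun k _ => Finset.sum_comm

lemma outC_eq_bsOutput (η : ℝ) (A B : Matrix (Bx n K) (Bx n K) ℂ) :
    FDefs136.outC η A B = bsOutput η A B := by
  ext p p'
  simp only [FDefs136.outC, FCov76.ptR, Matrix.mul_apply, FDefs136.bsW, Matrix.of_apply,
    Matrix.conjTranspose_apply, bsOutput, Fintype.sum_prod_type, Matrix.kroneckerMap_apply]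
  refine Finset.sum_congr rfl fun q _ => ?_
  -- swap the order of summation
  calc ∑ k', ∑ l', (∑ k, ∑ l, (bsAmpN η k l p q : ℂ) * (A k k' * B l l')) *
        star (bsAmpN η k' l' p' q : ℂ)
      = ∑ k', ∑ l', ∑ k, ∑ l, (bsAmpN η k l p q : ℂ) * A k k' * B l l' *
          (bsAmpN η k' l' p' q : ℂ) := by
        refine Finset.sum_congr rfl fun k' _ => Finset.sum_congr rfl fun l' _ => ?_
        rw [Finset.sum_mul]
        refine Finset.sum_congr rfl fun k _ => ?_
        rw [Finset.sum_mul]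
        refine Finset.sum_congr rfl fun l _ => ?_
        rw [Complex.star_def, Complex.conj_ofReal]
        ring
    _ = ∑ k, ∑ l, ∑ k', ∑ l', (bsAmpN η k l p q : ℂ) * A k k' * B l l' *
          (bsAmpN η k' l' p' q : ℂ) := by
        exact sum4_comm _

lemma En_eq_en (A : Matrix (Bx n K) (Bx n K) ℂ) : FDefs136.En A = en A := by
  simp only [FDefs136.En, FDefs136.num, Matrix.trace, Matrix.diag_apply, Matrix.mul_diagonal, en,
    Complex.re_sum]
  refine Finset.sum_congr rfl fun k _ => ?_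
  rw [mul_comm, ← Complex.ofReal_natCast, Complex.re_ofReal_mul]
  rfl

lemma outC_psd (η : ℝ) {A B : Matrix (Bx n K) (Bx n K) ℂ} (hA : A.PosSemidef)
    (hB : B.PosSemidef) : (FDefs136.outC η A B).PosSemidef :=
  FinPhi280.tr2_posSemidef ((hA.kronecker hB).mul_mul_conjTranspose_same (FDefs136.bsW η n K))

end basic

/-! ### scalars -/

/-- the regularisation parameter `ε_K = (K+1)^{-(n+4)}` -/
def epsK (n K : ℕ) : ℝ := 1 / ((K : ℝ) + 1) ^ (n + 4)

lemma epsK_pos (n K : ℕ) : 0 < epsK n K := by unfold epsK; positivity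

lemma log_epsK (n K : ℕ) : -Real.log (epsK n K) = ((n : ℝ) + 4) * Real.log ((K : ℝ) + 1) := by
  unfold epsK
  rw [one_div, Real.log_inv, neg_neg, Real.log_pow]
  push_cast; ring

lemma card_bound (n K : ℕ) : (Fintype.card (Bx n (2 * K)) : ℝ) ≤ 2 ^ n * ((K : ℝ) + 1) ^ n := by
  simp only [Bx, Fintype.card_pi, Fintype.card_fin, Finset.prod_const, Finset.card_univ]
  push_cast
  rw [← mul_pow]
  exact pow_le_pow_left₀ (by positivity) (by linarith) n

lemma reg_tendsto (n : ℕ) :
    Tendsto (fun K : ℕ => (Fintype.card (Bx n (2 * K)) : ℝ) * Real.negMulLog (epsK n K)) atTop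
      (𝓝 0) := by
  have hb : Tendsto (fun K : ℕ => 2 ^ n * ((n : ℝ) + 4) * (1 / ((K : ℝ) + 1))) atTop (𝓝 0) := by
    have := (tendsto_one_div_add_atTop_nhds_zero_nat (𝕜 := ℝ)).const_mul (2 ^ n * ((n : ℝ) + 4))
    rwa [mul_zero] at this
  have hnn : ∀ K : ℕ, 0 ≤ Real.negMulLog (epsK n K) := by
    intro K
    refine Real.negMulLog_nonneg (epsK_pos n K).le ?_
    unfold epsK
    rw [div_le_one (by positivity)]
    exact one_le_pow₀ (by have : (0:ℝ) ≤ K := Nat.cast_nonneg K; linarith)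
  refine squeeze_zero (fun K => mul_nonneg (by positivity) (hnn K)) (fun K => ?_) hb
  have hK : (0:ℝ) ≤ K := Nat.cast_nonneg K
  have h1 : Real.negMulLog (epsK n K) = epsK n K * (((n : ℝ) + 4) * Real.log ((K : ℝ) + 1)) := by
    rw [← log_epsK]; unfold Real.negMulLog; ring
  have h2 : Real.log ((K : ℝ) + 1) ≤ (K : ℝ) + 1 := by
    have := Real.log_le_sub_one_of_pos (show (0:ℝ) < (K:ℝ) + 1 by positivity)
    linarith
  have h3 : Real.negMulLog (epsK n K) ≤ epsK n K * (((n : ℝ) + 4) * ((K : ℝ) + 1)) := by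
    rw [h1]
    exact mul_le_mul_of_nonneg_left (mul_le_mul_of_nonneg_left h2 (by positivity)) (epsK_pos n K).le
  calc (Fintype.card (Bx n (2 * K)) : ℝ) * Real.negMulLog (epsK n K)
      ≤ (2 ^ n * ((K : ℝ) + 1) ^ n) * (epsK n K * (((n : ℝ) + 4) * ((K : ℝ) + 1))) :=
        mul_le_mul (card_bound n K) h3 (hnn K) (by positivity)
    _ = 2 ^ n * ((n : ℝ) + 4) * (1 / ((K : ℝ) + 1) ^ 3) := by
        unfold epsK
        rw [pow_add]
        have : ((K:ℝ) + 1) ≠ 0 := by positivity
        field_simp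
    _ ≤ 2 ^ n * ((n : ℝ) + 4) * (1 / ((K : ℝ) + 1)) := by
        refine mul_le_mul_of_nonneg_left ?_ (by positivity)
        refine one_div_le_one_div_of_le (by positivity) ?_
        calc ((K : ℝ) + 1) = ((K : ℝ) + 1) ^ 1 := (pow_one _).symm
          _ ≤ ((K : ℝ) + 1) ^ 3 := pow_le_pow_right₀ (by linarith) (by norm_num)

/-! ### FL3 -/

open FDefs136 (Par)

/-- the thermal value of the functional -/
def Vlow (p : Par) (n : ℕ) : ℝ :=
  n * (Real.log (p.NC + 1) - p.lamA * Real.log (p.NA + 1) - p.lamB * Real.log (p.NB + 1))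

/-- output of FL4, input of FL3 -/
def FLIMhyp : Prop := ∀ (p : Par) (n : ℕ) (δ : ℝ), 0 < δ → ∀ᶠ K : ℕ in atTop,
  ∀ A B : Matrix (Bx n K) (Bx n K) ℂ, IsDensity A → IsDensity B →
    Vlow p n - δ ≤ FDefs136.F p (epsK n K) A B

/-- FIN MAIN: the linearised inequality for states supported on a box -/
def FINMAIN : Prop := ∀ (n K : ℕ) (η NA NB : ℝ), 0 < η → η < 1 → 0 < NA → 0 < NB →
  ∀ A B : Matrix (Bx n K) (Bx n K) ℂ, IsDensity A → IsDensity B →
    n * gBose (η * NA + (1 - η) * NB)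
      + η * bN (η * NA + (1 - η) * NB) / bN NA * (vnEntropy A - n * gBose NA)
      + (1 - η) * bN (η * NA + (1 - η) * NB) / bN NB * (vnEntropy B - n * gBose NB)
      ≤ vnEntropy (bsOutput η A B)

lemma NC_pos (p : Par) : 0 < p.NC := by
  unfold FDefs136.Par.NC
  have h1 := mul_pos p.η_pos p.NA_pos
  have h2 := mul_pos (sub_pos.2 p.η_lt) p.NB_pos
  linarith

/-- passing to the limit `K → ∞` at fixed inputs -/
lemma limit_K (h : FLIMhyp) (p : Par) {n K0 : ℕ} {A B : Matrix (Bx n K0) (Bx n K0) ℂ}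
    (hA : IsDensity A) (hB : IsDensity B) :
    Vlow p n ≤ vnEntropy (bsOutput p.η A B) - p.lamA * vnEntropy A - p.lamB * vnEntropy B
      + p.μ * (p.η * en A + (1 - p.η) * en B) := by
  refine le_of_forall_pos_le_add fun δ hδ => ?_
  have h1 := h p n (δ / 2) (by positivity)
  have h2 : ∀ᶠ K : ℕ in atTop,
      (Fintype.card (Bx n (2 * K)) : ℝ) * Real.negMulLog (epsK n K) < δ / 2 :=
    (reg_tendsto n).eventually_lt_const (by positivity)
  obtain ⟨K, ⟨hK1, hK2⟩, hK⟩ := ((h1.and h2).and (eventually_ge_atTop K0)).exists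
  have h3 := hK1 (up K A) (up K B) (up_isDensity hK hA) (up_isDensity hK hB)
  unfold FDefs136.F at h3
  rw [En_eq_en, En_eq_en, en_up hK, en_up hK, vn_up hK hA.1.1, vn_up hK hB.1.1] at h3
  have hpsd : (bsOutput p.η A B).PosSemidef := by
    rw [← outC_eq_bsOutput]; exact outC_psd p.η hA.1 hB.1
  have h4 : vnEntropy (FDefs136.outQ p.η (epsK n K) (up K A) (up K B))
      ≤ vnEntropy (bsOutput p.η A B)
        + (Fintype.card (Bx n (2 * K)) : ℝ) * Real.negMulLog (epsK n K) := by
    unfold FDefs136.outQ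
    refine (vn_add_smul_le (outC_psd p.η (up_isDensity hK hA).1 (up_isDensity hK hB).1)
      (epsK_pos n K).le).trans ?_
    rw [outC_eq_bsOutput, bsOutput_up p.η hK, vn_up (by omega) hpsd.1]
  linarith

theorem finmain_of_hyp (h : FLIMhyp) : FINMAIN := by
  intro n K η NA NB h0 h1 hNA hNB A B hA hB
  set NC := η * NA + (1 - η) * NB with hNC
  have hNCpos : 0 < NC := by
    have h1' := mul_pos h0 hNA
    have h2' := mul_pos (sub_pos.2 h1) hNB
    linarith
  have hbA := bN_pos hNA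
  have hbB := bN_pos hNB
  have hbC := bN_pos hNCpos
  -- everything is affine in μ
  set X0 : ℝ := vnEntropy (bsOutput η A B) - η * bN NC / bN NA * vnEntropy A
    - (1 - η) * bN NC / bN NB * vnEntropy B
    - n * (Real.log (NC + 1) - η * bN NC / bN NA * Real.log (NA + 1)
      - (1 - η) * bN NC / bN NB * Real.log (NB + 1)) with hX0
  set X1 : ℝ := -(η / bN NA) * vnEntropy A - ((1 - η) / bN NB) * vnEntropy B
    + (η * en A + (1 - η) * en B)
    + n * (η / bN NA * Real.log (NA + 1) + (1 - η) / bN NB * Real.log (NB + 1)) with hX1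
  have key : ∀ μ : ℝ, 0 < μ → 0 ≤ X0 + X1 * μ := by
    intro μ hμ
    have h2 := limit_K h (Par.mk η NA NB μ h0 h1 hNA hNB hμ) hA hB
    simp only [Vlow, FDefs136.Par.NC, FDefs136.Par.lamA, FDefs136.Par.lamB, FDefs136.Par.β,
      FDefs136.Par.bA, FDefs136.Par.bB, FDefs136.Par.bC] at h2
    have e : ∀ N, FDefs136.bN N = bN N := fun N => rfl
    simp only [e, ← hNC] at h2
    have e2 : X0 + X1 * μ = (vnEntropy (bsOutput η A B)
        - η * (bN NC + μ) / bN NA * vnEntropy A - (1 - η) * (bN NC + μ) / bN NB * vnEntropy B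
        + μ * (η * en A + (1 - η) * en B))
        - n * (Real.log (NC + 1) - η * (bN NC + μ) / bN NA * Real.log (NA + 1)
          - (1 - η) * (bN NC + μ) / bN NB * Real.log (NB + 1)) := by
      rw [hX0, hX1]; ring
    rw [e2]; linarith
  have hX0' : 0 ≤ X0 := by
    have hl : Tendsto (fun μ : ℝ => X0 + X1 * μ) (𝓝[>] 0) (𝓝 X0) := by
      have : Tendsto (fun μ : ℝ => X0 + X1 * μ) (𝓝 0) (𝓝 (X0 + X1 * 0)) :=
        (tendsto_const_nhds).add (tendsto_id.const_mul X1)
      rw [mul_zero, add_zero] at this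
      exact this.mono_left nhdsWithin_le_nhds
    exact ge_of_tendsto hl (eventually_nhdsWithin_of_forall fun μ hμ => key μ hμ)
  rw [hX0] at hX0'
  rw [gBose_eq hNCpos, gBose_eq hNA, gBose_eq hNB]
  have hA' : η * bN NC / bN NA * (bN NA * NA) = η * NA * bN NC := by field_simp
  have hB' : (1 - η) * bN NC / bN NB * (bN NB * NB) = (1 - η) * NB * bN NC := by field_simp
  have e3 : n * (Real.log (NC + 1) + bN NC * NC)
      + η * bN NC / bN NA * (vnEntropy A - n * (Real.log (NA + 1) + bN NA * NA))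
      + (1 - η) * bN NC / bN NB * (vnEntropy B - n * (Real.log (NB + 1) + bN NB * NB))
      = η * bN NC / bN NA * vnEntropy A + (1 - η) * bN NC / bN NB * vnEntropy B
        + n * (Real.log (NC + 1) - η * bN NC / bN NA * Real.log (NA + 1)
          - (1 - η) * bN NC / bN NB * Real.log (NB + 1))
        + n * (bN NC * NC - η * bN NC / bN NA * (bN NA * NA)
          - (1 - η) * bN NC / bN NB * (bN NB * NB)) := by ring
  rw [e3, hA', hB']
  have e4 : bN NC * NC - η * NA * bN NC - (1 - η) * NB * bN NC = 0 := by rw [hNC]; ring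
  rw [e4]
  linarith

end Crest.Agent.R331.FLim_628
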