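import Mathlib

set_option autoImplicit false

/-!
FIN-3 (row 331): entropy of density matrices: trace form, continuity, existence of minimisers,
number-basis Gibbs bound.
-/

open Matrix Filter Topology
open scoped ComplexOrder

namespace Crest.Agent.R331.Fin3_839

variable {ι : Type*} [Fintype ι] [DecidableEq ι]

/-- von Neumann entropy of a Hermitian matrix (0 if not Hermitian) -/
noncomputable def Sm (ρ : Matrix ι ι ℂ) : ℝ :=
  open Classical in
  if h : ρ.IsHermitian then ∑ i, Real.negMulLog (h.eigenvalues i) else 0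

theorem Sm_eq {ρ : Matrix ι ι ℂ} (h : ρ.IsHermitian) :
    Sm ρ = ∑ i, Real.negMulLog (h.eigenvalues i) := by
  unfold Sm; rw [dif_pos h]

/-- density matrices -/
def Dens (ι : Type*) [Fintype ι] : Set (Matrix ι ι ℂ) :=
  {ρ | ρ.PosSemidef ∧ ρ.trace = 1}

section spectral

theorem trace_conj (U : Matrix.unitaryGroup ι ℂ) (A : Matrix ι ι ℂ) :
    (Unitary.conjStarAlgAut ℂ (Matrix ι ι ℂ) U A).trace = A.trace := by
  rw [Unitary.conjStarAlgAut_apply, Matrix.trace_mul_cycle, Unitary.star_mul_self_of_mem U.2, one_mul]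

/-- trace of a polynomial expression -/
theorem trace_mul_one_sub_pow {ρ : Matrix ι ι ℂ} (h : ρ.IsHermitian) (m : ℕ) :
    (ρ * (1 - ρ) ^ m).trace = ((∑ i, h.eigenvalues i * (1 - h.eigenvalues i) ^ m : ℝ) : ℂ) := by
  have hs := h.spectral_theorem
  have e1 : ρ * (1 - ρ) ^ m = Unitary.conjStarAlgAut ℂ (Matrix ι ι ℂ) h.eigenvectorUnitary
      (diagonal (RCLike.ofReal ∘ h.eigenvalues) * (1 - diagonal (RCLike.ofReal ∘ h.eigenvalues)) ^ m) := by
    rw [map_mul, map_pow, map_sub, map_one, ← hs]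
  rw [e1, trace_conj, ← Matrix.diagonal_one, Matrix.diagonal_sub, Matrix.diagonal_pow,
    Matrix.diagonal_mul_diagonal, Matrix.trace_diagonal]
  push_cast
  refine Finset.sum_congr rfl fun i _ => ?_
  simp

theorem trace_sq_eq {ρ : Matrix ι ι ℂ} (h : ρ.IsHermitian) :
    (ρ * ρ).trace = ((∑ i, h.eigenvalues i ^ 2 : ℝ) : ℂ) := by
  have hs := h.spectral_theorem
  have e1 : ρ * ρ = Unitary.conjStarAlgAut ℂ (Matrix ι ι ℂ) h.eigenvectorUnitary
      (diagonal (RCLike.ofReal ∘ h.eigenvalues) * (diagonal (RCLike.ofReal ∘ h.eigenvalues))) := by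
    rw [map_mul, ← hs]
  rw [e1, trace_conj, Matrix.diagonal_mul_diagonal, Matrix.trace_diagonal]
  push_cast
  refine Finset.sum_congr rfl fun i _ => ?_
  simp [pow_two]

theorem sum_eig {ρ : Matrix ι ι ℂ} (h : ρ.IsHermitian) :
    ((∑ i, h.eigenvalues i : ℝ) : ℂ) = ρ.trace := by
  rw [h.trace_eq_sum_eigenvalues]
  push_cast
  rfl

theorem dens_sum_eig {ρ : Matrix ι ι ℂ} (h : ρ ∈ Dens ι) : ∑ i, h.1.1.eigenvalues i = 1 := by
  have h1 := (sum_eig h.1.1).trans h.2
  exact_mod_cast h1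

theorem dens_eig_nonneg {ρ : Matrix ι ι ℂ} (h : ρ ∈ Dens ι) (i : ι) : 0 ≤ h.1.1.eigenvalues i :=
  h.1.eigenvalues_nonneg i

theorem dens_eig_le_one {ρ : Matrix ι ι ℂ} (h : ρ ∈ Dens ι) (i : ι) : h.1.1.eigenvalues i ≤ 1 := by
  rw [← dens_sum_eig h]
  exact Finset.single_le_sum (f := fun i => h.1.1.eigenvalues i) (fun i _ => dens_eig_nonneg h i)
    (Finset.mem_univ i)

end spectral

section entropy_bounds

theorem Sm_nonneg {ρ : Matrix ι ι ℂ} (h : ρ ∈ Dens ι) : 0 ≤ Sm ρ := by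
  rw [Sm_eq h.1.1]
  exact Finset.sum_nonneg fun i _ => Real.negMulLog_nonneg (dens_eig_nonneg h i) (dens_eig_le_one h i)

/-- polynomial approximation of `negMulLog` on `[0,1]` -/
theorem negMulLog_approx (x : ℝ) (h0 : 0 ≤ x) (h1 : x ≤ 1) (M : ℕ) :
    (∑ m ∈ Finset.range M, x * (1 - x) ^ (m + 1) / (m + 1)) ≤ Real.negMulLog x ∧
    Real.negMulLog x ≤ (∑ m ∈ Finset.range M, x * (1 - x) ^ (m + 1) / (m + 1)) + 1 / (M + 1) := by
  rcases h0.eq_or_lt with h0 | h0
  · subst h0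
    simp only [zero_mul, zero_div, Finset.sum_const_zero, Real.negMulLog_zero, le_refl, true_and,
      zero_add]
    positivity
  · have hlt : |1 - x| < 1 := by rw [abs_lt]; constructor <;> linarith
    have hs := Real.hasSum_pow_div_log_of_abs_lt_one hlt
    have hs2 := hs.mul_left x
    have e1 : x * -Real.log (1 - (1 - x)) = Real.negMulLog x := by
      rw [sub_sub_cancel, Real.negMulLog]; ring
    rw [e1] at hs2
    have e2 : (fun i : ℕ => x * ((1 - x) ^ (i + 1) / (↑i + 1))) =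
        fun m : ℕ => x * (1 - x) ^ (m + 1) / (m + 1) := by
      funext m; ring
    rw [e2] at hs2
    have hnn : ∀ m : ℕ, 0 ≤ x * (1 - x) ^ (m + 1) / (m + 1) := fun m => by
      have : 0 ≤ 1 - x := by linarith
      positivity
    refine ⟨sum_le_hasSum _ (fun m _ => hnn m) hs2, ?_⟩
    -- tail bound
    have hgeo : HasSum (fun m : ℕ => x * (1 - x) ^ (m + (M + 1)) ) ((1 - x) ^ (M + 1)) := by
      have hg := (hasSum_geometric_of_abs_lt_one hlt).mul_left (x * (1 - x) ^ (M + 1))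
      have e3 : x * (1 - x) ^ (M + 1) * (1 - (1 - x))⁻¹ = (1 - x) ^ (M + 1) := by
        rw [sub_sub_cancel]; field_simp
      rw [e3] at hg
      refine hg.congr_fun ?_ |> fun h => h
      intro m
      ring
    have htail : HasSum (fun m : ℕ => x * (1 - x) ^ (m + M + 1) / ((m + M : ℕ) + 1))
        (Real.negMulLog x - ∑ m ∈ Finset.range M, x * (1 - x) ^ (m + 1) / (m + 1)) := by
      have := (hasSum_nat_add_iff' M).2 hs2
      refine this.congr_fun ?_ |> fun h => h
      intro m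
      push_cast
      ring
    have hle : Real.negMulLog x - ∑ m ∈ Finset.range M, x * (1 - x) ^ (m + 1) / (m + 1) ≤
        (1 / (M + 1)) * (1 - x) ^ (M + 1) := by
      refine hasSum_le (fun m => ?_) htail (hgeo.mul_left (1 / ((M:ℝ) + 1)))
      have hx : 0 ≤ x * (1 - x) ^ (m + M + 1) := by
        have : 0 ≤ 1 - x := by linarith
        positivity
      have : x * (1 - x) ^ (m + M + 1) / (((m + M : ℕ) : ℝ) + 1) ≤
          x * (1 - x) ^ (m + M + 1) / ((M:ℝ) + 1) := by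
        apply div_le_div_of_nonneg_left hx (by positivity)
        push_cast
        have : (0:ℝ) ≤ m := Nat.cast_nonneg m
        linarith
      refine this.trans (le_of_eq ?_)
      rw [show m + (M + 1) = m + M + 1 by ring]
      ring
    have hp : (1 - x) ^ (M + 1) ≤ 1 := pow_le_one₀ (by linarith) (by linarith)
    have hM : (0:ℝ) ≤ 1 / (M + 1) := by positivity
    nlinarith [mul_le_mul_of_nonneg_left hp hM]

/-- the polynomial approximant of the entropy -/
noncomputable def SmP (M : ℕ) (ρ : Matrix ι ι ℂ) : ℝ :=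
  ∑ m ∈ Finset.range M, (ρ * (1 - ρ) ^ (m + 1)).trace.re / (m + 1)

theorem Sm_approx {ρ : Matrix ι ι ℂ} (h : ρ ∈ Dens ι) (M : ℕ) :
    SmP M ρ ≤ Sm ρ ∧ Sm ρ ≤ SmP M ρ + Fintype.card ι / (M + 1) := by
  have e1 : SmP M ρ = ∑ i, ∑ m ∈ Finset.range M,
      h.1.1.eigenvalues i * (1 - h.1.1.eigenvalues i) ^ (m + 1) / (m + 1) := by
    rw [Finset.sum_comm]
    unfold SmP
    refine Finset.sum_congr rfl fun m _ => ?_
    rw [trace_mul_one_sub_pow h.1.1, Complex.ofReal_re, Finset.sum_div]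
  rw [e1, Sm_eq h.1.1]
  constructor
  · exact Finset.sum_le_sum fun i _ =>
      (negMulLog_approx _ (dens_eig_nonneg h i) (dens_eig_le_one h i) M).1
  · have : (Fintype.card ι : ℝ) / (M + 1) = ∑ _i : ι, 1 / ((M:ℝ) + 1) := by
      rw [Finset.sum_const, Finset.card_univ, nsmul_eq_mul]; ring
    rw [this, ← Finset.sum_add_distrib]
    exact Finset.sum_le_sum fun i _ =>
      (negMulLog_approx _ (dens_eig_nonneg h i) (dens_eig_le_one h i) M).2

theorem continuous_SmP (M : ℕ) : Continuous (SmP M : Matrix ι ι ℂ → ℝ) := by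
  unfold SmP
  refine continuous_finsetSum _ fun m _ => ?_
  refine Continuous.div_const ?_ _
  refine Complex.continuous_re.comp ?_
  refine Continuous.matrix_trace ?_
  exact continuous_id.matrix_mul ((continuous_const.sub continuous_id).pow _)

/-- **continuity of the entropy on density matrices** -/
theorem continuousOn_Sm : ContinuousOn (Sm : Matrix ι ι ℂ → ℝ) (Dens ι) := by
  have hu : TendstoUniformlyOn (fun M : ℕ => (SmP M : Matrix ι ι ℂ → ℝ)) Sm atTop (Dens ι) := by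
    rw [Metric.tendstoUniformlyOn_iff]
    intro ε hε
    have h1 : Tendsto (fun M : ℕ => (Fintype.card ι : ℝ) / ((M:ℝ) + 1)) atTop (𝓝 0) :=
      tendsto_const_div_atTop_nhds_zero_nat (Fintype.card ι : ℝ) |>.comp (tendsto_add_atTop_nat 1)
        |>.congr fun M => by simp [Function.comp]
    filter_upwards [h1.eventually (gt_mem_nhds hε)] with M hM ρ hρ
    have h2 := Sm_approx hρ M
    rw [Real.dist_eq, abs_lt]
    constructor <;> linarith [h2.1, h2.2]
  exact hu.continuousOn (Frequently.of_forall fun M => (continuous_SmP M).continuousOn)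

end entropy_bounds

section compactness

omit [DecidableEq ι] in
theorem isClosed_Dens : IsClosed (Dens ι) := by
  have h1 : IsClosed {ρ : Matrix ι ι ℂ | ρ.trace = 1} :=
    isClosed_eq (continuous_id.matrix_trace) continuous_const
  have h2 : IsClosed {ρ : Matrix ι ι ℂ | ρ.IsHermitian} :=
    isClosed_eq (continuous_id.matrix_conjTranspose) continuous_id
  have h3 : IsClosed {ρ : Matrix ι ι ℂ | ∀ x : ι → ℂ, 0 ≤ star x ⬝ᵥ (ρ *ᵥ x)} := by
    have : {ρ : Matrix ι ι ℂ | ∀ x : ι → ℂ, 0 ≤ star x ⬝ᵥ (ρ *ᵥ x)} =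
        ⋂ x : ι → ℂ, {ρ : Matrix ι ι ℂ | 0 ≤ star x ⬝ᵥ (ρ *ᵥ x)} := by
      ext ρ; simp
    rw [this]
    refine isClosed_iInter fun x => ?_
    have hc : Continuous fun ρ : Matrix ι ι ℂ => star x ⬝ᵥ (ρ *ᵥ x) :=
      Continuous.dotProduct continuous_const (continuous_id.matrix_mulVec continuous_const)
    exact isClosed_le continuous_const hc
  have : Dens ι = ({ρ : Matrix ι ι ℂ | ρ.IsHermitian} ∩
      {ρ : Matrix ι ι ℂ | ∀ x : ι → ℂ, 0 ≤ star x ⬝ᵥ (ρ *ᵥ x)}) ∩ {ρ : Matrix ι ι ℂ | ρ.trace = 1} := by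
    ext ρ
    simp only [Dens, Set.mem_ofPred_eq, Set.mem_inter_iff]
    constructor
    · rintro ⟨h, ht⟩
      exact ⟨⟨h.1, fun x => h.dotProduct_mulVec_nonneg x⟩, ht⟩
    · rintro ⟨⟨h, hx⟩, ht⟩
      exact ⟨Matrix.PosSemidef.of_dotProduct_mulVec_nonneg h hx, ht⟩
  rw [this]
  exact (h2.inter h3).inter h1

theorem dens_entry_le {ρ : Matrix ι ι ℂ} (h : ρ ∈ Dens ι) (i j : ι) : ‖ρ i j‖ ≤ 1 := by
  have h1 := trace_sq_eq h.1.1
  have h2 : (ρ * ρ).trace = ((∑ i, ∑ j, ‖ρ i j‖ ^ 2 : ℝ) : ℂ) := by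
    rw [Matrix.trace]
    push_cast
    refine Finset.sum_congr rfl fun i _ => ?_
    rw [Matrix.diag_apply, Matrix.mul_apply]
    refine Finset.sum_congr rfl fun j _ => ?_
    have : ρ j i = star (ρ i j) := by
      have := h.1.1.apply i j
      rw [← this]; simp
    rw [this, Complex.star_def, Complex.mul_conj, Complex.normSq_eq_norm_sq]
    push_cast; rfl
  rw [h2] at h1
  have h3 : (∑ i, ∑ j, ‖ρ i j‖ ^ 2 : ℝ) = ∑ i, h.1.1.eigenvalues i ^ 2 := by exact_mod_cast h1
  have h4 : ∑ i, h.1.1.eigenvalues i ^ 2 ≤ 1 := by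
    calc ∑ i, h.1.1.eigenvalues i ^ 2 ≤ ∑ i, h.1.1.eigenvalues i := by
          refine Finset.sum_le_sum fun i _ => ?_
          nlinarith [dens_eig_nonneg h i, dens_eig_le_one h i]
      _ = 1 := dens_sum_eig h
  have h5 : ‖ρ i j‖ ^ 2 ≤ ∑ i, ∑ j, ‖ρ i j‖ ^ 2 := by
    refine le_trans ?_ (Finset.single_le_sum (f := fun i => ∑ j, ‖ρ i j‖ ^ 2)
      (fun i _ => Finset.sum_nonneg fun j _ => sq_nonneg _) (Finset.mem_univ i))
    exact Finset.single_le_sum (f := fun j => ‖ρ i j‖ ^ 2) (fun j _ => sq_nonneg _)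
      (Finset.mem_univ j)
  have h6 : ‖ρ i j‖ ^ 2 ≤ 1 := by linarith
  nlinarith [norm_nonneg (ρ i j)]

theorem isCompact_Dens : IsCompact (Dens ι) := by
  have hK : IsCompact (Set.pi Set.univ fun _ : ι => Set.pi Set.univ fun _ : ι =>
      Metric.closedBall (0:ℂ) 1) :=
    isCompact_univ_pi fun _ => isCompact_univ_pi fun _ => isCompact_closedBall 0 1
  refine IsCompact.of_isClosed_subset hK isClosed_Dens ?_
  intro ρ hρ i _ j _
  rw [Metric.mem_closedBall, dist_zero_right]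
  exact dens_entry_le hρ i j

theorem single_mem_Dens (k : ι) : (Matrix.single k k (1:ℂ)) ∈ Dens ι := by
  refine ⟨?_, by simp⟩
  have h1 : (Matrix.single k k (1:ℂ)) = Matrix.diagonal (Pi.single k 1) := by
    rw [Matrix.diagonal_single]
  rw [h1, Matrix.posSemidef_diagonal_iff]
  intro i
  by_cases h : i = k
  · subst h; simp
  · simp [Pi.single_apply, h]

theorem dens_nonempty [Nonempty ι] : (Dens ι).Nonempty :=
  ⟨_, single_mem_Dens (Classical.arbitrary ι)⟩

/-- existence of minimisers of continuous functionals of pairs of densities -/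
theorem exists_min {κ : Type*} [Fintype κ] [DecidableEq κ] [Nonempty ι] [Nonempty κ]
    (F : Matrix ι ι ℂ → Matrix κ κ ℂ → ℝ)
    (hF : ContinuousOn (fun p : Matrix ι ι ℂ × Matrix κ κ ℂ => F p.1 p.2) (Dens ι ×ˢ Dens κ)) :
    ∃ A ∈ Dens ι, ∃ B ∈ Dens κ, ∀ A' ∈ Dens ι, ∀ B' ∈ Dens κ, F A B ≤ F A' B' := by
  obtain ⟨p, hp, hmin⟩ := (isCompact_Dens.prod isCompact_Dens).exists_isMinOn
    (dens_nonempty.prod dens_nonempty) hF
  exact ⟨p.1, hp.1, p.2, hp.2, fun A' hA' B' hB' => hmin (show (A', B') ∈ _ from ⟨hA', hB'⟩)⟩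

end compactness

end Crest.Agent.R331.Fin3_839
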