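import Mathlib
import Crest.Agent.R331.FDefs2_136
import Crest.Agent.R331.Fin3b_839
import Crest.Agent.R331.FLim_628
import Crest.Agent.R331.FinPhi_280
import Crest.Agent.R331.FinWBox_87

set_option autoImplicit false

/-!
Row 331, finite track: leaves FVALUE and FENERGY (helper839).
-/

namespace Crest.Agent.R331.FEn839

open Matrix Crest.Quantum Crest.MathPhysics.Bosonic Filter Topology
open Crest.Agent.R331.FDefs136 Crest.Agent.R331.Fin3_839
open scoped Kronecker ComplexOrder BigOperators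

noncomputable section

variable {n K : ℕ}

theorem vn_eq_Sm {ι : Type*} [Fintype ι] [DecidableEq ι] (ρ : Matrix ι ι ℂ) (h : ρ.IsHermitian) :
    vnEntropy ρ = Sm ρ := by
  rw [Sm_eq h, Fin8_628.vn_eq h]

theorem En_eq (A : Matrix (Bx n K) (Bx n K) ℂ) :
    En A = ∑ k, (A k k).re * (Fin3_839.tot k : ℝ) := by
  simp only [FDefs136.En, FDefs136.num, Matrix.trace, Matrix.diag_apply, Matrix.mul_diagonal,
    Complex.re_sum]
  refine Finset.sum_congr rfl fun k _ => ?_
  rw [mul_comm, ← Complex.ofReal_natCast, Complex.re_ofReal_mul, mul_comm]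
  rfl

theorem En_nonneg {A : Matrix (Bx n K) (Bx n K) ℂ} (hA : IsDensity A) : 0 ≤ En A := by
  rw [En_eq]
  exact Finset.sum_nonneg fun k _ => mul_nonneg (dens_diag_nonneg hA k) (by positivity)

/-- uniform energy bound of the entropy -/
theorem vn_le_exp {A : Matrix (Bx n K) (Bx n K) ℂ} (hA : IsDensity A) {s : ℝ} (hs : 0 < s) :
    vnEntropy A ≤ s * En A - n * Real.log (1 - Real.exp (-s)) := by
  rw [vn_eq_Sm A hA.1.1, En_eq]
  exact Sm_box_le hA s hs

theorem exp_bN {N : ℝ} (hN : 0 < N) : Real.exp (-bN N) = N / (N + 1) := by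
  unfold bN
  have h : (0:ℝ) < 1 + 1 / N := by positivity
  rw [Real.exp_neg, Real.exp_log h]
  field_simp

theorem bN_pos {N : ℝ} (hN : 0 < N) : 0 < bN N := by
  unfold bN
  refine Real.log_pos ?_
  have : 0 < 1 / N := by positivity
  linarith

/-- Gibbs bound at the thermal parameter. -/
theorem vn_le_bN {A : Matrix (Bx n K) (Bx n K) ℂ} (hA : IsDensity A) {N : ℝ} (hN : 0 < N) :
    vnEntropy A ≤ bN N * En A + n * Real.log (N + 1) := by
  have h := vn_le_exp hA (bN_pos hN)
  rw [exp_bN hN] at h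
  have e : (1 : ℝ) - N / (N + 1) = (N + 1)⁻¹ := by
    have : (N + 1 : ℝ) ≠ 0 := by positivity
    field_simp
    ring
  rw [e, Real.log_inv] at h
  linarith

theorem NC_pos (p : Par) : 0 < p.NC := by
  unfold Par.NC
  have h1 := mul_pos p.η_pos p.NA_pos
  have h2 := mul_pos (sub_pos.2 p.η_lt) p.NB_pos
  linarith

theorem β_pos (p : Par) : 0 < p.β := by
  unfold Par.β Par.bC
  have := bN_pos (NC_pos p)
  linarith [p.μ_pos]

theorem lamA_pos (p : Par) : 0 < p.lamA := by
  unfold Par.lamA Par.bA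
  exact div_pos (mul_pos p.η_pos (β_pos p)) (bN_pos p.NA_pos)

theorem lamB_pos (p : Par) : 0 < p.lamB := by
  unfold Par.lamB Par.bB
  exact div_pos (mul_pos (sub_pos.2 p.η_lt) (β_pos p)) (bN_pos p.NB_pos)

/-- **LEAF FVALUE** -/
theorem fvalue : FDefs136.FVALUE := by
  intro p n K ε _ A B hA hB
  have h1 := mul_le_mul_of_nonneg_left (vn_le_bN hA p.NA_pos) (lamA_pos p).le
  have h2 := mul_le_mul_of_nonneg_left (vn_le_bN hB p.NB_pos) (lamB_pos p).le
  have e1 : p.lamA * bN p.NA = p.η * (p.bC + p.μ) := by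
    unfold Par.lamA Par.bA Par.β
    have := (bN_pos p.NA_pos).ne'
    field_simp
  have e2 : p.lamB * bN p.NB = (1 - p.η) * (p.bC + p.μ) := by
    unfold Par.lamB Par.bB Par.β
    have := (bN_pos p.NB_pos).ne'
    field_simp
  rw [mul_add, ← mul_assoc, e1] at h1
  rw [mul_add, ← mul_assoc, e2] at h2
  unfold FDefs136.F
  linarith

/-! ### the vacuum -/

/-- vacuum -/
def vac (n K : ℕ) : Matrix (Bx n K) (Bx n K) ℂ :=
  Matrix.diagonal fun k => if k = 0 then 1 else 0

theorem vac_density (n K : ℕ) : IsDensity (vac n K) := by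
  constructor
  · unfold vac
    refine Matrix.PosSemidef.diagonal ?_
    intro k
    dsimp
    split_ifs
    · exact zero_le_one
    · exact le_refl _
  · unfold vac
    rw [Matrix.trace_diagonal]
    simp

theorem vn_diag_re {ι : Type*} [Fintype ι] [DecidableEq ι] (f : ι → ℝ) :
    vnEntropy (Matrix.diagonal fun i => (f i : ℂ)) = ∑ i, Real.negMulLog (f i) := by
  refine FLim_628.vn_of_diag (1 : Matrix ι ι ℂ) ?_ f ?_
  · simp
  · simp

theorem vn_vac (n K : ℕ) : vnEntropy (vac n K) = 0 := by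
  have e : vac n K = Matrix.diagonal fun k => (((if k = 0 then 1 else 0 : ℝ)) : ℂ) := by
    unfold vac
    congr 1
    funext k
    split_ifs <;> simp
  rw [e, vn_diag_re]
  refine Finset.sum_eq_zero fun k _ => ?_
  split_ifs <;> simp

theorem En_vac (n K : ℕ) : En (vac n K) = 0 := by
  rw [En_eq]
  refine Finset.sum_eq_zero fun k _ => ?_
  unfold vac
  rw [Matrix.diagonal_apply_eq]
  split_ifs with h
  · subst h
    simp [Fin3_839.tot]
  · simp

theorem bsAmp_zero (η : ℝ) (p q : ℕ) : bsAmp η 0 0 p q = if p = 0 ∧ q = 0 then 1 else 0 := by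
  unfold bsAmp
  by_cases h : p + q = 0 + 0
  · have hp : p = 0 := by omega
    have hq : q = 0 := by omega
    subst hp; subst hq
    simp
  · rw [if_neg h, if_neg]
    rintro ⟨rfl, rfl⟩
    exact h rfl

theorem bsAmpN_zero (η : ℝ) (p q : Bx n (2 * K)) :
    bsAmpN η (0 : Bx n K) (0 : Bx n K) p q = if p = 0 ∧ q = 0 then 1 else 0 := by
  unfold bsAmpN
  have e : ∀ j, bsAmp η ((0 : Bx n K) j) ((0 : Bx n K) j) (p j) (q j) =
      if ((p j : ℕ) = 0 ∧ (q j : ℕ) = 0) then 1 else 0 := by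
    intro j
    have h0 : (((0 : Bx n K) j : Fin (K + 1)) : ℕ) = 0 := rfl
    rw [h0]
    exact bsAmp_zero η _ _
  simp_rw [e]
  by_cases h : p = 0 ∧ q = 0
  · rw [if_pos h]
    obtain ⟨rfl, rfl⟩ := h
    refine Finset.prod_eq_one fun j _ => ?_
    rw [if_pos]
    exact ⟨rfl, rfl⟩
  · rw [if_neg h]
    have h2 : ∃ j, ¬ ((p j : ℕ) = 0 ∧ (q j : ℕ) = 0) := by
      by_contra hc
      push Not at hc
      refine h ⟨?_, ?_⟩
      · funext j
        exact Fin.ext (hc j).1
      · funext j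
        exact Fin.ext (hc j).2
    obtain ⟨j, hj⟩ := h2
    exact Finset.prod_eq_zero (Finset.mem_univ j) (if_neg hj)

theorem outC_vac (η : ℝ) (n K : ℕ) : outC η (vac n K) (vac n K) = vac n (2 * K) := by
  rw [FLim_628.outC_eq_bsOutput]
  ext p p'
  unfold bsOutput vac
  rw [Matrix.of_apply, Matrix.diagonal_apply]
  have e : ∀ q : Bx n (2 * K), (∑ k : Bx n K, ∑ l : Bx n K, ∑ k' : Bx n K, ∑ l' : Bx n K,
      (bsAmpN η k l p q : ℂ) * (Matrix.diagonal fun k => if k = 0 then (1:ℂ) else 0) k k' *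
        (Matrix.diagonal fun k => if k = 0 then (1:ℂ) else 0) l l' * (bsAmpN η k' l' p' q : ℂ)) =
      if q = 0 then (if p = 0 then (if p' = 0 then 1 else 0) else 0) else 0 := by
    intro q
    rw [Finset.sum_eq_single (0 : Bx n K), Finset.sum_eq_single (0 : Bx n K),
      Finset.sum_eq_single (0 : Bx n K), Finset.sum_eq_single (0 : Bx n K)]
    · rw [bsAmpN_zero, bsAmpN_zero]
      simp only [Matrix.diagonal_apply_eq, if_true]
      by_cases hq : q = 0 <;> by_cases hp : p = 0 <;> by_cases hp' : p' = 0 <;> simp [hq, hp, hp']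
    · intro b _ hb
      rw [Matrix.diagonal_apply_ne' _ hb]; simp
    · intro h; exact absurd (Finset.mem_univ _) h
    · intro b _ hb
      refine Finset.sum_eq_zero fun l' _ => ?_
      rw [Matrix.diagonal_apply_ne' _ hb]; simp
    · intro h; exact absurd (Finset.mem_univ _) h
    · intro b _ hb
      refine Finset.sum_eq_zero fun k' _ => Finset.sum_eq_zero fun l' _ => ?_
      rw [Matrix.diagonal_apply, Matrix.diagonal_apply, if_neg hb]; simp
    · intro h; exact absurd (Finset.mem_univ _) h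
    · intro b _ hb
      refine Finset.sum_eq_zero fun l _ => Finset.sum_eq_zero fun k' _ =>
        Finset.sum_eq_zero fun l' _ => ?_
      rw [Matrix.diagonal_apply, if_neg hb]; simp
    · intro h; exact absurd (Finset.mem_univ _) h
  refine (Finset.sum_congr rfl fun q _ => e q).trans ?_
  rw [Finset.sum_ite_eq' Finset.univ (0 : Bx n (2 * K))]
  simp only [Finset.mem_univ, if_true]
  by_cases hp : p = 0 <;> by_cases hp' : p' = 0 <;> simp [hp, hp', eq_comm]

/-- entropy of `vac + ε` -/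
theorem vn_outQ_vac (η ε : ℝ) (n K : ℕ) :
    vnEntropy (outQ η ε (vac n K) (vac n K)) =
      ∑ k : Bx n (2 * K), Real.negMulLog ((if k = 0 then 1 else 0) + ε) := by
  have e : outQ η ε (vac n K) (vac n K) =
      Matrix.diagonal fun k => (((if k = 0 then 1 else 0) + ε : ℝ) : ℂ) := by
    unfold outQ
    rw [outC_vac]
    unfold vac
    rw [← Matrix.diagonal_one, ← Matrix.diagonal_smul, Matrix.diagonal_add]
    congr 1
    funext k
    simp only [Pi.smul_apply, smul_eq_mul, mul_one]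
    push_cast
    split_ifs <;> simp
  rw [e, vn_diag_re]

/-- `S(C+ε) ≥ S(pure + ε)` -/
theorem pure_le {ι : Type*} [Fintype ι] [DecidableEq ι] {C : Matrix ι ι ℂ} (hC : IsDensity C)
    {ε : ℝ} (hε : 0 < ε) (i0 : ι) :
    ∑ k : ι, Real.negMulLog ((if k = i0 then 1 else 0) + ε) ≤
      vnEntropy (C + (ε : ℂ) • (1 : Matrix ι ι ℂ)) := by
  rw [FLim_628.vn_add_smul hC.1.1]
  have h1 : ∀ i, (1 - hC.1.1.eigenvalues i) * Real.negMulLog ε +
      hC.1.1.eigenvalues i * Real.negMulLog (1 + ε) ≤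
      Real.negMulLog (hC.1.1.eigenvalues i + ε) := by
    intro i
    have h0 := dens_eig_nonneg hC i
    have h1 := dens_eig_le_one hC i
    have hcc := Real.concaveOn_negMulLog.2 (Set.mem_Ici.2 hε.le)
      (Set.mem_Ici.2 (show (0:ℝ) ≤ 1 + ε by linarith))
      (show 0 ≤ 1 - hC.1.1.eigenvalues i by linarith) h0 (by ring)
    simp only [smul_eq_mul] at hcc
    refine hcc.trans (le_of_eq ?_)
    congr 1
    ring
  have h2 : ∑ i, hC.1.1.eigenvalues i = 1 := Fin8_628.sum_eig hC
  have h3 : ∑ i, ((1 - hC.1.1.eigenvalues i) * Real.negMulLog ε +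
      hC.1.1.eigenvalues i * Real.negMulLog (1 + ε)) =
      (Fintype.card ι - 1) * Real.negMulLog ε + Real.negMulLog (1 + ε) := by
    rw [Finset.sum_add_distrib, ← Finset.sum_mul, ← Finset.sum_mul, h2, Finset.sum_sub_distrib, h2]
    simp
  have h4 : ∑ k : ι, Real.negMulLog ((if k = i0 then 1 else 0) + ε) =
      (Fintype.card ι - 1) * Real.negMulLog ε + Real.negMulLog (1 + ε) := by
    have e : ∀ k : ι, Real.negMulLog ((if k = i0 then 1 else 0) + ε) =
        Real.negMulLog ε + (if k = i0 then (Real.negMulLog (1 + ε) - Real.negMulLog ε) else 0) := by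
      intro k
      by_cases h : k = i0 <;> simp [h]
    simp_rw [e]
    rw [Finset.sum_add_distrib, Finset.sum_ite_eq' Finset.univ i0]
    simp
    ring
  rw [h4, ← h3]
  exact Finset.sum_le_sum fun i _ => h1 i

/-- the box beam splitter is an isometry (every `n`, also `n = 0`) -/
theorem bsW_isometry {η : ℝ} (h0 : 0 ≤ η) (h1 : η ≤ 1) (n K : ℕ) :
    (bsW η n K)ᴴ * bsW η n K = 1 := by
  rw [FinW87.bsW_eq]
  exact FinW87.iota_isometry h0 h1 FinW87.isCut_box

/-- the output of density matrices is a density matrix -/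
theorem outC_isDensity {η : ℝ} (h0 : 0 ≤ η) (h1 : η ≤ 1) {A B : Matrix (Bx n K) (Bx n K) ℂ}
    (hA : IsDensity A) (hB : IsDensity B) : IsDensity (outC η A B) := by
  refine ⟨FLim_628.outC_psd η hA.1 hB.1, ?_⟩
  have h := FinPhi280.trace_Phi (bsW η n K) (bsW_isometry h0 h1 n K) A B
  rw [hA.2, hB.2, one_mul] at h
  exact h

/-- **LEAF FENERGY** -/
theorem fenergy : FDefs136.FENERGY := by
  intro p n
  set sA : ℝ := p.μ * p.η / (2 * p.lamA) with hsA
  set sB : ℝ := p.μ * (1 - p.η) / (2 * p.lamB) with hsB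
  have hlA := lamA_pos p
  have hlB := lamB_pos p
  have hη := p.η_pos
  have hη' := sub_pos.2 p.η_lt
  have hμ := p.μ_pos
  have hsA0 : 0 < sA := by positivity
  have hsB0 : 0 < sB := by positivity
  set D : ℝ := -(n * p.lamA * Real.log (1 - Real.exp (-sA)))
    - n * p.lamB * Real.log (1 - Real.exp (-sB)) with hD
  refine ⟨2 * D / (p.μ * p.η) + 2 * D / (p.μ * (1 - p.η)), ?_⟩
  intro K ε hε A B hmin
  have h1 := hmin.le (vac n K) (vac n K) (vac_density n K) (vac_density n K)
  unfold FDefs136.F at h1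
  rw [vn_vac, En_vac, vn_outQ_vac] at h1
  have h2 := pure_le (outC_isDensity p.η_pos.le p.η_lt.le hmin.dA hmin.dB) hε (0 : Bx n (2 * K))
  have h3 : p.lamA * vnEntropy A ≤ p.μ * p.η / 2 * En A
      - n * p.lamA * Real.log (1 - Real.exp (-sA)) := by
    have := mul_le_mul_of_nonneg_left (vn_le_exp hmin.dA hsA0) hlA.le
    have e : p.lamA * sA = p.μ * p.η / 2 := by rw [hsA]; field_simp
    rw [mul_sub, ← mul_assoc, e] at this
    linarith
  have h4 : p.lamB * vnEntropy B ≤ p.μ * (1 - p.η) / 2 * En B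
      - n * p.lamB * Real.log (1 - Real.exp (-sB)) := by
    have := mul_le_mul_of_nonneg_left (vn_le_exp hmin.dB hsB0) hlB.le
    have e : p.lamB * sB = p.μ * (1 - p.η) / 2 := by rw [hsB]; field_simp
    rw [mul_sub, ← mul_assoc, e] at this
    linarith
  have hEA := En_nonneg hmin.dA
  have hEB := En_nonneg hmin.dB
  unfold outQ at h1
  have h5 : p.μ * p.η / 2 * En A + p.μ * (1 - p.η) / 2 * En B ≤ D := by
    rw [hD]
    linarith
  have hA0 : 0 ≤ p.μ * p.η / 2 * En A := by positivity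
  have hB0 : 0 ≤ p.μ * (1 - p.η) / 2 * En B := by positivity
  have hD0 : 0 ≤ D := by linarith
  have hmA : 0 < p.μ * p.η := by positivity
  have hmB : 0 < p.μ * (1 - p.η) := by positivity
  have hA1 : En A ≤ 2 * D / (p.μ * p.η) := by
    rw [le_div_iff₀ hmA]
    linarith
  have hB1 : En B ≤ 2 * D / (p.μ * (1 - p.η)) := by
    rw [le_div_iff₀ hmB]
    linarith
  have hA2 : 0 ≤ 2 * D / (p.μ * p.η) := by positivity
  have hB2 : 0 ≤ 2 * D / (p.μ * (1 - p.η)) := by positivity
  constructor <;> linarith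

end

end Crest.Agent.R331.FEn839
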