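import Crest.Agent.R331.FErr_8
import Crest.Agent.R331.FDefs_136
import Crest.Agent.R331.FCovB_76

/-!
Row 331 (EPnI), finite-matrix track: leaf FERR (helper8), literal form for `FDefs136.gapErr`.
-/

set_option autoImplicit false
set_option linter.unusedSectionVars false
set_option linter.unusedSimpArgs false

namespace Crest.Agent.R331.FErr8

open Matrix FDefs136 Crest.Quantum
open scoped ComplexOrder Kronecker

noncomputable section

variable {n K : ℕ}

/-! ### The truncated ladder matrices -/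

theorem succIn_unique {j : Fin n} {k k' l : Bx n K} (h : succIn j k l) (h' : succIn j k' l) :
    k = k' := by
  funext i
  have h1 := h i
  have h2 := h' i
  apply Fin.ext
  omega

theorem succIn_unique' {j : Fin n} {k l l' : Bx n K} (h : succIn j k l) (h' : succIn j k l') :
    l = l' := by
  funext i
  have h1 := h i
  have h2 := h' i
  apply Fin.ext
  omega

theorem ann_mul_annH (j : Fin n) :
    ann n K j * (ann n K j)ᴴ =
      diagonal (fun k : Bx n K => if (k j : ℕ) + 1 ≤ K then (((k j : ℕ) + 1 : ℝ) : ℂ) else 0) := by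
  ext k k'
  rw [Matrix.mul_apply]
  simp only [conjTranspose_apply, ann, Matrix.of_apply]
  by_cases hk : k = k'
  · subst hk
    rw [diagonal_apply_eq]
    split_ifs with h
    · -- the unique successor
      set l0 : Bx n K := Function.update k j ⟨(k j : ℕ) + 1, by omega⟩ with hl0
      have hl : succIn j k l0 := by
        intro i
        by_cases hi : i = j
        · subst hi; simp [hl0]
        · simp [hl0, hi]
      rw [Finset.sum_eq_single l0]
      · rw [if_pos hl]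
        have : ((l0 j : ℕ) : ℝ) = (k j : ℕ) + 1 := by simp [hl0]
        rw [RCLike.star_def, Complex.conj_ofReal, ← Complex.ofReal_mul, this,
          Real.mul_self_sqrt (by positivity)]
      · intro l _ hne
        rw [if_neg (fun h' => hne (succIn_unique' h' hl))]
        simp
      · intro h'; exact absurd (Finset.mem_univ _) h'
    · refine Finset.sum_eq_zero fun l _ => ?_
      rw [if_neg (fun h' => ?_)]
      · simp
      · have h1 := h' j
        rw [if_pos rfl] at h1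
        have := (l j).is_lt
        omega
  · rw [diagonal_apply_ne _ hk]
    refine Finset.sum_eq_zero fun l _ => ?_
    by_cases h1 : succIn j k l
    · by_cases h2 : succIn j k' l
      · exact absurd (succIn_unique h1 h2) hk
      · rw [if_neg h2]; simp
    · rw [if_neg h1]; simp

theorem annH_mul_ann (j : Fin n) :
    (ann n K j)ᴴ * ann n K j = diagonal (fun k : Bx n K => (((k j : ℕ) : ℝ) : ℂ)) := by
  ext l l'
  rw [Matrix.mul_apply]
  simp only [conjTranspose_apply, ann, Matrix.of_apply]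
  by_cases hl : l = l'
  · subst hl
    rw [diagonal_apply_eq]
    rcases Nat.eq_zero_or_pos (l j : ℕ) with h0 | hpos
    · rw [h0]
      rw [Finset.sum_eq_zero]
      · simp
      · intro k _
        rw [if_neg (fun h' => ?_)]
        · simp
        · have h1 := h' j
          rw [if_pos rfl] at h1
          omega
    · set k0 : Bx n K := Function.update l j ⟨(l j : ℕ) - 1, by have := (l j).is_lt; omega⟩ with hk0
      have hk : succIn j k0 l := by
        intro i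
        by_cases hi : i = j
        · subst hi; simp [hk0]; omega
        · simp [hk0, hi]
      rw [Finset.sum_eq_single k0]
      · rw [if_pos hk, RCLike.star_def, Complex.conj_ofReal, ← Complex.ofReal_mul,
          Real.mul_self_sqrt (by positivity)]
      · intro k _ hne
        rw [if_neg (fun h' => hne (succIn_unique h' hk))]
        simp
      · intro h'; exact absurd (Finset.mem_univ _) h'
  · rw [diagonal_apply_ne _ hl]
    refine Finset.sum_eq_zero fun k _ => ?_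
    by_cases h1 : succIn j k l
    · by_cases h2 : succIn j k l'
      · exact absurd (succIn_unique' h1 h2) hl
      · rw [if_neg h2]; simp
    · rw [if_neg h1]; simp

theorem ann_bound (j : Fin n) :
    ((((√(K : ℝ)) ^ 2 : ℝ) : ℂ) • (1 : Matrix (Bx n K) (Bx n K) ℂ) -
      ann n K j * (ann n K j)ᴴ).PosSemidef := by
  rw [Real.sq_sqrt (Nat.cast_nonneg K), ann_mul_annH]
  have : (((K : ℝ) : ℂ) • (1 : Matrix (Bx n K) (Bx n K) ℂ)) = diagonal (fun _ => ((K : ℝ) : ℂ)) := by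
    rw [smul_one_eq_diagonal]
  rw [this, diagonal_sub, Matrix.posSemidef_diagonal_iff]
  intro k
  split_ifs with h
  · rw [← Complex.ofReal_sub, Complex.zero_le_real, sub_nonneg]
    exact_mod_cast h
  · rw [sub_zero, Complex.zero_le_real]
    positivity

theorem trace_mul_diag {ι : Type*} [Fintype ι] [DecidableEq ι] (A : Matrix ι ι ℂ) (d : ι → ℝ) :
    (trace (A * diagonal (fun k => (d k : ℂ)))).re = ∑ k, d k * (A k k).re := by
  rw [Matrix.trace, Complex.re_sum]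
  refine Finset.sum_congr rfl fun k _ => ?_
  rw [Matrix.diag_apply, mul_diagonal, mul_comm, Complex.re_ofReal_mul]

theorem diag_nonneg' {ι : Type*} [Fintype ι] {A : Matrix ι ι ℂ} (hA : A.PosSemidef) (k : ι) :
    0 ≤ (A k k).re := (Complex.le_def.1 (hA.diag_nonneg (i := k))).1

theorem sum_diag_re {ι : Type*} [Fintype ι] {A : Matrix ι ι ℂ} (hA : trace A = 1) :
    ∑ k, (A k k).re = 1 := by
  have : (trace A).re = 1 := by rw [hA]; simp
  rwa [Matrix.trace, Complex.re_sum] at this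

theorem En_eq (A : Matrix (Bx n K) (Bx n K) ℂ) :
    En A = ∑ k, (∑ i, ((k i : ℕ) : ℝ)) * (A k k).re := by
  rw [En, num, ← trace_mul_diag]
  congr 4
  ext k
  push_cast
  rfl

theorem Lf_annH_le {A : Matrix (Bx n K) (Bx n K) ℂ} (hA : A.PosSemidef) (j : Fin n) :
    Lf A (ann n K j)ᴴ ≤ En A := by
  rw [Lf, conjTranspose_conjTranspose, annH_mul_ann, trace_mul_diag, En_eq]
  refine Finset.sum_le_sum fun k _ => mul_le_mul_of_nonneg_right ?_ (diag_nonneg' hA k)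
  exact Finset.single_le_sum (f := fun i => ((k i : ℕ) : ℝ)) (fun i _ => Nat.cast_nonneg _)
    (Finset.mem_univ j)

theorem Lf_ann_le' {A : Matrix (Bx n K) (Bx n K) ℂ} (hA : A.PosSemidef) (htA : trace A = 1)
    (j : Fin n) : Lf A (ann n K j) ≤ Lf A (ann n K j)ᴴ + 1 := by
  have h1 : Lf A (ann n K j) = ∑ k : Bx n K, (if (k j : ℕ) + 1 ≤ K then ((k j : ℕ) + 1 : ℝ) else 0)
      * (A k k).re := by
    rw [Lf, ann_mul_annH, ← trace_mul_diag]
    congr 4
    ext k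
    split_ifs <;> simp
  have h4 : Lf A (ann n K j)ᴴ = ∑ k : Bx n K, ((k j : ℕ) : ℝ) * (A k k).re := by
    rw [Lf, conjTranspose_conjTranspose, annH_mul_ann, trace_mul_diag]
  have h3 := sum_diag_re htA
  have h5 : Lf A (ann n K j)ᴴ + 1 = ∑ k : Bx n K, (((k j : ℕ) : ℝ) + 1) * (A k k).re := by
    simp only [add_mul, one_mul, Finset.sum_add_distrib]
    rw [h4, h3]
  rw [h1, h5]
  refine Finset.sum_le_sum fun k _ => ?_
  have h2 := diag_nonneg' hA k
  split_ifs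
  · exact le_rfl
  · rw [zero_mul]
    positivity

theorem Lf_ann_le {A : Matrix (Bx n K) (Bx n K) ℂ} (hA : A.PosSemidef) (htA : trace A = 1)
    (j : Fin n) : Lf A (ann n K j) ≤ En A + 1 := by
  linarith [Lf_ann_le' hA htA j, Lf_annH_le hA j]

theorem En_nonneg {A : Matrix (Bx n K) (Bx n K) ℂ} (hA : A.PosSemidef) : 0 ≤ En A := by
  rw [En_eq]
  exact Finset.sum_nonneg fun k _ => mul_nonneg (Finset.sum_nonneg fun i _ => Nat.cast_nonneg _)
    (diag_nonneg' hA k)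

/-- Frobenius norm of the ladder matrix -/
theorem Lf_one_ann_le (j : Fin n) :
    Lf (1 : Matrix (Bx n K) (Bx n K) ℂ) (ann n K j) ≤ K * (K + 1) ^ n := by
  have h1 : Lf (1 : Matrix (Bx n K) (Bx n K) ℂ) (ann n K j) =
      ∑ k : Bx n K, (if (k j : ℕ) + 1 ≤ K then ((k j : ℕ) + 1 : ℝ) else 0) := by
    rw [Lf, ann_mul_annH, Matrix.one_mul, Matrix.trace_diagonal, Complex.re_sum]
    refine Finset.sum_congr rfl fun k _ => ?_
    split_ifs <;> simp
  rw [h1]
  have h2 : ∀ k : Bx n K, (if (k j : ℕ) + 1 ≤ K then ((k j : ℕ) + 1 : ℝ) else 0) ≤ (K : ℝ) := by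
    intro k
    split_ifs with h
    · exact_mod_cast h
    · positivity
  refine (Finset.sum_le_sum fun k _ => h2 k).trans ?_
  rw [Finset.sum_const, Finset.card_univ, nsmul_eq_mul]
  have : Fintype.card (Bx n K) = (K + 1) ^ n := by simp [Bx]
  rw [this]
  push_cast
  linarith

/-! ### Spectral facts about `Q = C + ε` -/

section spec

variable {γ : Type*} [Fintype γ] [DecidableEq γ]

theorem eig_lower {C : Matrix γ γ ℂ} (hC : C.PosSemidef) {ε : ℝ}
    (hQ : (C + (ε : ℂ) • (1 : Matrix γ γ ℂ)).IsHermitian) (i : γ) : ε ≤ hQ.eigenvalues i := by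
  rw [hQ.eigenvalues_eq i]
  set v : γ → ℂ := ⇑(hQ.eigenvectorBasis i) with hv
  have h1 : star v ⬝ᵥ ((C + (ε : ℂ) • (1 : Matrix γ γ ℂ)) *ᵥ v) =
      star v ⬝ᵥ (C *ᵥ v) + (ε : ℂ) * (star v ⬝ᵥ v) := by
    rw [Matrix.add_mulVec, dotProduct_add, Matrix.smul_mulVec, Matrix.one_mulVec, dotProduct_smul,
      smul_eq_mul]
  have h2 : star v ⬝ᵥ v = 1 := by
    have h3 := hQ.eigenvectorBasis.orthonormal.1 i
    have h4 : (inner ℂ (hQ.eigenvectorBasis i) (hQ.eigenvectorBasis i) : ℂ) = 1 := by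
      rw [inner_self_eq_norm_sq_to_K, h3]; simp
    rw [EuclideanSpace.inner_eq_star_dotProduct] at h4
    rw [dotProduct_comm]
    exact h4
  have h3 : 0 ≤ (star v ⬝ᵥ (C *ᵥ v)).re := (Complex.le_def.1 (hC.dotProduct_mulVec_nonneg v)).1
  rw [h1, h2, mul_one]
  simp only [map_add, RCLike.re_to_complex, Complex.ofReal_re]
  linarith

theorem eig_upper {C : Matrix γ γ ℂ} (hC : C.PosSemidef) (htC : trace C = 1) {ε : ℝ}
    (hQ : (C + (ε : ℂ) • (1 : Matrix γ γ ℂ)).IsHermitian) (i : γ) :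
    hQ.eigenvalues i ≤ 1 + ε := by
  have h1 : (trace (C + (ε : ℂ) • (1 : Matrix γ γ ℂ))) = ∑ i, (hQ.eigenvalues i : ℂ) :=
    hQ.trace_eq_sum_eigenvalues
  have h2 : ∑ i, (hQ.eigenvalues i - ε) = 1 := by
    have h3 := congrArg Complex.re h1
    rw [trace_add, htC, trace_smul, trace_one, Complex.re_sum] at h3
    simp only [Complex.add_re, Complex.one_re, smul_eq_mul, Complex.re_ofReal_mul,
      Complex.natCast_re, Complex.ofReal_re] at h3
    rw [Finset.sum_sub_distrib, ← h3, Finset.sum_const, Finset.card_univ, nsmul_eq_mul]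
    ring
  have h4 : hQ.eigenvalues i - ε ≤ ∑ i, (hQ.eigenvalues i - ε) :=
    Finset.single_le_sum (f := fun i => hQ.eigenvalues i - ε)
      (fun k _ => sub_nonneg.2 (eig_lower hC hQ k)) (Finset.mem_univ i)
  linarith

theorem KL_eq {X : Matrix γ γ ℂ} (h : X.IsHermitian) :
    KL X = (h.eigenvectorUnitary : Matrix γ γ ℂ) *
      diagonal (fun i => ((-Real.log (h.eigenvalues i) : ℝ) : ℂ)) *
      (h.eigenvectorUnitary : Matrix γ γ ℂ)ᴴ := by
  rw [KL, mlog, dif_pos h, ← Matrix.neg_mul, ← Matrix.mul_neg]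
  congr 2
  ext i j
  by_cases hij : i = j
  · subst hij; simp
  · simp [hij]

theorem spec_eq {X : Matrix γ γ ℂ} (h : X.IsHermitian) :
    X = (h.eigenvectorUnitary : Matrix γ γ ℂ) *
      diagonal (fun i => ((h.eigenvalues i : ℝ) : ℂ)) *
      (h.eigenvectorUnitary : Matrix γ γ ℂ)ᴴ := by
  conv_lhs => rw [h.spectral_theorem]
  rfl

theorem KL_herm {X : Matrix γ γ ℂ} (h : X.IsHermitian) : (KL X)ᴴ = KL X := by
  rw [KL_eq h, conjTranspose_mul, conjTranspose_mul, conjTranspose_conjTranspose,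
    diagonal_conjTranspose, Matrix.mul_assoc]
  congr 3
  ext i
  simp

/-- the three facts on `K_Q` -/
theorem KQ_bounds {C : Matrix γ γ ℂ} (hC : C.PosSemidef) (htC : trace C = 1) {ε : ℝ} (hε : 0 < ε)
    (hε2 : ε ≤ 1 / 2) :
    (((Real.log (1 / ε) ^ 2 : ℝ) : ℂ) • (1 : Matrix γ γ ℂ) -
      KL (C + (ε : ℂ) • (1 : Matrix γ γ ℂ)) * (KL (C + (ε : ℂ) • (1 : Matrix γ γ ℂ)))ᴴ).PosSemidef
    ∧ (((Real.log (1 / ε) ^ 2 : ℝ) : ℂ) • (C + (ε : ℂ) • (1 : Matrix γ γ ℂ)) -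
      (KL (C + (ε : ℂ) • (1 : Matrix γ γ ℂ)))ᴴ * (C + (ε : ℂ) • (1 : Matrix γ γ ℂ)) *
        KL (C + (ε : ℂ) • (1 : Matrix γ γ ℂ))).PosSemidef := by
  have hQ : (C + (ε : ℂ) • (1 : Matrix γ γ ℂ)).IsHermitian := by
    rw [IsHermitian, conjTranspose_add, hC.isHermitian.eq, conjTranspose_smul, conjTranspose_one]
    simp
  have hU : (hQ.eigenvectorUnitary : Matrix γ γ ℂ)ᴴ * (hQ.eigenvectorUnitary : Matrix γ γ ℂ) = 1 := by
    rw [← star_eq_conjTranspose]
    exact Unitary.coe_star_mul_self hQ.eigenvectorUnitary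
  have hr : ∀ i, 0 ≤ hQ.eigenvalues i := fun i => hε.le.trans (eig_lower hC hQ i)
  have hk : ∀ i, |-Real.log (hQ.eigenvalues i)| ≤ Real.log (1 / ε) := by
    intro i
    have h1 := eig_lower hC hQ i
    have h2 := eig_upper hC htC hQ i
    have h3 : 0 < hQ.eigenvalues i := hε.trans_le h1
    rw [abs_neg, abs_le]
    constructor
    · rw [one_div, Real.log_inv, neg_neg]
      exact Real.log_le_log hε h1
    · refine Real.log_le_log h3 (h2.trans ?_)
      rw [le_div_iff₀ hε]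
      nlinarith
  have hd := diag_bounds hU hr hk
  rw [← KL_eq hQ, ← spec_eq hQ] at hd
  exact hd

end spec

/-! ### `FCov76.BS` level -/

section bs

variable {α β γ δ : Type*} [Fintype α] [Fintype β] [Fintype γ] [Fintype δ]
  [DecidableEq α] [DecidableEq β] [DecidableEq γ] [DecidableEq δ] (S : FCov76.BS α β γ δ)

theorem BS_ErrA_eq (B : Matrix β β ℂ) (Y : Matrix γ γ ℂ) :
    S.ErrA B Y = Err S.ι S.a S.c S.d S.hA S.hB B Y := rfl

theorem BS_EA_eq : S.EA = FEdge633.G S.ι S.a S.c S.d S.hA S.hB := rfl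

/-- the size of the boundary operator in the state -/
theorem BS_Ln_G_le {A : Matrix α α ℂ} {B : Matrix β β ℂ} (hA : A.PosSemidef) (hB : B.PosSemidef)
    (htB : trace B = 1) {s sa : ℝ} (hs : 0 ≤ s) (hsa : 0 ≤ sa)
    (hc : (((s ^ 2 : ℝ) : ℂ) • (1 : Matrix γ γ ℂ) - S.c * S.cᴴ).PosSemidef)
    (hd : (((s ^ 2 : ℝ) : ℂ) • (1 : Matrix δ δ ℂ) - S.d * S.dᴴ).PosSemidef)
    (ha : (((sa ^ 2 : ℝ) : ℂ) • (1 : Matrix α α ℂ) - S.a * S.aᴴ).PosSemidef) :
    Ln (A ⊗ₖ B) (FEdge633.G S.ι S.a S.c S.d S.hA S.hB) ≤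
      ((|S.hA| + |S.hB|) * s + sa) * √(trace (A * S.QA)).re := by
  have h := Ln_G_le S.ι S.a S.QA S.c S.d S.hA S.hB (hA.kronecker hB) S.iso S.QA_herm S.QA_idem
    S.QA_EA hs hsa hc hd ha
  have e : trace ((A ⊗ₖ B) * (S.QA ⊗ₖ (1 : Matrix β β ℂ))) = trace (A * S.QA) := by
    rw [← Matrix.mul_kronecker_mul, Matrix.trace_kronecker, Matrix.mul_one, htB, mul_one]
  rwa [e] at h

/-- **second error term** -/
theorem BS_second {A : Matrix α α ℂ} {B : Matrix β β ℂ} (hA : A.PosSemidef) (hB : B.PosSemidef)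
    (Y : Matrix γ γ ℂ) : ‖trace (A * S.ErrA B Yᴴ)‖ ≤
      Ln (A ⊗ₖ B) (FEdge633.G S.ι S.a S.c S.d S.hA S.hB) * Ln (S.out A B) Y :=
  norm_trace_A_Err_le S.ι S.a S.c S.d S.hA S.hB hA hB (C := S.out A B)
    (fun M => S.trace_Phi_mul (A ⊗ₖ B) M) Y

/-- **third error term** -/
theorem BS_third {A : Matrix α α ℂ} {B : Matrix β β ℂ} (hA : A.PosSemidef) (hB : B.PosSemidef)
    (htA : trace A = 1) (htB : trace B = 1) {K : Matrix γ γ ℂ} {κ N : ℝ} (hκ : 0 ≤ κ) (hN : 0 ≤ N)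
    (hK : (((κ ^ 2 : ℝ) : ℂ) • (1 : Matrix γ γ ℂ) - K * Kᴴ).PosSemidef) :
    ‖trace ((S.ErrA B K)ᴴ * (((N + 1 : ℝ) : ℂ) • (S.a * A) - ((N : ℝ) : ℂ) • (A * S.a)
      - (trace (A * S.a)) • A))‖ ≤
      (N + 1) * (Ln A S.a * (κ * Ln (A ⊗ₖ B) (FEdge633.G S.ι S.a S.c S.d S.hA S.hB))) := by
  have h1 := norm_trace_Err_w_le S.a hA htA S.QA_herm S.QA_a (S.QA_ErrA B K) hN
  have h2 := Ln_Err_le S.ι S.a S.c S.d S.hA S.hB hA hB htB S.iso hκ hK
  refine h1.trans ?_
  refine mul_le_mul_of_nonneg_left (mul_le_mul_of_nonneg_left ?_ (Ln_nonneg _ _)) (by linarith)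
  exact h2

/-- energy of the output mode -/
theorem BS_energy {A : Matrix α α ℂ} {B : Matrix β β ℂ} (hA : A.PosSemidef) (hB : B.PosSemidef)
    (htA : trace A = 1) (htB : trace B = 1) :
    Lf (S.out A B) S.cᴴ ≤ Lf A S.aᴴ + Lf B S.bᴴ := by
  have hρ : (A ⊗ₖ B).PosSemidef := hA.kronecker hB
  set X : Matrix (α × β) (α × β) ℂ := (S.hA : ℂ) • (S.a ⊗ₖ (1 : Matrix β β ℂ))
    + (S.hB : ℂ) • ((1 : Matrix α α ℂ) ⊗ₖ S.b) with hX
  have e1 : S.heis (S.cᴴ * S.c) = Xᴴ * X := by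
    have h1 : (S.cᴴ * S.c) ⊗ₖ (1 : Matrix δ δ ℂ) =
        (S.cᴴ ⊗ₖ (1 : Matrix δ δ ℂ)) * (S.c ⊗ₖ (1 : Matrix δ δ ℂ)) := by
      rw [← Matrix.mul_kronecker_mul, Matrix.mul_one]
    have h2 : S.ιᴴ * (S.cᴴ ⊗ₖ (1 : Matrix δ δ ℂ)) = (S.ι * X)ᴴ := by
      rw [hX, ← S.H1, conjTranspose_mul, conjTranspose_kronecker, conjTranspose_one]
    rw [FCov76.BS.heis, h1, ← Matrix.mul_assoc, h2, Matrix.mul_assoc, S.H1, ← hX,
      conjTranspose_mul, Matrix.mul_assoc, ← Matrix.mul_assoc S.ιᴴ, S.iso, Matrix.one_mul]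
  have e2 : Lf (S.out A B) S.cᴴ = Lf (A ⊗ₖ B) Xᴴ := by
    rw [Lf, Lf, conjTranspose_conjTranspose, conjTranspose_conjTranspose, ← e1]
    exact congrArg Complex.re (S.trace_Phi_mul (A ⊗ₖ B) (S.cᴴ * S.c))
  have e3 : Xᴴ = (S.hA : ℂ) • (S.aᴴ ⊗ₖ (1 : Matrix β β ℂ))
    + (S.hB : ℂ) • ((1 : Matrix α α ℂ) ⊗ₖ S.bᴴ) := by
    rw [hX, conjTranspose_add, conjTranspose_smul, conjTranspose_smul, conjTranspose_kronecker,
      conjTranspose_kronecker, conjTranspose_one, conjTranspose_one]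
    simp
  have e4 : Ln (A ⊗ₖ B) (S.aᴴ ⊗ₖ (1 : Matrix β β ℂ)) = Ln A S.aᴴ := by
    rw [Ln, Ln, Lf, Lf, conjTranspose_kronecker, conjTranspose_one, conjTranspose_conjTranspose,
      ← Matrix.mul_kronecker_mul, ← Matrix.mul_kronecker_mul, Matrix.trace_kronecker,
      Matrix.mul_one, Matrix.mul_one, htB, mul_one]
  have e5 : Ln (A ⊗ₖ B) ((1 : Matrix α α ℂ) ⊗ₖ S.bᴴ) = Ln B S.bᴴ := by
    rw [Ln, Ln, Lf, Lf, conjTranspose_kronecker, conjTranspose_one, conjTranspose_conjTranspose,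
      ← Matrix.mul_kronecker_mul, ← Matrix.mul_kronecker_mul, Matrix.trace_kronecker,
      Matrix.mul_one, Matrix.mul_one, htA, one_mul]
  have e6 : Ln (A ⊗ₖ B) Xᴴ ≤ |S.hA| * Ln A S.aᴴ + |S.hB| * Ln B S.bᴴ := by
    rw [e3, ← e4, ← e5]
    refine (Ln_add hρ _ _).trans (le_of_eq ?_)
    rw [Ln_smul, Ln_smul, Complex.norm_real, Complex.norm_real, Real.norm_eq_abs, Real.norm_eq_abs]
  have e7 := Ln_sq hρ Xᴴ
  have e8 := Ln_sq hA S.aᴴ
  have e9 := Ln_sq hB S.bᴴ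
  rw [e2, ← e7, ← e8, ← e9]
  have h0 := Ln_nonneg (A ⊗ₖ B) Xᴴ
  have h1 := Ln_nonneg A S.aᴴ
  have h2 := Ln_nonneg B S.bᴴ
  have h3 : |S.hA| ^ 2 + |S.hB| ^ 2 = 1 := by rw [sq_abs, sq_abs]; exact S.hAB
  set x := Ln A S.aᴴ
  set y := Ln B S.bᴴ
  set u := |S.hA|
  set v := |S.hB|
  calc Ln (A ⊗ₖ B) Xᴴ ^ 2 ≤ (u * x + v * y) ^ 2 := pow_le_pow_left₀ h0 e6 2
    _ ≤ (u ^ 2 + v ^ 2) * (x ^ 2 + y ^ 2) := by nlinarith [sq_nonneg (u * y - v * x)]
    _ = x ^ 2 + y ^ 2 := by rw [h3, one_mul]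

end bs

/-! ### The literal bound of `FDefs136.gapErr` -/

section literal

variable {η : ℝ} {j : Fin n} {S : FCov76.BS (Bx n K) (Bx n K) (Bx n (2 * K)) (Bx n (2 * K))}

theorem PA_eq (hS : IsBox (η := η) j S) (B : Matrix (Bx n K) (Bx n K) ℂ)
    (Y : Matrix (Bx n (2 * K)) (Bx n (2 * K)) ℂ) : PA η B Y = S.PA B Y := by
  rw [PA, heis, FCov76.BS.PA, FCov76.BS.heis, hS.ι]

theorem PB_eq (hS : IsBox (η := η) j S) (A : Matrix (Bx n K) (Bx n K) ℂ)
    (Y : Matrix (Bx n (2 * K)) (Bx n (2 * K)) ℂ) : PB η A Y = S.PB A Y := by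
  rw [PB, ← hS.ι]
  rfl

theorem outC_eq (hS : IsBox (η := η) j S) (A B : Matrix (Bx n K) (Bx n K) ℂ) :
    outC η A B = S.out A B := by
  rw [outC, FCov76.BS.out, FCov76.BS.Phi, hS.ι]

theorem ErrA_eq (hS : IsBox (η := η) j S) (B : Matrix (Bx n K) (Bx n K) ℂ)
    (Y : Matrix (Bx n (2 * K)) (Bx n (2 * K)) ℂ) : ErrA η j B Y = S.ErrA B Y := by
  have h := S.cov_A B Y
  rw [ErrA, PA_eq hS, PA_eq hS, ← hS.hA, ← hS.c, ← hS.a, h]
  abel

theorem ErrB_eq (hS : IsBox (η := η) j S) (A : Matrix (Bx n K) (Bx n K) ℂ)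
    (Y : Matrix (Bx n (2 * K)) (Bx n (2 * K)) ℂ) : ErrB η j A Y = S.ErrB A Y := by
  have h := S.cov_B A Y
  rw [ErrB, PB_eq hS, PB_eq hS, ← hS.hB, ← hS.c, ← hS.b, h]
  abel

/-- explicit bound of the gap errors -/
def errBd (p : Par) (n K : ℕ) (ε EA EB TA TB : ℝ) : ℝ :=
  ε * ((2 * Real.log (1 / ε) + p.bC) *
      (√((2 * K : ℝ) * (2 * K + 1) ^ n) + √(EA + EB + 1) * √((2 * K + 1) ^ n)) ^ 2)
  + (2 * Real.log (1 / ε) + p.bC) * √(EA + EB + 1 + ε * ((2 * K : ℝ) * (2 * K + 1) ^ n)) *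
      (3 * √K) * (p.NA * √TA + p.NB * √TB)
  + Real.log (1 / ε) * (3 * √K) *
      ((p.NA + 1) * √(EA + 1) * √TA + (p.NB + 1) * √(EB + 1) * √TB)

theorem bC_pos (p : Par) : 0 < p.bC := by
  have h1 : 0 < p.NC := by
    have h2 : 0 < 1 - p.η := sub_pos.2 p.η_lt
    have h3 := p.NA_pos
    have h4 := p.NB_pos
    have h5 := p.η_pos
    rw [Par.NC]
    positivity
  rw [Par.bC, bN]
  refine Real.log_pos ?_
  have : 0 < 1 / p.NC := by positivity
  linarith

theorem assemble {ε t1 t2A t2B t3A t3B B1 B2A B2B B3A B3B x y NA NB : ℝ} (hε : 0 ≤ ε)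
    (hNA : 0 ≤ NA) (hNB : 0 ≤ NB) (hx : 0 ≤ x) (hx1 : x ≤ 1) (hy : 0 ≤ y) (hy1 : y ≤ 1)
    (h1 : t1 ≤ B1) (h2A : -B2A ≤ t2A) (h2B : -B2B ≤ t2B) (h3A : t3A ≤ B3A) (h3B : t3B ≤ B3B)
    (hA : 0 ≤ B2A) (hB : 0 ≤ B2B) :
    ε * t1 - x * NA * t2A - y * NB * t2B + t3A + t3B ≤
      ε * B1 + NA * B2A + NB * B2B + B3A + B3B := by
  have s1 := mul_le_mul_of_nonneg_left h1 hε
  have s2A : -(x * NA * t2A) ≤ NA * B2A := by
    calc -(x * NA * t2A) = (x * NA) * (-t2A) := by ring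
      _ ≤ (x * NA) * B2A := mul_le_mul_of_nonneg_left (by linarith) (mul_nonneg hx hNA)
      _ ≤ (1 * NA) * B2A :=
          mul_le_mul_of_nonneg_right (mul_le_mul_of_nonneg_right hx1 hNA) hA
      _ = NA * B2A := by ring
  have s2B : -(y * NB * t2B) ≤ NB * B2B := by
    calc -(y * NB * t2B) = (y * NB) * (-t2B) := by ring
      _ ≤ (y * NB) * B2B := mul_le_mul_of_nonneg_left (by linarith) (mul_nonneg hy hNB)
      _ ≤ (1 * NB) * B2B :=
          mul_le_mul_of_nonneg_right (mul_le_mul_of_nonneg_right hy1 hNB) hB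
      _ = NB * B2B := by ring
  linarith

set_option maxHeartbeats 1000000 in
/-- **FERR.** Explicit bound of the gap errors for arbitrary densities. -/
theorem gapErr_le (p : Par) {ε : ℝ} (hε : 0 < ε) (hε2 : ε ≤ 1 / 2) (hS : IsBox (η := p.η) j S)
    {A B : Matrix (Bx n K) (Bx n K) ℂ} (dA : IsDensity A) (dB : IsDensity B) :
    gapErr p ε j A B ≤ errBd p n K ε (En A) (En B) (Tp j A) (Tp j B) := by
  obtain ⟨hA, htA⟩ := dA
  obtain ⟨hB, htB⟩ := dB
  have hC : (S.out A B).PosSemidef := S.out_posSemidef hA hB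
  have htC : trace (S.out A B) = 1 := by rw [S.trace_out, htA, htB, one_mul]
  obtain ⟨hK1, hK2⟩ := KQ_bounds hC htC hε hε2
  have hQe : outQ p.η ε A B = S.out A B + (ε : ℂ) • (1 : Matrix _ _ ℂ) := by
    rw [outQ, outC_eq hS]
  set Q := S.out A B + (ε : ℂ) • (1 : Matrix (Bx n (2 * K)) (Bx n (2 * K)) ℂ) with hQ
  have hQH : Q.IsHermitian := by
    rw [hQ, IsHermitian, conjTranspose_add, hC.isHermitian.eq, conjTranspose_smul,
      conjTranspose_one]
    simp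
  have hQC : (Q - S.out A B).PosSemidef := by
    rw [hQ, add_sub_cancel_left]
    exact Matrix.PosSemidef.one.smul (by rw [Complex.zero_le_real]; exact hε.le)
  have hQp : Q.PosSemidef := by
    have := hQC.add hC
    rwa [sub_add_cancel] at this
  have hKH : (KL Q)ᴴ = KL Q := KL_herm hQH
  set κ := Real.log (1 / ε) with hκd
  have hκ : 0 ≤ κ := Real.log_nonneg (by rw [le_div_iff₀ hε]; linarith)
  have hb : 0 < p.bC := bC_pos p
  set b := p.bC with hbd
  -- names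
  have hSc : S.c = ann n (2 * K) j := hS.c
  have hSa : S.a = ann n K j := hS.a
  have hSb : S.b = ann n K j := hS.b
  have hSd : S.d = ann n (2 * K) j := hS.d
  have hcast : ((2 * K : ℕ) : ℝ) = 2 * (K : ℝ) := by push_cast; ring
  -- bounds of the ladder matrices
  have bc : (((√(2 * K : ℝ) ^ 2 : ℝ) : ℂ) • (1 : Matrix (Bx n (2 * K)) (Bx n (2 * K)) ℂ)
      - S.c * S.cᴴ).PosSemidef := by
    have := ann_bound (n := n) (K := 2 * K) j
    rwa [hcast, ← hSc] at this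
  have bd : (((√(2 * K : ℝ) ^ 2 : ℝ) : ℂ) • (1 : Matrix (Bx n (2 * K)) (Bx n (2 * K)) ℂ)
      - S.d * S.dᴴ).PosSemidef := by
    have := ann_bound (n := n) (K := 2 * K) j
    rwa [hcast, ← hSd] at this
  have ba : (((√(K : ℝ) ^ 2 : ℝ) : ℂ) • (1 : Matrix (Bx n K) (Bx n K) ℂ)
      - S.a * S.aᴴ).PosSemidef := by
    rw [hSa]; exact ann_bound j
  have bb : (((√(K : ℝ) ^ 2 : ℝ) : ℂ) • (1 : Matrix (Bx n K) (Bx n K) ℂ)
      - S.b * S.bᴴ).PosSemidef := by
    rw [hSb]; exact ann_bound j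
  have hη0 : 0 < 1 - p.η := sub_pos.2 p.η_lt
  have hhA : 0 ≤ S.hA := by rw [hS.hA]; exact Real.sqrt_nonneg _
  have hhB : 0 ≤ S.hB := by rw [hS.hB]; exact Real.sqrt_nonneg _
  have hAB : S.hA ^ 2 + S.hB ^ 2 = 1 := S.hAB
  have hhA1 : S.hA ≤ 1 := by nlinarith
  have hhB1 : S.hB ≤ 1 := by nlinarith
  -- g ≤ 3 √K
  have hsum : S.hA + S.hB ≤ √2 := by
    refine Real.le_sqrt_of_sq_le ?_
    nlinarith [sq_nonneg (S.hA - S.hB)]
  have hg : (|S.hA| + |S.hB|) * √(2 * K : ℝ) + √(K : ℝ) ≤ 3 * √(K : ℝ) := by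
    rw [abs_of_nonneg hhA, abs_of_nonneg hhB, Real.sqrt_mul (by norm_num) (K : ℝ)]
    have h2 : √2 * √2 = (2 : ℝ) := Real.mul_self_sqrt (by norm_num)
    have h3 : 0 ≤ √2 * √(K : ℝ) := by positivity
    calc (S.hA + S.hB) * (√2 * √(K : ℝ)) + √(K : ℝ) ≤ √2 * (√2 * √(K : ℝ)) + √(K : ℝ) := by
          gcongr
      _ = (√2 * √2) * √(K : ℝ) + √(K : ℝ) := by ring
      _ = 3 * √(K : ℝ) := by rw [h2]; ring
  -- size of G on both sides
  set LA := Ln (A ⊗ₖ B) (FEdge633.G S.ι S.a S.c S.d S.hA S.hB) with hLA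
  set LB := Ln (B ⊗ₖ A) (FEdge633.G S.swap.ι S.swap.a S.swap.c S.swap.d S.swap.hA S.swap.hB) with hLB
  have hLA0 : 0 ≤ LA := Ln_nonneg _ _
  have hLB0 : 0 ≤ LB := Ln_nonneg _ _
  have gA : LA ≤ 3 * √(K : ℝ) * √(Tp j A) := by
    refine (BS_Ln_G_le S hA hB htB (Real.sqrt_nonneg _) (Real.sqrt_nonneg _) bc bd ba).trans ?_
    rw [hS.QA]
    exact mul_le_mul_of_nonneg_right hg (Real.sqrt_nonneg _)
  have gB : LB ≤ 3 * √(K : ℝ) * √(Tp j B) := by
    have bd' : (((√(2 * K : ℝ) ^ 2 : ℝ) : ℂ) • (1 : Matrix (Bx n (2 * K)) (Bx n (2 * K)) ℂ)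
      - S.swap.d * S.swap.dᴴ).PosSemidef := by
      have e : S.swap.d * S.swap.dᴴ = S.d * S.dᴴ := by
        show (-S.d) * (-S.d)ᴴ = _
        rw [conjTranspose_neg, neg_mul_neg]
      rw [e]; exact bd
    refine (BS_Ln_G_le S.swap hB hA htA (Real.sqrt_nonneg _) (Real.sqrt_nonneg _) bc bd' bb).trans ?_
    have e : S.swap.QA = top n K j := hS.QB
    rw [e]
    have e2 : |S.swap.hA| + |S.swap.hB| = |S.hA| + |S.hB| := add_comm _ _
    rw [e2]
    exact mul_le_mul_of_nonneg_right hg (Real.sqrt_nonneg _)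
  -- energies
  have hEA := En_nonneg hA
  have hEB := En_nonneg hB
  have eCH : Lf (S.out A B) S.cᴴ ≤ En A + En B := by
    have h1 := BS_energy S hA hB htA htB
    have h2 := Lf_annH_le hA j
    have h3 := Lf_annH_le hB j
    rw [hSa, hSb] at h1
    linarith
  have eC : Lf (S.out A B) S.c ≤ En A + En B + 1 := by
    have h1 := Lf_ann_le' hC htC j
    rw [← hSc] at h1
    linarith
  set F2 : ℝ := (2 * K : ℝ) * (2 * K + 1) ^ n with hF2
  have hF20 : 0 ≤ F2 := by positivity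
  have eF : Lf (1 : Matrix (Bx n (2 * K)) (Bx n (2 * K)) ℂ) S.c ≤ F2 := by
    have h1 := Lf_one_ann_le (n := n) (K := 2 * K) j
    rw [hcast, ← hSc] at h1
    exact h1
  have eQ : Lf Q S.c ≤ En A + En B + 1 + ε * F2 := by
    have h1 : Lf Q S.c = Lf (S.out A B) S.c + ε * Lf (1 : Matrix _ _ ℂ) S.c := by
      rw [hQ, Lf, Lf, Lf, Matrix.add_mul, trace_add, Complex.add_re, Matrix.smul_mul, trace_smul,
        smul_eq_mul, Complex.re_ofReal_mul]
    rw [h1]
    have := mul_le_mul_of_nonneg_left eF hε.le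
    linarith
  have lQ : Ln Q S.c ≤ √(En A + En B + 1 + ε * F2) := Real.sqrt_le_sqrt eQ
  have lF : Ln (1 : Matrix (Bx n (2 * K)) (Bx n (2 * K)) ℂ) S.c ≤ √F2 := Real.sqrt_le_sqrt eF
  -- G_Q
  have lG : Ln (S.out A B) (KL Q * S.c - S.c * KL Q + (b : ℂ) • S.c) ≤
      (2 * κ + b) * √(En A + En B + 1 + ε * F2) := by
    refine (Ln_mono hQC _).trans ((Ln_GQ_le hQp hκ hb.le hK1 hK2 S.c).trans ?_)
    exact mul_le_mul_of_nonneg_left lQ (by positivity)
  -- mean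
  have hm : ‖mC p.η j A B‖ ≤ √(En A + En B + 1) := by
    have h1 := Ln_cs hC S.c 1
    rw [Ln_one htC, mul_one, conjTranspose_one, Matrix.mul_one] at h1
    rw [mC, outC_eq hS, ← hSc]
    exact h1.trans (Real.sqrt_le_sqrt eC)
  have hcard : (Fintype.card (Bx n (2 * K)) : ℝ) = (2 * K + 1) ^ n := by
    have : Fintype.card (Bx n (2 * K)) = (2 * K + 1) ^ n := by simp [Bx]
    rw [this]; push_cast; ring
  -- first term
  have t1 : ‖trace ((GQc p ε j A B)ᴴ * (ann n (2 * K) j - mC p.η j A B • (1 : Matrix _ _ ℂ)))‖ ≤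
      (2 * κ + b) * (√F2 + √(En A + En B + 1) * √((2 * K + 1) ^ n)) ^ 2 := by
    have h1 := norm_first_le hκ hb.le hKH hK1 (ann n (2 * K) j) (mC p.η j A B)
    rw [GQc, GQ, GG, hQe]
    refine h1.trans (mul_le_mul_of_nonneg_left ?_ (by positivity))
    refine pow_le_pow_left₀ (add_nonneg (Ln_nonneg _ _)
      (mul_nonneg (norm_nonneg _) (Real.sqrt_nonneg _))) ?_ 2
    rw [hcard]
    refine add_le_add ?_ (mul_le_mul_of_nonneg_right hm (Real.sqrt_nonneg _))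
    rw [← hSc]; exact lF
  -- second terms
  have t2A : ‖trace (A * ErrA p.η j B (GQ p ε j A B)ᴴ)‖ ≤
      3 * √(K : ℝ) * √(Tp j A) * ((2 * κ + b) * √(En A + En B + 1 + ε * F2)) := by
    rw [ErrA_eq hS, GQ, GG, hQe, ← hSc]
    refine (BS_second S hA hB _).trans ?_
    exact mul_le_mul gA lG (Ln_nonneg _ _) (by positivity)
  have t2B : ‖trace (B * ErrB p.η j A (GQ p ε j A B)ᴴ)‖ ≤
      3 * √(K : ℝ) * √(Tp j B) * ((2 * κ + b) * √(En A + En B + 1 + ε * F2)) := by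
    rw [ErrB_eq hS, GQ, GG, hQe, ← hSc]
    refine (BS_second S.swap hB hA _).trans ?_
    rw [FCov76.BS.swap_out]
    exact mul_le_mul gB lG (Ln_nonneg _ _) (by positivity)
  -- third terms
  have t3A : ‖trace ((ErrA p.η j B (KL (outQ p.η ε A B)))ᴴ * om p.NA (mX j A) A (ann n K j))‖ ≤
      (p.NA + 1) * (√(En A + 1) * (κ * (3 * √(K : ℝ) * √(Tp j A)))) := by
    have h1 := BS_third S hA hB htA htB hκ p.NA_pos.le hK1
    have e1 : om p.NA (mX j A) A (ann n K j) = ((p.NA + 1 : ℝ) : ℂ) • (S.a * A)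
        - ((p.NA : ℝ) : ℂ) • (A * S.a) - (trace (A * S.a)) • A := by
      rw [om, mX, hSa]
      simp only [Matrix.sub_mul, Matrix.mul_sub, Matrix.smul_mul, Matrix.mul_smul, Matrix.one_mul,
        Matrix.mul_one, smul_sub, smul_smul]
      push_cast
      module
    rw [ErrA_eq hS, hQe, e1]
    refine h1.trans ?_
    have h2 : Ln A S.a ≤ √(En A + 1) := by
      rw [hSa]; exact Real.sqrt_le_sqrt (Lf_ann_le hA htA j)
    have h3 : κ * LA ≤ κ * (3 * √(K : ℝ) * √(Tp j A)) := mul_le_mul_of_nonneg_left gA hκ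
    have hN := p.NA_pos
    refine mul_le_mul_of_nonneg_left (mul_le_mul h2 h3 (by positivity) (Real.sqrt_nonneg _))
      (by linarith)
  have t3B : ‖trace ((ErrB p.η j A (KL (outQ p.η ε A B)))ᴴ * om p.NB (mX j B) B (ann n K j))‖ ≤
      (p.NB + 1) * (√(En B + 1) * (κ * (3 * √(K : ℝ) * √(Tp j B)))) := by
    have h1 := BS_third S.swap hB hA htB htA hκ p.NB_pos.le hK1
    have e1 : om p.NB (mX j B) B (ann n K j) = ((p.NB + 1 : ℝ) : ℂ) • (S.swap.a * B)
        - ((p.NB : ℝ) : ℂ) • (B * S.swap.a) - (trace (B * S.swap.a)) • B := by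
      have e2 : S.swap.a = ann n K j := hSb
      rw [om, mX, e2]
      simp only [Matrix.sub_mul, Matrix.mul_sub, Matrix.smul_mul, Matrix.mul_smul, Matrix.one_mul,
        Matrix.mul_one, smul_sub, smul_smul]
      push_cast
      module
    rw [ErrB_eq hS, hQe, e1]
    refine h1.trans ?_
    have h2 : Ln B S.swap.a ≤ √(En B + 1) := by
      have e2 : S.swap.a = ann n K j := hSb
      rw [e2]; exact Real.sqrt_le_sqrt (Lf_ann_le hB htB j)
    have h3 : κ * LB ≤ κ * (3 * √(K : ℝ) * √(Tp j B)) := mul_le_mul_of_nonneg_left gB hκ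
    have hN := p.NB_pos
    refine mul_le_mul_of_nonneg_left (mul_le_mul h2 h3 (by positivity) (Real.sqrt_nonneg _))
      (by linarith)
  -- assemble
  have hpA : p.hA = S.hA := by rw [Par.hA, hS.hA]
  have hpB : p.hB = S.hB := by rw [Par.hB, hS.hB]
  rw [gapErr, errBd, ← hκd, ← hbd, ← hF2, hpA, hpB]
  refine (assemble hε.le p.NA_pos.le p.NB_pos.le hhA hhA1 hhB hhB1
    ((Complex.re_le_norm _).trans t1)
    (neg_le_of_abs_le ((Complex.abs_re_le_norm _).trans t2A))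
    (neg_le_of_abs_le ((Complex.abs_re_le_norm _).trans t2B))
    ((Complex.re_le_norm _).trans t3A) ((Complex.re_le_norm _).trans t3B)
    (norm_nonneg _ |>.trans t2A) (norm_nonneg _ |>.trans t2B)).trans (le_of_eq ?_)
  ring

end literal

end

end Crest.Agent.R331.FErr8
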