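import Crest.Agent.R331.FErrB_8

/-!
Row 331 (EPnI), finite-matrix track: leaf FERR (helper8), asymptotics of the explicit bound.
-/

set_option autoImplicit false
set_option linter.unusedSectionVars false

namespace Crest.Agent.R331.FErr8

open FDefs136 Filter
open scoped Topology

noncomputable section

/-- the admixture parameter `ε_K = (K+1)^{-(n+4)}` -/
def epsK (n K : ℕ) : ℝ := (((K : ℝ) + 1) ^ (n + 4))⁻¹

theorem epsK_pos (n K : ℕ) : 0 < epsK n K := by unfold epsK; positivity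

theorem epsK_le_half (n K : ℕ) (hK : 1 ≤ K) : epsK n K ≤ 1 / 2 := by
  unfold epsK
  rw [one_div]
  apply inv_anti₀ (by norm_num)
  have h1 : (2 : ℝ) ≤ (K : ℝ) + 1 := by
    have : (1 : ℝ) ≤ K := by exact_mod_cast hK
    linarith
  calc (2 : ℝ) ≤ (K : ℝ) + 1 := h1
    _ = ((K : ℝ) + 1) ^ 1 := (pow_one _).symm
    _ ≤ ((K : ℝ) + 1) ^ (n + 4) := pow_le_pow_right₀ (by linarith) (by omega)

theorem log_inv_epsK (n K : ℕ) : Real.log (1 / epsK n K) = (n + 4) * Real.log ((K : ℝ) + 1) := by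
  unfold epsK
  rw [one_div, inv_inv, Real.log_pow]
  push_cast
  ring

set_option maxHeartbeats 1000000 in
/-- the explicit bound is `O((K+1)^{-1/4})` -/
theorem errBd_le (p : Par) (n : ℕ) {E0 M : ℝ} (hE0 : 0 ≤ E0) (hM : 0 ≤ M) :
    ∃ Cst : ℝ, 0 ≤ Cst ∧ ∀ (K : ℕ) (EA EB TA TB : ℝ), 0 ≤ EA → EA ≤ E0 → 0 ≤ EB → EB ≤ E0 →
      √TA ≤ M * (1 + Real.log ((K : ℝ) + 1)) / ((K : ℝ) + 1) →
      √TB ≤ M * (1 + Real.log ((K : ℝ) + 1)) / ((K : ℝ) + 1) →
      errBd p n K (epsK n K) EA EB TA TB ≤ Cst / ((K : ℝ) + 1) ^ ((1 : ℝ) / 4) := by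
  have hb : 0 < p.bC := bC_pos p
  have hNA := p.NA_pos
  have hNB := p.NB_pos
  set b := p.bC with hbd
  set n4 : ℝ := (n : ℝ) + 4 with hn4
  have hn40 : 0 < n4 := by positivity
  set c0 : ℝ := 2 * n4 + b with hc0
  have hc00 : 0 < c0 := by positivity
  set c1 : ℝ := 2 ^ (n + 2) + (2 * E0 + 1) * 2 ^ (n + 1) with hc1
  have hc10 : 0 < c1 := by positivity
  set c2 : ℝ := √(2 * E0 + 1 + 2 ^ (n + 1)) with hc2
  have hc20 : 0 ≤ c2 := Real.sqrt_nonneg _
  set c3 : ℝ := √(E0 + 1) with hc3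
  have hc30 : 0 ≤ c3 := Real.sqrt_nonneg _
  refine ⟨9 * c0 * c1 + 9 * c0 * c2 * 3 * ((p.NA + p.NB) * (9 * M))
    + 9 * n4 * 3 * (((p.NA + 1) + (p.NB + 1)) * c3 * (9 * M)), by positivity, ?_⟩
  intro K EA EB TA TB hEA hEA' hEB hEB' hTA hTB
  set x : ℝ := (K : ℝ) + 1 with hx
  have hx1 : 1 ≤ x := by rw [hx]; linarith [(Nat.cast_nonneg K : (0 : ℝ) ≤ K)]
  have hx0 : 0 < x := by linarith
  have hK : (K : ℝ) ≤ x := by rw [hx]; linarith
  have hK0 : (0 : ℝ) ≤ K := Nat.cast_nonneg K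
  set y : ℝ := x ^ ((1 : ℝ) / 8) with hy
  have hy0 : 0 < y := Real.rpow_pos_of_pos hx0 _
  have hy1 : 1 ≤ y := Real.one_le_rpow hx1 (by norm_num)
  have hy8 : y ^ 8 = x := by
    rw [hy, ← Real.rpow_natCast, ← Real.rpow_mul hx0.le]; norm_num
  have hy4 : √x = y ^ 4 := by
    rw [← hy8, show y ^ 8 = (y ^ 4) ^ 2 by ring, Real.sqrt_sq (by positivity)]
  have hy2 : x ^ ((1 : ℝ) / 4) = y ^ 2 := by
    rw [hy, ← Real.rpow_natCast, ← Real.rpow_mul hx0.le]; norm_num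
  have hlog0 : 0 ≤ Real.log x := Real.log_nonneg hx1
  have hL : 1 + Real.log x ≤ 9 * y := by
    have h1 := Real.log_le_rpow_div hx0.le (show (0 : ℝ) < 1 / 8 by norm_num)
    rw [← hy] at h1
    have h2 : y / (1 / 8) = 8 * y := by ring
    rw [h2] at h1
    linarith
  have hε := epsK_pos n K
  have hεeq : epsK n K * x ^ (n + 4) = 1 := by
    rw [epsK, ← hx]; exact inv_mul_cancel₀ (by positivity)
  set ε := epsK n K with hεd
  have hκ : Real.log (1 / ε) = n4 * Real.log x := log_inv_epsK n K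
  have hκ1 : Real.log (1 / ε) ≤ n4 * (9 * y) := by
    rw [hκ]; exact mul_le_mul_of_nonneg_left (by linarith) hn40.le
  have hκ0 : 0 ≤ Real.log (1 / ε) := by rw [hκ]; positivity
  have h2κ : 2 * Real.log (1 / ε) + b ≤ c0 * (9 * y) := by
    have : b ≤ b * (9 * y) := by nlinarith
    rw [hc0]; nlinarith
  have h2κ0 : 0 ≤ 2 * Real.log (1 / ε) + b := by positivity
  set D : ℝ := (2 * (K : ℝ) + 1) ^ n with hD
  have hD0 : 0 ≤ D := by positivity
  have hDx : D ≤ 2 ^ n * x ^ n := by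
    rw [hD, ← mul_pow]
    exact pow_le_pow_left₀ (by positivity) (by rw [hx]; linarith) n
  have hF : 2 * (K : ℝ) * D ≤ 2 ^ (n + 1) * x ^ (n + 1) := by
    calc 2 * (K : ℝ) * D ≤ 2 * x * (2 ^ n * x ^ n) := by gcongr
      _ = _ := by ring
  have hF0 : 0 ≤ 2 * (K : ℝ) * D := by positivity
  have hεF : ε * (2 * (K : ℝ) * D) ≤ 2 ^ (n + 1) := by
    calc ε * (2 * (K : ℝ) * D) ≤ ε * (2 ^ (n + 1) * x ^ (n + 1)) := by gcongr
      _ ≤ ε * (2 ^ (n + 1) * x ^ (n + 4)) := by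
          have := pow_le_pow_right₀ hx1 (show n + 1 ≤ n + 4 by omega)
          gcongr
      _ = 2 ^ (n + 1) * (ε * x ^ (n + 4)) := by ring
      _ = 2 ^ (n + 1) := by rw [hεeq, mul_one]
  -- the small quantity
  have hτ : ∀ T : ℝ, √T ≤ M * (1 + Real.log x) / x → √T ≤ 9 * M * y / x := by
    intro T hT
    refine hT.trans ?_
    rw [div_le_div_iff_of_pos_right hx0]
    calc M * (1 + Real.log x) ≤ M * (9 * y) := mul_le_mul_of_nonneg_left hL hM
      _ = 9 * M * y := by ring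
  have hTA' := hτ TA hTA
  have hTB' := hτ TB hTB
  have hKs : √(K : ℝ) ≤ y ^ 4 := by rw [← hy4]; exact Real.sqrt_le_sqrt hK
  -- term 1
  have T1 : ε * ((2 * Real.log (1 / ε) + b) * (√(2 * (K : ℝ) * D) + √(EA + EB + 1) * √D) ^ 2) ≤
      9 * c0 * c1 / y ^ 2 := by
    have h1 : (√(2 * (K : ℝ) * D) + √(EA + EB + 1) * √D) ^ 2 ≤ c1 * x ^ (n + 1) := by
      have e1 : √(2 * (K : ℝ) * D) ^ 2 = 2 * (K : ℝ) * D := Real.sq_sqrt hF0
      have e2 : (√(EA + EB + 1) * √D) ^ 2 = (EA + EB + 1) * D := by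
        rw [mul_pow, Real.sq_sqrt (by positivity), Real.sq_sqrt hD0]
      have e3 : (√(2 * (K : ℝ) * D) + √(EA + EB + 1) * √D) ^ 2 ≤
          2 * (2 * (K : ℝ) * D) + 2 * ((EA + EB + 1) * D) := by
        have e0 := sq_nonneg (√(2 * (K : ℝ) * D) - √(EA + EB + 1) * √D)
        have e5 : (√(2 * (K : ℝ) * D) + √(EA + EB + 1) * √D) ^ 2 =
            2 * √(2 * (K : ℝ) * D) ^ 2 + 2 * (√(EA + EB + 1) * √D) ^ 2
              - (√(2 * (K : ℝ) * D) - √(EA + EB + 1) * √D) ^ 2 := by ring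
        rw [e5, e1, e2]
        linarith
      have e4 : (EA + EB + 1) * D ≤ (2 * E0 + 1) * (2 ^ n * x ^ (n + 1)) := by
        have : D ≤ 2 ^ n * x ^ (n + 1) := hDx.trans (by
          have := pow_le_pow_right₀ hx1 (show n ≤ n + 1 by omega)
          gcongr)
        exact mul_le_mul (by linarith) this hD0 (by positivity)
      calc _ ≤ 2 * (2 * (K : ℝ) * D) + 2 * ((EA + EB + 1) * D) := e3
        _ ≤ 2 * (2 ^ (n + 1) * x ^ (n + 1)) + 2 * ((2 * E0 + 1) * (2 ^ n * x ^ (n + 1))) := by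
            linarith
        _ = c1 * x ^ (n + 1) := by rw [hc1]; ring
    have h2 : ε * ((2 * Real.log (1 / ε) + b) * (√(2 * (K : ℝ) * D) + √(EA + EB + 1) * √D) ^ 2) ≤
        ε * ((c0 * (9 * y)) * (c1 * x ^ (n + 1))) := by
      refine mul_le_mul_of_nonneg_left ?_ hε.le
      exact mul_le_mul h2κ h1 (sq_nonneg _) (by positivity)
    refine h2.trans ?_
    have h3 : ε * ((c0 * (9 * y)) * (c1 * x ^ (n + 1))) * x ^ 3 = 9 * c0 * c1 * y := by
      calc _ = 9 * c0 * c1 * y * (ε * x ^ (n + 4)) := by ring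
        _ = _ := by rw [hεeq, mul_one]
    have h4 : ε * ((c0 * (9 * y)) * (c1 * x ^ (n + 1))) = 9 * c0 * c1 * y / x ^ 3 := by
      rw [eq_div_iff (by positivity)]; exact h3
    rw [h4, div_le_div_iff₀ (by positivity) (by positivity)]
    have h5 : y ^ 3 ≤ x ^ 3 := pow_le_pow_left₀ hy0.le (by
      calc y = y ^ 1 := (pow_one y).symm
        _ ≤ y ^ 8 := pow_le_pow_right₀ hy1 (by norm_num)
        _ = x := hy8) 3
    calc 9 * c0 * c1 * y * y ^ 2 = 9 * c0 * c1 * y ^ 3 := by ring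
      _ ≤ 9 * c0 * c1 * x ^ 3 := by gcongr
  have hyx : y ^ 6 / x = 1 / y ^ 2 := by
    rw [← hy8]; field_simp
  -- term 2
  have T2 : (2 * Real.log (1 / ε) + b) * √(EA + EB + 1 + ε * (2 * (K : ℝ) * D)) * (3 * √(K : ℝ)) *
      (p.NA * √TA + p.NB * √TB) ≤ 9 * c0 * c2 * 3 * ((p.NA + p.NB) * (9 * M)) / y ^ 2 := by
    have h1 : √(EA + EB + 1 + ε * (2 * (K : ℝ) * D)) ≤ c2 := by
      rw [hc2]; exact Real.sqrt_le_sqrt (by linarith)
    have h2 : p.NA * √TA + p.NB * √TB ≤ (p.NA + p.NB) * (9 * M * y / x) := by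
      have e1 := mul_le_mul_of_nonneg_left hTA' hNA.le
      have e2 := mul_le_mul_of_nonneg_left hTB' hNB.le
      linarith
    have h3 : 0 ≤ p.NA * √TA + p.NB * √TB := by positivity
    calc _ ≤ (c0 * (9 * y)) * c2 * (3 * y ^ 4) * ((p.NA + p.NB) * (9 * M * y / x)) := by
          refine mul_le_mul ?_ h2 h3 (by positivity)
          refine mul_le_mul ?_ (by linarith) (by positivity) (by positivity)
          exact mul_le_mul h2κ h1 (Real.sqrt_nonneg _) (by positivity)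
      _ = 9 * c0 * c2 * 3 * ((p.NA + p.NB) * (9 * M)) * (y ^ 6 / x) := by ring
      _ = _ := by rw [hyx]; ring
  -- term 3
  have T3 : Real.log (1 / ε) * (3 * √(K : ℝ)) *
      ((p.NA + 1) * √(EA + 1) * √TA + (p.NB + 1) * √(EB + 1) * √TB) ≤
      9 * n4 * 3 * (((p.NA + 1) + (p.NB + 1)) * c3 * (9 * M)) / y ^ 2 := by
    have h1 : √(EA + 1) ≤ c3 := by rw [hc3]; exact Real.sqrt_le_sqrt (by linarith)
    have h1' : √(EB + 1) ≤ c3 := by rw [hc3]; exact Real.sqrt_le_sqrt (by linarith)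
    have h2 : (p.NA + 1) * √(EA + 1) * √TA + (p.NB + 1) * √(EB + 1) * √TB ≤
        ((p.NA + 1) + (p.NB + 1)) * c3 * (9 * M * y / x) := by
      have e1 : (p.NA + 1) * √(EA + 1) * √TA ≤ (p.NA + 1) * c3 * (9 * M * y / x) :=
        mul_le_mul (mul_le_mul_of_nonneg_left h1 (by positivity)) hTA' (Real.sqrt_nonneg _)
          (by positivity)
      have e2 : (p.NB + 1) * √(EB + 1) * √TB ≤ (p.NB + 1) * c3 * (9 * M * y / x) :=
        mul_le_mul (mul_le_mul_of_nonneg_left h1' (by positivity)) hTB' (Real.sqrt_nonneg _)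
          (by positivity)
      linarith
    have h3 : 0 ≤ (p.NA + 1) * √(EA + 1) * √TA + (p.NB + 1) * √(EB + 1) * √TB := by positivity
    calc _ ≤ (n4 * (9 * y)) * (3 * y ^ 4) * (((p.NA + 1) + (p.NB + 1)) * c3 * (9 * M * y / x)) := by
          refine mul_le_mul ?_ h2 h3 (by positivity)
          exact mul_le_mul hκ1 (by linarith) (by positivity) (by positivity)
      _ = 9 * n4 * 3 * (((p.NA + 1) + (p.NB + 1)) * c3 * (9 * M)) * (y ^ 6 / x) := by ring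
      _ = _ := by rw [hyx]; ring
  rw [errBd, hy2, ← hbd, ← hD]
  calc _ ≤ 9 * c0 * c1 / y ^ 2 + 9 * c0 * c2 * 3 * ((p.NA + p.NB) * (9 * M)) / y ^ 2
        + 9 * n4 * 3 * (((p.NA + 1) + (p.NB + 1)) * c3 * (9 * M)) / y ^ 2 := by
          linarith
    _ = _ := by ring

/-- the bound tends to zero -/
theorem tendsto_bd (Cst : ℝ) :
    Tendsto (fun K : ℕ => Cst / ((K : ℝ) + 1) ^ ((1 : ℝ) / 4)) atTop (𝓝 0) := by
  have h1 : Tendsto (fun K : ℕ => ((K : ℝ) + 1) ^ ((1 : ℝ) / 4)) atTop atTop :=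
    (tendsto_rpow_atTop (by norm_num)).comp
      (tendsto_atTop_add_const_right _ _ tendsto_natCast_atTop_atTop)
  exact Tendsto.div_atTop tendsto_const_nhds h1

end

end Crest.Agent.R331.FErr8
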