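import Crest.Agent.R331.FErrB_8
import Crest.Agent.R331.FDefs2_136
import Crest.Agent.R331.FinWBox_87

/-!
Row 331 (EPnI), finite-matrix track: leaf FERR (helper8), `FDefs136.FERR` by name.
-/

set_option autoImplicit false
set_option linter.unusedSectionVars false
set_option linter.unusedSimpArgs false

namespace Crest.Agent.R331.FErr8

open Matrix FDefs136 Crest.Quantum
open scoped ComplexOrder Kronecker

noncomputable section

variable {n K : ℕ} {η : ℝ} {j : Fin n}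
  {S : FCov76.BS (Bx n K) (Bx n K) (Bx n (2 * K)) (Bx n (2 * K))}

/-- explicit bound of the gap errors, second form -/
def errBd2 (p : Par) (n K : ℕ) (ε EA EB TA TB : ℝ) : ℝ :=
  ε * ((2 * Real.log (1 / ε) + p.bC) *
      (√((2 * K : ℝ) * (2 * K + 1) ^ n) + √(2 * K : ℝ) * √((2 * K + 1) ^ n)) ^ 2)
  + (2 * Real.log (1 / ε) + p.bC) * √(EA + EB + 1 + ε * ((2 * K : ℝ) * (2 * K + 1) ^ n)) *
      (3 * √K) * (p.NA * √TA + p.NB * √TB)
  + Real.log (1 / ε) * (3 * √K) *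
      ((p.NA + 1) * √(EA + 1) * √TA + (p.NB + 1) * √(EB + 1) * √TB)

set_option maxHeartbeats 1000000 in
/-- **FERR.** Explicit bound of the gap errors for arbitrary densities. -/
theorem gapErr_le2 (p : Par) {ε : ℝ} (hε : 0 < ε) (hε2 : ε ≤ 1 / 2) (hS : IsBox (η := p.η) j S)
    {A B : Matrix (Bx n K) (Bx n K) ℂ} (dA : IsDensity A) (dB : IsDensity B) :
    gapErr p ε j A B ≤ errBd2 p n K ε (En A) (En B) (Tp j A) (Tp j B) := by
  obtain ⟨hA, htA⟩ := dA
  obtain ⟨hB, htB⟩ := dB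
  have hC : (S.out A B).PosSemidef := S.out_posSemidef hA hB
  have htC : trace (S.out A B) = 1 := by rw [S.trace_out, htA, htB, one_mul]
  obtain ⟨hK1, hK2⟩ := KQ_bounds hC htC hε hε2
  have hQe : outQ p.η ε A B = S.out A B + (ε : ℂ) • (1 : Matrix _ _ ℂ) := by
    rw [outQ, outC_eq hS]
  set Q := S.out A B + (ε : ℂ) • (1 : Matrix (Bx n (2 * K)) (Bx n (2 * K)) ℂ) with hQ
  have hQH : Q.IsHermitian := by
    rw [hQ, IsHermitian, conjTranspose_add, hC.isHermitian.eq, conjTranspose_smul,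
      conjTranspose_one]
    simp
  have hQC : (Q - S.out A B).PosSemidef := by
    rw [hQ, add_sub_cancel_left]
    exact Matrix.PosSemidef.one.smul (by rw [Complex.zero_le_real]; exact hε.le)
  have hQp : Q.PosSemidef := by
    have := hQC.add hC
    rwa [sub_add_cancel] at this
  have hKH : (KL Q)ᴴ = KL Q := KL_herm hQH
  set κ := Real.log (1 / ε) with hκd
  have hκ : 0 ≤ κ := Real.log_nonneg (by rw [le_div_iff₀ hε]; linarith)
  have hb : 0 < p.bC := bC_pos p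
  set b := p.bC with hbd
  -- names
  have hSc : S.c = ann n (2 * K) j := hS.c
  have hSa : S.a = ann n K j := hS.a
  have hSb : S.b = ann n K j := hS.b
  have hSd : S.d = ann n (2 * K) j := hS.d
  have hcast : ((2 * K : ℕ) : ℝ) = 2 * (K : ℝ) := by push_cast; ring
  -- bounds of the ladder matrices
  have bc : (((√(2 * K : ℝ) ^ 2 : ℝ) : ℂ) • (1 : Matrix (Bx n (2 * K)) (Bx n (2 * K)) ℂ)
      - S.c * S.cᴴ).PosSemidef := by
    have := ann_bound (n := n) (K := 2 * K) j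
    rwa [hcast, ← hSc] at this
  have bd : (((√(2 * K : ℝ) ^ 2 : ℝ) : ℂ) • (1 : Matrix (Bx n (2 * K)) (Bx n (2 * K)) ℂ)
      - S.d * S.dᴴ).PosSemidef := by
    have := ann_bound (n := n) (K := 2 * K) j
    rwa [hcast, ← hSd] at this
  have ba : (((√(K : ℝ) ^ 2 : ℝ) : ℂ) • (1 : Matrix (Bx n K) (Bx n K) ℂ)
      - S.a * S.aᴴ).PosSemidef := by
    rw [hSa]; exact ann_bound j
  have bb : (((√(K : ℝ) ^ 2 : ℝ) : ℂ) • (1 : Matrix (Bx n K) (Bx n K) ℂ)
      - S.b * S.bᴴ).PosSemidef := by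
    rw [hSb]; exact ann_bound j
  have hη0 : 0 < 1 - p.η := sub_pos.2 p.η_lt
  have hhA : 0 ≤ S.hA := by rw [hS.hA]; exact Real.sqrt_nonneg _
  have hhB : 0 ≤ S.hB := by rw [hS.hB]; exact Real.sqrt_nonneg _
  have hAB : S.hA ^ 2 + S.hB ^ 2 = 1 := S.hAB
  have hhA1 : S.hA ≤ 1 := by nlinarith
  have hhB1 : S.hB ≤ 1 := by nlinarith
  -- g ≤ 3 √K
  have hsum : S.hA + S.hB ≤ √2 := by
    refine Real.le_sqrt_of_sq_le ?_
    nlinarith [sq_nonneg (S.hA - S.hB)]
  have hg : (|S.hA| + |S.hB|) * √(2 * K : ℝ) + √(K : ℝ) ≤ 3 * √(K : ℝ) := by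
    rw [abs_of_nonneg hhA, abs_of_nonneg hhB, Real.sqrt_mul (by norm_num) (K : ℝ)]
    have h2 : √2 * √2 = (2 : ℝ) := Real.mul_self_sqrt (by norm_num)
    have h3 : 0 ≤ √2 * √(K : ℝ) := by positivity
    calc (S.hA + S.hB) * (√2 * √(K : ℝ)) + √(K : ℝ) ≤ √2 * (√2 * √(K : ℝ)) + √(K : ℝ) := by
          gcongr
      _ = (√2 * √2) * √(K : ℝ) + √(K : ℝ) := by ring
      _ = 3 * √(K : ℝ) := by rw [h2]; ring
  -- size of G on both sides
  set LA := Ln (A ⊗ₖ B) (FEdge633.G S.ι S.a S.c S.d S.hA S.hB) with hLA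
  set LB := Ln (B ⊗ₖ A) (FEdge633.G S.swap.ι S.swap.a S.swap.c S.swap.d S.swap.hA S.swap.hB) with hLB
  have hLA0 : 0 ≤ LA := Ln_nonneg _ _
  have hLB0 : 0 ≤ LB := Ln_nonneg _ _
  have gA : LA ≤ 3 * √(K : ℝ) * √(Tp j A) := by
    refine (BS_Ln_G_le S hA hB htB (Real.sqrt_nonneg _) (Real.sqrt_nonneg _) bc bd ba).trans ?_
    rw [hS.QA]
    exact mul_le_mul_of_nonneg_right hg (Real.sqrt_nonneg _)
  have gB : LB ≤ 3 * √(K : ℝ) * √(Tp j B) := by
    have bd' : (((√(2 * K : ℝ) ^ 2 : ℝ) : ℂ) • (1 : Matrix (Bx n (2 * K)) (Bx n (2 * K)) ℂ)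
      - S.swap.d * S.swap.dᴴ).PosSemidef := by
      have e : S.swap.d * S.swap.dᴴ = S.d * S.dᴴ := by
        show (-S.d) * (-S.d)ᴴ = _
        rw [conjTranspose_neg, neg_mul_neg]
      rw [e]; exact bd
    refine (BS_Ln_G_le S.swap hB hA htA (Real.sqrt_nonneg _) (Real.sqrt_nonneg _) bc bd' bb).trans ?_
    have e : S.swap.QA = top n K j := hS.QB
    rw [e]
    have e2 : |S.swap.hA| + |S.swap.hB| = |S.hA| + |S.hB| := add_comm _ _
    rw [e2]
    exact mul_le_mul_of_nonneg_right hg (Real.sqrt_nonneg _)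
  -- energies
  have hEA := En_nonneg hA
  have hEB := En_nonneg hB
  have eCH : Lf (S.out A B) S.cᴴ ≤ En A + En B := by
    have h1 := BS_energy S hA hB htA htB
    have h2 := Lf_annH_le hA j
    have h3 := Lf_annH_le hB j
    rw [hSa, hSb] at h1
    linarith
  have eC : Lf (S.out A B) S.c ≤ En A + En B + 1 := by
    have h1 := Lf_ann_le' hC htC j
    rw [← hSc] at h1
    linarith
  set F2 : ℝ := (2 * K : ℝ) * (2 * K + 1) ^ n with hF2
  have hF20 : 0 ≤ F2 := by positivity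
  have eF : Lf (1 : Matrix (Bx n (2 * K)) (Bx n (2 * K)) ℂ) S.c ≤ F2 := by
    have h1 := Lf_one_ann_le (n := n) (K := 2 * K) j
    rw [hcast, ← hSc] at h1
    exact h1
  have eQ : Lf Q S.c ≤ En A + En B + 1 + ε * F2 := by
    have h1 : Lf Q S.c = Lf (S.out A B) S.c + ε * Lf (1 : Matrix _ _ ℂ) S.c := by
      rw [hQ, Lf, Lf, Lf, Matrix.add_mul, trace_add, Complex.add_re, Matrix.smul_mul, trace_smul,
        smul_eq_mul, Complex.re_ofReal_mul]
    rw [h1]
    have := mul_le_mul_of_nonneg_left eF hε.le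
    linarith
  have lQ : Ln Q S.c ≤ √(En A + En B + 1 + ε * F2) := Real.sqrt_le_sqrt eQ
  have lF : Ln (1 : Matrix (Bx n (2 * K)) (Bx n (2 * K)) ℂ) S.c ≤ √F2 := Real.sqrt_le_sqrt eF
  -- G_Q
  have lG : Ln (S.out A B) (KL Q * S.c - S.c * KL Q + (b : ℂ) • S.c) ≤
      (2 * κ + b) * √(En A + En B + 1 + ε * F2) := by
    refine (Ln_mono hQC _).trans ((Ln_GQ_le hQp hκ hb.le hK1 hK2 S.c).trans ?_)
    exact mul_le_mul_of_nonneg_left lQ (by positivity)
  -- mean
  have hm : ‖mC p.η j A B‖ ≤ √(2 * K : ℝ) := by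
    have h1 := Ln_cs hC S.c 1
    rw [Ln_one htC, mul_one, conjTranspose_one, Matrix.mul_one] at h1
    rw [mC, outC_eq hS, ← hSc]
    have h2 := Ln_mul_le hC (1 : Matrix _ _ ℂ) S.c (Real.sqrt_nonneg _) bc
    rw [Matrix.one_mul, Ln_one htC, mul_one] at h2
    exact h1.trans h2
  have hcard : (Fintype.card (Bx n (2 * K)) : ℝ) = (2 * K + 1) ^ n := by
    have : Fintype.card (Bx n (2 * K)) = (2 * K + 1) ^ n := by simp [Bx]
    rw [this]; push_cast; ring
  -- first term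
  have t1 : ‖trace ((GQc p ε j A B)ᴴ * (ann n (2 * K) j - mC p.η j A B • (1 : Matrix _ _ ℂ)))‖ ≤
      (2 * κ + b) * (√F2 + √(2 * K : ℝ) * √((2 * K + 1) ^ n)) ^ 2 := by
    have h1 := norm_first_le hκ hb.le hKH hK1 (ann n (2 * K) j) (mC p.η j A B)
    rw [GQc, GQ, GG, hQe]
    refine h1.trans (mul_le_mul_of_nonneg_left ?_ (by positivity))
    refine pow_le_pow_left₀ (add_nonneg (Ln_nonneg _ _)
      (mul_nonneg (norm_nonneg _) (Real.sqrt_nonneg _))) ?_ 2
    rw [hcard]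
    refine add_le_add ?_ (mul_le_mul_of_nonneg_right hm (Real.sqrt_nonneg _))
    rw [← hSc]; exact lF
  -- second terms
  have t2A : ‖trace (A * ErrA p.η j B (GQ p ε j A B)ᴴ)‖ ≤
      3 * √(K : ℝ) * √(Tp j A) * ((2 * κ + b) * √(En A + En B + 1 + ε * F2)) := by
    rw [ErrA_eq hS, GQ, GG, hQe, ← hSc]
    refine (BS_second S hA hB _).trans ?_
    exact mul_le_mul gA lG (Ln_nonneg _ _) (by positivity)
  have t2B : ‖trace (B * ErrB p.η j A (GQ p ε j A B)ᴴ)‖ ≤
      3 * √(K : ℝ) * √(Tp j B) * ((2 * κ + b) * √(En A + En B + 1 + ε * F2)) := by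
    rw [ErrB_eq hS, GQ, GG, hQe, ← hSc]
    refine (BS_second S.swap hB hA _).trans ?_
    rw [FCov76.BS.swap_out]
    exact mul_le_mul gB lG (Ln_nonneg _ _) (by positivity)
  -- third terms
  have t3A : ‖trace ((ErrA p.η j B (KL (outQ p.η ε A B)))ᴴ * om p.NA (mX j A) A (ann n K j))‖ ≤
      (p.NA + 1) * (√(En A + 1) * (κ * (3 * √(K : ℝ) * √(Tp j A)))) := by
    have h1 := BS_third S hA hB htA htB hκ p.NA_pos.le hK1
    have e1 : om p.NA (mX j A) A (ann n K j) = ((p.NA + 1 : ℝ) : ℂ) • (S.a * A)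
        - ((p.NA : ℝ) : ℂ) • (A * S.a) - (trace (A * S.a)) • A := by
      rw [om, mX, hSa]
      simp only [Matrix.sub_mul, Matrix.mul_sub, Matrix.smul_mul, Matrix.mul_smul, Matrix.one_mul,
        Matrix.mul_one, smul_sub, smul_smul]
      push_cast
      module
    rw [ErrA_eq hS, hQe, e1]
    refine h1.trans ?_
    have h2 : Ln A S.a ≤ √(En A + 1) := by
      rw [hSa]; exact Real.sqrt_le_sqrt (Lf_ann_le hA htA j)
    have h3 : κ * LA ≤ κ * (3 * √(K : ℝ) * √(Tp j A)) := mul_le_mul_of_nonneg_left gA hκ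
    have hN := p.NA_pos
    refine mul_le_mul_of_nonneg_left (mul_le_mul h2 h3 (by positivity) (Real.sqrt_nonneg _))
      (by linarith)
  have t3B : ‖trace ((ErrB p.η j A (KL (outQ p.η ε A B)))ᴴ * om p.NB (mX j B) B (ann n K j))‖ ≤
      (p.NB + 1) * (√(En B + 1) * (κ * (3 * √(K : ℝ) * √(Tp j B)))) := by
    have h1 := BS_third S.swap hB hA htB htA hκ p.NB_pos.le hK1
    have e1 : om p.NB (mX j B) B (ann n K j) = ((p.NB + 1 : ℝ) : ℂ) • (S.swap.a * B)
        - ((p.NB : ℝ) : ℂ) • (B * S.swap.a) - (trace (B * S.swap.a)) • B := by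
      have e2 : S.swap.a = ann n K j := hSb
      rw [om, mX, e2]
      simp only [Matrix.sub_mul, Matrix.mul_sub, Matrix.smul_mul, Matrix.mul_smul, Matrix.one_mul,
        Matrix.mul_one, smul_sub, smul_smul]
      push_cast
      module
    rw [ErrB_eq hS, hQe, e1]
    refine h1.trans ?_
    have h2 : Ln B S.swap.a ≤ √(En B + 1) := by
      have e2 : S.swap.a = ann n K j := hSb
      rw [e2]; exact Real.sqrt_le_sqrt (Lf_ann_le hB htB j)
    have h3 : κ * LB ≤ κ * (3 * √(K : ℝ) * √(Tp j B)) := mul_le_mul_of_nonneg_left gB hκ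
    have hN := p.NB_pos
    refine mul_le_mul_of_nonneg_left (mul_le_mul h2 h3 (by positivity) (Real.sqrt_nonneg _))
      (by linarith)
  -- assemble
  have hpA : p.hA = S.hA := by rw [Par.hA, hS.hA]
  have hpB : p.hB = S.hB := by rw [Par.hB, hS.hB]
  rw [gapErr, errBd2, ← hκd, ← hbd, ← hF2, hpA, hpB]
  refine (assemble hε.le p.NA_pos.le p.NB_pos.le hhA hhA1 hhB hhB1
    ((Complex.re_le_norm _).trans t1)
    (neg_le_of_abs_le ((Complex.abs_re_le_norm _).trans t2A))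
    (neg_le_of_abs_le ((Complex.abs_re_le_norm _).trans t2B))
    ((Complex.re_le_norm _).trans t3A) ((Complex.re_le_norm _).trans t3B)
    (norm_nonneg _ |>.trans t2A) (norm_nonneg _ |>.trans t2B)).trans (le_of_eq ?_)
  ring


/-- Markov: `K T ≤ E` -/
theorem K_mul_Tp_le {A : Matrix (Bx n K) (Bx n K) ℂ} (hA : A.PosSemidef) (j : Fin n) :
    (K : ℝ) * Tp j A ≤ En A := by
  have h1 : Tp j A = ∑ k : Bx n K, (if (k j : ℕ) = K then (1 : ℝ) else 0) * (A k k).re := by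
    rw [Tp, top, ← trace_mul_diag]
    congr 4
    ext k
    split_ifs <;> simp
  rw [h1, En_eq, Finset.mul_sum]
  refine Finset.sum_le_sum fun k _ => ?_
  have h2 := diag_nonneg' hA k
  have h3 : ((k j : ℕ) : ℝ) ≤ ∑ i, ((k i : ℕ) : ℝ) :=
    Finset.single_le_sum (f := fun i => ((k i : ℕ) : ℝ)) (fun i _ => Nat.cast_nonneg _)
      (Finset.mem_univ j)
  split_ifs with h
  · rw [one_mul]
    refine mul_le_mul_of_nonneg_right ?_ h2
    have h4 : ((k j : ℕ) : ℝ) = (K : ℝ) := by exact_mod_cast h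
    linarith
  · rw [zero_mul, mul_zero]
    refine mul_nonneg ?_ h2
    exact Finset.sum_nonneg fun i _ => Nat.cast_nonneg _

theorem Tp_nonneg {A : Matrix (Bx n K) (Bx n K) ℂ} (hA : A.PosSemidef) (j : Fin n) :
    0 ≤ Tp j A := by
  have h1 : Tp j A = ∑ k : Bx n K, (if (k j : ℕ) = K then (1 : ℝ) else 0) * (A k k).re := by
    rw [Tp, top, ← trace_mul_diag]
    congr 4
    ext k
    split_ifs <;> simp
  rw [h1]
  refine Finset.sum_nonneg fun k _ => mul_nonneg ?_ (diag_nonneg' hA k)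
  split_ifs <;> norm_num

set_option maxHeartbeats 4000000 in
/-- scalar repackaging of the explicit bound -/
theorem scal_bd {κ b ε P K D EA EB TA TB NA NB : ℝ} (hκ : 0 ≤ κ) (hb : 0 < b) (hε : 0 < ε)
    (hK : 0 ≤ K) (hD : 0 ≤ D) (hP : 2 * K * D ≤ P) (hEA : 0 ≤ EA) (hEB : 0 ≤ EB)
    (hTA : 0 ≤ TA) (hTB : 0 ≤ TB) (hKA : K * TA ≤ EA) (hKB : K * TB ≤ EB) (hNA : 0 < NA)
    (hNB : 0 < NB) :
    ε * ((2 * κ + b) * (√(2 * K * D) + √(2 * K) * √D) ^ 2)
      + (2 * κ + b) * √(EA + EB + 1 + ε * (2 * K * D)) * (3 * √K) * (NA * √TA + NB * √TB)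
      + κ * (3 * √K) * ((NA + 1) * √(EA + 1) * √TA + (NB + 1) * √(EB + 1) * √TB) ≤
    (4 * (2 + b) + 5 * (2 + b) * (NA + NB) + 3 * (NA + NB + 2)) *
      ((κ + 1) * √((K + 1) * (TA + TB)) * √(1 + EA + EB) + ε * (κ + 1) * P) := by
  have hP0 : 0 ≤ P := le_trans (by positivity) hP
  set X : ℝ := √((K + 1) * (TA + TB)) * √(1 + EA + EB) with hX
  have hX0 : 0 ≤ X := by positivity
  have h2κ : 2 * κ + b ≤ (2 + b) * (κ + 1) := by nlinarith
  have h2κ0 : 0 ≤ 2 * κ + b := by positivity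
  have hκ1 : 0 ≤ κ + 1 := by linarith
  -- term 1
  have T1 : ε * ((2 * κ + b) * (√(2 * K * D) + √(2 * K) * √D) ^ 2) ≤
      4 * (2 + b) * (ε * (κ + 1) * P) := by
    have e1 : (√(2 * K * D) + √(2 * K) * √D) ^ 2 = 4 * (2 * K * D) := by
      rw [← Real.sqrt_mul (by positivity) D]
      have := Real.sq_sqrt (show 0 ≤ 2 * K * D by positivity)
      nlinarith
    rw [e1]
    calc ε * ((2 * κ + b) * (4 * (2 * K * D))) ≤ ε * (((2 + b) * (κ + 1)) * (4 * P)) := by
          refine mul_le_mul_of_nonneg_left ?_ hε.le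
          exact mul_le_mul h2κ (by linarith) (by positivity) (by positivity)
      _ = _ := by ring
  -- sqrt K sqrt T <= sqrt ((K+1)(TA+TB))
  have sA : √K * √TA ≤ √((K + 1) * (TA + TB)) := by
    rw [← Real.sqrt_mul hK]
    refine Real.sqrt_le_sqrt ?_
    nlinarith [mul_nonneg hK hTB]
  have sB : √K * √TB ≤ √((K + 1) * (TA + TB)) := by
    rw [← Real.sqrt_mul hK]
    refine Real.sqrt_le_sqrt ?_
    nlinarith [mul_nonneg hK hTA]
  have sA0 : 0 ≤ √K * √TA := by positivity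
  have sB0 : 0 ≤ √K * √TB := by positivity
  have sE : √(1 + EA + EB) = √(EA + EB + 1) := by congr 1; ring
  have sE1 : 1 ≤ √(EA + EB + 1) := Real.one_le_sqrt.2 (by linarith)
  -- sqrt (E+1+εF) ≤ sqrt(E+1) + sqrt(εP)
  have r1 : √(EA + EB + 1 + ε * (2 * K * D)) ≤ √(EA + EB + 1) + √(ε * P) := by
    refine (Real.sqrt_le_sqrt (show EA + EB + 1 + ε * (2 * K * D) ≤ EA + EB + 1 + ε * P by
      nlinarith)).trans ?_
    refine Real.sqrt_le_iff.2 ⟨by positivity, ?_⟩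
    have w1 : √(EA + EB + 1) ^ 2 = EA + EB + 1 := Real.sq_sqrt (by positivity)
    have w2 : √(ε * P) ^ 2 = ε * P := Real.sq_sqrt (by positivity)
    have w3 : 0 ≤ √(EA + EB + 1) * √(ε * P) := by positivity
    nlinarith
  -- cross terms
  have cA : √(ε * P) * (√K * √TA) ≤ (1 / 2) * (ε * P) + (1 / 2) * X := by
    have e1 : √(ε * P) ^ 2 = ε * P := Real.sq_sqrt (by positivity)
    have e2 : (√K * √TA) ^ 2 ≤ X := by
      have e3 : √K * √TA ≤ √(EA + EB + 1) := by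
        rw [← Real.sqrt_mul hK]
        exact Real.sqrt_le_sqrt (by linarith)
      calc (√K * √TA) ^ 2 = (√K * √TA) * (√K * √TA) := by ring
        _ ≤ √((K + 1) * (TA + TB)) * √(EA + EB + 1) := mul_le_mul sA e3 sA0 (Real.sqrt_nonneg _)
        _ = X := by rw [hX, sE]
    nlinarith [sq_nonneg (√(ε * P) - √K * √TA)]
  have cB : √(ε * P) * (√K * √TB) ≤ (1 / 2) * (ε * P) + (1 / 2) * X := by
    have e1 : √(ε * P) ^ 2 = ε * P := Real.sq_sqrt (by positivity)
    have e2 : (√K * √TB) ^ 2 ≤ X := by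
      have e3 : √K * √TB ≤ √(EA + EB + 1) := by
        rw [← Real.sqrt_mul hK]
        exact Real.sqrt_le_sqrt (by linarith)
      calc (√K * √TB) ^ 2 = (√K * √TB) * (√K * √TB) := by ring
        _ ≤ √((K + 1) * (TA + TB)) * √(EA + EB + 1) := mul_le_mul sB e3 sB0 (Real.sqrt_nonneg _)
        _ = X := by rw [hX, sE]
    nlinarith [sq_nonneg (√(ε * P) - √K * √TB)]
  have dA : √(EA + EB + 1) * (√K * √TA) ≤ X := by
    rw [hX, sE, mul_comm]
    exact mul_le_mul_of_nonneg_right sA (Real.sqrt_nonneg _)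
  have dB : √(EA + EB + 1) * (√K * √TB) ≤ X := by
    rw [hX, sE, mul_comm]
    exact mul_le_mul_of_nonneg_right sB (Real.sqrt_nonneg _)
  have T2 : (2 * κ + b) * √(EA + EB + 1 + ε * (2 * K * D)) * (3 * √K) * (NA * √TA + NB * √TB) ≤
      5 * (2 + b) * (NA + NB) * ((κ + 1) * X + ε * (κ + 1) * P) := by
    have e1 : √(EA + EB + 1 + ε * (2 * K * D)) * (√K * (NA * √TA + NB * √TB)) ≤
        (NA + NB) * ((3 / 2) * X + (1 / 2) * (ε * P)) := by
      have f0 : 0 ≤ √K * (NA * √TA + NB * √TB) := by positivity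
      calc _ ≤ (√(EA + EB + 1) + √(ε * P)) * (√K * (NA * √TA + NB * √TB)) :=
            mul_le_mul_of_nonneg_right r1 f0
        _ = NA * (√(EA + EB + 1) * (√K * √TA) + √(ε * P) * (√K * √TA))
            + NB * (√(EA + EB + 1) * (√K * √TB) + √(ε * P) * (√K * √TB)) := by ring
        _ ≤ NA * (X + ((1 / 2) * (ε * P) + (1 / 2) * X))
            + NB * (X + ((1 / 2) * (ε * P) + (1 / 2) * X)) := by
            refine add_le_add ?_ ?_
            · exact mul_le_mul_of_nonneg_left (add_le_add dA cA) hNA.le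
            · exact mul_le_mul_of_nonneg_left (add_le_add dB cB) hNB.le
        _ = _ := by ring
    have e2 : 0 ≤ (NA + NB) * ((3 / 2) * X + (1 / 2) * (ε * P)) := by positivity
    calc _ = 3 * ((2 * κ + b) * (√(EA + EB + 1 + ε * (2 * K * D)) *
            (√K * (NA * √TA + NB * √TB)))) := by ring
      _ ≤ 3 * (((2 + b) * (κ + 1)) * ((NA + NB) * ((3 / 2) * X + (1 / 2) * (ε * P)))) := by
          refine mul_le_mul_of_nonneg_left ?_ (by norm_num)
          exact mul_le_mul h2κ e1 (by positivity) (by positivity)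
      _ = (9 / 2) * ((2 + b) * (NA + NB) * ((κ + 1) * X))
            + (3 / 2) * ((2 + b) * (NA + NB) * (ε * (κ + 1) * P)) := by ring
      _ ≤ 5 * ((2 + b) * (NA + NB) * ((κ + 1) * X))
            + 5 * ((2 + b) * (NA + NB) * (ε * (κ + 1) * P)) := by
          have g1 : 0 ≤ (2 + b) * (NA + NB) * ((κ + 1) * X) := by positivity
          have g2 : 0 ≤ (2 + b) * (NA + NB) * (ε * (κ + 1) * P) := by positivity
          linarith
      _ = _ := by ring
  have T3 : κ * (3 * √K) * ((NA + 1) * √(EA + 1) * √TA + (NB + 1) * √(EB + 1) * √TB) ≤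
      3 * (NA + NB + 2) * ((κ + 1) * X) := by
    have fA : √(EA + 1) ≤ √(EA + EB + 1) := Real.sqrt_le_sqrt (by linarith)
    have fB : √(EB + 1) ≤ √(EA + EB + 1) := Real.sqrt_le_sqrt (by linarith)
    have e1 : √K * ((NA + 1) * √(EA + 1) * √TA + (NB + 1) * √(EB + 1) * √TB) ≤
        (NA + NB + 2) * X := by
      calc _ = (NA + 1) * (√(EA + 1) * (√K * √TA)) + (NB + 1) * (√(EB + 1) * (√K * √TB)) := by ring
        _ ≤ (NA + 1) * (√(EA + EB + 1) * (√K * √TA))
            + (NB + 1) * (√(EA + EB + 1) * (√K * √TB)) := by gcongr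
        _ ≤ (NA + 1) * X + (NB + 1) * X := by
            refine add_le_add ?_ ?_
            · exact mul_le_mul_of_nonneg_left dA (by linarith)
            · exact mul_le_mul_of_nonneg_left dB (by linarith)
        _ = _ := by ring
    have e0 : 0 ≤ √K * ((NA + 1) * √(EA + 1) * √TA + (NB + 1) * √(EB + 1) * √TB) := by positivity
    calc _ = 3 * (κ * (√K * ((NA + 1) * √(EA + 1) * √TA + (NB + 1) * √(EB + 1) * √TB))) := by ring
      _ ≤ 3 * ((κ + 1) * ((NA + NB + 2) * X)) := by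
          refine mul_le_mul_of_nonneg_left ?_ (by norm_num)
          exact mul_le_mul (by linarith) e1 e0 hκ1
      _ = _ := by ring
  have g3 : 0 ≤ ε * (κ + 1) * P := by positivity
  have g4 : 0 ≤ (κ + 1) * X := by positivity
  have e5 : (κ + 1) * √((K + 1) * (TA + TB)) * √(1 + EA + EB) = (κ + 1) * X := by rw [hX]; ring
  rw [e5]
  have w1 : 0 ≤ 4 * (2 + b) * ((κ + 1) * X) := by positivity
  have w2 : 0 ≤ 3 * (NA + NB + 2) * (ε * (κ + 1) * P) := by positivity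
  calc _ ≤ 4 * (2 + b) * (ε * (κ + 1) * P)
        + 5 * (2 + b) * (NA + NB) * ((κ + 1) * X + ε * (κ + 1) * P)
        + 3 * (NA + NB + 2) * ((κ + 1) * X) := add_le_add (add_le_add T1 T2) T3
    _ ≤ _ := by linarith

/-- **LEAF FERR**, by name. -/
theorem ferr : FDefs136.FERR := by
  intro p
  have hb := bC_pos p
  have hNA := p.NA_pos
  have hNB := p.NB_pos
  refine ⟨4 * (2 + p.bC) + 5 * (2 + p.bC) * (p.NA + p.NB) + 3 * (p.NA + p.NB + 2), by positivity,
    ?_⟩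
  intro n K j ε hε hε2 A B dA dB
  obtain ⟨S, hS⟩ := FinW87.FW_holds p.η n K j p.η_pos p.η_lt
  have h1 := gapErr_le2 p hε hε2 hS dA dB
  refine h1.trans ?_
  have hκ : 0 ≤ Real.log (1 / ε) := Real.log_nonneg (by rw [le_div_iff₀ hε]; linarith)
  have hK0 : (0 : ℝ) ≤ (K : ℝ) := Nat.cast_nonneg K
  have hP : 2 * (K : ℝ) * (2 * (K : ℝ) + 1) ^ n ≤ ((2 * K + 1 : ℕ) : ℝ) ^ (n + 1) := by
    push_cast
    rw [pow_succ]
    have : (0 : ℝ) ≤ (2 * (K : ℝ) + 1) ^ n := by positivity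
    nlinarith
  exact scal_bd hκ hb hε hK0 (by positivity) hP (En_nonneg dA.1) (En_nonneg dB.1)
    (Tp_nonneg dA.1 j) (Tp_nonneg dB.1 j) (K_mul_Tp_le dA.1 j) (K_mul_Tp_le dB.1 j) hNA hNB

end

end Crest.Agent.R331.FErr8
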