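import Mathlib
import Crest.Agent.R331.FEdge_633

/-!
Row 331 (EPnI), finite-matrix track: leaf FERR (helper8).

Bounds of the three linear error terms of (GAP) of the finite track (helper136 #13990), for abstract
finite matrices, in the notation `G`, `Ex` of `FEdge_633`.
-/

set_option autoImplicit false
set_option linter.unusedSectionVars false
set_option linter.unusedSimpArgs false

namespace Crest.Agent.R331.FErr8

open Matrix FEdge633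
open scoped ComplexOrder Kronecker

variable {m n l p q : Type*} [Fintype m] [Fintype n] [Fintype l] [Fintype p] [Fintype q]
  [DecidableEq m] [DecidableEq n] [DecidableEq l] [DecidableEq p] [DecidableEq q]

/-! ### The `L`-form and its seminorm -/

/-- the form `L_ρ(X) = Tr ρ X Xᴴ` -/
noncomputable def Lf (ρ : Matrix m m ℂ) (X : Matrix m n ℂ) : ℝ := (trace (ρ * (X * Xᴴ))).re

/-- the seminorm `√ Tr ρ X Xᴴ` -/
noncomputable def Ln (ρ : Matrix m m ℂ) (X : Matrix m n ℂ) : ℝ := √(Lf ρ X)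

theorem Lf_nonneg {ρ : Matrix m m ℂ} (hρ : ρ.PosSemidef) (X : Matrix m n ℂ) : 0 ≤ Lf ρ X :=
  L_nonneg hρ X

theorem Ln_nonneg (ρ : Matrix m m ℂ) (X : Matrix m n ℂ) : 0 ≤ Ln ρ X := Real.sqrt_nonneg _

theorem Ln_sq {ρ : Matrix m m ℂ} (hρ : ρ.PosSemidef) (X : Matrix m n ℂ) : Ln ρ X ^ 2 = Lf ρ X :=
  Real.sq_sqrt (Lf_nonneg hρ X)

theorem Ln_cs {ρ : Matrix m m ℂ} (hρ : ρ.PosSemidef) (X Z : Matrix m n ℂ) :
    ‖trace (ρ * (X * Zᴴ))‖ ≤ Ln ρ X * Ln ρ Z :=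
  cs' hρ X Z (Ln_nonneg _ _) (Ln_nonneg _ _) (Ln_sq hρ X).ge (Ln_sq hρ Z).ge

theorem Ln_add {ρ : Matrix m m ℂ} (hρ : ρ.PosSemidef) (X Z : Matrix m n ℂ) :
    Ln ρ (X + Z) ≤ Ln ρ X + Ln ρ Z := by
  have h1 := Ln_cs hρ X Z
  have h2 := Ln_cs hρ Z X
  have e : Lf ρ (X + Z) = Lf ρ X + Lf ρ Z + (trace (ρ * (X * Zᴴ))).re
      + (trace (ρ * (Z * Xᴴ))).re := by
    simp only [Lf, conjTranspose_add, Matrix.add_mul, Matrix.mul_add, trace_add, Complex.add_re]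
    ring
  have h3 : (trace (ρ * (X * Zᴴ))).re ≤ Ln ρ X * Ln ρ Z := (Complex.re_le_norm _).trans h1
  have h4 : (trace (ρ * (Z * Xᴴ))).re ≤ Ln ρ Z * Ln ρ X := (Complex.re_le_norm _).trans h2
  refine Real.sqrt_le_iff.2 ⟨add_nonneg (Ln_nonneg _ _) (Ln_nonneg _ _), ?_⟩
  rw [e]
  nlinarith [Ln_sq hρ X, Ln_sq hρ Z]

theorem Ln_smul (ρ : Matrix m m ℂ) (z : ℂ) (X : Matrix m n ℂ) :
    Ln ρ (z • X) = ‖z‖ * Ln ρ X := by
  have e : Lf ρ (z • X) = ‖z‖ ^ 2 * Lf ρ X := by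
    simp only [Lf, conjTranspose_smul, Matrix.smul_mul, Matrix.mul_smul, trace_smul, smul_eq_mul,
      ← mul_assoc]
    have : z * star z = ((‖z‖ ^ 2 : ℝ) : ℂ) := by
      rw [RCLike.star_def, Complex.mul_conj, Complex.normSq_eq_norm_sq]
    rw [mul_comm z (star z)] at this
    rw [this, Complex.re_ofReal_mul]
  rw [Ln, e, Real.sqrt_mul (sq_nonneg _), Real.sqrt_sq (norm_nonneg _), Ln]

theorem Ln_neg (ρ : Matrix m m ℂ) (X : Matrix m n ℂ) : Ln ρ (-X) = Ln ρ X := by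
  have := Ln_smul ρ (-1) X
  simpa using this

theorem Ln_sub {ρ : Matrix m m ℂ} (hρ : ρ.PosSemidef) (X Z : Matrix m n ℂ) :
    Ln ρ (X - Z) ≤ Ln ρ X + Ln ρ Z := by
  rw [sub_eq_add_neg, ← Ln_neg ρ Z]
  exact Ln_add hρ _ _

/-- right multiplication by a bounded matrix -/
theorem Ln_mul_le {ρ : Matrix m m ℂ} (hρ : ρ.PosSemidef) (X : Matrix m n ℂ) (D : Matrix n l ℂ)
    {s : ℝ} (hs : 0 ≤ s) (hD : (((s ^ 2 : ℝ) : ℂ) • (1 : Matrix n n ℂ) - D * Dᴴ).PosSemidef) :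
    Ln ρ (X * D) ≤ s * Ln ρ X := by
  obtain ⟨B, hB⟩ := exists_sq hD
  obtain ⟨R, hR⟩ := exists_sq hρ
  have e : s ^ 2 * Lf ρ X - Lf ρ (X * D) = Lf ρ (X * Bᴴ) := by
    have h1 : ρ * ((X * Bᴴ) * (X * Bᴴ)ᴴ) = ((s ^ 2 : ℝ) : ℂ) • (ρ * (X * Xᴴ))
        - ρ * ((X * D) * (X * D)ᴴ) := by
      have : (X * Bᴴ) * (X * Bᴴ)ᴴ = X * (Bᴴ * B) * Xᴴ := by
        simp only [conjTranspose_mul, conjTranspose_conjTranspose, Matrix.mul_assoc]
      rw [this, ← hB]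
      simp only [conjTranspose_mul, Matrix.mul_sub, Matrix.sub_mul, Matrix.mul_smul,
        Matrix.smul_mul, Matrix.mul_one, Matrix.mul_assoc]
    rw [Lf, Lf, Lf, h1, trace_sub, trace_smul, Complex.sub_re, smul_eq_mul,
      Complex.re_ofReal_mul]
  have h0 := Lf_nonneg hρ (X * Bᴴ)
  refine Real.sqrt_le_iff.2 ⟨mul_nonneg hs (Ln_nonneg _ _), ?_⟩
  rw [mul_pow, Ln_sq hρ]
  linarith

/-- left multiplication by a matrix `K` with `Kᴴ Q K ≤ κ² Q` -/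
theorem Ln_left {Q K : Matrix m m ℂ} (hQ : Q.PosSemidef) (X : Matrix m n ℂ)
    {κ : ℝ} (hκ : 0 ≤ κ) (hK : (((κ ^ 2 : ℝ) : ℂ) • Q - Kᴴ * Q * K).PosSemidef) :
    Ln Q (K * X) ≤ κ * Ln Q X := by
  have e : κ ^ 2 * Lf Q X - Lf Q (K * X) = Lf (((κ ^ 2 : ℝ) : ℂ) • Q - Kᴴ * Q * K) X := by
    have h2 : trace (Q * (K * X * (K * X)ᴴ)) = trace (Kᴴ * Q * K * (X * Xᴴ)) := by
      rw [conjTranspose_mul, trace_mul_comm]
      simp only [Matrix.mul_assoc]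
      rw [trace_mul_comm K]
      simp only [Matrix.mul_assoc]
      rw [trace_mul_comm]
      simp only [Matrix.mul_assoc]
      rw [trace_mul_comm Xᴴ]
      simp only [Matrix.mul_assoc]
    rw [Lf, Lf, Lf, Matrix.sub_mul, trace_sub, Matrix.smul_mul, trace_smul, smul_eq_mul,
      Complex.sub_re, Complex.re_ofReal_mul, h2]
  have h0 := Lf_nonneg hK X
  refine Real.sqrt_le_iff.2 ⟨mul_nonneg hκ (Ln_nonneg _ _), ?_⟩
  rw [mul_pow, Ln_sq hQ]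
  linarith

/-- monotonicity in the weight -/
theorem Ln_mono {ρ σ : Matrix m m ℂ} (h : (σ - ρ).PosSemidef) (X : Matrix m n ℂ) :
    Ln ρ X ≤ Ln σ X := by
  refine Real.sqrt_le_sqrt ?_
  have h0 := Lf_nonneg h X
  rw [Lf, Matrix.sub_mul, trace_sub, Complex.sub_re] at h0
  rw [Lf, Lf]
  linarith

theorem Ln_one {ρ : Matrix m m ℂ} (htr : trace ρ = 1) : Ln ρ (1 : Matrix m m ℂ) = 1 := by
  rw [Ln, Lf, conjTranspose_one, Matrix.mul_one, Matrix.mul_one, htr, Complex.one_re, Real.sqrt_one]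

/-- adjoint of a bound: for an isometry `W`, `Ln ρ (X Wᴴ) = Ln ρ X` -/
theorem Ln_mul_iso (ρ : Matrix m m ℂ) (X : Matrix m n ℂ) (W : Matrix p n ℂ) (hW : Wᴴ * W = 1) :
    Ln ρ (X * Wᴴ) = Ln ρ X := by
  rw [Ln, Ln, Lf, Lf, conjTranspose_mul, conjTranspose_conjTranspose]
  have : X * Wᴴ * (W * Xᴴ) = X * Xᴴ := by
    rw [Matrix.mul_assoc, ← Matrix.mul_assoc Wᴴ, hW, Matrix.one_mul]
  rw [this]

/-- `1 - W Wᴴ ≥ 0` for an isometry. -/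
theorem iso_psd (W : Matrix p n ℂ) (hW : Wᴴ * W = 1) : ((1 : Matrix p p ℂ) - W * Wᴴ).PosSemidef := by
  have h1 : (1 : Matrix p p ℂ) - W * Wᴴ = (1 - W * Wᴴ) * (1 - W * Wᴴ)ᴴ := by
    have h2 : (1 - W * Wᴴ)ᴴ = 1 - W * Wᴴ := by
      rw [conjTranspose_sub, conjTranspose_one, conjTranspose_mul, conjTranspose_conjTranspose]
    have h3 : W * Wᴴ * (W * Wᴴ) = W * Wᴴ := by
      rw [Matrix.mul_assoc, ← Matrix.mul_assoc Wᴴ, hW, Matrix.one_mul]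
    rw [h2, Matrix.sub_mul, Matrix.mul_sub, Matrix.mul_sub, h3, Matrix.one_mul, Matrix.mul_one,
      Matrix.one_mul, sub_self, sub_zero]
  rw [h1]
  exact Matrix.posSemidef_self_mul_conjTranspose _

/-- right multiplication by an isometry contracts -/
theorem Ln_mul_iso_le {ρ : Matrix m m ℂ} (hρ : ρ.PosSemidef) (X : Matrix m p ℂ) (W : Matrix p n ℂ)
    (hW : Wᴴ * W = 1) : Ln ρ (X * W) ≤ Ln ρ X := by
  have := Ln_mul_le hρ X W (s := 1) zero_le_one (by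
    rw [one_pow, Complex.ofReal_one, one_smul]; exact iso_psd W hW)
  rwa [one_mul] at this

theorem kron_psd {D : Matrix p p ℂ} {s : ℝ}
    (hD : (((s ^ 2 : ℝ) : ℂ) • (1 : Matrix p p ℂ) - D * Dᴴ).PosSemidef) :
    (((s ^ 2 : ℝ) : ℂ) • (1 : Matrix (p × q) (p × q) ℂ) -
      (D ⊗ₖ (1 : Matrix q q ℂ)) * (D ⊗ₖ (1 : Matrix q q ℂ))ᴴ).PosSemidef := by
  have h1 : (((s ^ 2 : ℝ) : ℂ) • (1 : Matrix (p × q) (p × q) ℂ) -
      (D ⊗ₖ (1 : Matrix q q ℂ)) * (D ⊗ₖ (1 : Matrix q q ℂ))ᴴ) =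
      (((s ^ 2 : ℝ) : ℂ) • (1 : Matrix p p ℂ) - D * Dᴴ) ⊗ₖ (1 : Matrix q q ℂ) := by
    rw [Matrix.conjTranspose_kronecker, Matrix.conjTranspose_one, ← Matrix.mul_kronecker_mul,
      Matrix.mul_one]
    have h2 : (1 : Matrix (p × q) (p × q) ℂ) = (1 : Matrix p p ℂ) ⊗ₖ (1 : Matrix q q ℂ) :=
      Matrix.one_kronecker_one.symm
    rw [h2]
    ext ⟨i, j⟩ ⟨i', j'⟩
    simp only [Matrix.sub_apply, Matrix.smul_apply, kroneckerMap_apply, smul_eq_mul]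
    ring
  rw [h1]
  exact hD.kronecker Matrix.PosSemidef.one

theorem kron_psd' {D : Matrix q q ℂ} {s : ℝ}
    (hD : (((s ^ 2 : ℝ) : ℂ) • (1 : Matrix q q ℂ) - D * Dᴴ).PosSemidef) :
    (((s ^ 2 : ℝ) : ℂ) • (1 : Matrix (p × q) (p × q) ℂ) -
      ((1 : Matrix p p ℂ) ⊗ₖ D) * ((1 : Matrix p p ℂ) ⊗ₖ D)ᴴ).PosSemidef := by
  have h1 : (((s ^ 2 : ℝ) : ℂ) • (1 : Matrix (p × q) (p × q) ℂ) -
      ((1 : Matrix p p ℂ) ⊗ₖ D) * ((1 : Matrix p p ℂ) ⊗ₖ D)ᴴ) =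
      (1 : Matrix p p ℂ) ⊗ₖ (((s ^ 2 : ℝ) : ℂ) • (1 : Matrix q q ℂ) - D * Dᴴ) := by
    rw [Matrix.conjTranspose_kronecker, Matrix.conjTranspose_one, ← Matrix.mul_kronecker_mul,
      Matrix.mul_one]
    have h2 : (1 : Matrix (p × q) (p × q) ℂ) = (1 : Matrix p p ℂ) ⊗ₖ (1 : Matrix q q ℂ) :=
      Matrix.one_kronecker_one.symm
    rw [h2]
    ext ⟨i, j⟩ ⟨i', j'⟩
    simp only [Matrix.sub_apply, Matrix.smul_apply, kroneckerMap_apply, smul_eq_mul]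
    ring
  rw [h1]
  exact Matrix.PosSemidef.one.kronecker hD

/-! ### The boundary operator -/

section edge

variable (W : Matrix (p × q) (m × n) ℂ) (a Q : Matrix m m ℂ) (c : Matrix p p ℂ) (d : Matrix q q ℂ)
  (hA hB : ℝ)

/-- the compression of a PSD weight by a Hermitian projection -/
theorem Ln_proj {ρ P : Matrix m m ℂ} (hP : Pᴴ = P) (X : Matrix m n ℂ) :
    Ln ρ (P * X) = Ln (P * ρ * P) X := by
  rw [Ln, Ln, Lf, Lf, conjTranspose_mul, hP]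
  congr 2
  have h1 : trace (ρ * (P * X * (Xᴴ * P))) = trace ((ρ * (P * (X * Xᴴ))) * P) := by
    simp only [Matrix.mul_assoc]
  rw [h1, Matrix.trace_mul_comm]
  simp only [Matrix.mul_assoc]

/-- **(e1)** the boundary operator is small in the state: `Ln ρ G ≤ ((|hA|+|hB|) s + sa) √p`. -/
theorem Ln_G_le {ρ : Matrix (m × n) (m × n) ℂ} (hρ : ρ.PosSemidef) (hW : Wᴴ * W = 1)
    (hQH : Qᴴ = Q) (hQQ : Q * Q = Q)
    (hQG : (Q ⊗ₖ (1 : Matrix n n ℂ)) * G W a c d hA hB = G W a c d hA hB)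
    {s sa : ℝ} (hs : 0 ≤ s) (hsa : 0 ≤ sa)
    (hc : (((s ^ 2 : ℝ) : ℂ) • (1 : Matrix p p ℂ) - c * cᴴ).PosSemidef)
    (hd : (((s ^ 2 : ℝ) : ℂ) • (1 : Matrix q q ℂ) - d * dᴴ).PosSemidef)
    (ha : (((sa ^ 2 : ℝ) : ℂ) • (1 : Matrix m m ℂ) - a * aᴴ).PosSemidef) :
    Ln ρ (G W a c d hA hB) ≤
      ((|hA| + |hB|) * s + sa) * √(trace (ρ * (Q ⊗ₖ (1 : Matrix n n ℂ)))).re := by
  set P : Matrix (m × n) (m × n) ℂ := Q ⊗ₖ (1 : Matrix n n ℂ) with hP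
  have hPH : Pᴴ = P := by
    rw [hP, Matrix.conjTranspose_kronecker, Matrix.conjTranspose_one, hQH]
  have hPP : P * P = P := by
    rw [hP, ← Matrix.mul_kronecker_mul, hQQ, Matrix.one_mul]
  set R : Matrix (m × n) (m × n) ℂ := P * ρ * P with hR
  have hRpsd : R.PosSemidef := by
    have := hρ.mul_mul_conjTranspose_same P
    rwa [hPH] at this
  have hRtr : trace R = trace (ρ * P) := by
    rw [hR, Matrix.mul_assoc, Matrix.trace_mul_comm, Matrix.mul_assoc, hPP]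
  have hR1 : Ln R (1 : Matrix (m × n) (m × n) ℂ) = √(trace (ρ * P)).re := by
    rw [Ln, Lf, conjTranspose_one, Matrix.mul_one, Matrix.mul_one, hRtr]
  have h0 : Ln ρ (G W a c d hA hB) = Ln R (G W a c d hA hB) := by
    rw [← hQG, Ln_proj hPH, hQG]
  have hWn : Ln R Wᴴ = √(trace (ρ * P)).re := by
    have := Ln_mul_iso R (1 : Matrix (m × n) (m × n) ℂ) W hW
    rw [Matrix.one_mul] at this
    rw [this, hR1]
  set r := √(trace (ρ * P)).re with hr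
  have e1 : Ln R (Wᴴ * (c ⊗ₖ (1 : Matrix q q ℂ))) ≤ s * r := by
    rw [← hWn]; exact Ln_mul_le hRpsd Wᴴ _ hs (kron_psd hc)
  have e2 : Ln R (Wᴴ * ((1 : Matrix p p ℂ) ⊗ₖ d)) ≤ s * r := by
    rw [← hWn]; exact Ln_mul_le hRpsd Wᴴ _ hs (kron_psd' hd)
  have e3 : Ln R ((a ⊗ₖ (1 : Matrix n n ℂ)) * Wᴴ) ≤ sa * r := by
    rw [Ln_mul_iso _ _ _ hW]
    have := Ln_mul_le hRpsd (1 : Matrix (m × n) (m × n) ℂ) (a ⊗ₖ (1 : Matrix n n ℂ)) hsa
      (kron_psd ha)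
    rwa [Matrix.one_mul, hR1] at this
  rw [h0, G, Matrix.mul_sub, Matrix.mul_smul, Matrix.mul_smul]
  refine (Ln_sub hRpsd _ _).trans ?_
  have e4 := Ln_sub hRpsd ((hA : ℂ) • (Wᴴ * (c ⊗ₖ (1 : Matrix q q ℂ))))
    ((hB : ℂ) • (Wᴴ * ((1 : Matrix p p ℂ) ⊗ₖ d)))
  rw [Ln_smul, Ln_smul, Complex.norm_real, Complex.norm_real, Real.norm_eq_abs,
    Real.norm_eq_abs] at e4
  have e5 : |hA| * Ln R (Wᴴ * (c ⊗ₖ (1 : Matrix q q ℂ))) ≤ |hA| * (s * r) :=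
    mul_le_mul_of_nonneg_left e1 (abs_nonneg _)
  have e6 : |hB| * Ln R (Wᴴ * ((1 : Matrix p p ℂ) ⊗ₖ d)) ≤ |hB| * (s * r) :=
    mul_le_mul_of_nonneg_left e2 (abs_nonneg _)
  calc _ ≤ |hA| * (s * r) + |hB| * (s * r) + sa * r := by linarith
    _ = _ := by ring

end edge

/-! ### The three error terms -/

section terms

variable {A : Matrix m m ℂ} {B : Matrix n n ℂ} (W : Matrix (p × q) (m × n) ℂ)
  (a : Matrix m m ℂ) (c : Matrix p p ℂ) (d : Matrix q q ℂ) (hA hB : ℝ)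

/-- the boundary error `Err_A(Y) = Tr_B [(1 ⊗ B) G (Y ⊗ 1) W]` -/
noncomputable def Err (B : Matrix n n ℂ) (Y : Matrix p p ℂ) : Matrix m m ℂ :=
  Ex B (G W a c d hA hB * (Y ⊗ₖ (1 : Matrix q q ℂ)) * W)

/-- **(e2)** `Ln A (Err K) ≤ κ Ln (A ⊗ B) G` for `K Kᴴ ≤ κ²`. -/
theorem Ln_Err_le (hAp : A.PosSemidef) (hBp : B.PosSemidef) (htB : trace B = 1)
    (hW : Wᴴ * W = 1) {K : Matrix p p ℂ} {κ : ℝ} (hκ : 0 ≤ κ)
    (hK : (((κ ^ 2 : ℝ) : ℂ) • (1 : Matrix p p ℂ) - K * Kᴴ).PosSemidef) :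
    Ln A (Err W a c d hA hB B K) ≤ κ * Ln (A ⊗ₖ B) (G W a c d hA hB) := by
  have hAB : (A ⊗ₖ B).PosSemidef := hAp.kronecker hBp
  have h1 : Ln A (Err W a c d hA hB B K) ≤
      Ln (A ⊗ₖ B) (G W a c d hA hB * (K ⊗ₖ (1 : Matrix q q ℂ)) * W) :=
    Real.sqrt_le_sqrt (E_contr hAp hBp htB _)
  exact h1.trans ((Ln_mul_iso_le hAB _ W hW).trans (Ln_mul_le hAB _ _ hκ (kron_psd hK)))

/-- `Tr A Err(Y) = Tr (A ⊗ B) G (Y ⊗ 1) W` -/
theorem trace_A_Err (A : Matrix m m ℂ) (B : Matrix n n ℂ) (Y : Matrix p p ℂ) :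
    trace (A * Err W a c d hA hB B Y) =
      trace ((A ⊗ₖ B) * (G W a c d hA hB * ((Y ⊗ₖ (1 : Matrix q q ℂ)) * W))) := by
  have h := trace_Ex A 1 B (G W a c d hA hB * (Y ⊗ₖ (1 : Matrix q q ℂ)) * W)
  rw [Matrix.mul_one, Matrix.one_kronecker_one, Matrix.mul_one] at h
  rw [Err, h, Matrix.mul_assoc (G W a c d hA hB)]

/-- **(e4), abstract form**: `|Tr A Err(Yᴴ)| ≤ Ln ρ G · √(Tr C Y Yᴴ)`, with
`Tr C M = Tr ρ Wᴴ (M ⊗ 1) W`. -/
theorem norm_trace_A_Err_le (hAp : A.PosSemidef) (hBp : B.PosSemidef) {C : Matrix p p ℂ}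
    (hC : ∀ M : Matrix p p ℂ, trace (C * M) =
      trace ((A ⊗ₖ B) * (Wᴴ * (M ⊗ₖ (1 : Matrix q q ℂ)) * W))) (Y : Matrix p p ℂ) :
    ‖trace (A * Err W a c d hA hB B Yᴴ)‖ ≤ Ln (A ⊗ₖ B) (G W a c d hA hB) * Ln C Y := by
  have hAB : (A ⊗ₖ B).PosSemidef := hAp.kronecker hBp
  have h1 := Ln_cs hAB (G W a c d hA hB) (Wᴴ * (Y ⊗ₖ (1 : Matrix q q ℂ)))
  have h2 : (Wᴴ * (Y ⊗ₖ (1 : Matrix q q ℂ)))ᴴ = (Yᴴ ⊗ₖ (1 : Matrix q q ℂ)) * W := by
    rw [conjTranspose_mul, conjTranspose_conjTranspose, Matrix.conjTranspose_kronecker,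
      Matrix.conjTranspose_one]
  have h3 : Ln (A ⊗ₖ B) (Wᴴ * (Y ⊗ₖ (1 : Matrix q q ℂ))) = Ln C Y := by
    rw [Ln, Ln, Lf, Lf, hC, h2]
    congr 4
    have : (Y * Yᴴ) ⊗ₖ (1 : Matrix q q ℂ) = (Y ⊗ₖ (1 : Matrix q q ℂ)) * (Yᴴ ⊗ₖ (1 : Matrix q q ℂ)) := by
      rw [← Matrix.mul_kronecker_mul, Matrix.mul_one]
    rw [this]
    simp only [Matrix.mul_assoc]
  rw [trace_A_Err, ← h2, ← h3]
  exact h1

/-- **(e3)** third error term. `w = (N+1) a A - N A a - ⟨a⟩ A`. -/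
theorem norm_trace_Err_w_le (hAp : A.PosSemidef) (htA : trace A = 1) {Q E : Matrix m m ℂ}
    (hQH : Qᴴ = Q) (hQa : Q * a = 0) (hQE : Q * E = E) {N : ℝ} (hN : 0 ≤ N) :
    ‖trace (Eᴴ * (((N + 1 : ℝ) : ℂ) • (a * A) - ((N : ℝ) : ℂ) • (A * a) - (trace (A * a)) • A))‖ ≤
      (N + 1) * (Ln A a * Ln A E) := by
  have h0 : Eᴴ * a = 0 := by
    rw [← hQE, conjTranspose_mul, hQH, Matrix.mul_assoc, hQa, Matrix.mul_zero]
  have h1 : trace (Eᴴ * (((N + 1 : ℝ) : ℂ) • (a * A) - ((N : ℝ) : ℂ) • (A * a)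
      - (trace (A * a)) • A)) = -(((N : ℝ) : ℂ) * trace (A * (a * Eᴴ)))
        - trace (A * a) * trace (A * (1 * Eᴴ)) := by
    rw [Matrix.mul_sub, Matrix.mul_sub, Matrix.mul_smul, Matrix.mul_smul, Matrix.mul_smul,
      ← Matrix.mul_assoc Eᴴ a, h0, Matrix.zero_mul, smul_zero, zero_sub, trace_sub, trace_neg,
      trace_smul, trace_smul, smul_eq_mul, smul_eq_mul, Matrix.one_mul,
      Matrix.trace_mul_comm Eᴴ A, Matrix.trace_mul_comm Eᴴ (A * a), Matrix.mul_assoc A a]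
  have h2 : ‖trace (A * (a * Eᴴ))‖ ≤ Ln A a * Ln A E := Ln_cs hAp a E
  have h3 : ‖trace (A * (1 * Eᴴ))‖ ≤ Ln A E := by
    have := Ln_cs hAp 1 E
    rw [Ln_one htA] at this
    simpa using this
  have h4 : ‖trace (A * a)‖ ≤ Ln A a := by
    have := Ln_cs hAp a 1
    rwa [Ln_one htA, mul_one, conjTranspose_one, Matrix.mul_one] at this
  rw [h1]
  refine (norm_sub_le _ _).trans ?_
  rw [norm_neg, norm_mul, norm_mul, Complex.norm_real, Real.norm_eq_abs, abs_of_nonneg hN]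
  have h5 : N * ‖trace (A * (a * Eᴴ))‖ ≤ N * (Ln A a * Ln A E) := mul_le_mul_of_nonneg_left h2 hN
  have h6 : ‖trace (A * a)‖ * ‖trace (A * (1 * Eᴴ))‖ ≤ Ln A a * Ln A E :=
    mul_le_mul h4 h3 (norm_nonneg _) (Ln_nonneg _ _)
  linarith

/-- the norm of `G_Q = K c - c K + b c` in the state `Q` -/
theorem Ln_GQ_le {Q K : Matrix p p ℂ} (hQ : Q.PosSemidef) {κ b : ℝ} (hκ : 0 ≤ κ) (hb : 0 ≤ b)
    (hK1 : (((κ ^ 2 : ℝ) : ℂ) • (1 : Matrix p p ℂ) - K * Kᴴ).PosSemidef)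
    (hK2 : (((κ ^ 2 : ℝ) : ℂ) • Q - Kᴴ * Q * K).PosSemidef) (c : Matrix p p ℂ) :
    Ln Q (K * c - c * K + (b : ℂ) • c) ≤ (2 * κ + b) * Ln Q c := by
  have h1 := Ln_add hQ (K * c - c * K) ((b : ℂ) • c)
  have h2 := Ln_sub hQ (K * c) (c * K)
  have h3 := Ln_left hQ c hκ hK2
  have h4 := Ln_mul_le hQ c K hκ hK1
  rw [Ln_smul, Complex.norm_real, Real.norm_eq_abs, abs_of_nonneg hb] at h1
  linarith

/-- `Ln 1` of a multiple of the identity -/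
theorem Ln_one_smul_one (z : ℂ) :
    Ln (1 : Matrix p p ℂ) (z • (1 : Matrix p p ℂ)) = ‖z‖ * √(Fintype.card p) := by
  rw [Ln_smul, Ln, Lf, conjTranspose_one, Matrix.mul_one, Matrix.mul_one, Matrix.trace_one]
  simp

/-- **(e5)** first error term: `|⟨G_Q^c, c - m⟩| ≤ (2κ+b) (‖c‖_F + |m| √D)²`. -/
theorem norm_first_le {K : Matrix p p ℂ} {κ b : ℝ} (hκ : 0 ≤ κ) (hb : 0 ≤ b) (hKH : Kᴴ = K)
    (hK1 : (((κ ^ 2 : ℝ) : ℂ) • (1 : Matrix p p ℂ) - K * Kᴴ).PosSemidef)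
    (c : Matrix p p ℂ) (m : ℂ) :
    ‖trace ((K * c - c * K + (b : ℂ) • c - ((b : ℂ) * m) • (1 : Matrix p p ℂ))ᴴ *
        (c - m • (1 : Matrix p p ℂ)))‖ ≤
      (2 * κ + b) * (Ln 1 c + ‖m‖ * √(Fintype.card p)) ^ 2 := by
  have h1p : (1 : Matrix p p ℂ).PosSemidef := Matrix.PosSemidef.one
  have hK2 : (((κ ^ 2 : ℝ) : ℂ) • (1 : Matrix p p ℂ) - Kᴴ * 1 * K).PosSemidef := by
    rw [Matrix.mul_one]
    rw [hKH] at hK1 ⊢
    exact hK1
  set G := K * c - c * K + (b : ℂ) • c with hG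
  have hGQ : Ln 1 G ≤ (2 * κ + b) * Ln 1 c := Ln_GQ_le h1p hκ hb hK1 hK2 c
  have e1 := Ln_sub h1p G (((b : ℂ) * m) • (1 : Matrix p p ℂ))
  have e2 := Ln_sub h1p c (m • (1 : Matrix p p ℂ))
  rw [Ln_one_smul_one] at e1 e2
  rw [norm_mul, Complex.norm_real, Real.norm_eq_abs, abs_of_nonneg hb] at e1
  have e3 := Ln_cs h1p (c - m • (1 : Matrix p p ℂ)) (G - ((b : ℂ) * m) • (1 : Matrix p p ℂ))
  rw [Matrix.one_mul, Matrix.trace_mul_comm] at e3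
  refine e3.trans ?_
  set F := Ln (1 : Matrix p p ℂ) c
  set v := ‖m‖ * √(Fintype.card p) with hv
  have hF : 0 ≤ F := Ln_nonneg _ _
  have hv0 : 0 ≤ v := mul_nonneg (norm_nonneg _) (Real.sqrt_nonneg _)
  have e4 : Ln 1 (G - ((b : ℂ) * m) • (1 : Matrix p p ℂ)) ≤ (2 * κ + b) * (F + v) := by
    have : b * ‖m‖ * √(Fintype.card p) = b * v := by rw [hv]; ring
    rw [this] at e1
    nlinarith
  calc _ ≤ (F + v) * ((2 * κ + b) * (F + v)) :=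
        mul_le_mul e2 e4 (Ln_nonneg _ _) (add_nonneg hF hv0)
    _ = _ := by ring

end terms

/-! ### Diagonal representation of `Q` and `K_Q` -/

/-- hypotheses `hK1`, `hK2` from a common unitary diagonalisation. -/
theorem diag_bounds {U : Matrix p p ℂ} (hU : Uᴴ * U = 1) {r k : p → ℝ} {κ : ℝ}
    (hr : ∀ i, 0 ≤ r i) (hk : ∀ i, |k i| ≤ κ) :
    (((κ ^ 2 : ℝ) : ℂ) • (1 : Matrix p p ℂ) -
      (U * diagonal (fun i => (k i : ℂ)) * Uᴴ) * (U * diagonal (fun i => (k i : ℂ)) * Uᴴ)ᴴ).PosSemidef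
    ∧ (((κ ^ 2 : ℝ) : ℂ) • (U * diagonal (fun i => (r i : ℂ)) * Uᴴ) -
      (U * diagonal (fun i => (k i : ℂ)) * Uᴴ)ᴴ * (U * diagonal (fun i => (r i : ℂ)) * Uᴴ) *
        (U * diagonal (fun i => (k i : ℂ)) * Uᴴ)).PosSemidef := by
  have hU' : U * Uᴴ = 1 := mul_eq_one_comm.mp hU
  have hd : (diagonal (fun i => (k i : ℂ)))ᴴ = diagonal (fun i => (k i : ℂ)) := by
    rw [diagonal_conjTranspose]
    congr 1
    ext i
    simp
  have hkH : (U * diagonal (fun i => (k i : ℂ)) * Uᴴ)ᴴ = U * diagonal (fun i => (k i : ℂ)) * Uᴴ := by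
    rw [conjTranspose_mul, conjTranspose_mul, conjTranspose_conjTranspose, hd, Matrix.mul_assoc]
  have hk2 : ∀ i, k i ^ 2 ≤ κ ^ 2 := fun i => by
    rw [← sq_abs (k i)]
    exact pow_le_pow_left₀ (abs_nonneg _) (hk i) 2
  constructor
  · have : (((κ ^ 2 : ℝ) : ℂ) • (1 : Matrix p p ℂ) -
      (U * diagonal (fun i => (k i : ℂ)) * Uᴴ) * (U * diagonal (fun i => (k i : ℂ)) * Uᴴ)ᴴ) =
      U * diagonal (fun i => ((κ ^ 2 - k i ^ 2 : ℝ) : ℂ)) * Uᴴ := by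
      rw [hkH]
      have e1 : (U * diagonal (fun i => (k i : ℂ)) * Uᴴ) * (U * diagonal (fun i => (k i : ℂ)) * Uᴴ) =
          U * diagonal (fun i => ((k i ^ 2 : ℝ) : ℂ)) * Uᴴ := by
        have : (U * diagonal (fun i => (k i : ℂ)) * Uᴴ) * (U * diagonal (fun i => (k i : ℂ)) * Uᴴ)
            = U * (diagonal (fun i => (k i : ℂ)) * (Uᴴ * U) * diagonal (fun i => (k i : ℂ))) * Uᴴ := by
          simp only [Matrix.mul_assoc]
        rw [this, hU, Matrix.mul_one, diagonal_mul_diagonal]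
        congr 3
        ext i
        push_cast
        ring
      have e2 : ((κ ^ 2 : ℝ) : ℂ) • (1 : Matrix p p ℂ) =
          U * diagonal (fun _ => ((κ ^ 2 : ℝ) : ℂ)) * Uᴴ := by
        have : diagonal (fun _ : p => ((κ ^ 2 : ℝ) : ℂ)) = ((κ ^ 2 : ℝ) : ℂ) • (1 : Matrix p p ℂ) := by
          rw [smul_one_eq_diagonal]
        rw [this, Matrix.mul_smul, Matrix.smul_mul, Matrix.mul_one, hU']
      rw [e1, e2, ← Matrix.sub_mul, ← Matrix.mul_sub]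
      congr 2
      rw [diagonal_sub]
      congr 1
      ext i
      push_cast
      ring
    rw [this]
    refine Matrix.PosSemidef.mul_mul_conjTranspose_same ?_ U
    rw [Matrix.posSemidef_diagonal_iff]
    intro i
    rw [Complex.zero_le_real]
    linarith [hk2 i]
  · have : (((κ ^ 2 : ℝ) : ℂ) • (U * diagonal (fun i => (r i : ℂ)) * Uᴴ) -
      (U * diagonal (fun i => (k i : ℂ)) * Uᴴ)ᴴ * (U * diagonal (fun i => (r i : ℂ)) * Uᴴ) *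
        (U * diagonal (fun i => (k i : ℂ)) * Uᴴ)) =
      U * diagonal (fun i => ((r i * (κ ^ 2 - k i ^ 2) : ℝ) : ℂ)) * Uᴴ := by
      rw [hkH]
      have e1 : (U * diagonal (fun i => (k i : ℂ)) * Uᴴ) * (U * diagonal (fun i => (r i : ℂ)) * Uᴴ) *
          (U * diagonal (fun i => (k i : ℂ)) * Uᴴ) =
          U * diagonal (fun i => ((r i * k i ^ 2 : ℝ) : ℂ)) * Uᴴ := by
        have : (U * diagonal (fun i => (k i : ℂ)) * Uᴴ) * (U * diagonal (fun i => (r i : ℂ)) * Uᴴ) *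
          (U * diagonal (fun i => (k i : ℂ)) * Uᴴ)
            = U * (diagonal (fun i => (k i : ℂ)) * (Uᴴ * U) * diagonal (fun i => (r i : ℂ)) *
              (Uᴴ * U) * diagonal (fun i => (k i : ℂ))) * Uᴴ := by
          simp only [Matrix.mul_assoc]
        rw [this, hU, Matrix.mul_one, Matrix.mul_one, diagonal_mul_diagonal, diagonal_mul_diagonal]
        congr 3
        ext i
        push_cast
        ring
      have e2 : ((κ ^ 2 : ℝ) : ℂ) • (U * diagonal (fun i => (r i : ℂ)) * Uᴴ) =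
          U * diagonal (fun i => ((κ ^ 2 * r i : ℝ) : ℂ)) * Uᴴ := by
        rw [← Matrix.smul_mul, ← Matrix.mul_smul]
        congr 2
        ext i j
        simp only [Matrix.smul_apply, diagonal_apply, smul_eq_mul]
        split_ifs
        · push_cast; ring
        · simp
      rw [e1, e2, ← Matrix.sub_mul, ← Matrix.mul_sub]
      congr 2
      rw [diagonal_sub]
      congr 1
      ext i
      push_cast
      ring
    rw [this]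
    refine Matrix.PosSemidef.mul_mul_conjTranspose_same ?_ U
    rw [Matrix.posSemidef_diagonal_iff]
    intro i
    rw [Complex.zero_le_real]
    exact mul_nonneg (hr i) (by linarith [hk2 i])

end Crest.Agent.R331.FErr8
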