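import Crest.Agent.R331.NetDefs_835
import Crest.Agent.R331.Duh_839

/-! # Row 331 (EPnI): scalar functions of the operator inequality

`u t = t / (e^t - 1)` (`NetDefs835.u`), `H b t = (b u(t) - t u(b)) / (b - t)`,
`al b t = (u(-b) - u(-t)) / (b - t)` (both with the correct values at `t = b`), and the dictionary
with `LMe x y = (e^x - e^y)/(x - y)`: `u (x - y) * LMe x y = e^y`, `u (y - x) * LMe x y = e^x`. -/

set_option autoImplicit false

namespace Crest.Agent.R331.FOpiDefs712

open NetDefs835 (u)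
open Duh839 (LMe)

/-! ### the function `u` -/

lemma u_zero : u 0 = 1 := by simp [u]

lemma u_of_ne {t : ℝ} (h : t ≠ 0) : u t = t / (Real.exp t - 1) := by simp [u, h]

lemma exp_sub_one_ne {t : ℝ} (h : t ≠ 0) : Real.exp t - 1 ≠ 0 := by
  intro h1
  exact h (by simpa using (Real.exp_eq_one_iff t).1 (by linarith))

lemma u_pos (t : ℝ) : 0 < u t := by
  rcases lt_trichotomy t 0 with h | h | h
  · rw [u_of_ne h.ne]
    have : Real.exp t < 1 := Real.exp_lt_one_iff.2 h
    exact div_pos_of_neg_of_neg h (by linarith)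
  · subst h; rw [u_zero]; norm_num
  · rw [u_of_ne h.ne']
    have : 1 < Real.exp t := Real.one_lt_exp_iff.2 h
    exact div_pos h (by linarith)

/-- `u (-t) = e^t u t` -/
lemma u_neg_eq (t : ℝ) : u (-t) = Real.exp t * u t := by
  by_cases h : t = 0
  · subst h; simp [u]
  · have h1 := exp_sub_one_ne h
    have h2 := exp_sub_one_ne (neg_ne_zero.2 h)
    rw [u_of_ne h, u_of_ne (neg_ne_zero.2 h)]
    have h3 : Real.exp t * Real.exp (-t) = 1 := by rw [← Real.exp_add]; simp
    field_simp
    linear_combination -h3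

/-- `u (-t) = u t + t` -/
lemma u_neg_add (t : ℝ) : u (-t) = u t + t := by
  rw [u_neg_eq]
  by_cases h : t = 0
  · subst h; simp [u]
  · have h1 := exp_sub_one_ne h
    rw [u_of_ne h]
    field_simp
    ring

lemma u_le_one {t : ℝ} (h : 0 ≤ t) : u t ≤ 1 := by
  rcases h.eq_or_lt with h | h
  · subst h; rw [u_zero]
  · have h1 : 0 < Real.exp t - 1 := by linarith [Real.add_one_le_exp t]
    rw [u_of_ne h.ne', div_le_one h1]
    linarith [Real.add_one_le_exp t]

lemma one_le_u_neg {t : ℝ} (h : 0 ≤ t) : 1 ≤ u (-t) := by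
  rcases h.eq_or_lt with h | h
  · subst h; simp [u]
  · have h1 : 0 < Real.exp t - 1 := by linarith [Real.add_one_le_exp t]
    rw [u_neg_eq, u_of_ne h.ne', mul_div_assoc', one_le_div h1]
    have h2 : 1 - t ≤ Real.exp (-t) := by linarith [Real.add_one_le_exp (-t)]
    have h3 : Real.exp t * Real.exp (-t) = 1 := by rw [← Real.exp_add]; simp
    nlinarith [Real.exp_pos t]

lemma sigma_le (t : ℝ) : u t + u (-t) ≤ 2 + |t| := by
  rcases le_total 0 t with h | h
  · rw [abs_of_nonneg h, u_neg_add]; linarith [u_le_one h]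
  · have h1 := u_neg_add (-t)
    rw [neg_neg] at h1
    rw [abs_of_nonpos h, h1]
    linarith [u_le_one (neg_nonneg.2 h)]

lemma one_le_sigma (t : ℝ) : 1 ≤ u t + u (-t) := by
  rcases le_total 0 t with h | h
  · linarith [one_le_u_neg h, u_pos t]
  · have := one_le_u_neg (neg_nonneg.2 h)
    rw [neg_neg] at this
    linarith [u_pos (-t)]

/-! ### `H` and `al` -/

/-- `H b t = (b u(t) - t u(b)) / (b - t)`, the logarithmic mean of `u(b)u(-t)` and `u(-b)u(t)` -/
noncomputable def H (b t : ℝ) : ℝ :=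
  if t = b then u b * u (-b) else (b * u t - t * u b) / (b - t)

/-- optimal potential: `al b t = (u(-b) - u(-t)) / (b - t)` -/
noncomputable def al (b t : ℝ) : ℝ :=
  if t = b then u (-b) * (1 - u b) / b else (u (-b) - u (-t)) / (b - t)

/-- total current: `H = al u(t) + (1 - al) u(-t)` -/
lemma H_eq {b : ℝ} (hb : b ≠ 0) (t : ℝ) : H b t = al b t * u t + (1 - al b t) * u (-t) := by
  unfold H al
  by_cases h : t = b
  · subst h
    rw [if_pos rfl, if_pos rfl]
    have e := u_neg_add t
    field_simp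
    rw [e]
    ring
  · rw [if_neg h, if_neg h]
    have h1 : b - t ≠ 0 := sub_ne_zero.2 (Ne.symm h)
    field_simp
    rw [u_neg_add t, u_neg_add b]
    ring

/-- `H b t * (b - t) = b u(t) - t u(b)` for all `t` -/
lemma H_mul {b : ℝ} (t : ℝ) : H b t * (b - t) = b * u t - t * u b := by
  unfold H
  by_cases h : t = b
  · subst h; rw [if_pos rfl]; ring
  · rw [if_neg h]
    have h1 : b - t ≠ 0 := sub_ne_zero.2 (Ne.symm h)
    field_simp

/-! ### dictionary with the logarithmic mean -/

lemma u_mul_LMe (x y : ℝ) : u (x - y) * LMe x y = Real.exp y := by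
  unfold LMe
  by_cases h : x = y
  · subst h; simp [u]
  · have h1 : x - y ≠ 0 := sub_ne_zero.2 h
    have h2 := exp_sub_one_ne h1
    rw [if_neg h, u_of_ne h1]
    have h3 : Real.exp x = Real.exp y * Real.exp (x - y) := by
      rw [← Real.exp_add]; congr 1; ring
    rw [h3]
    field_simp

lemma u_neg_mul_LMe (x y : ℝ) : u (-(x - y)) * LMe x y = Real.exp x := by
  have h := u_mul_LMe y x
  rw [Duh839.LMe_symm y x] at h
  rw [neg_sub]
  exact h

end Crest.Agent.R331.FOpiDefs712
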