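import Crest.Agent.R331.FGap_633
import Crest.Agent.R331.FCovB_76
import Crest.Agent.R331.FDefs_136
import Crest.Agent.R331.FOpiDefs_712

/-!
Row 331 (EPnI), finite-matrix track, leaf FGAP (helper633): `FDefs136.FGAP` by name, from
`FW`, `FMINpos`, `FMINel`, `FOPI`.
-/

set_option autoImplicit false
set_option linter.unusedSectionVars false

namespace Crest.Agent.R331.FGapInst633

open Matrix Crest.Quantum Crest.Agent.R331.FDefs136
open Crest.Agent.R331.FGap633 (HForm ww gg rp)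
open scoped Kronecker ComplexOrder BigOperators

noncomputable section

/-! ### scalars -/

theorem bN_pos {N : ℝ} (hN : 0 < N) : 0 < bN N := by
  unfold bN
  apply Real.log_pos
  have : 0 < 1 / N := by positivity
  linarith

theorem u_of_ne {t : ℝ} (h : t ≠ 0) : u t = t / (Real.exp t - 1) := FOpiDefs712.u_of_ne h

theorem u_bN {N : ℝ} (hN : 0 < N) : u (bN N) = bN N * N := by
  have hb := bN_pos hN
  rw [u_of_ne hb.ne']
  have h1 : Real.exp (bN N) - 1 = 1 / N := by
    rw [bN, Real.exp_log (by positivity)]; ring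
  rw [h1]
  field_simp

theorem H_mul (b t : ℝ) : H b t * (b - t) = b * u t - t * u b := FOpiDefs712.H_mul t

theorem H_nonneg {b : ℝ} (hb : 0 < b) (t : ℝ) : 0 ≤ H b t := by
  have hub : 0 < u b := FOpiDefs712.u_pos b
  have hut : 0 < u t := FOpiDefs712.u_pos t
  unfold H
  split_ifs with h
  · exact mul_nonneg hub.le (FOpiDefs712.u_pos (-b)).le
  · have hdiff : 0 < t → b * u t - t * u b =
        b * t * (1 / (Real.exp t - 1) - 1 / (Real.exp b - 1)) := by
      intro ht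
      rw [u_of_ne hb.ne', u_of_ne ht.ne']
      ring
    rcases lt_or_gt_of_ne h with h1 | h1
    · refine div_nonneg ?_ (by linarith)
      rcases le_or_gt t 0 with h2 | h2
      · have : 0 ≤ b * u t := by positivity
        have : t * u b ≤ 0 := mul_nonpos_of_nonpos_of_nonneg h2 hub.le
        linarith
      · rw [hdiff h2]
        have e1 : 0 < Real.exp t - 1 := by linarith [Real.add_one_le_exp t]
        have e2 : Real.exp t ≤ Real.exp b := Real.exp_le_exp.2 h1.le
        have e3 : 1 / (Real.exp b - 1) ≤ 1 / (Real.exp t - 1) :=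
          one_div_le_one_div_of_le e1 (by linarith)
        exact mul_nonneg (by positivity) (by linarith)
    · have h2 : 0 < t := hb.trans h1
      refine div_nonneg_of_nonpos ?_ (by linarith)
      rw [hdiff h2]
      have e1 : 0 < Real.exp b - 1 := by linarith [Real.add_one_le_exp b]
      have e2 : Real.exp b ≤ Real.exp t := Real.exp_le_exp.2 h1.le
      have e3 : 1 / (Real.exp t - 1) ≤ 1 / (Real.exp b - 1) :=
        one_div_le_one_div_of_le e1 (by linarith)
      exact mul_nonpos_of_nonneg_of_nonpos (by positivity) (by linarith)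

theorem LM_eq {x y : ℝ} (hx : 0 < x) (hy : 0 < y) :
    LM x y = Duh839.LMe (Real.log x) (Real.log y) := by
  unfold LM Duh839.LMe
  by_cases h : x = y
  · subst h; simp [Real.exp_log hx]
  · rw [if_neg h, if_neg (fun h' => h (Real.log_injOn_pos hx hy h')), Real.exp_log hx,
      Real.exp_log hy]

theorem LM_nonneg {x y : ℝ} (hx : 0 < x) (hy : 0 < y) : 0 ≤ LM x y := by
  rw [LM_eq hx hy]; exact (Duh839.LMe_pos _ _).le

theorem u_mul_LM {x y : ℝ} (hx : 0 < x) (hy : 0 < y) :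
    u (Real.log x - Real.log y) * LM x y = y := by
  rw [LM_eq hx hy, FOpiDefs712.u_mul_LMe, Real.exp_log hy]

theorem log_mul_LM {x y : ℝ} (hx : 0 < x) (hy : 0 < y) :
    (Real.log x - Real.log y) * LM x y = x - y := by
  unfold LM
  by_cases h : x = y
  · subst h; simp
  · have h1 : Real.log x - Real.log y ≠ 0 :=
      sub_ne_zero.2 (fun h' => h (Real.log_injOn_pos hx hy h'))
    rw [if_neg h]
    field_simp

/-! ### spectral data -/

section spec
variable {ι : Type*} [Fintype ι] [DecidableEq ι]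

theorem eU {X : Matrix ι ι ℂ} (h : X.IsHermitian) :
    (h.eigenvectorUnitary : Matrix ι ι ℂ)ᴴ * (h.eigenvectorUnitary : Matrix ι ι ℂ) = 1 := by
  have := (Matrix.mem_unitaryGroup_iff').1 h.eigenvectorUnitary.2
  rwa [Matrix.star_eq_conjTranspose] at this

theorem eX {X : Matrix ι ι ℂ} (h : X.IsHermitian) :
    X = (h.eigenvectorUnitary : Matrix ι ι ℂ) * diagonal (fun i => ((h.eigenvalues i : ℝ) : ℂ)) *
      (h.eigenvectorUnitary : Matrix ι ι ℂ)ᴴ := by
  conv_lhs => rw [h.spectral_theorem]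
  rw [Unitary.conjStarAlgAut_apply, Matrix.star_eq_conjTranspose]
  rfl

theorem eK {X : Matrix ι ι ℂ} (h : X.IsHermitian) :
    KL X = (h.eigenvectorUnitary : Matrix ι ι ℂ) *
      diagonal (fun i => ((-Real.log (h.eigenvalues i) : ℝ) : ℂ)) *
      (h.eigenvectorUnitary : Matrix ι ι ℂ)ᴴ := by
  rw [KL, mlog, dif_pos h, ← Matrix.neg_mul, ← Matrix.mul_neg, Matrix.diagonal_neg]
  congr 3
  ext i
  push_cast
  rfl

/-- the `H`-form of a positive definite matrix -/
def hform {N : ℝ} (hN : 0 < N) {X : Matrix ι ι ℂ} (hX : X.PosDef) : HForm N (bN N) (KL X) X :=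
  HForm.ofSpec (eU hX.1) hX.1.eigenvalues (fun i => -Real.log (hX.1.eigenvalues i)) (eX hX.1)
    (eK hX.1)
    (fun i j => H (bN N) (Real.log (hX.1.eigenvalues i) - Real.log (hX.1.eigenvalues j)) *
      LM (hX.1.eigenvalues i) (hX.1.eigenvalues j))
    (fun i j => mul_nonneg (H_nonneg (bN_pos hN) _)
      (LM_nonneg (hX.eigenvalues_pos i) (hX.eigenvalues_pos j)))
    (fun i j => by
      have hi := hX.eigenvalues_pos i
      have hj := hX.eigenvalues_pos j
      have h1 := H_mul (bN N) (Real.log (hX.1.eigenvalues i) - Real.log (hX.1.eigenvalues j))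
      have h2 := u_mul_LM hi hj
      have h3 := log_mul_LM hi hj
      have h4 := u_bN hN
      linear_combination (LM (hX.1.eigenvalues i) (hX.1.eigenvalues j)) * h1 + bN N * h2
        - u (bN N) * h3 - (hX.1.eigenvalues i - hX.1.eigenvalues j) * h4)

theorem hform_H {N : ℝ} (hN : 0 < N) {X : Matrix ι ι ℂ} (hX : X.PosDef) (Y : Matrix ι ι ℂ) :
    (hform hN hX).H Y Y = formH (bN N) X Y := by
  have h : X.IsHermitian := hX.1
  rw [formH, qf, dif_pos h]
  show ∑ i, ∑ j, _ = ∑ i, ∑ j, _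
  refine Finset.sum_congr rfl fun i _ => Finset.sum_congr rfl fun j _ => ?_
  congr 1
  rw [eb, RCLike.star_def, mul_comm, Complex.mul_conj, Complex.ofReal_re, Complex.normSq_eq_norm_sq]

end spec

/-! ### boxes -/

theorem ann_comm_num {n K : ℕ} (j : Fin n) :
    ann n K j * num n K - num n K * ann n K j = ann n K j := by
  ext k l
  simp only [Matrix.sub_apply, num, Matrix.mul_diagonal, Matrix.diagonal_mul, ann, Matrix.of_apply]
  split_ifs with h
  · have h1 : (∑ i, (l i : ℕ)) = (∑ i, (k i : ℕ)) + 1 := by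
      rw [Finset.sum_congr rfl (fun i _ => h i), Finset.sum_add_distrib]
      simp
    rw [h1]
    push_cast
    ring
  · simp

section inst
variable {η : ℝ} {n K : ℕ} {j : Fin n}
  {S : FCov76.BS (Bx n K) (Bx n K) (Bx n (2 * K)) (Bx n (2 * K))}

theorem PA_inst (hS : IsBox (η := η) j S) (B : Matrix (Bx n K) (Bx n K) ℂ)
    (Y : Matrix (Bx n (2 * K)) (Bx n (2 * K)) ℂ) : S.PA B Y = PA η B Y := by
  rw [FCov76.BS.PA, FCov76.BS.heis, hS.ι, PA, heis]

theorem PB_inst (hS : IsBox (η := η) j S) (A : Matrix (Bx n K) (Bx n K) ℂ)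
    (Y : Matrix (Bx n (2 * K)) (Bx n (2 * K)) ℂ) : S.PB A Y = PB η A Y := by
  have h : S.swap.ι = (bsW η n K).submatrix id Prod.swap := by
    rw [← hS.ι]; rfl
  rw [FCov76.BS.PB, FCov76.BS.PA, FCov76.BS.heis, h, PB]

theorem out_inst (hS : IsBox (η := η) j S) (A B : Matrix (Bx n K) (Bx n K) ℂ) :
    S.out A B = outC η A B := by
  rw [FCov76.BS.out, FCov76.BS.Phi, hS.ι, outC]

theorem ErrA_inst (hS : IsBox (η := η) j S) (B : Matrix (Bx n K) (Bx n K) ℂ)
    (Y : Matrix (Bx n (2 * K)) (Bx n (2 * K)) ℂ) : S.ErrA B Y = ErrA η j B Y := by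
  have h := S.cov_A B Y
  rw [ErrA, ← hS.hA, ← hS.a, ← hS.c, ← PA_inst hS, ← PA_inst hS, h]
  abel

theorem ErrB_inst (hS : IsBox (η := η) j S) (A : Matrix (Bx n K) (Bx n K) ℂ)
    (Y : Matrix (Bx n (2 * K)) (Bx n (2 * K)) ℂ) : S.ErrB A Y = ErrB η j A Y := by
  have h := S.cov_B A Y
  rw [ErrB, ← hS.hB, ← hS.b, ← hS.c, ← PB_inst hS, ← PB_inst hS, h]
  abel

theorem ErrA_sub_smul_one (S : FCov76.BS (Bx n K) (Bx n K) (Bx n (2 * K)) (Bx n (2 * K)))
    (B : Matrix (Bx n K) (Bx n K) ℂ)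
    (Y : Matrix (Bx n (2 * K)) (Bx n (2 * K)) ℂ) (z : ℂ) :
    S.ErrA B (Y - z • (1 : Matrix _ _ ℂ)) = S.ErrA B Y := by
  have h1 := S.cov_A B Y
  have h2 := S.cov_A B (Y - z • (1 : Matrix _ _ ℂ))
  have h3 : S.c * (Y - z • (1 : Matrix _ _ ℂ)) - (Y - z • (1 : Matrix _ _ ℂ)) * S.c =
      S.c * Y - Y * S.c := by
    simp only [Matrix.mul_sub, Matrix.sub_mul, Matrix.mul_smul, Matrix.smul_mul, Matrix.mul_one,
      Matrix.one_mul]
    abel
  have h4 : S.a * S.PA B (Y - z • (1 : Matrix _ _ ℂ)) - S.PA B (Y - z • (1 : Matrix _ _ ℂ)) * S.a =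
      S.a * S.PA B Y - S.PA B Y * S.a := by
    rw [S.PA_sub, S.PA_smul, S.PA_one]
    simp only [Matrix.mul_sub, Matrix.sub_mul, Matrix.mul_smul, Matrix.smul_mul, Matrix.mul_one,
      Matrix.one_mul]
    abel
  rw [h3, h4, h1] at h2
  exact (sub_right_injective h2).symm

end inst

/-- **LEAF FGAP** -/
theorem fgap (hW : FW) (hpos : FMINpos) (hEL : FMINel) (hOPI : FOPI) : FGAP := by
  intro p n K ε j hε A B hmin
  obtain ⟨S, hS⟩ := hW p.η n K j p.η_pos p.η_lt
  obtain ⟨hAp, hBp⟩ := hpos p n K ε hε A B hmin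
  obtain ⟨⟨rA, hELA⟩, ⟨rB, hELB⟩⟩ := hEL p n K ε hε A B hmin
  have h1η : 0 < 1 - p.η := by linarith [p.η_lt]
  have hhA : S.hA ^ 2 = p.η := by rw [hS.hA, Real.sq_sqrt p.η_pos.le]
  have hhB : S.hB ^ 2 = 1 - p.η := by rw [hS.hB, Real.sq_sqrt h1η.le]
  have hA0 : S.hA ≠ 0 := by rw [hS.hA]; exact (Real.sqrt_pos.2 p.η_pos).ne'
  have hB0 : S.hB ≠ 0 := by rw [hS.hB]; exact (Real.sqrt_pos.2 h1η).ne'
  have hNC0 : 0 < p.NC := by
    have := p.NA_pos; have := p.NB_pos; have := p.η_pos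
    unfold Par.NC; positivity
  have hbA : 0 < p.bA := bN_pos p.NA_pos
  have hbB : 0 < p.bB := bN_pos p.NB_pos
  have hbC : 0 < p.bC := bN_pos hNC0
  have hQdef : outQ p.η ε A B = S.out A B + (ε : ℂ) • (1 : Matrix _ _ ℂ) := by
    rw [out_inst hS, outQ]
  have hQp : (outQ p.η ε A B).PosDef := by
    rw [hQdef, add_comm]
    refine Matrix.PosDef.add_posSemidef ?_ (S.out_posSemidef hmin.dA.1 hmin.dB.1)
    exact Matrix.PosDef.one.smul (by exact_mod_cast hε)
  have hc : FGap633.cen (S.out A B) S.c =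
      ann n (2 * K) j - mC p.η j A B • (1 : Matrix _ _ ℂ) := by
    rw [FGap633.cen, mC, hS.c, out_inst hS]
  have hGc : gg p.bC (KL (outQ p.η ε A B)) (FGap633.cen (S.out A B) S.c) = GQc p ε j A B := by
    rw [hc, GQc, GQ, GG, gg]
    simp only [Matrix.mul_sub, Matrix.sub_mul, Matrix.mul_smul, Matrix.smul_mul, Matrix.mul_one,
      Matrix.one_mul, smul_sub, smul_smul]
    abel
  have hOPI' := hOPI p n K ε hε A B hmin (GQc p ε j A B)
  have key := FGap633.gap' S hA0 hB0 (A := A) (B := B) hmin.dA.2 hmin.dB.2 hmin.dA.1.1 hmin.dB.1.1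
    (NA := p.NA) (NB := p.NB) (NC := p.NC) (bA := p.bA) (bB := p.bB) (bC := p.bC) (β' := p.β)
    (μ := p.μ) (lamA := p.lamA) (lamB := p.lamB) (ε := ε)
    (by rw [hhA, hhB]; rfl) hbC (KA := KL A) (nA := num n K) (KB := KL B) (nB := num n K)
    (KQ := KL (outQ p.η ε A B)) rfl
    (by rw [hhA, Par.lamA]; field_simp) (by rw [hhB, Par.lamB]; field_simp)
    (by rw [hS.a]; exact ann_comm_num j) (by rw [hS.b]; exact ann_comm_num j) rA rB
    (by rw [hELA, hhA, PA_inst hS]) (by rw [hELB, hhB, PB_inst hS])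
    (hform p.NA_pos hAp) (hform p.NB_pos hBp) hQdef (hform hNC0 hQp)
    (formD p.bC (outQ p.η ε A B) (GQc p ε j A B))
    (by
      rw [hGc, PA_inst hS, PB_inst hS, hform_H, hform_H, hform_H]
      exact hOPI')
  refine key.trans (le_of_eq ?_)
  have hE1 : S.ErrA B (GQc p ε j A B)ᴴ = ErrA p.η j B (GQ p ε j A B)ᴴ := by
    rw [GQc, conjTranspose_sub, conjTranspose_smul, conjTranspose_one, ErrA_sub_smul_one,
      ErrA_inst hS]
  have hE2 : S.ErrB A (GQc p ε j A B)ᴴ = ErrB p.η j A (GQ p ε j A B)ᴴ := by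
    rw [GQc, conjTranspose_sub, conjTranspose_smul, conjTranspose_one, FCov76.BS.ErrB,
      ErrA_sub_smul_one, ← FCov76.BS.ErrB, ErrB_inst hS]
  have hw : ∀ (N : ℝ) (X : Matrix (Bx n K) (Bx n K) ℂ),
      ww N X (FGap633.cen X (ann n K j)) = om N (mX j X) X (ann n K j) := by
    intro N X
    rw [ww, om, FGap633.cen, mX]
    push_cast
    rfl
  rw [hGc, hc, hE1, hE2, ErrA_inst hS, ErrB_inst hS, hS.a, hS.b, hw, hw, gapErr, rp, rp, rp, hS.hA,
    hS.hB, Par.hA, Par.hB]
  ring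

end

end Crest.Agent.R331.FGapInst633
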