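import Crest.Agent.R331.FCov_76

/-!
Row 331 (EPnI), finite-matrix track, leaf FGAP (helper633): the algebra
(EL) + (OPI with slack) + (COV) ⟹ (GAP), in the convention of helper136:
`Q = C + ε`, `lam_X b_X = h_X² β`, `β = b_C + μ`.
-/

set_option autoImplicit false
set_option linter.unusedSectionVars false

namespace Crest.Agent.R331.FGap633

open Matrix FCov76
open scoped Kronecker ComplexOrder BigOperators

noncomputable section

variable {α β γ δ : Type*} [Fintype α] [Fintype β] [Fintype γ] [Fintype δ]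
  [DecidableEq α] [DecidableEq β] [DecidableEq γ] [DecidableEq δ]

/-- `w = (N+1) y X - N X y` -/
def ww (N : ℝ) (X y : Matrix α α ℂ) : Matrix α α ℂ := ((N : ℂ) + 1) • (y * X) - (N : ℂ) • (X * y)

/-- `G = [K, y] + b y` -/
def gg (b : ℝ) (K y : Matrix α α ℂ) : Matrix α α ℂ := K * y - y * K + (b : ℂ) • y

/-- centred operator -/
def cen (X y : Matrix α α ℂ) : Matrix α α ℂ := y - (X * y).trace • (1 : Matrix α α ℂ)

/-- real part of the trace pairing -/
def rp (Y Z : Matrix α α ℂ) : ℝ := ((Yᴴ * Z).trace).re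

/-- A real positive quadratic form (real part of a sesquilinear form) compatible with the
modular data `(K, X, N, b)`. -/
structure HForm (N b : ℝ) (K X : Matrix α α ℂ) where
  H : Matrix α α ℂ → Matrix α α ℂ → ℝ
  sq : ∀ Y Z : Matrix α α ℂ, ∀ s : ℝ, 0 ≤ H Y Y - 2 * s * H Y Z + s ^ 2 * H Z Z
  key : ∀ Y y : Matrix α α ℂ, H Y (gg b K y) = b * rp Y (ww N X y)

theorem trace_ww_cen {N : ℝ} {X y : Matrix α α ℂ} (hX : X.trace = 1) :
    (ww N X (cen X y)).trace = 0 := by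
  unfold ww cen
  rw [trace_sub, trace_smul, trace_smul, Matrix.trace_mul_comm (y - _) X, Matrix.mul_sub,
    trace_sub, Matrix.mul_smul, Matrix.mul_one, trace_smul, hX]
  simp

theorem rp_sub_smul_one {N : ℝ} {X y : Matrix α α ℂ} (hX : X.trace = 1) (Y : Matrix α α ℂ) (z : ℂ) :
    rp (Y - z • (1 : Matrix α α ℂ)) (ww N X (cen X y)) = rp Y (ww N X (cen X y)) := by
  unfold rp
  rw [conjTranspose_sub, conjTranspose_smul, conjTranspose_one, Matrix.sub_mul, Matrix.smul_mul,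
    Matrix.one_mul, trace_sub, trace_smul, trace_ww_cen hX]
  simp

theorem rp_add (Y Z W : Matrix α α ℂ) : rp (Y + Z) W = rp Y W + rp Z W := by
  unfold rp; rw [conjTranspose_add, Matrix.add_mul, trace_add, Complex.add_re]

theorem rp_smul (s : ℝ) (Y W : Matrix α α ℂ) : rp ((s : ℂ) • Y) W = s * rp Y W := by
  unfold rp
  rw [conjTranspose_smul, Matrix.smul_mul, trace_smul]
  simp

theorem rp_neg (Y W : Matrix α α ℂ) : rp (-Y) W = - rp Y W := by
  unfold rp; rw [conjTranspose_neg, Matrix.neg_mul, trace_neg, Complex.neg_re]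

/-- lower bound for one input: if `P = s G^c - D^c` then
`H(P) ≥ s b (⟨P, w⟩ - ⟨D, w⟩)`. Here `G^c = gg b K (cen X x)`. -/
theorem one_input {N b : ℝ} {K X : Matrix α α ℂ} (F : HForm N b K X) (hX : X.trace = 1)
    (x P D : Matrix α α ℂ) (s : ℝ) (z : ℂ)
    (hP : P = (s : ℂ) • gg b K (cen X x) - D - z • (1 : Matrix α α ℂ)) :
    s * b * (rp P (ww N X (cen X x)) - rp D (ww N X (cen X x))) ≤ F.H P P := by
  have h := F.sq P (gg b K (cen X x)) s
  rw [F.key, F.key] at h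
  have h2 : s * rp (gg b K (cen X x)) (ww N X (cen X x)) =
      rp P (ww N X (cen X x)) + rp D (ww N X (cen X x)) := by
    have h3 : (s : ℂ) • gg b K (cen X x) = (P + D) - (-z) • (1 : Matrix α α ℂ) := by
      rw [hP, neg_smul]; abel
    have h4 := congrArg (fun M => rp M (ww N X (cen X x))) h3
    rw [rp_smul, rp_sub_smul_one hX, rp_add] at h4
    exact h4
  have h5 : s ^ 2 * (b * rp (gg b K (cen X x)) (ww N X (cen X x))) =
      s * b * (rp P (ww N X (cen X x)) + rp D (ww N X (cen X x))) := by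
    rw [← h2]; ring
  rw [h5] at h
  linarith

theorem ww_cen (N : ℝ) (X y : Matrix α α ℂ) :
    ww N X (cen X y) = cen X y * X - (N : ℂ) • (X * y - y * X) := by
  unfold ww cen
  simp only [Matrix.sub_mul, Matrix.mul_sub, Matrix.smul_mul, Matrix.mul_smul, Matrix.one_mul,
    Matrix.mul_one]
  module

theorem trace_mul_ww_cen (N : ℝ) (X y W : Matrix α α ℂ) :
    (W * ww N X (cen X y)).trace = (X * (W * y)).trace - (X * y).trace * (X * W).trace
      - (N : ℂ) * (W * (X * y - y * X)).trace := by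
  rw [ww_cen, Matrix.mul_sub, trace_sub, Matrix.mul_smul, trace_smul, smul_eq_mul]
  congr 1
  rw [cen, Matrix.sub_mul, Matrix.mul_sub, trace_sub, Matrix.smul_mul, Matrix.one_mul,
    Matrix.mul_smul, trace_smul, smul_eq_mul, ← Matrix.mul_assoc, Matrix.trace_mul_comm (W * y) X,
    Matrix.trace_mul_comm W X]

/-- the exact pairing identity -/
theorem pairing (S : BS α β γ δ) (hA0 : S.hA ≠ 0) (hB0 : S.hB ≠ 0) {A : Matrix α α ℂ}
    {B : Matrix β β ℂ} (htA : A.trace = 1) (htB : B.trace = 1) {NA NB NC : ℝ}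
    (hNC : NC = S.hA ^ 2 * NA + S.hB ^ 2 * NB) (W : Matrix γ γ ℂ) :
    (S.hA : ℂ) * (S.PA B W * ww NA A (cen A S.a)).trace
      + (S.hB : ℂ) * (S.PB A W * ww NB B (cen B S.b)).trace =
    (W * ww NC (S.out A B) (cen (S.out A B) S.c)).trace
      + ((S.hA : ℂ) ^ 2 * NA * (A * S.DA B W).trace + (S.hB : ℂ) ^ 2 * NB * (B * S.DB A W).trace) := by
  rw [trace_mul_ww_cen, trace_mul_ww_cen, trace_mul_ww_cen, S.trace_out_mul_c A B W,
    S.covariance_A hA0, S.covariance_B hB0, S.trace_A_PA, S.trace_B_PB, S.trace_out_c htA htB, hNC]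
  push_cast
  ring

theorem el_A (S : BS α β γ δ) (hA0 : S.hA ≠ 0) {A : Matrix α α ℂ}
    {B : Matrix β β ℂ} (htB : B.trace = 1) {bA bC β' μ lamA : ℝ}
    {KA nA : Matrix α α ℂ} {KQ : Matrix γ γ ℂ} (hβ : β' = bC + μ) (hlA : lamA * bA = S.hA ^ 2 * β')
    (hnA : S.a * nA - nA * S.a = S.a) (cA m : ℂ)
    (ELA : (lamA : ℂ) • KA = S.PA B KQ + ((μ * S.hA ^ 2 : ℝ) : ℂ) • nA + cA • (1 : Matrix α α ℂ)) :
    ∃ z : ℂ, S.PA B (gg bC KQ (S.c - m • (1 : Matrix γ γ ℂ))) =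
      ((lamA / S.hA : ℝ) : ℂ) • gg bA KA (cen A S.a) - S.DA B KQ - z • (1 : Matrix α α ℂ) := by
  have hA0' : (S.hA : ℂ) ≠ 0 := by exact_mod_cast hA0
  have e1 : gg bC KQ (S.c - m • (1 : Matrix γ γ ℂ)) =
      -(S.c * KQ - KQ * S.c) + (bC : ℂ) • S.c - ((bC : ℂ) * m) • (1 : Matrix γ γ ℂ) := by
    unfold gg
    simp only [Matrix.sub_mul, Matrix.mul_sub, Matrix.smul_mul, Matrix.mul_smul, Matrix.one_mul,
      Matrix.mul_one]
    module
  have e2 : S.PA B KQ = (lamA : ℂ) • KA - ((μ * S.hA ^ 2 : ℝ) : ℂ) • nA - cA • (1 : Matrix α α ℂ) := by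
    rw [ELA]; abel
  have e3 : S.a * S.PA B KQ - S.PA B KQ * S.a =
      (lamA : ℂ) • (S.a * KA - KA * S.a) - ((μ * S.hA ^ 2 : ℝ) : ℂ) • S.a := by
    rw [e2]
    have : ((μ * S.hA ^ 2 : ℝ) : ℂ) • S.a = ((μ * S.hA ^ 2 : ℝ) : ℂ) • (S.a * nA - nA * S.a) := by
      rw [hnA]
    rw [this]
    simp only [Matrix.sub_mul, Matrix.mul_sub, Matrix.smul_mul, Matrix.mul_smul, Matrix.one_mul,
      Matrix.mul_one]
    module
  have hl : (lamA : ℂ) * bA = (S.hA : ℂ) ^ 2 * (bC + μ) := by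
    have := congrArg (fun x : ℝ => (x : ℂ)) hlA
    rw [hβ] at this
    push_cast at this
    exact this
  refine ⟨-((bC : ℂ) * ((S.hB : ℂ) * (B * S.b).trace) - (bC : ℂ) * m) -
    ((lamA / S.hA : ℝ) : ℂ) * bA * (A * S.a).trace, ?_⟩
  rw [e1, S.PA_sub, S.PA_add, S.PA_neg, S.PA_smul, S.PA_smul, S.PA_comm, e3, S.PA_c htB, S.PA_one,
    htB]
  unfold gg cen
  simp only [Matrix.sub_mul, Matrix.mul_sub, Matrix.smul_mul, Matrix.mul_smul, Matrix.one_mul,
    Matrix.mul_one]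
  push_cast
  match_scalars
  · field_simp
  · field_simp
  · field_simp
    linear_combination (-1 : ℂ) * hl
  · ring
  · ring
  · ring

theorem el_B (S : BS α β γ δ) (hB0 : S.hB ≠ 0) {A : Matrix α α ℂ}
    {B : Matrix β β ℂ} (htA : A.trace = 1) {bB bC β' μ lamB : ℝ}
    {KB nB : Matrix β β ℂ} {KQ : Matrix γ γ ℂ} (hβ : β' = bC + μ) (hlB : lamB * bB = S.hB ^ 2 * β')
    (hnB : S.b * nB - nB * S.b = S.b) (cB m : ℂ)
    (ELB : (lamB : ℂ) • KB = S.PB A KQ + ((μ * S.hB ^ 2 : ℝ) : ℂ) • nB + cB • (1 : Matrix β β ℂ)) :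
    ∃ z : ℂ, S.PB A (gg bC KQ (S.c - m • (1 : Matrix γ γ ℂ))) =
      ((lamB / S.hB : ℝ) : ℂ) • gg bB KB (cen B S.b) - S.DB A KQ - z • (1 : Matrix β β ℂ) :=
  el_A S.swap hB0 htA hβ hlB hnB cB m ELB

/-- **(GAP)** -/
theorem gap (S : BS α β γ δ) (hA0 : S.hA ≠ 0) (hB0 : S.hB ≠ 0) {A : Matrix α α ℂ}
    {B : Matrix β β ℂ} (htA : A.trace = 1) (htB : B.trace = 1) (hAh : Aᴴ = A) (hBh : Bᴴ = B)
    {NA NB NC bA bB bC β' μ lamA lamB ε : ℝ}
    (hNC : NC = S.hA ^ 2 * NA + S.hB ^ 2 * NB) (hbC : 0 < bC)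
    {KA nA : Matrix α α ℂ} {KB nB : Matrix β β ℂ} {KQ : Matrix γ γ ℂ}
    (hβ : β' = bC + μ) (hlA : lamA * bA = S.hA ^ 2 * β') (hlB : lamB * bB = S.hB ^ 2 * β')
    (hnA : S.a * nA - nA * S.a = S.a) (hnB : S.b * nB - nB * S.b = S.b) (cA cB : ℂ)
    (ELA : (lamA : ℂ) • KA = S.PA B KQ + ((μ * S.hA ^ 2 : ℝ) : ℂ) • nA + cA • (1 : Matrix α α ℂ))
    (ELB : (lamB : ℂ) • KB = S.PB A KQ + ((μ * S.hB ^ 2 : ℝ) : ℂ) • nB + cB • (1 : Matrix β β ℂ))
    (FA : HForm NA bA KA A) (FB : HForm NB bB KB B)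
    {Q : Matrix γ γ ℂ} (hQ : Q = S.out A B + (ε : ℂ) • (1 : Matrix γ γ ℂ))
    (FQ : HForm NC bC KQ Q) (D0 : ℝ)
    (OPI : FA.H (cen A (S.PA B (gg bC KQ (cen (S.out A B) S.c))))
          (cen A (S.PA B (gg bC KQ (cen (S.out A B) S.c))))
        + FB.H (cen B (S.PB A (gg bC KQ (cen (S.out A B) S.c))))
          (cen B (S.PB A (gg bC KQ (cen (S.out A B) S.c))))
        + μ / bC * D0 ≤
      β' / bC * FQ.H (gg bC KQ (cen (S.out A B) S.c)) (gg bC KQ (cen (S.out A B) S.c))) :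
    μ / bC * D0 ≤ β' * (ε * rp (gg bC KQ (cen (S.out A B) S.c)) (cen (S.out A B) S.c)
      - (S.hA ^ 2 * NA * ((A * S.DA B (gg bC KQ (cen (S.out A B) S.c))ᴴ).trace).re
        + S.hB ^ 2 * NB * ((B * S.DB A (gg bC KQ (cen (S.out A B) S.c))ᴴ).trace).re)
      + (S.hA * rp (S.DA B KQ) (ww NA A (cen A S.a))
        + S.hB * rp (S.DB A KQ) (ww NB B (cen B S.b)))) := by
  set C := S.out A B with hC
  set Y := gg bC KQ (cen C S.c) with hY
  obtain ⟨zA, hzA⟩ := el_A S hA0 (A := A) htB hβ hlA hnA cA (C * S.c).trace ELA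
  obtain ⟨zB, hzB⟩ := el_B S hB0 (B := B) htA hβ hlB hnB cB (C * S.c).trace ELB
  have hYc : gg bC KQ (S.c - (C * S.c).trace • (1 : Matrix γ γ ℂ)) = Y := rfl
  rw [hYc] at hzA hzB
  have h1 := one_input FA htA S.a (cen A (S.PA B Y)) (S.DA B KQ) (lamA / S.hA)
    (zA + (A * S.PA B Y).trace) (by
      conv_lhs => rw [cen]
      nth_rewrite 1 [hzA]
      module)
  have h2 := one_input FB htB S.b (cen B (S.PB A Y)) (S.DB A KQ) (lamB / S.hB)
    (zB + (B * S.PB A Y).trace) (by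
      conv_lhs => rw [cen]
      nth_rewrite 1 [hzB]
      module)
  have hsA : lamA / S.hA * bA = S.hA * β' := by
    rw [div_mul_eq_mul_div, hlA]; field_simp
  have hsB : lamB / S.hB * bB = S.hB * β' := by
    rw [div_mul_eq_mul_div, hlB]; field_simp
  have r1 : rp (cen A (S.PA B Y)) (ww NA A (cen A S.a)) = rp (S.PA B Y) (ww NA A (cen A S.a)) :=
    rp_sub_smul_one htA _ _
  have r2 : rp (cen B (S.PB A Y)) (ww NB B (cen B S.b)) = rp (S.PB A Y) (ww NB B (cen B S.b)) :=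
    rp_sub_smul_one htB _ _
  rw [hsA, r1] at h1
  rw [hsB, r2] at h2
  have h3 := congrArg Complex.re (pairing S hA0 hB0 htA htB hNC Yᴴ)
  rw [← hC] at h3
  have h4 : rp (S.PA B Y) (ww NA A (cen A S.a)) =
      ((S.PA B Yᴴ * ww NA A (cen A S.a)).trace).re := by
    rw [rp, S.PA_conjTranspose hBh]
  have h5 : rp (S.PB A Y) (ww NB B (cen B S.b)) =
      ((S.PB A Yᴴ * ww NB B (cen B S.b)).trace).re := by
    rw [rp, S.PB_conjTranspose hAh]
  have h6 : S.hA * rp (S.PA B Y) (ww NA A (cen A S.a)) + S.hB * rp (S.PB A Y) (ww NB B (cen B S.b)) =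
      rp Y (ww NC C (cen C S.c)) + (S.hA ^ 2 * NA * ((A * S.DA B Yᴴ).trace).re
        + S.hB ^ 2 * NB * ((B * S.DB A Yᴴ).trace).re) := by
    rw [h4, h5, rp]
    have c1 : ∀ (x : ℝ) (w : ℂ), ((x : ℂ) * w).re = x * w.re := fun x w => Complex.re_ofReal_mul x w
    have c2 : ∀ (x y : ℝ) (w : ℂ), ((x : ℂ) ^ 2 * (y : ℂ) * w).re = x ^ 2 * y * w.re := by
      intro x y w
      rw [← Complex.ofReal_pow, ← Complex.ofReal_mul, c1]
    rw [Complex.add_re, Complex.add_re, Complex.add_re, c1, c1, c2, c2] at h3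
    exact h3
  have h7 : FQ.H Y Y = bC * (rp Y (ww NC C (cen C S.c)) + ε * rp Y (cen C S.c)) := by
    have := FQ.key Y (cen C S.c)
    rw [← hY] at this
    rw [this]
    congr 1
    have e1 : ww NC Q (cen C S.c) =
        ww NC C (cen C S.c) + (ε : ℂ) • cen C S.c := by
      rw [hQ]
      unfold ww
      simp only [Matrix.add_mul, Matrix.mul_add, Matrix.smul_mul, Matrix.mul_smul, Matrix.one_mul,
        Matrix.mul_one]
      module
    rw [e1]
    unfold rp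
    rw [Matrix.mul_add, trace_add, Complex.add_re, Matrix.mul_smul, trace_smul, smul_eq_mul,
      Complex.re_ofReal_mul]
  rw [h7] at OPI
  have h8 : β' / bC * (bC * (rp Y (ww NC C (cen C S.c)) + ε * rp Y (cen C S.c))) =
      β' * (rp Y (ww NC C (cen C S.c)) + ε * rp Y (cen C S.c)) := by
    field_simp
  rw [h8] at OPI
  have h9 : S.hA * β' * (rp (S.PA B Y) (ww NA A (cen A S.a)) - rp (S.DA B KQ) (ww NA A (cen A S.a)))
      + S.hB * β' * (rp (S.PB A Y) (ww NB B (cen B S.b)) - rp (S.DB A KQ) (ww NB B (cen B S.b))) =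
      β' * (rp Y (ww NC C (cen C S.c)) + (S.hA ^ 2 * NA * ((A * S.DA B Yᴴ).trace).re
        + S.hB ^ 2 * NB * ((B * S.DB A Yᴴ).trace).re)
        - (S.hA * rp (S.DA B KQ) (ww NA A (cen A S.a))
        + S.hB * rp (S.DB A KQ) (ww NB B (cen B S.b)))) := by
    rw [← h6]; ring
  linarith

/-- **(GAP)** in the form with `ErrA`, `ErrB` (convention of helper136). -/
theorem gap' (S : BS α β γ δ) (hA0 : S.hA ≠ 0) (hB0 : S.hB ≠ 0) {A : Matrix α α ℂ}
    {B : Matrix β β ℂ} (htA : A.trace = 1) (htB : B.trace = 1) (hAh : Aᴴ = A) (hBh : Bᴴ = B)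
    {NA NB NC bA bB bC β' μ lamA lamB ε : ℝ}
    (hNC : NC = S.hA ^ 2 * NA + S.hB ^ 2 * NB) (hbC : 0 < bC)
    {KA nA : Matrix α α ℂ} {KB nB : Matrix β β ℂ} {KQ : Matrix γ γ ℂ}
    (hβ : β' = bC + μ) (hlA : lamA * bA = S.hA ^ 2 * β') (hlB : lamB * bB = S.hB ^ 2 * β')
    (hnA : S.a * nA - nA * S.a = S.a) (hnB : S.b * nB - nB * S.b = S.b) (cA cB : ℂ)
    (ELA : (lamA : ℂ) • KA = S.PA B KQ + ((μ * S.hA ^ 2 : ℝ) : ℂ) • nA + cA • (1 : Matrix α α ℂ))
    (ELB : (lamB : ℂ) • KB = S.PB A KQ + ((μ * S.hB ^ 2 : ℝ) : ℂ) • nB + cB • (1 : Matrix β β ℂ))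
    (FA : HForm NA bA KA A) (FB : HForm NB bB KB B)
    {Q : Matrix γ γ ℂ} (hQ : Q = S.out A B + (ε : ℂ) • (1 : Matrix γ γ ℂ))
    (FQ : HForm NC bC KQ Q) (D0 : ℝ)
    (OPI : FA.H (cen A (S.PA B (gg bC KQ (cen (S.out A B) S.c))))
          (cen A (S.PA B (gg bC KQ (cen (S.out A B) S.c))))
        + FB.H (cen B (S.PB A (gg bC KQ (cen (S.out A B) S.c))))
          (cen B (S.PB A (gg bC KQ (cen (S.out A B) S.c))))
        + μ / bC * D0 ≤
      β' / bC * FQ.H (gg bC KQ (cen (S.out A B) S.c)) (gg bC KQ (cen (S.out A B) S.c))) :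
    μ / bC * D0 ≤ β' * (ε * rp (gg bC KQ (cen (S.out A B) S.c)) (cen (S.out A B) S.c)
      - (S.hA * NA * ((A * S.ErrA B (gg bC KQ (cen (S.out A B) S.c))ᴴ).trace).re
        + S.hB * NB * ((B * S.ErrB A (gg bC KQ (cen (S.out A B) S.c))ᴴ).trace).re)
      + (rp (S.ErrA B KQ) (ww NA A (cen A S.a)) + rp (S.ErrB A KQ) (ww NB B (cen B S.b)))) := by
  have h := gap S hA0 hB0 htA htB hAh hBh hNC hbC hβ hlA hlB hnA hnB cA cB ELA ELB FA FB hQ FQ D0 OPI
  have eA : ∀ Y, S.ErrA B Y = (S.hA : ℂ) • S.DA B Y := fun Y => S.ErrA_eq hA0 B Y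
  have eB : ∀ Y, S.ErrB A Y = (S.hB : ℂ) • S.DB A Y := fun Y => S.swap.ErrA_eq hB0 A Y
  rw [eA, eA, eB, eB, rp_smul, rp_smul, Matrix.mul_smul, trace_smul, smul_eq_mul, Matrix.mul_smul,
    trace_smul, smul_eq_mul, Complex.re_ofReal_mul, Complex.re_ofReal_mul]
  refine h.trans (le_of_eq ?_)
  ring

/-- **Means**: `μ hA² Tr A a = Tr A Err_A(K_Q)` -/
theorem mean_A (S : BS α β γ δ) {A : Matrix α α ℂ} {B : Matrix β β ℂ} {μ lamA : ℝ}
    {KA nA : Matrix α α ℂ} {KQ : Matrix γ γ ℂ} (hnA : S.a * nA - nA * S.a = S.a) (cA : ℂ)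
    (ELA : (lamA : ℂ) • KA = S.PA B KQ + ((μ * S.hA ^ 2 : ℝ) : ℂ) • nA + cA • (1 : Matrix α α ℂ))
    (hcomA : A * KA = KA * A) (hcomC : S.out A B * KQ = KQ * S.out A B) :
    ((μ * S.hA ^ 2 : ℝ) : ℂ) * (A * S.a).trace = (A * S.ErrA B KQ).trace := by
  have h1 : (A * (S.a * KA - KA * S.a)).trace = 0 := by
    rw [Matrix.mul_sub, trace_sub, ← Matrix.mul_assoc A KA, hcomA, ← Matrix.mul_assoc A S.a,
      Matrix.trace_mul_comm (A * S.a), ← Matrix.mul_assoc KA, sub_eq_zero]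
  have h2 : (A * S.PA B (S.c * KQ - KQ * S.c)).trace = 0 := by
    rw [S.trace_A_PA, Matrix.mul_sub, trace_sub, ← Matrix.mul_assoc _ KQ, hcomC,
      ← Matrix.mul_assoc _ S.c, Matrix.trace_mul_comm (S.out A B * S.c), ← Matrix.mul_assoc KQ,
      sub_eq_zero]
  have e2 : S.PA B KQ = (lamA : ℂ) • KA - ((μ * S.hA ^ 2 : ℝ) : ℂ) • nA - cA • (1 : Matrix α α ℂ) := by
    rw [ELA]; abel
  have e3 : S.a * S.PA B KQ - S.PA B KQ * S.a =
      (lamA : ℂ) • (S.a * KA - KA * S.a) - ((μ * S.hA ^ 2 : ℝ) : ℂ) • S.a := by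
    rw [e2]
    have : ((μ * S.hA ^ 2 : ℝ) : ℂ) • S.a = ((μ * S.hA ^ 2 : ℝ) : ℂ) • (S.a * nA - nA * S.a) := by
      rw [hnA]
    rw [this]
    simp only [Matrix.sub_mul, Matrix.mul_sub, Matrix.smul_mul, Matrix.mul_smul, Matrix.one_mul,
      Matrix.mul_one]
    module
  have h3 := S.cov_A B KQ
  rw [e3] at h3
  have h4 := congrArg (fun M => (A * M).trace) h3
  simp only [Matrix.mul_sub, Matrix.mul_smul, trace_sub, trace_smul, smul_eq_mul] at h4
  rw [Matrix.mul_sub, trace_sub] at h1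
  linear_combination (-1 : ℂ) * h4 + (lamA : ℂ) * h1 - (S.hA : ℂ) * h2

theorem mean_B (S : BS α β γ δ) {A : Matrix α α ℂ} {B : Matrix β β ℂ} {μ lamB : ℝ}
    {KB nB : Matrix β β ℂ} {KQ : Matrix γ γ ℂ} (hnB : S.b * nB - nB * S.b = S.b) (cB : ℂ)
    (ELB : (lamB : ℂ) • KB = S.PB A KQ + ((μ * S.hB ^ 2 : ℝ) : ℂ) • nB + cB • (1 : Matrix β β ℂ))
    (hcomB : B * KB = KB * B) (hcomC : S.out A B * KQ = KQ * S.out A B) :
    ((μ * S.hB ^ 2 : ℝ) : ℂ) * (B * S.b).trace = (B * S.ErrB A KQ).trace := by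
  refine mean_A S.swap (A := B) (B := A) hnB cB ELB hcomB ?_
  rw [S.swap_out]; exact hcomC

/-! ### The form from spectral data -/

/-- The positive form with weights `h i j ≥ 0` in the eigenbasis `U`, where
`X = U diag p Uᴴ`, `K = U diag κ Uᴴ` and
`h i j (κ i - κ j + b) = b ((N+1) p j - N p i)`. -/
def HForm.ofSpec {N b : ℝ} {K X U : Matrix α α ℂ} (hU : Uᴴ * U = 1) (p κ : α → ℝ)
    (hX : X = U * diagonal (fun i => (p i : ℂ)) * Uᴴ)
    (hK : K = U * diagonal (fun i => (κ i : ℂ)) * Uᴴ) (h : α → α → ℝ) (h0 : ∀ i j, 0 ≤ h i j)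
    (hkey : ∀ i j, h i j * (κ i - κ j + b) = b * ((N + 1) * p j - N * p i)) : HForm N b K X where
  H Y Z := ∑ i, ∑ j, h i j * (star ((Uᴴ * Y * U) i j) * (Uᴴ * Z * U) i j).re
  sq Y Z s := by
    have : ∑ i, ∑ j, h i j * (star ((Uᴴ * Y * U) i j) * (Uᴴ * Y * U) i j).re
        - 2 * s * ∑ i, ∑ j, h i j * (star ((Uᴴ * Y * U) i j) * (Uᴴ * Z * U) i j).re
        + s ^ 2 * ∑ i, ∑ j, h i j * (star ((Uᴴ * Z * U) i j) * (Uᴴ * Z * U) i j).re
        = ∑ i, ∑ j, h i j * (((Uᴴ * Y * U) i j).re - s * ((Uᴴ * Z * U) i j).re) ^ 2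
          + ∑ i, ∑ j, h i j * (((Uᴴ * Y * U) i j).im - s * ((Uᴴ * Z * U) i j).im) ^ 2 := by
      simp only [Finset.mul_sum, ← Finset.sum_add_distrib, ← Finset.sum_sub_distrib]
      refine Finset.sum_congr rfl fun i _ => Finset.sum_congr rfl fun j _ => ?_
      simp only [RCLike.star_def, Complex.mul_re, Complex.conj_re, Complex.conj_im]
      ring
    rw [this]
    refine add_nonneg ?_ ?_ <;>
    exact Finset.sum_nonneg fun i _ => Finset.sum_nonneg fun j _ => mul_nonneg (h0 i j) (sq_nonneg _)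
  key Y y := by
    have hU' : U * Uᴴ = 1 := mul_eq_one_comm.1 hU
    set y' := Uᴴ * y * U with hy'
    set Y' := Uᴴ * Y * U with hY'
    have e1 : Uᴴ * gg b K y * U = Matrix.of fun i j => ((κ i - κ j + b : ℝ) : ℂ) * y' i j := by
      have a1 : Uᴴ * (K * y) * U = diagonal (fun i => (κ i : ℂ)) * y' := by
        rw [hK, hy']
        calc Uᴴ * (U * diagonal (fun i => (κ i : ℂ)) * Uᴴ * y) * U
            = (Uᴴ * U) * diagonal (fun i => (κ i : ℂ)) * (Uᴴ * y * U) := by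
              simp only [Matrix.mul_assoc]
          _ = _ := by rw [hU, Matrix.one_mul]
      have a2 : Uᴴ * (y * K) * U = y' * diagonal (fun i => (κ i : ℂ)) := by
        rw [hK, hy']
        calc Uᴴ * (y * (U * diagonal (fun i => (κ i : ℂ)) * Uᴴ)) * U
            = (Uᴴ * y * U) * diagonal (fun i => (κ i : ℂ)) * (Uᴴ * U) := by
              simp only [Matrix.mul_assoc]
          _ = _ := by rw [hU, Matrix.mul_one]
      have a3 : Uᴴ * gg b K y * U =
          Uᴴ * (K * y) * U - Uᴴ * (y * K) * U + (b : ℂ) • (Uᴴ * y * U) := by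
        unfold gg
        simp only [Matrix.mul_add, Matrix.mul_sub, Matrix.add_mul, Matrix.sub_mul,
          Matrix.mul_smul, Matrix.smul_mul]
      rw [a3, a1, a2, ← hy']
      ext i j
      simp only [Matrix.add_apply, Matrix.sub_apply, Matrix.smul_apply, diagonal_mul, mul_diagonal,
        Matrix.of_apply, smul_eq_mul]
      push_cast
      ring
    have e2 : Uᴴ * ww N X y * U = Matrix.of fun i j => (((N + 1) * p j - N * p i : ℝ) : ℂ) * y' i j := by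
      have a1 : Uᴴ * (X * y) * U = diagonal (fun i => (p i : ℂ)) * y' := by
        rw [hX, hy']
        calc Uᴴ * (U * diagonal (fun i => (p i : ℂ)) * Uᴴ * y) * U
            = (Uᴴ * U) * diagonal (fun i => (p i : ℂ)) * (Uᴴ * y * U) := by
              simp only [Matrix.mul_assoc]
          _ = _ := by rw [hU, Matrix.one_mul]
      have a2 : Uᴴ * (y * X) * U = y' * diagonal (fun i => (p i : ℂ)) := by
        rw [hX, hy']
        calc Uᴴ * (y * (U * diagonal (fun i => (p i : ℂ)) * Uᴴ)) * U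
            = (Uᴴ * y * U) * diagonal (fun i => (p i : ℂ)) * (Uᴴ * U) := by
              simp only [Matrix.mul_assoc]
          _ = _ := by rw [hU, Matrix.mul_one]
      have a3 : Uᴴ * ww N X y * U =
          ((N : ℂ) + 1) • (Uᴴ * (y * X) * U) - (N : ℂ) • (Uᴴ * (X * y) * U) := by
        unfold ww
        simp only [Matrix.mul_sub, Matrix.sub_mul, Matrix.mul_smul, Matrix.smul_mul]
      rw [a3, a1, a2]
      ext i j
      simp only [Matrix.sub_apply, Matrix.smul_apply, diagonal_mul, mul_diagonal,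
        Matrix.of_apply, smul_eq_mul]
      push_cast
      ring
    have e3 : ∀ Z : Matrix α α ℂ, rp Y Z = ∑ i, ∑ j, (star (Y' i j) * (Uᴴ * Z * U) i j).re := by
      intro Z
      have b1 : (Yᴴ * Z).trace = (Y'ᴴ * (Uᴴ * Z * U)).trace := by
        rw [hY', conjTranspose_mul, conjTranspose_mul, conjTranspose_conjTranspose]
        have : Uᴴ * (Yᴴ * U) * (Uᴴ * Z * U) = Uᴴ * (Yᴴ * (U * Uᴴ) * Z * U) := by
          simp only [Matrix.mul_assoc]
        have h2 : (Uᴴ * (Yᴴ * (U * Uᴴ) * Z * U)).trace = (Yᴴ * Z * (U * Uᴴ)).trace := by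
          rw [hU', Matrix.mul_one, Matrix.mul_one, Matrix.trace_mul_comm, Matrix.mul_assoc, hU',
            Matrix.mul_one]
        rw [this, h2, hU', Matrix.mul_one]
      rw [rp, b1, Matrix.trace, Complex.re_sum]
      simp only [Matrix.diag_apply, Matrix.mul_apply (M := Y'ᴴ), conjTranspose_apply,
        Complex.re_sum]
      rw [Finset.sum_comm]
    rw [e3, Finset.mul_sum]
    refine Finset.sum_congr rfl fun i _ => ?_
    rw [Finset.mul_sum]
    refine Finset.sum_congr rfl fun j _ => ?_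
    rw [e1, e2, Matrix.of_apply, Matrix.of_apply]
    have c1 : ∀ (x : ℝ) (v w : ℂ), (v * ((x : ℂ) * w)).re = x * (v * w).re := by
      intro x v w
      rw [show v * ((x : ℂ) * w) = (x : ℂ) * (v * w) by ring, Complex.re_ofReal_mul]
    rw [c1, c1]
    have := hkey i j
    rw [← mul_assoc, this]
    ring

end

end Crest.Agent.R331.FGap633
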