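import Mathlib
import Crest.Agent.R331.FLim_628
import Crest.Agent.R331.FDefs2_136

/-! # Finite track: leaves FOUT, FSQ, FVAL, FEMB, FINMU, FINMAIN by name (helper628) -/

set_option autoImplicit false
set_option linter.unusedSectionVars false

noncomputable section

namespace Crest.Agent.R331.FTop_628

open Crest.Quantum Crest.MathPhysics.Bosonic Matrix Finset Filter Topology
open Crest.Agent.R331.Gibbs158 Crest.Agent.R331.Fin8_628 Crest.Agent.R331.FLim_628
open scoped ComplexOrder Kronecker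

theorem fout : FDefs136.FOUT := fun η _ _ A B => outC_eq_bsOutput η A B

lemma kap_eq (ε : ℝ) : FDefs136.kap ε = -Real.log ε := by
  unfold FDefs136.kap; rw [one_div, Real.log_inv]

theorem fsq : FDefs136.FSQ := by
  intro ι _ _ C ε hε hε2 hC
  have h1 := vn_add_smul_le hC.1 hε.le
  have h2 := le_vn_add_smul hC hε
  have hk : 0 ≤ FDefs136.kap ε := by
    rw [kap_eq]
    have := Real.log_nonpos hε.le (by linarith)
    linarith
  have e1 : Real.negMulLog ε = ε * FDefs136.kap ε := by
    rw [kap_eq]; unfold Real.negMulLog; ring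
  have hc : (0:ℝ) ≤ Fintype.card ι := Nat.cast_nonneg _
  rw [abs_le]
  constructor
  · have h3 : (Fintype.card ι : ℝ) * ε * (1 + ε) ≤ Fintype.card ι * (ε * (FDefs136.kap ε + 2)) := by
      rw [mul_assoc]
      refine mul_le_mul_of_nonneg_left (mul_le_mul_of_nonneg_left ?_ hε.le) hc
      linarith
    linarith
  · have h3 : (Fintype.card ι : ℝ) * Real.negMulLog ε
        ≤ Fintype.card ι * (ε * (FDefs136.kap ε + 2)) := by
      rw [e1]
      refine mul_le_mul_of_nonneg_left (mul_le_mul_of_nonneg_left ?_ hε.le) hc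
      linarith
    linarith

lemma ent_eq_ext {n M : ℕ} (X : Matrix (Bx n M) (Bx n M) ℂ) (k l : Occ n) :
    FDefs136.ent X k l = Fin8_628.ext X k l := by
  unfold FDefs136.ent Fin8_628.ext
  by_cases h : k ∈ boxF n M ∧ l ∈ boxF n M
  · have h' : (∀ i, k i < M + 1) ∧ (∀ i, l i < M + 1) := by
      rw [mem_boxF, mem_boxF] at h
      exact ⟨fun i => Nat.lt_succ_iff.2 (h.1 i), fun i => Nat.lt_succ_iff.2 (h.2 i)⟩
    rw [dif_pos h, dif_pos h']
    rfl
  · have h' : ¬ ((∀ i, k i < M + 1) ∧ (∀ i, l i < M + 1)) := by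
      intro hc
      apply h
      rw [mem_boxF, mem_boxF]
      exact ⟨fun i => Nat.lt_succ_iff.1 (hc.1 i), fun i => Nat.lt_succ_iff.1 (hc.2 i)⟩
    rw [dif_neg h, dif_neg h']

lemma update_succ {n : ℕ} (k : Occ n) (j : Fin n) :
    Function.update k j (k j + 1) = k + uni j := by
  funext i
  by_cases h : i = j
  · subst h; simp [uni_same]
  · simp [Function.update_of_ne h, uni_ne h]

lemma update_pred {n : ℕ} (k : Occ n) (j : Fin n) :
    Function.update k j (k j - 1) = k - uni j := by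
  funext i
  by_cases h : i = j
  · subst h; simp [uni_same]
  · simp [Function.update_of_ne h, uni_ne h]

lemma trace_num_eq {n K : ℕ} (A : Matrix (Bx n K) (Bx n K) ℂ) :
    (A * FDefs136.num n K).trace.re = en A := En_eq_en A

theorem fval : FDefs136.FVAL := by
  intro n N E0 hN M ρ hM hρ hE hrec δ hδ
  refine entropy_liminf M ρ hM hρ (E := E0) (fun K => ?_) hN ?_ hδ
  · rw [← trace_num_eq]; exact hE K
  · intro j i l
    refine (hrec j i l).congr fun K => ?_
    rw [ent_eq_ext, ent_eq_ext, update_succ, update_pred]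
    have e : qN N = N / (N + 1) := rfl
    rw [e]
    push_cast
    ring

lemma En_eq {n K : ℕ} (A : Matrix (Bx n K) (Bx n K) ℂ) : FDefs136.En A = en A := En_eq_en A

theorem femb : FDefs136.FEMB := by
  intro η n K0 K h0 h1 hK A0 B0 hA hB
  have hpsd : (bsOutput η A0 B0).PosSemidef := by
    rw [← outC_eq_bsOutput]; exact outC_psd η hA.1 hB.1
  refine ⟨up K A0, up K B0, up_isDensity hK hA, up_isDensity hK hB, vn_up hK hA.1.1,
    vn_up hK hB.1.1, ?_, ?_, ?_⟩
  · rw [En_eq, En_eq, en_up hK]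
  · rw [En_eq, En_eq, en_up hK]
  · rw [outC_eq_bsOutput, outC_eq_bsOutput, bsOutput_up η hK, vn_up (by omega) hpsd.1]

lemma epsK_eq (n K : ℕ) : FDefs136.epsK n K = epsK n K := rfl

lemma thVal_eq (p : FDefs136.Par) (n : ℕ) : FDefs136.thVal p n = Vlow p n := rfl

/-- `FLIMhyp` from the minimisers -/
theorem flimhyp_of (hmin : FDefs136.FMINexists) (hl : FDefs136.LMIN) : FLIMhyp := by
  intro p n δ hδ
  obtain ⟨K0, hK0⟩ := hl p n δ hδ
  filter_upwards [eventually_ge_atTop K0] with K hK A B hA hB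
  obtain ⟨A', B', hm⟩ := hmin p n K (epsK n K) (epsK_pos n K)
  exact (hK0 K hK A' B' hm).trans (hm.le A B hA hB)

theorem finmu (hmin : FDefs136.FMINexists) (hl : FDefs136.LMIN) : FDefs136.FINMU := by
  intro p n K0 A0 B0 hA hB
  rw [outC_eq_bsOutput, En_eq, En_eq]
  exact limit_K (flimhyp_of hmin hl) p hA hB

theorem finmain (hmin : FDefs136.FMINexists) (hl : FDefs136.LMIN) : FDefs136.FINMAIN := by
  intro η NA NB n K0 h0 h1 hNA hNB A0 B0 hA hB
  exact finmain_of_hyp (flimhyp_of hmin hl) n K0 η NA NB h0 h1 hNA hNB A0 B0 hA hB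

end Crest.Agent.R331.FTop_628
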