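import Mathlib
import Crest.Agent.R331.FTop_628
import Crest.Agent.R331.FTop_136

/-! # Finite track: LMIN from LENC, LREC, LGAP, LENERGY, FVALUE, FENSUM (helper628) -/

set_option autoImplicit false
set_option linter.unusedSectionVars false

noncomputable section

namespace Crest.Agent.R331.FTop_628

open Crest.Quantum Crest.MathPhysics.Bosonic Matrix Finset Filter Topology
open Crest.Agent.R331.Gibbs158 Crest.Agent.R331.Fin8_628 Crest.Agent.R331.FLim_628
open scoped ComplexOrder Kronecker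

/-- the lower bound along one sequence of minimisers -/
theorem lmin_seq (hFW : FDefs136.FW) (hEn : FDefs136.LENERGY) (hGap : FDefs136.LGAP)
    (hEnC : FDefs136.LENC) (hRec : FDefs136.LREC) (hVal : FDefs136.FVALUE)
    (hSum : FDefs136.FENSUM) (p : FDefs136.Par) (n : ℕ)
    (A B : ∀ K : ℕ, Matrix (Bx n K) (Bx n K) ℂ)
    (hm : ∀ K, FDefs136.IsMin p (epsK n K) (A K) (B K)) {δ : ℝ} (hδ : 0 < δ) :
    ∀ᶠ K : ℕ in atTop, FDefs136.thVal p n - δ ≤ FDefs136.F p (epsK n K) (A K) (B K) := by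
  have hNC := NC_pos p
  have hbC : 0 < p.bC := bN_pos hNC
  set c : ℝ := 1 + p.bC + 2 * p.bC * n with hc
  have hcpos : 0 < c := by positivity
  set d : ℝ := min 1 (δ / (2 * c)) with hd
  have hdpos : 0 < d := lt_min one_pos (by positivity)
  have hd1 : d ≤ 1 := min_le_left _ _
  have hd2 : d * c ≤ δ / 2 := by
    have : d ≤ δ / (2 * c) := min_le_right _ _
    calc d * c ≤ δ / (2 * c) * c := mul_le_mul_of_nonneg_right this hcpos.le
      _ = δ / 2 := by field_simp
  -- entropy of the outputs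
  obtain ⟨E0, hE0⟩ := hEn p n
  have hM : Tendsto (fun K : ℕ => 2 * K) atTop atTop :=
    tendsto_atTop_mono (fun K => by simp only [id]; omega) tendsto_id
  have hdens : ∀ K, IsDensity (FDefs136.outC p.η (A K) (B K)) := fun K =>
    FDefs136.isDensity_outC hFW p.η_pos p.η_lt (hm K).dA (hm K).dB
  have hS := fval n p.NC E0 hNC (fun K => 2 * K) (fun K => FDefs136.outC p.η (A K) (B K)) hM hdens
    (fun K => (hE0 K (A K) (B K) (hm K)).2.2) (by
      intro j k l
      rw [Metric.tendsto_atTop]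
      intro ε hε
      obtain ⟨K0, hK0⟩ := hRec p n j k l (ε / 2) (by positivity)
      refine ⟨K0, fun K hK => ?_⟩
      rw [dist_zero_right]
      exact lt_of_le_of_lt (hK0 K hK (A K) (B K) (hm K)) (by linarith)) d hdpos
  obtain ⟨K1, hK1⟩ := hEnC p n d hdpos
  have hG : ∀ᶠ K : ℕ in atTop, ∀ j : Fin n, ‖FDefs136.mX j (A K)‖ ≤ d ∧ ‖FDefs136.mX j (B K)‖ ≤ d := by
    rw [Filter.eventually_all]
    intro j
    obtain ⟨K2, hK2⟩ := hGap p n j d hdpos
    filter_upwards [eventually_ge_atTop K2] with K hK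
    exact (hK2 K hK (A K) (B K) (hm K)).2
  have hreg : ∀ᶠ K : ℕ in atTop, (Fintype.card (Bx n (2 * K)) : ℝ) *
      (epsK n K * (FDefs136.kap (epsK n K) + 2)) < δ / 2 := by
    have := (FDefs136.regErr_tendsto n).eventually_lt_const (show (0:ℝ) < δ / 2 by positivity)
    filter_upwards [this] with K hK
    have e : (Fintype.card (Bx n (2 * K)) : ℝ) = ((2 * K + 1 : ℕ) : ℝ) ^ n := by
      have := FDefs136.card_Bx n (2 * K)
      rw [show Fintype.card (Bx n (2 * K)) = (2 * K + 1) ^ n from this]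
      push_cast; ring
    rw [e]; exact hK
  filter_upwards [hS, eventually_ge_atTop K1, hG, hreg, eventually_ge_atTop 1]
    with K h1 h2 h3 h4 hKone
  have h5 := hVal p n K (epsK n K) (epsK_pos n K) (A K) (B K) (hm K).dA (hm K).dB
  have h6 := hSum p.η n K p.η_pos p.η_lt (A K) (B K) (hm K).dA (hm K).dB
  have h7 := hK1 K h2 (A K) (B K) (hm K)
  have h8 := (abs_le.1 (fsq (Bx n (2 * K)) (FDefs136.outC p.η (A K) (B K)) (epsK n K)
    (epsK_pos n K) (FDefs136.epsK_le n K hKone) (hdens K))).1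
  -- the mean term
  have h9 : |∑ j, ((starRingEnd ℂ) (FDefs136.mX j (A K)) * FDefs136.mX j (B K)).re| ≤ n * d := by
    calc |∑ j, ((starRingEnd ℂ) (FDefs136.mX j (A K)) * FDefs136.mX j (B K)).re|
        ≤ ∑ j : Fin n, |((starRingEnd ℂ) (FDefs136.mX j (A K)) * FDefs136.mX j (B K)).re| :=
          Finset.abs_sum_le_sum_abs _ _
      _ ≤ ∑ _j : Fin n, d := by
          refine Finset.sum_le_sum fun j _ => ?_
          refine (Complex.abs_re_le_norm _).trans ?_
          rw [norm_mul, RCLike.norm_conj]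
          calc ‖FDefs136.mX j (A K)‖ * ‖FDefs136.mX j (B K)‖ ≤ 1 * d :=
                mul_le_mul ((h3 j).1.trans hd1) (h3 j).2 (norm_nonneg _) zero_le_one
            _ = d := one_mul d
      _ = n * d := by simp
  have hs0 : 0 ≤ Real.sqrt p.η * Real.sqrt (1 - p.η) := by positivity
  have hs1 : Real.sqrt p.η * Real.sqrt (1 - p.η) ≤ 1 := by
    have e1 : Real.sqrt p.η ≤ 1 := Real.sqrt_le_one.2 p.η_lt.le
    have e2 : Real.sqrt (1 - p.η) ≤ 1 := Real.sqrt_le_one.2 (by linarith [p.η_pos])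
    exact mul_le_one₀ e1 (Real.sqrt_nonneg _) e2
  set S := ∑ j, ((starRingEnd ℂ) (FDefs136.mX j (A K)) * FDefs136.mX j (B K)).re with hS'
  have h10 : -(2 * (n * d)) ≤ 2 * Real.sqrt p.η * Real.sqrt (1 - p.η) * S := by
    have h11 := (abs_le.1 h9).1
    have h12 : |Real.sqrt p.η * Real.sqrt (1 - p.η) * S| ≤ 1 * (n * d) := by
      rw [abs_mul, abs_of_nonneg hs0]
      exact mul_le_mul hs1 h9 (abs_nonneg _) zero_le_one
    have h13 := (abs_le.1 h12).1
    nlinarith
  have hEE : p.η * FDefs136.En (A K) + (1 - p.η) * FDefs136.En (B K)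
      ≤ n * p.NC + d + 2 * (n * d) := by
    linarith
  have hEE' := mul_le_mul_of_nonneg_left hEE hbC.le
  have hg : (n : ℝ) * gBose p.NC = n * Real.log (p.NC + 1) + p.bC * (n * p.NC) := by
    rw [gBose_eq hNC]
    have : bN p.NC = p.bC := rfl
    rw [this]; ring
  unfold FDefs136.thVal
  have hQ : FDefs136.outQ p.η (epsK n K) (A K) (B K)
      = FDefs136.outC p.η (A K) (B K) + (epsK n K : ℂ) • (1 : Matrix _ _ ℂ) := rfl
  rw [hQ] at h5
  have hcd : d * c = d + p.bC * d + p.bC * (2 * (n * d)) := by rw [hc]; ring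
  have hexp : p.bC * (n * p.NC + d + 2 * (n * d))
      = p.bC * (n * p.NC) + p.bC * d + p.bC * (2 * (n * d)) := by ring
  linarith

theorem lmin_of (hmin : FDefs136.FMINexists) (hFW : FDefs136.FW) (hEn : FDefs136.LENERGY)
    (hGap : FDefs136.LGAP) (hEnC : FDefs136.LENC) (hRec : FDefs136.LREC)
    (hVal : FDefs136.FVALUE) (hSum : FDefs136.FENSUM) : FDefs136.LMIN := by
  intro p n δ hδ
  choose A B hm using fun K : ℕ => hmin p n K (epsK n K) (epsK_pos n K)
  have h := lmin_seq hFW hEn hGap hEnC hRec hVal hSum p n A B hm hδ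
  obtain ⟨K0, hK0⟩ := eventually_atTop.1 h
  refine ⟨K0, fun K hK A' B' hm' => (hK0 K hK).trans ?_⟩
  exact (hm K).le A' B' hm'.dA hm'.dB

/-- **FIN MAIN** from the leaves -/
theorem finmain_of_leaves (hmin : FDefs136.FMINexists) (hFW : FDefs136.FW)
    (hEn : FDefs136.LENERGY) (hGap : FDefs136.LGAP) (hEnC : FDefs136.LENC)
    (hRec : FDefs136.LREC) (hVal : FDefs136.FVALUE) (hSum : FDefs136.FENSUM) :
    FDefs136.FINMAIN :=
  finmain hmin (lmin_of hmin hFW hEn hGap hEnC hRec hVal hSum)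

end Crest.Agent.R331.FTop_628
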