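import Mathlib
import Crest.Agent.R331.FTop_136

/-!
Row 331, FIN track: `FGAP → FERR → FEDGE → FENERGY → LGAP` and `FENERGY → FENSUM → LENERGY`.
-/

set_option autoImplicit false

namespace Crest.Agent.R331.FDefs136

open Matrix Crest.Quantum Crest.MathPhysics.Bosonic Filter Topology
open scoped Kronecker ComplexOrder BigOperators

noncomputable section

/-- `y_K = (K+1)^{1/8}` -/
def yK (K : ℕ) : ℝ := ((K : ℝ) + 1) ^ ((1 : ℝ) / 8)

lemma yK_one_le (K : ℕ) : 1 ≤ yK K := by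
  unfold yK
  apply Real.one_le_rpow _ (by norm_num)
  have : (0 : ℝ) ≤ K := Nat.cast_nonneg K
  linarith

lemma yK_pow (K : ℕ) : yK K ^ 8 = (K : ℝ) + 1 := by
  unfold yK
  have h : (0 : ℝ) ≤ (K : ℝ) + 1 := by positivity
  rw [← Real.rpow_natCast, ← Real.rpow_mul h]
  norm_num

lemma sqrt_yK (K : ℕ) : Real.sqrt ((K : ℝ) + 1) = yK K ^ 4 := by
  rw [← yK_pow, show yK K ^ 8 = (yK K ^ 4) ^ 2 by ring]
  exact Real.sqrt_sq (by have := yK_one_le K; positivity)

lemma log_yK (K : ℕ) : Real.log ((K : ℝ) + 1) ≤ 8 * yK K := by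
  rw [← yK_pow, Real.log_pow]
  have h := Real.log_le_sub_one_of_pos (show 0 < yK K by have := yK_one_le K; linarith)
  push_cast
  linarith

lemma yK_tendsto : Tendsto yK atTop atTop := by
  have h : Tendsto (fun x : ℝ => x ^ ((1 : ℝ) / 8)) atTop atTop :=
    tendsto_rpow_atTop (by norm_num)
  exact h.comp (tendsto_atTop_add_const_right _ _ tendsto_natCast_atTop_atTop)

lemma yK_inv_tendsto (C : ℝ) : Tendsto (fun K => C * (1 / yK K)) atTop (𝓝 0) := by
  have h : Tendsto (fun K => (yK K)⁻¹) atTop (𝓝 0) := tendsto_inv_atTop_zero.comp yK_tendsto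
  have := h.const_mul C
  simpa [one_div] using this

lemma kap_yK (n K : ℕ) : kap (epsK n K) + 1 ≤ (8 * n + 33) * yK K := by
  rw [kap_epsK]
  have h1 := log_yK K
  have h2 := yK_one_le K
  have h3 : ((n + 4 : ℕ) : ℝ) * Real.log ((K : ℝ) + 1) ≤ ((n + 4 : ℕ) : ℝ) * (8 * yK K) :=
    mul_le_mul_of_nonneg_left h1 (by positivity)
  push_cast at h3 ⊢
  nlinarith

lemma log2_yK (K : ℕ) : Real.log (2 * K + 2) ≤ 9 * yK K := by
  have h0 : (0 : ℝ) < (K : ℝ) + 1 := by positivity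
  have e : (2 * (K : ℝ) + 2) = 2 * ((K : ℝ) + 1) := by ring
  rw [e, Real.log_mul (by norm_num) h0.ne']
  have h1 := log_yK K
  have h2 := yK_one_le K
  have h3 : Real.log 2 ≤ 1 := by
    have := Real.log_le_sub_one_of_pos (show (0 : ℝ) < 2 by norm_num)
    linarith
  linarith

/-- the edge rate `s_K` -/
def sK (c : ℝ) (n K : ℕ) : ℝ := c * (kap (epsK n K) + n * Real.log (2 * K + 2) + 1) / K

lemma sK_bound {c : ℝ} (hc : 0 < c) (n : ℕ) {K : ℕ} (hK : 1 ≤ K) :
    0 ≤ sK c n K ∧ sK c n K ≤ 2 * c * (17 * n + 33) * yK K / yK K ^ 8 := by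
  have hK' : (1 : ℝ) ≤ K := by exact_mod_cast hK
  have hy := yK_one_le K
  have hk0 := kap_epsK_nonneg n K
  have hl0 : 0 ≤ Real.log (2 * (K : ℝ) + 2) := Real.log_nonneg (by linarith)
  have hn0 : (0 : ℝ) ≤ n := Nat.cast_nonneg n
  constructor
  · unfold sK; positivity
  · unfold sK
    rw [div_le_div_iff₀ (by linarith) (by positivity)]
    have h1 : kap (epsK n K) + n * Real.log (2 * K + 2) + 1 ≤ (17 * n + 33) * yK K := by
      have a := kap_yK n K
      have b := mul_le_mul_of_nonneg_left (log2_yK K) hn0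
      nlinarith
    have h2 : yK K ^ 8 ≤ 2 * K := by rw [yK_pow]; linarith
    calc c * (kap (epsK n K) + n * Real.log (2 * K + 2) + 1) * yK K ^ 8
        ≤ c * ((17 * n + 33) * yK K) * (2 * K) := by
          apply mul_le_mul (mul_le_mul_of_nonneg_left h1 hc.le) h2 (by positivity) (by positivity)
      _ = 2 * c * (17 * n + 33) * yK K * K := by ring

/-- `(κ+1) s √(K+1) ≤ C / y` -/
lemma rate1 {c : ℝ} (hc : 0 < c) (n : ℕ) {K : ℕ} (hK : 1 ≤ K) :
    (kap (epsK n K) + 1) * (sK c n K * Real.sqrt ((K : ℝ) + 1))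
      ≤ (8 * n + 33) * (2 * c * (17 * n + 33)) * (1 / yK K) := by
  have hy := yK_one_le K
  have hy0 : 0 < yK K := by linarith
  obtain ⟨hs0, hs⟩ := sK_bound hc n hK
  have hk := kap_yK n K
  have hk0 := kap_epsK_nonneg n K
  rw [sqrt_yK]
  have hn0 : (0 : ℝ) ≤ n := Nat.cast_nonneg n
  calc (kap (epsK n K) + 1) * (sK c n K * yK K ^ 4)
      ≤ ((8 * n + 33) * yK K) * ((2 * c * (17 * n + 33) * yK K / yK K ^ 8) * yK K ^ 4) := by
        apply mul_le_mul hk _ (by positivity) (by positivity)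
        exact mul_le_mul_of_nonneg_right hs (by positivity)
    _ = (8 * n + 33) * (2 * c * (17 * n + 33)) * (1 / yK K ^ 2) := by
        field_simp
    _ ≤ (8 * n + 33) * (2 * c * (17 * n + 33)) * (1 / yK K) := by
        apply mul_le_mul_of_nonneg_left _ (by positivity)
        apply one_div_le_one_div_of_le hy0
        nlinarith

/-- `ε (κ+1) (2K+1)^{n+1} ≤ C / y` -/
lemma rate2 (n K : ℕ) :
    epsK n K * (kap (epsK n K) + 1) * ((2 * K + 1 : ℕ) : ℝ) ^ (n + 1)
      ≤ (8 * n + 33) * 2 ^ (n + 1) * (1 / yK K) := by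
  have hy := yK_one_le K
  have hy0 : 0 < yK K := by linarith
  have hk := kap_yK n K
  have hk0 := kap_epsK_nonneg n K
  have hn0 : (0 : ℝ) ≤ n := Nat.cast_nonneg n
  have hK0 : (0 : ℝ) < (K : ℝ) + 1 := by positivity
  have h1 : ((2 * K + 1 : ℕ) : ℝ) ^ (n + 1) ≤ 2 ^ (n + 1) * ((K : ℝ) + 1) ^ (n + 1) := by
    rw [← mul_pow]
    apply pow_le_pow_left₀ (by positivity)
    push_cast; linarith
  calc epsK n K * (kap (epsK n K) + 1) * ((2 * K + 1 : ℕ) : ℝ) ^ (n + 1)
      ≤ epsK n K * ((8 * n + 33) * yK K) * (2 ^ (n + 1) * ((K : ℝ) + 1) ^ (n + 1)) := by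
        apply mul_le_mul _ h1 (by positivity)
        · have := epsK_pos n K; positivity
        · exact mul_le_mul_of_nonneg_left hk (epsK_pos n K).le
    _ = (8 * n + 33) * 2 ^ (n + 1) * (yK K / ((K : ℝ) + 1) ^ 3) := by
        unfold epsK
        rw [show n + 4 = (n + 1) + 3 by ring, pow_add _ (n + 1) 3]
        field_simp
    _ ≤ (8 * n + 33) * 2 ^ (n + 1) * (1 / yK K) := by
        apply mul_le_mul_of_nonneg_left _ (by positivity)
        rw [← yK_pow, div_le_div_iff₀ (by positivity) hy0]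
        have : yK K * yK K ≤ (yK K ^ 8) ^ 3 := by
          have : yK K ^ 2 ≤ yK K ^ 24 := pow_le_pow_right₀ hy (by norm_num)
          calc yK K * yK K = yK K ^ 2 := by ring
            _ ≤ yK K ^ 24 := this
            _ = (yK K ^ 8) ^ 3 := by ring
        linarith

lemma Tp_nonneg {n K : ℕ} (j : Fin n) {A : Matrix (Bx n K) (Bx n K) ℂ} (hA : A.PosSemidef) :
    0 ≤ Tp j A := by
  unfold Tp top
  have h : (A * Matrix.diagonal fun k : Bx n K => if (k j : ℕ) = K then (1 : ℂ) else 0).trace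
      = ∑ k : Bx n K, A k k * (if (k j : ℕ) = K then (1 : ℂ) else 0) := by
    simp [Matrix.trace, Matrix.mul_diagonal]
  rw [h, Complex.re_sum]
  apply Finset.sum_nonneg
  intro k _
  have hk : (0 : ℝ) ≤ (A k k).re := (Complex.le_def.1 (hA.diag_nonneg (i := k))).1
  split_ifs
  · simpa using hk
  · simp

lemma En_nonneg {n K : ℕ} {A : Matrix (Bx n K) (Bx n K) ℂ} (hA : A.PosSemidef) : 0 ≤ En A := by
  unfold En num
  have h : (A * Matrix.diagonal fun k : Bx n K => ((∑ j, (k j : ℕ) : ℕ) : ℂ)).trace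
      = ∑ k : Bx n K, A k k * ((∑ j, (k j : ℕ) : ℕ) : ℂ) := by
    simp [Matrix.trace, Matrix.mul_diagonal]
  rw [h, Complex.re_sum]
  apply Finset.sum_nonneg
  intro k _
  have hk : (0 : ℝ) ≤ (A k k).re := (Complex.le_def.1 (hA.diag_nonneg (i := k))).1
  have e : (A k k * ((∑ j, (k j : ℕ) : ℕ) : ℂ)).re = (A k k).re * ((∑ j, (k j : ℕ) : ℕ) : ℝ) := by
    rw [Complex.mul_re]; simp
  rw [e]
  exact mul_nonneg hk (by positivity)

theorem lgap_of (hG : FGAP) (hE : FERR) (hEd : FEDGE) (hEn : FENERGY) : LGAP := by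
  intro p n j δ hδ
  obtain ⟨cE, hcE, hE⟩ := hE p
  obtain ⟨cD, hcD, hEd⟩ := hEd p
  obtain ⟨E0, hEn⟩ := hEn p n
  set E1 := max E0 0 with hE1
  have hE10 : 0 ≤ E1 := le_max_right _ _
  have hbC : 0 < p.bC := by
    apply bN_pos'
    have h1 := p.η_pos; have h2 := p.η_lt; have h3 := p.NA_pos; have h4 := p.NB_pos
    unfold Par.NC
    have : 0 < 1 - p.η := by linarith
    positivity
  have hμ := p.μ_pos
  have hβ : 0 < p.β := by unfold Par.β; linarith
  -- constants
  set C1 : ℝ := (8 * n + 33) * (2 * cD * (17 * n + 33)) with hC1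
  set C2 : ℝ := (8 * n + 33) * 2 ^ (n + 1) with hC2
  have hn0 : (0 : ℝ) ≤ n := Nat.cast_nonneg n
  have hC1p : 0 ≤ C1 := by positivity
  have hC2p : 0 ≤ C2 := by positivity
  set C3 : ℝ := (p.bC / p.μ) * (p.β * (cE * (C1 * (Real.sqrt 2 * Real.sqrt (1 + E1 + E1)) + C2)))
    with hC3
  have ev1 := (yK_inv_tendsto C3).eventually (gt_mem_nhds hδ)
  have ev2 := (yK_inv_tendsto (cD * C1)).eventually (gt_mem_nhds hδ)
  obtain ⟨K1, hK1⟩ := eventually_atTop.1 (ev1.and ev2)
  obtain ⟨K2, hK2⟩ := exists_nat_ge (2 * (E1 + E1 + 1))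
  refine ⟨max K1 (max K2 1), fun K hK A B hmin => ?_⟩
  have hKK1 : K1 ≤ K := (le_max_left _ _).trans hK
  have hKK2 : K2 ≤ K := ((le_max_left _ _).trans (le_max_right _ _)).trans hK
  have hKp : 1 ≤ K := ((le_max_right _ _).trans (le_max_right _ _)).trans hK
  obtain ⟨hr1, hr2⟩ := hK1 K hKK1
  have hε := epsK_pos n K
  have hε2 := epsK_le n K hKp
  obtain ⟨hEA, hEB⟩ := hEn K (epsK n K) hε A B hmin
  have hEA' : En A ≤ E1 := hEA.trans (le_max_left _ _)
  have hEB' : En B ≤ E1 := hEB.trans (le_max_left _ _)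
  have hcond : 2 * (En A + En B + 1) ≤ K := by
    have : (K2 : ℝ) ≤ K := by exact_mod_cast hKK2
    linarith
  obtain ⟨hTA, hTB, hmA, hmB⟩ := hEd n K j (epsK n K) hε hε2 A B hmin hcond
  obtain ⟨hs0, hs⟩ := sK_bound hcD n hKp
  have hTA' : Tp j A ≤ sK cD n K ^ 2 := hTA
  have hTB' : Tp j B ≤ sK cD n K ^ 2 := hTB
  have hTA0 := Tp_nonneg j hmin.dA.1
  have hTB0 := Tp_nonneg j hmin.dB.1
  have hK0 : (0 : ℝ) ≤ (K : ℝ) + 1 := by positivity
  have hk0 := kap_epsK_nonneg n K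
  have hr := rate1 hcD n hKp
  have hrr := rate2 n K
  have hy0 : 0 < 1 / yK K := by
    have := yK_one_le K
    positivity
  refine ⟨?_, ?_, ?_⟩
  · -- the slack
    have h1 := hG p n K (epsK n K) j hε A B hmin
    have h2 := hE n K j (epsK n K) hε hε2 A B hmin.dA hmin.dB
    have h3 : Real.sqrt ((K + 1) * (Tp j A + Tp j B))
        ≤ sK cD n K * Real.sqrt ((K : ℝ) + 1) * Real.sqrt 2 := by
      apply Real.sqrt_le_iff.2
      refine ⟨by positivity, ?_⟩
      rw [mul_pow, mul_pow, Real.sq_sqrt hK0, Real.sq_sqrt (by norm_num : (0 : ℝ) ≤ 2)]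
      have : Tp j A + Tp j B ≤ 2 * sK cD n K ^ 2 := by linarith
      calc ((K : ℝ) + 1) * (Tp j A + Tp j B) ≤ ((K : ℝ) + 1) * (2 * sK cD n K ^ 2) :=
            mul_le_mul_of_nonneg_left this hK0
        _ = sK cD n K ^ 2 * ((K : ℝ) + 1) * 2 := by ring
    have h4 : Real.sqrt (1 + En A + En B) ≤ Real.sqrt (1 + E1 + E1) :=
      Real.sqrt_le_sqrt (by linarith)
    have h5 : (kap (epsK n K) + 1) * Real.sqrt ((K + 1) * (Tp j A + Tp j B))
          * Real.sqrt (1 + En A + En B)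
        ≤ C1 * (Real.sqrt 2 * Real.sqrt (1 + E1 + E1)) * (1 / yK K) := by
      calc (kap (epsK n K) + 1) * Real.sqrt ((K + 1) * (Tp j A + Tp j B))
            * Real.sqrt (1 + En A + En B)
          ≤ (kap (epsK n K) + 1) * (sK cD n K * Real.sqrt ((K : ℝ) + 1) * Real.sqrt 2)
            * Real.sqrt (1 + E1 + E1) := by
            apply mul_le_mul _ h4 (Real.sqrt_nonneg _) (by positivity)
            exact mul_le_mul_of_nonneg_left h3 (by linarith)
        _ = ((kap (epsK n K) + 1) * (sK cD n K * Real.sqrt ((K : ℝ) + 1)))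
            * (Real.sqrt 2 * Real.sqrt (1 + E1 + E1)) := by ring
        _ ≤ (C1 * (1 / yK K)) * (Real.sqrt 2 * Real.sqrt (1 + E1 + E1)) := by
            apply mul_le_mul_of_nonneg_right hr (by positivity)
        _ = C1 * (Real.sqrt 2 * Real.sqrt (1 + E1 + E1)) * (1 / yK K) := by ring
    have h6 : gapErr p (epsK n K) j A B
        ≤ cE * (C1 * (Real.sqrt 2 * Real.sqrt (1 + E1 + E1)) + C2) * (1 / yK K) := by
      refine h2.trans ?_
      calc cE * ((kap (epsK n K) + 1) * Real.sqrt ((K + 1) * (Tp j A + Tp j B))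
              * Real.sqrt (1 + En A + En B)
            + epsK n K * (kap (epsK n K) + 1) * ((2 * K + 1 : ℕ) : ℝ) ^ (n + 1))
          ≤ cE * (C1 * (Real.sqrt 2 * Real.sqrt (1 + E1 + E1)) * (1 / yK K)
            + C2 * (1 / yK K)) := by
            apply mul_le_mul_of_nonneg_left _ hcE.le
            exact add_le_add h5 hrr
        _ = _ := by ring
    have h7 : formD p.bC (outQ p.η (epsK n K) A B) (GQc p (epsK n K) j A B)
        ≤ C3 * (1 / yK K) := by
      have h8 := h1.trans (mul_le_mul_of_nonneg_left h6 hβ.le)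
      have h9 := mul_le_mul_of_nonneg_left h8 (show 0 ≤ p.bC / p.μ by positivity)
      have e1 : p.bC / p.μ * (p.μ / p.bC * formD p.bC (outQ p.η (epsK n K) A B)
          (GQc p (epsK n K) j A B)) = formD p.bC (outQ p.η (epsK n K) A B)
          (GQc p (epsK n K) j A B) := by
        field_simp
      rw [e1] at h9
      refine h9.trans (le_of_eq ?_)
      rw [hC3]; ring
    exact h7.trans hr1.le
  · have h3 : Real.sqrt ((K + 1) * Tp j A) ≤ sK cD n K * Real.sqrt ((K : ℝ) + 1) := by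
      apply Real.sqrt_le_iff.2
      refine ⟨by positivity, ?_⟩
      rw [mul_pow, Real.sq_sqrt hK0]
      calc ((K : ℝ) + 1) * Tp j A ≤ ((K : ℝ) + 1) * sK cD n K ^ 2 :=
            mul_le_mul_of_nonneg_left hTA' hK0
        _ = sK cD n K ^ 2 * ((K : ℝ) + 1) := by ring
    calc ‖mX j A‖ ≤ cD * kap (epsK n K) * Real.sqrt ((K + 1) * Tp j A) := hmA
      _ ≤ cD * (kap (epsK n K) + 1) * (sK cD n K * Real.sqrt ((K : ℝ) + 1)) := by
          apply mul_le_mul _ h3 (Real.sqrt_nonneg _) (by positivity)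
          exact mul_le_mul_of_nonneg_left (by linarith) hcD.le
      _ = cD * ((kap (epsK n K) + 1) * (sK cD n K * Real.sqrt ((K : ℝ) + 1))) := by ring
      _ ≤ cD * (C1 * (1 / yK K)) := mul_le_mul_of_nonneg_left hr hcD.le
      _ = cD * C1 * (1 / yK K) := by ring
      _ ≤ δ := hr2.le
  · have h3 : Real.sqrt ((K + 1) * Tp j B) ≤ sK cD n K * Real.sqrt ((K : ℝ) + 1) := by
      apply Real.sqrt_le_iff.2
      refine ⟨by positivity, ?_⟩
      rw [mul_pow, Real.sq_sqrt hK0]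
      calc ((K : ℝ) + 1) * Tp j B ≤ ((K : ℝ) + 1) * sK cD n K ^ 2 :=
            mul_le_mul_of_nonneg_left hTB' hK0
        _ = sK cD n K ^ 2 * ((K : ℝ) + 1) := by ring
    calc ‖mX j B‖ ≤ cD * kap (epsK n K) * Real.sqrt ((K + 1) * Tp j B) := hmB
      _ ≤ cD * (kap (epsK n K) + 1) * (sK cD n K * Real.sqrt ((K : ℝ) + 1)) := by
          apply mul_le_mul _ h3 (Real.sqrt_nonneg _) (by positivity)
          exact mul_le_mul_of_nonneg_left (by linarith) hcD.le
      _ = cD * ((kap (epsK n K) + 1) * (sK cD n K * Real.sqrt ((K : ℝ) + 1))) := by ring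
      _ ≤ cD * (C1 * (1 / yK K)) := mul_le_mul_of_nonneg_left hr hcD.le
      _ = cD * C1 * (1 / yK K) := by ring
      _ ≤ δ := hr2.le

end

end Crest.Agent.R331.FDefs136
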