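import Mathlib
import Crest.Agent.R331.FCurC_380
import Crest.Agent.R331.FDefs2_136
import Crest.Agent.R331.FinWBox_87
import Crest.Agent.R331.FCovB_76

set_option autoImplicit false
set_option linter.unusedSectionVars false

/-!
Row 331, finite track: `FCUR`, `LGAP → LREC`, `LGAP → LENERGY → LENC` (Props of `FDefs2_136`).
-/

open Matrix Finset Filter Topology
open scoped ComplexOrder

namespace Crest.Agent.R331.FCur380

open Crest.Quantum Crest.MathPhysics.Bosonic
open Crest.Agent.R331.Fin7_380 (Diag)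
open Crest.Agent.R331.Fin7_380.Diag (LR)
open Crest.Agent.R331.Fin8_628 (occ boxF toBx ext tot en uni LadLim uni_same uni_ne occ_mem mem_boxF
  occ_toBx toBx_occ)
open Crest.Agent.R331.FDefs136 (Par outC outQ GQc formD mC GG KL mlog qf eb al succIn om formR formL
  bN mX epsK IsMin En EnC ent)

variable {n K : ℕ}

theorem om_eq {κ : Type*} [Fintype κ] [DecidableEq κ] (N : ℝ) (m : ℂ) (Q x : Matrix κ κ ℂ) :
    om N m Q x = wmat N Q (x - m • (1 : Matrix κ κ ℂ)) := rfl

/-- **FCUR** of `FDefs2_136` -/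
theorem FCUR_holds : FDefs136.FCUR := by
  intro ι _ _ Q x Y N m hN hQ
  have H := diag_of_posDef hQ
  have h1 := current0 H hN (x - m • (1 : Matrix ι ι ℂ)) Y
  rw [om_eq, formD_eq hQ]
  exact h1

/-- mean of `c_j` in the output -/
theorem mC_eq {η : ℝ} (h0 : 0 < η) (h1 : η < 1) (j : Fin n)
    {A B : Matrix (FDefs136.Bx n K) (FDefs136.Bx n K) ℂ} (hA : IsDensity A) (hB : IsDensity B) :
    mC η j A B = (Real.sqrt η : ℂ) * mX j A + (Real.sqrt (1 - η) : ℂ) * mX j B := by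
  obtain ⟨S, hS⟩ := FinW87.FW_holds η n K j h0 h1
  have h2 := S.trace_out_c hA.2 hB.2
  have h3 : S.out A B = outC η A B := by
    unfold FCov76.BS.out FCov76.BS.Phi outC
    rw [hS.ι]
  unfold mC mX
  rw [← h3, ← hS.c, h2, hS.a, hS.b, hS.hA, hS.hB]

theorem outC_density {η : ℝ} (h0 : 0 < η) (h1 : η < 1) (hn : Nonempty (Fin n))
    {A B : Matrix (FDefs136.Bx n K) (FDefs136.Bx n K) ℂ} (hA : IsDensity A) (hB : IsDensity B) :
    IsDensity (outC η A B) := by
  obtain ⟨j⟩ := hn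
  obtain ⟨S, hS⟩ := FinW87.FW_holds η n K j h0 h1
  have h3 : S.out A B = outC η A B := by
    unfold FCov76.BS.out FCov76.BS.Phi outC
    rw [hS.ι]
  refine ⟨?_, ?_⟩
  · rw [← h3]; exact S.out_posSemidef hA.1 hB.1
  · rw [← h3, S.trace_out, hA.2, hB.2, one_mul]

theorem epsK_pos' (n K : ℕ) : 0 < epsK n K := by unfold epsK; positivity

theorem epsK_mul_le (n K : ℕ) :
    epsK n K * ((2 * K : ℕ) + 1 : ℝ) ^ (n + 1) ≤ 2 ^ (n + 1) * (1 / ((K : ℝ) + 1)) := by
  have hK : (1 : ℝ) ≤ (K : ℝ) + 1 := by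
    have : (0 : ℝ) ≤ (K : ℝ) := Nat.cast_nonneg _
    linarith
  have hK0 : (0 : ℝ) < (K : ℝ) + 1 := by linarith
  have h1 : ((2 * K : ℕ) + 1 : ℝ) ^ (n + 1) ≤ (2 * ((K : ℝ) + 1)) ^ (n + 1) := by
    apply pow_le_pow_left₀ (by positivity)
    push_cast; linarith
  calc epsK n K * ((2 * K : ℕ) + 1 : ℝ) ^ (n + 1)
      ≤ epsK n K * (2 * ((K : ℝ) + 1)) ^ (n + 1) :=
        mul_le_mul_of_nonneg_left h1 (epsK_pos' n K).le
    _ = 2 ^ (n + 1) * (1 / ((K : ℝ) + 1) ^ 3) := by
        unfold epsK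
        rw [mul_pow, show n + 4 = (n + 1) + 3 by ring, pow_add ((K : ℝ) + 1) (n + 1) 3]
        field_simp
    _ ≤ 2 ^ (n + 1) * (1 / ((K : ℝ) + 1)) := by
        apply mul_le_mul_of_nonneg_left _ (by positivity)
        apply div_le_div_of_nonneg_left zero_le_one hK0
        calc (K : ℝ) + 1 = ((K : ℝ) + 1) ^ 1 := (pow_one _).symm
          _ ≤ ((K : ℝ) + 1) ^ 3 := pow_le_pow_right₀ hK (by norm_num)

theorem formD_nonneg' {κ : Type*} [Fintype κ] [DecidableEq κ] {Q : Matrix κ κ ℂ} (hQ : Q.PosDef)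
    (b : ℝ) (Y : Matrix κ κ ℂ) : 0 ≤ formD b Q Y := by
  unfold formD qf
  rw [dif_pos hQ.isHermitian]
  refine Finset.sum_nonneg fun i _ => Finset.sum_nonneg fun j _ => ?_
  have h1 := (hQ.eigenvalues_pos i).le
  have h2 := (hQ.eigenvalues_pos j).le
  positivity

/-- the limit along any sequence of minimisers -/
theorem seq_lim (hG : FDefs136.LGAP) (hE : FDefs136.LENERGY) (p : Par) (n : ℕ)
    (hn : Nonempty (Fin n)) (K : ℕ → ℕ) (hK : ∀ a, a ≤ K a)
    (A B : ∀ a, Matrix (FDefs136.Bx n (K a)) (FDefs136.Bx n (K a)) ℂ)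
    (hmin : ∀ a, IsMin p (epsK n (K a)) (A a) (B a)) :
    LadLim atTop (Gibbs158.qN p.NC)
        (fun a => ext (n := n) (m := 2 * K a) (outC p.η (A a) (B a))) ∧
      ∀ δ : ℝ, 0 < δ → ∀ᶠ a in atTop,
        en (n := n) (m := 2 * K a) (outC p.η (A a) (B a)) ≤ n * p.NC + δ := by
  have hKt : Tendsto K atTop atTop := tendsto_atTop_mono hK tendsto_id
  have hC : ∀ a, IsDensity (outC p.η (A a) (B a)) := fun a =>
    outC_density p.η_pos p.η_lt hn (hmin a).dA (hmin a).dB
  obtain ⟨E0, hE0⟩ := hE p n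
  have hm : ∀ j, Tendsto (fun a => mC p.η j (A a) (B a)) atTop (𝓝 0) := by
    intro j
    rw [Metric.tendsto_atTop]
    intro ε hε
    obtain ⟨K0, hK0⟩ := hG p n j (ε / 4) (by positivity)
    refine ⟨K0, fun a ha => ?_⟩
    obtain ⟨-, h1, h2⟩ := hK0 (K a) (ha.trans (hK a)) _ _ (hmin a)
    rw [dist_zero_right, mC_eq p.η_pos p.η_lt j (hmin a).dA (hmin a).dB]
    have s1 : Real.sqrt p.η ≤ 1 := by
      exact Real.sqrt_le_one.2 p.η_lt.le
    have s2 : Real.sqrt (1 - p.η) ≤ 1 := by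
      exact Real.sqrt_le_one.2 (by linarith [p.η_pos])
    calc ‖(Real.sqrt p.η : ℂ) * mX j (A a) + (Real.sqrt (1 - p.η) : ℂ) * mX j (B a)‖
        ≤ ‖(Real.sqrt p.η : ℂ) * mX j (A a)‖ + ‖(Real.sqrt (1 - p.η) : ℂ) * mX j (B a)‖ :=
          norm_add_le _ _
      _ ≤ 1 * (ε / 4) + 1 * (ε / 4) := by
          rw [norm_mul, norm_mul, Complex.norm_real, Complex.norm_real, Real.norm_eq_abs,
            Real.norm_eq_abs, abs_of_nonneg (Real.sqrt_nonneg _),
            abs_of_nonneg (Real.sqrt_nonneg _)]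
          gcongr
      _ < ε := by linarith
  have hD : ∀ j, Tendsto (fun a => formD p.bC (outQ p.η (epsK n (K a)) (A a) (B a))
      (GQc p (epsK n (K a)) j (A a) (B a))) atTop (𝓝 0) := by
    intro j
    rw [Metric.tendsto_atTop]
    intro ε hε
    obtain ⟨K0, hK0⟩ := hG p n j (ε / 2) (by positivity)
    refine ⟨K0, fun a ha => ?_⟩
    obtain ⟨h1, -, -⟩ := hK0 (K a) (ha.trans (hK a)) _ _ (hmin a)
    have h2 := formD_nonneg' (outQ_posDef (epsK_pos' n (K a)) (hC a).1) p.bC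
      (GQc p (epsK n (K a)) j (A a) (B a))
    rw [dist_zero_right, Real.norm_eq_abs, abs_of_nonneg h2]
    linarith
  have hen : ∀ a, en (n := n) (m := 2 * K a) (outC p.η (A a) (B a)) ≤ E0 := by
    intro a
    obtain ⟨-, -, h3⟩ := hE0 (K a) _ _ (hmin a)
    refine le_trans (le_of_eq ?_) h3
    unfold EnC en FDefs136.num
    rw [Matrix.trace, Complex.re_sum]
    refine Finset.sum_congr rfl fun k _ => ?_
    rw [Matrix.diag_apply, Matrix.mul_diagonal, mul_comm, ← Complex.ofReal_natCast,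
      Complex.re_mul_ofReal]
    rfl
  have hε0 : Tendsto (fun a => epsK n (K a) * ((2 * K a : ℕ) + 1 : ℝ) ^ (n + 1)) atTop (𝓝 0) := by
    refine squeeze_zero (fun a => ?_) (fun a => epsK_mul_le n (K a)) ?_
    · have := (epsK_pos' n (K a)).le
      positivity
    · have h1 : Tendsto (fun a => (1 : ℝ) / ((K a : ℝ) + 1)) atTop (𝓝 0) :=
        tendsto_one_div_add_atTop_nhds_zero_nat.comp hKt
      simpa using h1.const_mul ((2 : ℝ) ^ (n + 1))
  exact fcur p n hKt A B (fun a => epsK n (K a)) (fun a => epsK_pos' n (K a)) hε0 hC hm hD hen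

theorem en_eq_EnC (p : Par) (A B : Matrix (FDefs136.Bx n K) (FDefs136.Bx n K) ℂ) :
    en (n := n) (m := 2 * K) (outC p.η A B) = EnC p.η A B := by
  unfold EnC en FDefs136.num
  rw [Matrix.trace, Complex.re_sum]
  refine Finset.sum_congr rfl fun k _ => ?_
  rw [Matrix.diag_apply, Matrix.mul_diagonal, mul_comm, ← Complex.ofReal_natCast,
    Complex.re_mul_ofReal]
  rfl

/-- **LENC** -/
theorem LENC_of (hG : FDefs136.LGAP) (hE : FDefs136.LENERGY) : FDefs136.LENC := by
  intro p n δ hδ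
  rcases isEmpty_or_nonempty (Fin n) with hn | hn
  · refine ⟨0, fun K _ A B _ => ?_⟩
    rw [← en_eq_EnC]
    have h0 : en (n := n) (m := 2 * K) (outC p.η A B) = 0 := by
      unfold en tot
      refine Finset.sum_eq_zero fun k _ => ?_
      rw [Finset.univ_eq_empty, Finset.sum_empty, Nat.cast_zero, zero_mul]
    rw [h0]
    have hn0 : n = 0 := by
      by_contra h
      exact hn.false ⟨0, Nat.pos_of_ne_zero h⟩
    subst hn0
    simp [hδ.le]
  · by_contra hcon
    push Not at hcon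
    choose K hK A B hmin hbad using hcon
    obtain ⟨-, h2⟩ := seq_lim hG hE p n hn K hK A B hmin
    obtain ⟨a, ha⟩ := (h2 δ hδ).exists
    have h3 := hbad a
    rw [← en_eq_EnC] at h3
    linarith

theorem ent_eq_ext {M : ℕ} (X : Matrix (FDefs136.Bx n M) (FDefs136.Bx n M) ℂ) (k l : Fin n → ℕ) :
    ent X k l = ext (n := n) (m := M) X k l := by
  unfold ent Fin8_628.ext
  by_cases h : (∀ i, k i < M + 1) ∧ (∀ i, l i < M + 1)
  · have h' : k ∈ boxF n M ∧ l ∈ boxF n M :=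
      ⟨mem_boxF.2 fun i => Nat.lt_succ_iff.1 (h.1 i), mem_boxF.2 fun i => Nat.lt_succ_iff.1 (h.2 i)⟩
    rw [dif_pos h, dif_pos h']
    rfl
  · have h' : ¬ (k ∈ boxF n M ∧ l ∈ boxF n M) := fun h' => h
      ⟨fun i => Nat.lt_succ_iff.2 (mem_boxF.1 h'.1 i), fun i => Nat.lt_succ_iff.2 (mem_boxF.1 h'.2 i)⟩
    rw [dif_neg h, dif_neg h']

theorem update_add (k : Fin n → ℕ) (j : Fin n) :
    Function.update k j (k j + 1) = (k : Occ n) + uni j := by
  funext i
  by_cases hi : i = j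
  · subst hi
    rw [Function.update_self]
    change k i + 1 = k i + uni i i
    rw [uni_same]
  · rw [Function.update_of_ne hi]
    change k i = k i + uni j i
    rw [uni_ne hi, add_zero]

theorem update_sub (k : Fin n → ℕ) (j : Fin n) :
    Function.update k j (k j - 1) = (k : Occ n) - uni j := by
  funext i
  by_cases hi : i = j
  · subst hi
    rw [Function.update_self]
    change k i - 1 = k i - uni i i
    rw [uni_same]
  · rw [Function.update_of_ne hi]
    change k i = k i - uni j i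
    rw [uni_ne hi, Nat.sub_zero]

/-- **LREC** -/
theorem LREC_of (hG : FDefs136.LGAP) (hE : FDefs136.LENERGY) : FDefs136.LREC := by
  intro p n j k l δ hδ
  have hn : Nonempty (Fin n) := ⟨j⟩
  by_contra hcon
  push Not at hcon
  choose K hK A B hmin hbad using hcon
  obtain ⟨h1, -⟩ := seq_lim hG hE p n hn K hK A B hmin
  have h2 := h1 j k l
  rw [Metric.tendsto_atTop] at h2
  obtain ⟨a, ha⟩ := h2 δ hδ
  have h3 := ha a le_rfl
  have h4 := hbad a
  rw [dist_zero_right] at h3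
  rw [ent_eq_ext, ent_eq_ext, update_add, update_sub] at h4
  refine absurd h3 (not_lt.2 (le_of_lt (lt_of_lt_of_eq h4 ?_)))
  congr 2
  unfold Gibbs158.qN
  push_cast
  ring

end Crest.Agent.R331.FCur380
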