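import Mathlib
import Crest.Agent.R331.FinWBox_87
import Crest.Agent.R331.FDefs2_136

/-! # Energy identity `FENSUM` (helper87, row 331) -/

set_option autoImplicit false
set_option linter.unusedSectionVars false

noncomputable section

namespace Crest.Agent.R331.FinW87

open Crest.MathPhysics.Bosonic Crest.Agent.R331.BS375 Finset Matrix Crest.Quantum
open Crest.Agent.R331.Fin8_628 (Bx occ)
open scoped Kronecker ComplexOrder

section abs
variable {α β γ δ : Type*} [Fintype α] [Fintype β] [Fintype γ] [Fintype δ]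
    [DecidableEq α] [DecidableEq β] [DecidableEq γ] [DecidableEq δ]

/-- `Tr C cᴴ c = hA² Tr A aᴴ a + hB² Tr B bᴴ b + hA hB (conj <b> <a> + conj <a> <b>)`. -/
theorem energy_abs (S : FCov76.BS α β γ δ) {A : Matrix α α ℂ} {B : Matrix β β ℂ}
    (hA : Aᴴ = A) (hB : Bᴴ = B) (tA : A.trace = 1) (tB : B.trace = 1) :
    (S.out A B * (S.cᴴ * S.c)).trace
      = (S.hA : ℂ) ^ 2 * (A * (S.aᴴ * S.a)).trace + (S.hB : ℂ) ^ 2 * (B * (S.bᴴ * S.b)).trace
        + (S.hA : ℂ) * (S.hB : ℂ) * (star (B * S.b).trace * (A * S.a).trace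
          + star (A * S.a).trace * (B * S.b).trace) := by
  rw [S.trace_out_mul_c, S.PA_conjTranspose hB, S.PB_conjTranspose hA, S.PA_c tB, S.PB_c tA]
  simp only [Matrix.conjTranspose_add, Matrix.conjTranspose_smul, Matrix.conjTranspose_one,
    Matrix.add_mul, Matrix.smul_mul, Matrix.one_mul, Matrix.mul_add, Matrix.mul_smul,
    Matrix.trace_add, Matrix.trace_smul, smul_eq_mul, star_mul', Complex.star_def,
    Complex.conj_ofReal]
  ring

end abs

variable {n K : ℕ}

theorem FENSUM_mode {η : ℝ} (h : η ∈ Set.Icc (0 : ℝ) 1) (j : Fin n)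
    {A B : Matrix (Bx n K) (Bx n K) ℂ} (hA : IsDensity A) (hB : IsDensity B) :
    η * (A * numbx n K j).trace.re + (1 - η) * (B * numbx n K j).trace.re
      + 2 * Real.sqrt η * Real.sqrt (1 - η) *
        ((starRingEnd ℂ) (FDefs136.mX j A) * FDefs136.mX j B).re
      = (FDefs136.outC η A B * numbx n (2 * K) j).trace.re := by
  have h1 := energy_abs (bxBS h n K j) hA.1.1 hB.1.1 hA.2 hB.2
  have e1 : (bxBS h n K j).cᴴ * (bxBS h n K j).c = numbx n (2 * K) j := xH_mul_x j
  have e2 : (bxBS h n K j).aᴴ * (bxBS h n K j).a = numbx n K j := xH_mul_x j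
  have e3 : (bxBS h n K j).bᴴ * (bxBS h n K j).b = numbx n K j := xH_mul_x j
  have e4 : (bxBS h n K j).out A B = FDefs136.outC η A B := rfl
  have e5 : (A * (bxBS h n K j).a).trace = FDefs136.mX j A := by
    rw [FDefs136.mX, ann_eq]; rfl
  have e6 : (B * (bxBS h n K j).b).trace = FDefs136.mX j B := by
    rw [FDefs136.mX, ann_eq]; rfl
  have e7 : (bxBS h n K j).hA = Real.sqrt η := rfl
  have e8 : (bxBS h n K j).hB = Real.sqrt (1 - η) := rfl
  rw [e1, e2, e3, e4, e5, e6, e7, e8] at h1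
  have h2 := congrArg Complex.re h1
  rw [h2]
  have s1 : ((Real.sqrt η : ℝ) : ℂ) ^ 2 = ((η : ℝ) : ℂ) := by
    rw [← Complex.ofReal_pow, Real.sq_sqrt h.1]
  have s2 : ((Real.sqrt (1 - η) : ℝ) : ℂ) ^ 2 = ((1 - η : ℝ) : ℂ) := by
    rw [← Complex.ofReal_pow, Real.sq_sqrt (by linarith [h.2])]
  rw [s1, s2, ← Complex.ofReal_mul, Complex.add_re, Complex.add_re, Complex.re_ofReal_mul,
    Complex.re_ofReal_mul, Complex.re_ofReal_mul, Complex.add_re]
  have s3 : (star (FDefs136.mX j B) * FDefs136.mX j A).re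
      = ((starRingEnd ℂ) (FDefs136.mX j A) * FDefs136.mX j B).re := by
    simp only [Complex.star_def, Complex.mul_re, Complex.conj_re, Complex.conj_im]; ring
  have s4 : (star (FDefs136.mX j A) * FDefs136.mX j B).re
      = ((starRingEnd ℂ) (FDefs136.mX j A) * FDefs136.mX j B).re := rfl
  rw [s3, s4]
  ring

/-- LEAF FENSUM. -/
theorem FENSUM_holds : FDefs136.FENSUM := by
  intro η n K h0 h1 A B hA hB
  have h : η ∈ Set.Icc (0 : ℝ) 1 := ⟨h0.le, h1.le⟩
  have e1 : ∀ (M : ℕ) (X : Matrix (Bx n M) (Bx n M) ℂ),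
      (X * FDefs136.num n M).trace.re = ∑ j, (X * numbx n M j).trace.re := by
    intro M X
    rw [num_eq, Matrix.mul_sum, Matrix.trace_sum, Complex.re_sum]
  rw [FDefs136.EnC, FDefs136.En, FDefs136.En, e1, e1, e1, Finset.mul_sum, Finset.mul_sum,
    Finset.mul_sum, ← Finset.sum_add_distrib, ← Finset.sum_add_distrib]
  exact Finset.sum_congr rfl fun j _ => FENSUM_mode h j hA hB

end Crest.Agent.R331.FinW87
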