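import Mathlib
import Crest.Agent.R331.FRec_380

set_option autoImplicit false
set_option linter.unusedSectionVars false

/-! Row 331, finite track: `FENERGY → FENSUM → LENERGY` (Props of `FDefs2_136`). -/

open Matrix Finset Filter Topology
open scoped ComplexOrder

namespace Crest.Agent.R331.FCur380

open Crest.Quantum Crest.MathPhysics.Bosonic
open Crest.Agent.R331.FDefs136 (Par outC outQ mX epsK IsMin En EnC)

variable {n K : ℕ}

theorem En_eq_sum (A : Matrix (FDefs136.Bx n K) (FDefs136.Bx n K) ℂ) :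
    En A = ∑ j, enj (n := n) (m := K) A j := by
  rw [← en_eq]
  unfold En Fin8_628.en FDefs136.num
  rw [Matrix.trace, Complex.re_sum]
  refine Finset.sum_congr rfl fun k _ => ?_
  rw [Matrix.diag_apply, Matrix.mul_diagonal, mul_comm, ← Complex.ofReal_natCast,
    Complex.re_ofReal_mul]
  rfl

/-- `|⟨a_j⟩|² ≤ ⟨a_j† a_j⟩` -/
theorem mX_sq_le {A : Matrix (FDefs136.Bx n K) (FDefs136.Bx n K) ℂ} (hA : IsDensity A)
    (j : Fin n) : ‖mX j A‖ ^ 2 ≤ enj (n := n) (m := K) A j := by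
  have h1 := FCov76.rcs hA.1 (1 : Matrix (FDefs136.Bx n K) (FDefs136.Bx n K) ℂ) (FDefs136.ann n K j)
  rw [Matrix.conjTranspose_one, Matrix.one_mul, Matrix.one_mul, Matrix.mul_one, hA.2,
    Complex.one_re, one_mul, ann_eq, trace_annH_ann] at h1
  unfold mX
  rw [ann_eq]
  exact h1

theorem sum_mX_le {A : Matrix (FDefs136.Bx n K) (FDefs136.Bx n K) ℂ} (hA : IsDensity A) :
    ∑ j, ‖mX j A‖ ^ 2 ≤ En A := by
  rw [En_eq_sum]
  exact Finset.sum_le_sum fun j _ => mX_sq_le hA j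

theorem En_nonneg {A : Matrix (FDefs136.Bx n K) (FDefs136.Bx n K) ℂ} (hA : IsDensity A) :
    0 ≤ En A := by
  rw [En_eq_sum]
  exact Finset.sum_nonneg fun j _ => enj_nonneg hA.1 j

/-- `E_C ≤ 2 (E_A + E_B)` -/
theorem EnC_le (hS : FDefs136.FENSUM) {η : ℝ} (h0 : 0 < η) (h1 : η < 1)
    {A B : Matrix (FDefs136.Bx n K) (FDefs136.Bx n K) ℂ} (hA : IsDensity A) (hB : IsDensity B) :
    EnC η A B ≤ 2 * (En A + En B) := by
  rw [← hS η n K h0 h1 A B hA hB]
  have s1 : Real.sqrt η ≤ 1 := Real.sqrt_le_one.2 h1.le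
  have s2 : Real.sqrt (1 - η) ≤ 1 := Real.sqrt_le_one.2 (by linarith)
  have s3 := Real.sqrt_nonneg η
  have s4 := Real.sqrt_nonneg (1 - η)
  have hEA := En_nonneg hA
  have hEB := En_nonneg hB
  have h2 : |∑ j, ((starRingEnd ℂ) (mX j A) * mX j B).re| ≤ (En A + En B) / 2 := by
    refine (Finset.abs_sum_le_sum_abs _ _).trans ?_
    calc ∑ j, |((starRingEnd ℂ) (mX j A) * mX j B).re|
        ≤ ∑ j, (‖mX j A‖ ^ 2 + ‖mX j B‖ ^ 2) / 2 := by
          refine Finset.sum_le_sum fun j _ => ?_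
          refine (Complex.abs_re_le_norm _).trans ?_
          rw [norm_mul, RCLike.norm_conj]
          nlinarith [sq_nonneg (‖mX j A‖ - ‖mX j B‖)]
      _ = (∑ j, ‖mX j A‖ ^ 2 + ∑ j, ‖mX j B‖ ^ 2) / 2 := by
          rw [← Finset.sum_div, Finset.sum_add_distrib]
      _ ≤ _ := by
          have := sum_mX_le hA
          have := sum_mX_le hB
          linarith
  have h3 : 2 * Real.sqrt η * Real.sqrt (1 - η) * ∑ j, ((starRingEnd ℂ) (mX j A) * mX j B).re ≤
      2 * ((En A + En B) / 2) := by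
    have h4 : Real.sqrt η * Real.sqrt (1 - η) ≤ 1 := by nlinarith
    have h5 : 0 ≤ Real.sqrt η * Real.sqrt (1 - η) := mul_nonneg s3 s4
    have h6 := (abs_le.1 h2).2
    have h7 : 0 ≤ (En A + En B) / 2 := by linarith
    calc 2 * Real.sqrt η * Real.sqrt (1 - η) * ∑ j, ((starRingEnd ℂ) (mX j A) * mX j B).re
        = 2 * ((Real.sqrt η * Real.sqrt (1 - η)) *
          ∑ j, ((starRingEnd ℂ) (mX j A) * mX j B).re) := by ring
      _ ≤ 2 * ((Real.sqrt η * Real.sqrt (1 - η)) * ((En A + En B) / 2)) := by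
          apply mul_le_mul_of_nonneg_left _ (by norm_num)
          exact mul_le_mul_of_nonneg_left h6 h5
      _ ≤ 2 * (1 * ((En A + En B) / 2)) := by
          apply mul_le_mul_of_nonneg_left _ (by norm_num)
          exact mul_le_mul_of_nonneg_right h4 h7
      _ = _ := by ring
  nlinarith

/-- **LENERGY** -/
theorem LENERGY_of (hF : FDefs136.FENERGY) (hS : FDefs136.FENSUM) : FDefs136.LENERGY := by
  intro p n
  obtain ⟨E0, hE0⟩ := hF p n
  refine ⟨4 * |E0|, fun K A B hmin => ?_⟩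
  obtain ⟨h1, h2⟩ := hE0 K (epsK n K) (epsK_pos' n K) A B hmin
  have h3 := EnC_le hS p.η_pos p.η_lt hmin.dA hmin.dB
  have h4 := le_abs_self E0
  have h5 := abs_nonneg E0
  refine ⟨by linarith, by linarith, by linarith⟩

end Crest.Agent.R331.FCur380
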