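/-
Row 331 (S0514), leaf [FEXT], part 1: box truncations of states.
Main results (namespace `Crest.Agent.R331.Fext682`):
* `BoxSupp M ρ` : all entries outside the box `k_j ≤ M` vanish;
* `exists_trunc` : every finite energy state is the entrywise limit of box supported states with
  uniformly bounded energies.
-/
import Mathlib
import Crest.Prelude.Def_FockState
import Crest.Agent.R331.Cpt3_682

set_option autoImplicit false
set_option linter.unusedSectionVars false
set_option linter.deprecated false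
set_option linter.unusedSimpArgs false
set_option linter.style.haveILetI false

noncomputable section

namespace Crest.Agent.R331.Fext682

open scoped InnerProductSpace ENNReal Topology NNReal
open Filter Crest.MathPhysics.Bosonic Crest.Agent.R331.CPT682

section generic

variable {H : Type*} [NormedAddCommGroup H] [InnerProductSpace ℂ H] [CompleteSpace H]
variable {ι : Type*}

/-- the projection onto the span of finitely many basis vectors -/
def PF (b : HilbertBasis ι ℂ H) (F : Finset ι) : H →L[ℂ] H :=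
  ∑ i ∈ F, (innerSL ℂ (b i)).smulRight (b i)

lemma PF_apply (b : HilbertBasis ι ℂ H) (F : Finset ι) (x : H) :
    PF b F x = ∑ i ∈ F, ⟪b i, x⟫_ℂ • b i := by
  unfold PF
  simp [ContinuousLinearMap.sum_apply]

open Classical in
lemma PF_basis (b : HilbertBasis ι ℂ H) (F : Finset ι) (i : ι) :
    PF b F (b i) = if i ∈ F then b i else 0 := by
  rw [PF_apply]
  have h : ∀ j, ⟪b j, b i⟫_ℂ = if j = i then 1 else 0 := fun j =>
    orthonormal_iff_ite.1 b.orthonormal j i
  simp_rw [h]
  simp

lemma PF_symm (b : HilbertBasis ι ℂ H) (F : Finset ι) (x y : H) :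
    ⟪PF b F x, y⟫_ℂ = ⟪x, PF b F y⟫_ℂ := by
  rw [PF_apply, PF_apply, sum_inner, inner_sum]
  refine Finset.sum_congr rfl fun i _ => ?_
  rw [inner_smul_left, inner_smul_right, inner_conj_symm]
  ring

lemma PF_adjoint (b : HilbertBasis ι ℂ H) (F : Finset ι) :
    ContinuousLinearMap.adjoint (PF b F) = PF b F := by
  symm
  rw [ContinuousLinearMap.eq_adjoint_iff]
  intro x y
  exact PF_symm b F x y

/-- compression -/
def cmp (b : HilbertBasis ι ℂ H) (F : Finset ι) (T : H →L[ℂ] H) : H →L[ℂ] H :=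
  (PF b F) ∘L T ∘L (PF b F)

lemma cmp_pos (b : HilbertBasis ι ℂ H) (F : Finset ι) {T : H →L[ℂ] H} (hT : T.IsPositive) :
    (cmp b F T).IsPositive := by
  have h := hT.conj_adjoint (PF b F)
  rw [PF_adjoint] at h
  exact h

open Classical in
lemma ent_cmp (b : HilbertBasis ι ℂ H) (F : Finset ι) (T : H →L[ℂ] H) (i j : ι) :
    ent b (cmp b F T) i j = if i ∈ F ∧ j ∈ F then ent b T i j else 0 := by
  unfold ent cmp
  rw [ContinuousLinearMap.comp_apply, ContinuousLinearMap.comp_apply, ← PF_symm, PF_basis, PF_basis]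
  by_cases hi : i ∈ F <;> by_cases hj : j ∈ F <;> simp [hi, hj]

/-- mass in `F` -/
def mass (b : HilbertBasis ι ℂ H) (F : Finset ι) (T : H →L[ℂ] H) : ℝ := ∑ i ∈ F, (ent b T i i).re

/-- normalised compression -/
def trn (b : HilbertBasis ι ℂ H) (F : Finset ι) (T : H →L[ℂ] H) : H →L[ℂ] H :=
  (((mass b F T)⁻¹ : ℝ) : ℂ) • cmp b F T

open Classical in
lemma ent_trn (b : HilbertBasis ι ℂ H) (F : Finset ι) (T : H →L[ℂ] H) (i j : ι) :
    ent b (trn b F T) i j = if i ∈ F ∧ j ∈ F then (((mass b F T)⁻¹ : ℝ) : ℂ) * ent b T i j else 0 := by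
  unfold trn
  rw [ent_smul, ent_cmp]
  split_ifs <;> simp

open Classical in
lemma re_ent_trn (b : HilbertBasis ι ℂ H) (F : Finset ι) (T : H →L[ℂ] H) (i : ι) :
    (ent b (trn b F T) i i).re = if i ∈ F then (mass b F T)⁻¹ * (ent b T i i).re else 0 := by
  rw [ent_trn]
  by_cases hi : i ∈ F
  · simp only [hi, and_self, if_true, Complex.re_ofReal_mul]
  · simp [hi]

open scoped ComplexOrder in
lemma TS_trn {b : HilbertBasis ι ℂ H} {F : Finset ι} {T : H →L[ℂ] H} (hT : TS b T)
    (hp : 0 < mass b F T) : TS b (trn b F T) := by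
  classical
  refine ⟨?_, ?_⟩
  · unfold trn
    refine (cmp_pos b F hT.pos).smul_of_nonneg ?_
    have : (0 : ℝ) ≤ (mass b F T)⁻¹ := (inv_pos.2 hp).le
    exact_mod_cast this
  · simp_rw [re_ent_trn]
    have h : ∑ i ∈ F, (if i ∈ F then (mass b F T)⁻¹ * (ent b T i i).re else 0) = 1 := by
      rw [Finset.sum_congr rfl (fun i hi => if_pos hi), ← Finset.mul_sum]
      exact inv_mul_cancel₀ hp.ne'
    rw [← h]
    exact hasSum_sum_of_ne_finset_zero (fun i hi => if_neg hi)

lemma En_trn_le {b : HilbertBasis ι ℂ H} {F : Finset ι} {T : H →L[ℂ] H} (hT : TS b T)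
    (w : ι → ℝ≥0) (hp : 1 / 2 ≤ mass b F T) : En b w (trn b F T) ≤ 2 * En b w T := by
  classical
  unfold En
  rw [← ENNReal.tsum_mul_left]
  refine ENNReal.tsum_le_tsum fun i => ?_
  rw [mul_left_comm]
  gcongr
  unfold dg
  rw [show (2 : ℝ≥0∞) = ENNReal.ofReal 2 by simp, ← ENNReal.ofReal_mul zero_le_two, re_ent_trn]
  refine ENNReal.ofReal_le_ofReal ?_
  have h0 := ent_diag_nonneg b hT.pos i
  split_ifs
  · refine mul_le_mul_of_nonneg_right ?_ h0
    rw [inv_le_comm₀ (by linarith) (by norm_num)]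
    linarith
  · positivity

end generic

variable {n : ℕ}

/-- the box `k_j ≤ M` -/
def box (n M : ℕ) : Finset (Occ n) := Fintype.piFinset fun _ => Finset.range (M + 1)

lemma mem_box {M : ℕ} {k : Occ n} : k ∈ box n M ↔ ∀ j, k j ≤ M := by
  unfold box
  rw [Fintype.mem_piFinset]
  simp [Nat.lt_succ_iff]

lemma box_mono {M M' : ℕ} (h : M ≤ M') : box n M ⊆ box n M' := by
  intro k hk
  rw [mem_box] at hk ⊢
  exact fun j => (hk j).trans h

lemma tendsto_box : Tendsto (box n) atTop atTop := by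
  refine tendsto_atTop_finset_of_monotone (fun M M' h => box_mono h) fun k => ?_
  refine ⟨Finset.univ.sup k, ?_⟩
  rw [mem_box]
  exact fun j => Finset.le_sup (Finset.mem_univ j)

/-- all matrix entries outside the box `k_j ≤ M` vanish -/
def BoxSupp (M : ℕ) (ρ : FockState n) : Prop :=
  ∀ k l : Occ n, ¬ ((∀ j, k j ≤ M) ∧ (∀ j, l j ≤ M)) → entry ρ.op k l = 0

/-- the box truncation -/
def truncState (M : ℕ) (ρ : FockState n) (h : 0 < mass (kb n) (box n M) ρ.op) : FockState n :=
  mkState (trn (kb n) (box n M) ρ.op) (TS_trn (TS_op ρ) h)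

lemma boxSupp_trunc (M : ℕ) (ρ : FockState n) (h : 0 < mass (kb n) (box n M) ρ.op) :
    BoxSupp M (truncState M ρ h) := by
  classical
  intro k l hkl
  show entry (trn (kb n) (box n M) ρ.op) k l = 0
  rw [entry_eq_ent, ent_trn]
  refine if_neg ?_
  rw [mem_box, mem_box]
  exact hkl

lemma tendsto_mass (ρ : FockState n) :
    Tendsto (fun M => mass (kb n) (box n M) ρ.op) atTop (𝓝 1) :=
  (TS_op ρ).tr.comp tendsto_box

/-- every finite energy state is the limit of box supported states, with bounded energies -/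
theorem exists_trunc (ρ : FockState n) :
    ∃ σ : ℕ → FockState n, (∀ m, ∃ M, BoxSupp M (σ m)) ∧ (∀ m, Eph (σ m) ≤ 2 * Eph ρ) ∧
      ∀ k l, Tendsto (fun m => entry (σ m).op k l) atTop (𝓝 (entry ρ.op k l)) := by
  classical
  have hm := tendsto_mass ρ
  obtain ⟨M₀, hM₀⟩ := (hm.eventually (lt_mem_nhds (show (1 / 2 : ℝ) < 1 by norm_num))).exists_forall_of_atTop
  have hp : ∀ m, 1 / 2 < mass (kb n) (box n (M₀ + m)) ρ.op := fun m => hM₀ _ (Nat.le_add_right _ _)
  refine ⟨fun m => truncState (M₀ + m) ρ (by linarith [hp m]), fun m => ⟨M₀ + m, boxSupp_trunc _ _ _⟩,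
    fun m => En_trn_le (TS_op ρ) (tw n) (hp m).le, fun k l => ?_⟩
  have hm2 : Tendsto (fun m => mass (kb n) (box n (M₀ + m)) ρ.op) atTop (𝓝 1) := by
    have := hm.comp (tendsto_add_atTop_nat M₀)
    refine this.congr fun m => ?_
    simp [Function.comp, Nat.add_comm]
  have hm3 : Tendsto (fun m => (((mass (kb n) (box n (M₀ + m)) ρ.op)⁻¹ : ℝ) : ℂ) * ent (kb n) ρ.op k l)
      atTop (𝓝 (ent (kb n) ρ.op k l)) := by
    have h1 : Tendsto (fun m => (((mass (kb n) (box n (M₀ + m)) ρ.op)⁻¹ : ℝ) : ℂ)) atTop (𝓝 1) := by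
      have h2 := hm2.inv₀ one_ne_zero
      rw [inv_one] at h2
      exact_mod_cast (Complex.continuous_ofReal.tendsto _).comp h2
    simpa using h1.mul_const (ent (kb n) ρ.op k l)
  rw [entry_eq_ent]
  refine hm3.congr' ?_
  filter_upwards [eventually_ge_atTop (Finset.univ.sup k + Finset.univ.sup l)] with m hmm
  show _ = entry (trn (kb n) (box n (M₀ + m)) ρ.op) k l
  rw [entry_eq_ent, ent_trn, if_pos]
  rw [mem_box, mem_box]
  refine ⟨fun j => ?_, fun j => ?_⟩
  · have := Finset.le_sup (f := k) (Finset.mem_univ j)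
    omega
  · have := Finset.le_sup (f := l) (Finset.mem_univ j)
    omega

end Crest.Agent.R331.Fext682
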