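import Mathlib
import Crest.Prelude.Def_FockState
import Crest.Agent.R331.Scal_587

/-! Final wrapper for row 331: the tangent-plane inequality implies S0514. -/

set_option autoImplicit false
open Crest.MathPhysics.Bosonic Real Set Filter Topology
open Crest.Agent.R331.Scal587

namespace Crest.Agent.R331.Wrap587

/-! ### Trivial beam splitters -/

lemma bsAmp_one (k l p q : ℕ) : bsAmp 1 k l p q = if k = p ∧ l = q then 1 else 0 := by
  unfold bsAmp
  by_cases hpq : p + q = k + l
  · rw [if_pos hpq]
    by_cases hkp : k = p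
    · subst hkp
      have hl : q = l := by omega
      subst hl
      rw [if_pos ⟨rfl, rfl⟩, Finset.sum_eq_single k]
      · simp [Nat.factorial_ne_zero]
      · intro i hi hik
        have hi' : i < k := lt_of_le_of_ne (by simpa [Nat.lt_succ_iff] using hi) hik
        have : k - i ≠ 0 := by omega
        simp [this]
      · intro h; simp at h
    · rw [if_neg (by tauto)]
      have : ∑ i ∈ Finset.range (k + 1), (if i ≤ p ∧ p - i ≤ l then
          (Nat.choose k i * Nat.choose l (p - i) : ℕ) *
            (Real.sqrt 1 ^ i * (-Real.sqrt (1 - 1)) ^ (k - i) *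
              Real.sqrt (1 - 1) ^ (p - i) * Real.sqrt 1 ^ (l - (p - i)))
        else (0 : ℝ)) = 0 := by
        apply Finset.sum_eq_zero
        intro i hi
        split_ifs with h
        · by_cases h1 : k - i = 0
          · have hik : i = k := by
              have := Finset.mem_range.1 hi
              omega
            have h2 : p - i ≠ 0 := by omega
            simp [h2]
          · simp [h1]
        · rfl
      rw [this, mul_zero]
  · rw [if_neg hpq, if_neg]
    rintro ⟨h1, h2⟩; omega

lemma bsAmp_zero (k l p q : ℕ) : bsAmp 0 k l p q = if k = q ∧ l = p then (-1) ^ k else 0 := by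
  unfold bsAmp
  by_cases hpq : p + q = k + l
  · rw [if_pos hpq]
    by_cases hlp : l = p
    · subst hlp
      have hl : q = k := by omega
      subst hl
      rw [if_pos ⟨rfl, rfl⟩, Finset.sum_eq_single 0]
      · have h1 : ((Nat.factorial q * Nat.factorial l : ℕ) : ℝ) ≠ 0 := by positivity
        have h2 : ((Nat.factorial l * Nat.factorial q : ℕ) : ℝ) =
            ((Nat.factorial q * Nat.factorial l : ℕ) : ℝ) := by rw [Nat.mul_comm]
        simp only [h2, div_self h1]
        simp
      · intro i hi hik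
        simp [hik]
      · intro h; simp at h
    · rw [if_neg (by tauto)]
      have : ∑ i ∈ Finset.range (k + 1), (if i ≤ p ∧ p - i ≤ l then
          (Nat.choose k i * Nat.choose l (p - i) : ℕ) *
            (Real.sqrt 0 ^ i * (-Real.sqrt (1 - 0)) ^ (k - i) *
              Real.sqrt (1 - 0) ^ (p - i) * Real.sqrt 0 ^ (l - (p - i)))
        else (0 : ℝ)) = 0 := by
        apply Finset.sum_eq_zero
        intro i hi
        split_ifs with h
        · by_cases h1 : i = 0
          · subst h1
            have h2 : l - p ≠ 0 := by omega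
            simp [h2]
          · simp [h1]
        · rfl
      rw [this, mul_zero]
  · rw [if_neg hpq, if_neg]
    rintro ⟨h1, h2⟩; omega

lemma ampOcc_one {n : ℕ} (a a' k e : Occ n) :
    ampOcc 1 a a' k e = if a = k ∧ a' = e then 1 else 0 := by
  unfold ampOcc
  simp_rw [bsAmp_one]
  by_cases h : a = k ∧ a' = e
  · obtain ⟨rfl, rfl⟩ := h
    simp
  · rw [if_neg h]
    have : ∃ j, ¬ (a j = k j ∧ a' j = e j) := by
      by_contra hcon
      push Not at hcon
      exact h ⟨funext fun j => (hcon j).1, funext fun j => (hcon j).2⟩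
    obtain ⟨j, hj⟩ := this
    exact Finset.prod_eq_zero (Finset.mem_univ j) (if_neg hj)

lemma ampOcc_zero {n : ℕ} (a a' k e : Occ n) :
    ampOcc 0 a a' k e = if a = e ∧ a' = k then (-1) ^ (∑ j, e j) else 0 := by
  unfold ampOcc
  simp_rw [bsAmp_zero]
  by_cases h : a = e ∧ a' = k
  · obtain ⟨rfl, rfl⟩ := h
    simp [Finset.prod_pow_eq_pow_sum]
  · rw [if_neg h]
    have : ∃ j, ¬ (a j = e j ∧ a' j = k j) := by
      by_contra hcon
      push Not at hcon
      exact h ⟨funext fun j => (hcon j).1, funext fun j => (hcon j).2⟩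
    obtain ⟨j, hj⟩ := this
    exact Finset.prod_eq_zero (Finset.mem_univ j) (if_neg hj)

/-- the splitting of `k + e` with first part `k` -/
def splL {n : ℕ} (k e : Occ n) : Splitting (k + e) := fun j => ⟨k j, by
  simp only [Pi.add_apply]; omega⟩

/-- the splitting of `k + e` with first part `e` -/
def splR {n : ℕ} (k e : Occ n) : Splitting (k + e) := fun j => ⟨e j, by
  simp only [Pi.add_apply]; omega⟩

lemma splL_fst {n : ℕ} (k e : Occ n) : (splL k e).fst = k := rfl
lemma splL_snd {n : ℕ} (k e : Occ n) : (splL k e).snd = e := by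
  funext j; simp [Splitting.snd, splL]
lemma splR_fst {n : ℕ} (k e : Occ n) : (splR k e).fst = e := rfl
lemma splR_snd {n : ℕ} (k e : Occ n) : (splR k e).snd = k := by
  funext j; simp [Splitting.snd, splR]

lemma spl_ext {n : ℕ} {m : Occ n} {a b : Splitting m} (h : a.fst = b.fst) : a = b := by
  funext j
  apply Fin.ext
  exact congrFun h j

lemma outBlock_one {n : ℕ} (ρA ρB : FockState n) (k l e : Occ n) :
    outBlock 1 ρA ρB k l e = entry ρA.op k l * entry ρB.op e e := by
  unfold outBlock
  rw [Finset.sum_eq_single (splL k e), Finset.sum_eq_single (splL l e)]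
  · simp [ampOcc_one, splL_fst, splL_snd]
  · intro b _ hb
    have : ¬ (b.fst = l ∧ b.snd = e) := fun h => hb (spl_ext (by rw [h.1, splL_fst]))
    simp [ampOcc_one, this]
  · intro h; exact absurd (Finset.mem_univ _) h
  · intro a _ ha
    apply Finset.sum_eq_zero
    intro b _
    have : ¬ (a.fst = k ∧ a.snd = e) := fun h => ha (spl_ext (by rw [h.1, splL_fst]))
    simp [ampOcc_one, this]
  · intro h; exact absurd (Finset.mem_univ _) h

lemma outBlock_zero {n : ℕ} (ρA ρB : FockState n) (k l e : Occ n) :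
    outBlock 0 ρA ρB k l e = entry ρB.op k l * entry ρA.op e e := by
  unfold outBlock
  rw [Finset.sum_eq_single (splR k e), Finset.sum_eq_single (splR l e)]
  · have h : ((-1 : ℂ) ^ (∑ j, e j)) * ((-1 : ℂ) ^ (∑ j, e j)) = 1 := by
      rw [← mul_pow]; simp
    simp only [ampOcc_zero, splR_fst, splR_snd, and_self, if_true]
    push_cast
    calc (-1 : ℂ) ^ (∑ j, e j) * entry ρA.op e e * entry ρB.op k l * (-1) ^ (∑ j, e j)
        = ((-1 : ℂ) ^ (∑ j, e j) * (-1) ^ (∑ j, e j)) * (entry ρA.op e e * entry ρB.op k l) := by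
          ring
      _ = _ := by rw [h]; ring
  · intro b _ hb
    have : ¬ (b.fst = e ∧ b.snd = l) := fun h => hb (spl_ext (by rw [h.1, splR_fst]))
    simp [ampOcc_zero, this]
  · intro h; exact absurd (Finset.mem_univ _) h
  · intro a _ ha
    apply Finset.sum_eq_zero
    intro b _
    have : ¬ (a.fst = e ∧ a.snd = k) := fun h => ha (spl_ext (by rw [h.1, splR_fst]))
    simp [ampOcc_zero, this]
  · intro h; exact absurd (Finset.mem_univ _) h

/-- the diagonal entries of a state are real -/
lemma entry_diag_eq {n : ℕ} (ρ : FockState n) (k : Occ n) :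
    entry ρ.op k k = ((entry ρ.op k k).re : ℂ) := by
  have h := ρ.pos.inner_nonneg_right (ket k)
  have him : (entry ρ.op k k).im = 0 := by
    have := (Complex.le_def.1 h).2
    simpa [entry] using this.symm
  apply Complex.ext <;> simp [him]

lemma hasSum_diag {n : ℕ} (ρ : FockState n) : HasSum (fun k : Occ n => entry ρ.op k k) 1 := by
  have h := Complex.hasSum_ofReal.2 ρ.traceOne
  simp only [Complex.ofReal_one] at h
  convert h using 2 with k
  exact entry_diag_eq ρ k

lemma output_one {n : ℕ} (ρA ρB : FockState n) : IsBeamSplitterOutput 1 ρA ρB ρA := by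
  intro k l
  simp_rw [outBlock_one]
  simpa using (hasSum_diag ρB).mul_left (entry ρA.op k l)

lemma output_zero {n : ℕ} (ρA ρB : FockState n) : IsBeamSplitterOutput 0 ρA ρB ρB := by
  intro k l
  simp_rw [outBlock_zero]
  simpa using (hasSum_diag ρA).mul_left (entry ρB.op k l)

/-! ### The wrapper -/

/-- existence of the output and of its entropy -/
def OutExists : Prop :=
  ∀ (n : ℕ), 1 ≤ n → ∀ (η : ℝ), η ∈ Ioo (0 : ℝ) 1 → ∀ ρA ρB : FockState n,
    FiniteEnergy ρA → FiniteEnergy ρB →
    ∃ ρC : FockState n, IsBeamSplitterOutput η ρA ρB ρC ∧ ∃ sC : ℝ, HasEntropy ρC sC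

/-- the tangent-plane inequality for all finite-energy states -/
def LIN : Prop :=
  ∀ (n : ℕ), 1 ≤ n → ∀ (η : ℝ), η ∈ Ioo (0 : ℝ) 1 → ∀ ρA ρB ρC : FockState n,
    FiniteEnergy ρA → FiniteEnergy ρB → IsBeamSplitterOutput η ρA ρB ρC →
    ∀ sA sB sC : ℝ, HasEntropy ρA sA → HasEntropy ρB sB → HasEntropy ρC sC →
    ∀ NA NB : ℝ, 0 < NA → 0 < NB →
      n * gBose (η * NA + (1 - η) * NB)
        + lam η 0 (η * NA + (1 - η) * NB) NA * (sA - n * gBose NA)
        + lam (1 - η) 0 (η * NA + (1 - η) * NB) NB * (sB - n * gBose NB) ≤ sC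

lemma final_real {η : ℝ} (hη : η ∈ Ioo (0 : ℝ) 1) {m tA tB sC : ℝ} (hm : 0 ≤ m) (htA : 0 ≤ tA)
    (htB : 0 ≤ tB)
    (h : ∀ NA NB : ℝ, 0 < NA → 0 < NB →
      m * gBose (η * NA + (1 - η) * NB)
        + lam η 0 (η * NA + (1 - η) * NB) NA * (m * gBose tA - m * gBose NA)
        + lam (1 - η) 0 (η * NA + (1 - η) * NB) NB * (m * gBose tB - m * gBose NB) ≤ sC) :
    m * gBose (η * tA + (1 - η) * tB) ≤ sC := by
  obtain ⟨h0, h1⟩ := hη
  -- pass to the limit `N_X = t_X + x`, `x → 0+`
  have hlow : ∀ x : ℝ, 0 < x →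
      m * gBose (η * (tA + x) + (1 - η) * (tB + x)) - m * |gBose tA - gBose (tA + x)|
        - m * |gBose tB - gBose (tB + x)| ≤ sC := by
    intro x hx
    have hA : 0 < tA + x := by linarith
    have hB : 0 < tB + x := by linarith
    have hη1 : 0 < 1 - η := by linarith
    have hpA : 0 < η * (tA + x) := mul_pos h0 hA
    have hpB : 0 < (1 - η) * (tB + x) := mul_pos hη1 hB
    have hC : 0 < η * (tA + x) + (1 - η) * (tB + x) := by linarith
    have hl1 := lam_le_one h0.le h1.le hA hC (by linarith)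
    have hl2 := lam_le_one hη1.le (by linarith : 1 - η ≤ 1) hB hC (by linarith)
    have hn1 := lam_nonneg h0.le (le_refl (0 : ℝ)) hC hA
    have hn2 := lam_nonneg hη1.le (le_refl (0 : ℝ)) hC hB
    have key := h (tA + x) (tB + x) hA hB
    have e1 : -(m * |gBose tA - gBose (tA + x)|) ≤
        lam η 0 (η * (tA + x) + (1 - η) * (tB + x)) (tA + x) *
          (m * gBose tA - m * gBose (tA + x)) := by
      rw [← mul_sub]
      have : -|gBose tA - gBose (tA + x)| ≤
          lam η 0 (η * (tA + x) + (1 - η) * (tB + x)) (tA + x) * (gBose tA - gBose (tA + x)) := by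
        have habs : |lam η 0 (η * (tA + x) + (1 - η) * (tB + x)) (tA + x) *
            (gBose tA - gBose (tA + x))| ≤ |gBose tA - gBose (tA + x)| := by
          rw [abs_mul, abs_of_nonneg hn1]
          exact mul_le_of_le_one_left (abs_nonneg _) hl1
        exact (abs_le.1 habs).1
      nlinarith
    have e2 : -(m * |gBose tB - gBose (tB + x)|) ≤
        lam (1 - η) 0 (η * (tA + x) + (1 - η) * (tB + x)) (tB + x) *
          (m * gBose tB - m * gBose (tB + x)) := by
      rw [← mul_sub]
      have : -|gBose tB - gBose (tB + x)| ≤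
          lam (1 - η) 0 (η * (tA + x) + (1 - η) * (tB + x)) (tB + x) *
            (gBose tB - gBose (tB + x)) := by
        have habs : |lam (1 - η) 0 (η * (tA + x) + (1 - η) * (tB + x)) (tB + x) *
            (gBose tB - gBose (tB + x))| ≤ |gBose tB - gBose (tB + x)| := by
          rw [abs_mul, abs_of_nonneg hn2]
          exact mul_le_of_le_one_left (abs_nonneg _) hl2
        exact (abs_le.1 habs).1
      nlinarith
    linarith
  have hcont : Continuous (fun x : ℝ =>
      m * gBose (η * (tA + x) + (1 - η) * (tB + x)) - m * |gBose tA - gBose (tA + x)|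
        - m * |gBose tB - gBose (tB + x)|) := by
    have hg := continuous_gBose
    fun_prop
  have hlim := (hcont.tendsto 0).mono_left (nhdsWithin_le_nhds (s := Ioi (0 : ℝ)))
  simp only [add_zero, sub_self, abs_zero, mul_zero, sub_zero] at hlim
  apply le_of_tendsto hlim
  filter_upwards [self_mem_nhdsWithin] with x hx
  exact hlow x hx

theorem wrap (hout : OutExists) (hlin : LIN) (n : ℕ) (hn : 1 ≤ n) (η : ℝ)
    (hη : η ∈ Set.Icc (0 : ℝ) 1) (ρA ρB : FockState n) (hA : FiniteEnergy ρA) (hB : FiniteEnergy ρB)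
    (sA sB : ℝ) (hsA : HasEntropy ρA sA) (hsB : HasEntropy ρB sB) (tA tB : ℝ) (htA : 0 ≤ tA)
    (htB : 0 ≤ tB) (hgA : gBose tA = sA / n) (hgB : gBose tB = sB / n) :
    ∃ ρC : FockState n, IsBeamSplitterOutput η ρA ρB ρC ∧
      ∃ sC : ℝ, HasEntropy ρC sC ∧ gBose (η * tA + (1 - η) * tB) ≤ sC / n := by
  have hn0 : (0 : ℝ) < n := by exact_mod_cast hn
  rcases hη.1.eq_or_lt with h0 | h0
  · subst h0
    exact ⟨ρB, output_zero ρA ρB, sB, hsB, by simpa using hgB.le⟩
  rcases hη.2.eq_or_lt with h1 | h1
  · subst h1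
    exact ⟨ρA, output_one ρA ρB, sA, hsA, by simpa using hgA.le⟩
  obtain ⟨ρC, hC, sC, hsC⟩ := hout n hn η ⟨h0, h1⟩ ρA ρB hA hB
  refine ⟨ρC, hC, sC, hsC, ?_⟩
  rw [le_div_iff₀ hn0, mul_comm]
  have eA : sA = n * gBose tA := by rw [hgA]; field_simp
  have eB : sB = n * gBose tB := by rw [hgB]; field_simp
  apply final_real ⟨h0, h1⟩ hn0.le htA htB
  intro NA NB hNA hNB
  have := hlin n hn η ⟨h0, h1⟩ ρA ρB ρC hA hB hC sA sB sC hsA hsB hsC NA NB hNA hNB
  rw [eA, eB] at this
  exact this

end Crest.Agent.R331.Wrap587
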