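/-
Row 331 (S0514), leaf [FEXT], part 2: from box supported states to all finite energy states.
`lin_of_box : OutCont → LINbox → Wrap587.LIN`, `outExists_of : ... → Wrap587.OutExists`.
-/
import Mathlib
import Crest.Prelude.Def_FockState
import Crest.Agent.R331.Fext_682
import Crest.Agent.R331.Wrap_587
import Crest.Agent.R331.BSIso_375

set_option autoImplicit false
set_option linter.unusedSectionVars false
set_option linter.deprecated false

noncomputable section

namespace Crest.Agent.R331.Fext682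

open scoped InnerProductSpace ENNReal Topology NNReal
open Filter Crest.MathPhysics.Bosonic Crest.Agent.R331.CPT682
open Crest.Agent.R331.Scal587

/-- energy bound for the output of the beam splitter -/
def OutEnergy : Prop :=
  ∀ (n : ℕ) (η : ℝ), η ∈ Set.Ioo (0 : ℝ) 1 → ∀ A B C : FockState n,
    IsBeamSplitterOutput η A B C → Eph C ≤ Eph A + Eph B

/-- continuity of the output of the beam splitter on energy-bounded sequences -/
def OutCont : Prop :=
  ∀ (n : ℕ) (η : ℝ), η ∈ Set.Ioo (0 : ℝ) 1 → ∀ (A B C : ℕ → FockState n) (A' B' C' : FockState n),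
    (∀ m, IsBeamSplitterOutput η (A m) (B m) (C m)) → IsBeamSplitterOutput η A' B' C' →
    ∀ E : ℝ≥0∞, E ≠ ⊤ → (∀ m, Eph (A m) ≤ E) → (∀ m, Eph (B m) ≤ E) →
    (∀ k l, Tendsto (fun m => entry (A m).op k l) atTop (𝓝 (entry A'.op k l))) →
    (∀ k l, Tendsto (fun m => entry (B m).op k l) atTop (𝓝 (entry B'.op k l))) →
    ∀ k l, Tendsto (fun m => entry (C m).op k l) atTop (𝓝 (entry C'.op k l))

/-- the tangent-plane inequality for box supported states -/
def LINbox : Prop :=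
  ∀ (n : ℕ), 1 ≤ n → ∀ (η : ℝ), η ∈ Set.Ioo (0 : ℝ) 1 → ∀ (M : ℕ) (ρA ρB ρC : FockState n),
    BoxSupp M ρA → BoxSupp M ρB → IsBeamSplitterOutput η ρA ρB ρC →
    ∀ sA sB sC : ℝ, HasEntropy ρA sA → HasEntropy ρB sB → HasEntropy ρC sC →
    ∀ NA NB : ℝ, 0 < NA → 0 < NB →
      n * gBose (η * NA + (1 - η) * NB)
        + lam η 0 (η * NA + (1 - η) * NB) NA * (sA - n * gBose NA)
        + lam (1 - η) 0 (η * NA + (1 - η) * NB) NB * (sB - n * gBose NB) ≤ sC

lemma BoxSupp.mono {n M M' : ℕ} (h : M ≤ M') {ρ : FockState n} (hρ : BoxSupp M ρ) : BoxSupp M' ρ := by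
  intro k l hkl
  refine hρ k l fun hc => hkl ⟨fun j => (hc.1 j).trans h, fun j => (hc.2 j).trans h⟩

theorem lin_of_box (hE : OutEnergy) (hC : OutCont) (hbox : LINbox) : Wrap587.LIN := by
  intro n hn η hη ρA ρB ρC hA hB hout sA sB sC hsA hsB hsC NA NB hNA hNB
  have hη' : η ∈ Set.Icc (0 : ℝ) 1 := ⟨hη.1.le, hη.2.le⟩
  rw [finiteEnergy_iff'] at hA hB
  obtain ⟨σA, hσA, hEA, hlA⟩ := exists_trunc ρA
  obtain ⟨σB, hσB, hEB, hlB⟩ := exists_trunc ρB
  have hex : ∀ m, ∃ C, IsBeamSplitterOutput η (σA m) (σB m) C := fun m =>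
    BS375.exists_output hη' (σA m) (σB m)
  choose σC hσC using hex
  have h2A : 2 * Eph ρA ≠ ⊤ := ENNReal.mul_ne_top (by simp) hA
  have h2B : 2 * Eph ρB ≠ ⊤ := ENNReal.mul_ne_top (by simp) hB
  set E : ℝ≥0∞ := 2 * Eph ρA + 2 * Eph ρB with hEdef
  have hEtop : E ≠ ⊤ := ENNReal.add_ne_top.2 ⟨h2A, h2B⟩
  have hEA' : ∀ m, Eph (σA m) ≤ E := fun m => (hEA m).trans le_self_add
  have hEB' : ∀ m, Eph (σB m) ≤ E := fun m => (hEB m).trans le_add_self
  have hEC : ∀ m, Eph (σC m) ≤ E := fun m =>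
    (hE n η hη _ _ _ (hσC m)).trans (add_le_add (hEA m) (hEB m))
  have hlC := hC n η hη σA σB σC ρA ρB ρC hσC hout E hEtop hEA' hEB' hlA hlB
  have hfin : ∀ {σ : FockState n}, Eph σ ≤ E → ∃ s, HasEntropy σ s := fun {σ} h =>
    exists_hasEntropy ((finiteEnergy_iff' σ).2 (ne_top_of_le_ne_top hEtop h))
  choose tA htA using fun m => hfin (hEA' m)
  choose tB htB using fun m => hfin (hEB' m)
  choose tC htC using fun m => hfin (hEC m)
  have lA : Tendsto tA atTop (𝓝 sA) := entropy_tendsto hEtop hEA' hlA htA hsA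
  have lB : Tendsto tB atTop (𝓝 sB) := entropy_tendsto hEtop hEB' hlB htB hsB
  have lC : Tendsto tC atTop (𝓝 sC) := entropy_tendsto hEtop hEC hlC htC hsC
  have hineq : ∀ m, n * gBose (η * NA + (1 - η) * NB)
        + lam η 0 (η * NA + (1 - η) * NB) NA * (tA m - n * gBose NA)
        + lam (1 - η) 0 (η * NA + (1 - η) * NB) NB * (tB m - n * gBose NB) ≤ tC m := by
    intro m
    obtain ⟨MA, hMA⟩ := hσA m
    obtain ⟨MB, hMB⟩ := hσB m
    exact hbox n hn η hη (max MA MB) (σA m) (σB m) (σC m) (hMA.mono (le_max_left _ _))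
      (hMB.mono (le_max_right _ _)) (hσC m) _ _ _ (htA m) (htB m) (htC m) NA NB hNA hNB
  have hlim : Tendsto (fun m => n * gBose (η * NA + (1 - η) * NB)
        + lam η 0 (η * NA + (1 - η) * NB) NA * (tA m - n * gBose NA)
        + lam (1 - η) 0 (η * NA + (1 - η) * NB) NB * (tB m - n * gBose NB)) atTop
      (𝓝 (n * gBose (η * NA + (1 - η) * NB)
        + lam η 0 (η * NA + (1 - η) * NB) NA * (sA - n * gBose NA)
        + lam (1 - η) 0 (η * NA + (1 - η) * NB) NB * (sB - n * gBose NB))) := by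
    refine (tendsto_const_nhds.add ((lA.sub_const _).const_mul _)).add ((lB.sub_const _).const_mul _)
  exact le_of_tendsto_of_tendsto' hlim lC hineq

theorem outExists (hE : OutEnergy) : Wrap587.OutExists := by
  intro n _ η hη ρA ρB hA hB
  have hη' : η ∈ Set.Icc (0 : ℝ) 1 := ⟨hη.1.le, hη.2.le⟩
  obtain ⟨C, hC⟩ := BS375.exists_output hη' ρA ρB
  refine ⟨C, hC, exists_hasEntropy ((finiteEnergy_iff' C).2 ?_)⟩
  exact ne_top_of_le_ne_top
    (ENNReal.add_ne_top.2 ⟨(finiteEnergy_iff' _).1 hA, (finiteEnergy_iff' _).1 hB⟩)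
    (hE n η hη _ _ _ hC)

end Crest.Agent.R331.Fext682
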