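import Mathlib
import Crest.Prelude.Def_FockState
import Crest.Agent.R331.Emb3_915
import Crest.Agent.R331.FDefs2_136
import Crest.Agent.R331.FLim_628
import Crest.Agent.R331.Fext2_682

/-!
R331, helper915.  Interface glue: the finite main theorem (136 / 628 / 944 forms, frozen prelude
objects) ⟹ `Fext682.LINbox` (box supported Fock states).
-/

set_option autoImplicit false

open scoped InnerProductSpace ComplexConjugate ComplexOrder
open Crest.MathPhysics.Bosonic InnerProductSpace Crest.Quantum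

namespace Crest.Agent.R331.Link915

theorem boxSupp_of_682 {n K : ℕ} {ρ : FockState n} (h : Fext682.BoxSupp K ρ) :
    Emb3.BoxSupp K ρ := by
  intro k l hkl
  by_contra hc
  exact hkl (h k l hc)

theorem boxSupp_to_682 {n K : ℕ} {ρ : FockState n} (h : Emb3.BoxSupp K ρ) :
    Fext682.BoxSupp K ρ := by
  intro k l hkl
  by_contra hc
  exact hkl (h k l hc)

/-- the finite tangent inequality gives 682's `LINbox` -/
theorem linbox_of_linmat (h : Emb3.LINmat) : Fext682.LINbox :=
  fun n hn η hη M ρA ρB ρC hA hB hC sA sB sC hsA hsB hsC NA NB hNA hNB =>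
    Emb3.linbox_of_linmat h n hn η hη M ρA ρB ρC (boxSupp_of_682 hA) (boxSupp_of_682 hB) hC
      sA sB sC hsA hsB hsC NA NB hNA hNB

theorem lam_eq (η N N' : ℝ) :
    Scal587.lam η 0 N N' = η * Real.log (1 + 1 / N) / Real.log (1 + 1 / N') := by
  simp [Scal587.lam, Scal587.bN]

/-- 136's `FINMAIN` gives `LINmat` -/
theorem linmat_of_finmain136 (h : FDefs136.FINMAIN) : Emb3.LINmat := by
  intro n _ η hη K A B hA hB NA NB hNA hNB
  rw [lam_eq, lam_eq]
  exact h η NA NB n K hη.1 hη.2 hNA hNB A B hA hB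

/-- 628's `FINMAIN` gives `LINmat` -/
theorem linmat_of_finmain628 (h : FLim_628.FINMAIN) : Emb3.LINmat := by
  intro n _ η hη K A B hA hB NA NB hNA hNB
  rw [lam_eq, lam_eq]
  exact h n K η NA NB hη.1 hη.2 hNA hNB A B hA hB

theorem linbox_of_finmain136 (h : FDefs136.FINMAIN) : Fext682.LINbox :=
  linbox_of_linmat (linmat_of_finmain136 h)

theorem linbox_of_finmain628 (h : FLim_628.FINMAIN) : Fext682.LINbox :=
  linbox_of_linmat (linmat_of_finmain628 h)

/-- everything downstream of the finite main theorem, given 118's output energy and continuity -/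
theorem final (hfin : FDefs136.FINMAIN) (hE : Fext682.OutEnergy) (hC : Fext682.OutCont)
    (n : ℕ) (hn : 1 ≤ n) (η : ℝ)
    (hη : η ∈ Set.Icc (0 : ℝ) 1) (ρA ρB : FockState n) (hA : FiniteEnergy ρA) (hB : FiniteEnergy ρB)
    (sA sB : ℝ) (hsA : HasEntropy ρA sA) (hsB : HasEntropy ρB sB) (tA tB : ℝ) (htA : 0 ≤ tA)
    (htB : 0 ≤ tB) (hgA : gBose tA = sA / n) (hgB : gBose tB = sB / n) :
    ∃ ρC : FockState n, IsBeamSplitterOutput η ρA ρB ρC ∧
      ∃ sC : ℝ, HasEntropy ρC sC ∧ gBose (η * tA + (1 - η) * tB) ≤ sC / n :=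
  Wrap587.wrap (Fext682.outExists hE)
    (Fext682.lin_of_box hE hC (linbox_of_finmain136 hfin)) n hn η hη ρA ρB hA hB sA sB hsA hsB
    tA tB htA htB hgA hgB

end Crest.Agent.R331.Link915
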