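import Crest.Agent.R331.Out_118
import Crest.Agent.R331.BSn_375

/-!
R331 / [OUT] part 2, helper118.  Photon-number conservation, energies of the output, continuity of
the output.
-/

set_option autoImplicit false

open scoped InnerProductSpace ComplexConjugate ENNReal NNReal Topology
open Crest.MathPhysics.Bosonic InnerProductSpace Filter

namespace Crest.Agent.R331.Out118

noncomputable section

variable {n : ℕ}

/-! ### the beam splitter isometry -/

/-- 375's unitary packaged as a `BSIso`. -/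
def bsIso {η : ℝ} (hη : η ∈ Set.Icc (0 : ℝ) 1) : BSIso n η where
  U := (BS375.bsU hη.1 hη.2).toLinearIsometry
  apply := fun f k e => BS375.bsU_apply hη.1 hη.2 f (k, e)

/-! ### pairs as splittings -/

theorem fst_add_snd {s : Occ n} (a : Splitting s) : a.fst + a.snd = s := BS375.fst_add_snd a

/-- pairs of occupations are splittings of their sum -/
def pairEquiv (n : ℕ) : (Σ s : Occ n, Splitting s) ≃ Occ n × Occ n :=
  Equiv.ofBijective (fun x => (x.2.fst, x.2.snd)) (by
    constructor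
    · rintro ⟨s, a⟩ ⟨t, b⟩ h
      simp only [Prod.mk.injEq] at h
      have hst : s = t := by
        rw [← fst_add_snd a, ← fst_add_snd b, h.1, h.2]
      subst hst
      have := BS375.splitting_fst_injective h.1
      rw [this]
    · rintro ⟨k, e⟩
      refine ⟨⟨k + e, BS375.splitOf k e _ rfl⟩, ?_⟩
      simp)

@[simp] theorem pairEquiv_apply (x : Σ s : Occ n, Splitting s) :
    pairEquiv n x = (x.2.fst, x.2.snd) := rfl

/-- total weight of `f` on the pairs with sum `s` -/
def tot (f : L2 (Occ n × Occ n)) (s : Occ n) : ℝ := ∑ a : Splitting s, ‖f (a.fst, a.snd)‖ ^ 2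

theorem hasSum_tot (f : L2 (Occ n × Occ n)) : HasSum (tot f) (‖f‖ ^ 2) := by
  have h1 := (pairEquiv n).hasSum_iff.mpr (hasSum_normSq f)
  exact h1.sigma (fun s => hasSum_fintype _)

/-- the restriction of `f` to the pairs with sum `s` -/
def resTot (f : L2 (Occ n × Occ n)) (s : Occ n) : L2 (Occ n × Occ n) :=
  mk2 (fun p => if p.1 + p.2 = s then f p else 0) (by
    refine Summable.of_nonneg_of_le (fun _ => by positivity) (fun p => ?_) (summable_normSq f)
    split_ifs with h
    · exact le_rfl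
    · simp)

theorem resTot_apply (f : L2 (Occ n × Occ n)) (s : Occ n) (p : Occ n × Occ n) :
    resTot f s p = if p.1 + p.2 = s then f p else 0 := rfl

theorem normSq_resTot (f : L2 (Occ n × Occ n)) (s : Occ n) : ‖resTot f s‖ ^ 2 = tot f s := by
  have h := hasSum_tot (resTot f s)
  have h2 : HasSum (tot (resTot f s)) (tot f s) := by
    have h3 : tot (resTot f s) = fun t => if t = s then tot f s else 0 := by
      funext t
      unfold tot
      by_cases hts : t = s
      · subst hts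
        simp only [resTot_apply, fst_add_snd, if_true]
      · simp only [resTot_apply, fst_add_snd, if_neg hts]
        simp
    rw [h3]
    exact hasSum_ite_eq s (tot f s)
  exact h.unique h2

namespace BSIso

variable {η : ℝ} (V : BSIso n η)

theorem U_resTot (f : L2 (Occ n × Occ n)) (s : Occ n) :
    V.U (resTot f s) = resTot (V.U f) s := by
  apply lp.ext
  funext p
  obtain ⟨k, e⟩ := p
  rw [V.apply, resTot_apply, V.apply]
  simp only [resTot_apply, fst_add_snd]
  by_cases h : k + e = s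
  · simp only [h, if_true]
  · simp only [h, if_false, mul_zero, Finset.sum_const_zero]

/-- conservation of the photon numbers of each mode pair -/
theorem tot_U (f : L2 (Occ n × Occ n)) : tot (V.U f) = tot f := by
  funext s
  rw [← normSq_resTot, ← normSq_resTot, ← V.U_resTot, LinearIsometry.norm_map]

end BSIso

/-! ### extended nonnegative sums -/

theorem enorm_sq_eq (z : ℂ) : ‖z‖ₑ ^ 2 = ENNReal.ofReal (‖z‖ ^ 2) := by
  rw [ENNReal.ofReal_pow (norm_nonneg _), ofReal_norm]

theorem tsum_weight_tot (f : L2 (Occ n × Occ n)) (w : Occ n → ℝ≥0∞) :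
    ∑' p : Occ n × Occ n, w (p.1 + p.2) * ‖f p‖ₑ ^ 2 =
      ∑' s : Occ n, w s * ENNReal.ofReal (tot f s) := by
  rw [← (pairEquiv n).tsum_eq, ENNReal.tsum_sigma']
  refine tsum_congr (fun s => ?_)
  rw [tsum_fintype]
  unfold tot
  rw [ENNReal.ofReal_sum_of_nonneg (fun _ _ => by positivity), Finset.mul_sum]
  refine Finset.sum_congr rfl (fun a _ => ?_)
  rw [pairEquiv_apply]
  simp only [fst_add_snd]
  rw [enorm_sq_eq]

theorem BSIso.tsum_weight_U {η : ℝ} (V : BSIso n η) (f : L2 (Occ n × Occ n)) (w : Occ n → ℝ≥0∞) :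
    ∑' p : Occ n × Occ n, w (p.1 + p.2) * ‖V.U f p‖ₑ ^ 2 =
      ∑' p : Occ n × Occ n, w (p.1 + p.2) * ‖f p‖ₑ ^ 2 := by
  rw [tsum_weight_tot, tsum_weight_tot, V.tot_U]

/-! ### the diagonal of a state -/

/-- the diagonal entries as extended nonnegative numbers -/
def dia (A : FockState n) (k : Occ n) : ℝ≥0∞ := ENNReal.ofReal (entry A.op k k).re

theorem entry_diag_nonneg (A : FockState n) (k : Occ n) : 0 ≤ (entry A.op k k).re := by
  rw [← normSq_sq A.pos]
  positivity

theorem entry_diag_im (A : FockState n) (k : Occ n) : (entry A.op k k).im = 0 := by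
  have h : entry A.op k k = ((‖sq A.op k‖ ^ 2 : ℝ) : ℂ) := by
    rw [← inner_sq A.pos, inner_self_eq_norm_sq_to_K]
    norm_cast
  rw [h, Complex.ofReal_im]

theorem tsum_dia (A : FockState n) : ∑' k, dia A k = 1 := by
  unfold dia
  rw [← ENNReal.ofReal_tsum_of_nonneg (entry_diag_nonneg A) A.traceOne.summable,
    A.traceOne.tsum_eq, ENNReal.ofReal_one]

theorem dia_eq_of_ens {J : Type} {φ : J → Fock n} (hφ : HasSum (fun j => ‖φ j‖ ^ 2) 1)
    (k : Occ n) : dia (ensState φ hφ) k = ∑' j, ‖φ j k‖ₑ ^ 2 := by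
  have h := Complex.hasSum_re (hasSum_entry_ensOp hφ.summable k k)
  have h4 : (fun j => (φ j k * conj (φ j k)).re) = fun j => ‖φ j k‖ ^ 2 := by
    funext j
    rw [Complex.mul_conj, Complex.ofReal_re, Complex.normSq_eq_norm_sq]
  rw [h4] at h
  unfold dia
  change ENNReal.ofReal (entry (ensOp φ) k k).re = _
  rw [← h.tsum_eq, ENNReal.ofReal_tsum_of_nonneg (fun _ => by positivity) h.summable]
  simp only [enorm_sq_eq]

theorem dia_eq_sq (A : FockState n) (k : Occ n) : dia A k = ∑' m, ‖sq A.op m k‖ₑ ^ 2 := by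
  have h := Complex.hasSum_re (hasSum_entry_sq A k k)
  have h4 : (fun m => (sq A.op m k * conj (sq A.op m k)).re) = fun m => ‖sq A.op m k‖ ^ 2 := by
    funext j
    rw [Complex.mul_conj, Complex.ofReal_re, Complex.normSq_eq_norm_sq]
  rw [h4] at h
  unfold dia
  rw [← h.tsum_eq, ENNReal.ofReal_tsum_of_nonneg (fun _ => by positivity) h.summable]
  simp only [enorm_sq_eq]


/-! ### joint output distribution and weights -/

/-- the joint distribution of the two output modes -/
def BSIso.joint {η : ℝ} (V : BSIso n η) (A B : FockState n) (p : Occ n × Occ n) : ℝ≥0∞ :=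
  ∑' q : Occ n × Occ n, ‖V.U (tens (sq A.op q.1) (sq B.op q.2)) p‖ₑ ^ 2

theorem BSIso.tsum_joint_weight {η : ℝ} (V : BSIso n η) (A B : FockState n) (w : Occ n → ℝ≥0∞) :
    ∑' p : Occ n × Occ n, w (p.1 + p.2) * V.joint A B p =
      ∑' p : Occ n × Occ n, w (p.1 + p.2) * (dia A p.1 * dia B p.2) := by
  unfold BSIso.joint
  simp only [← ENNReal.tsum_mul_left]
  rw [ENNReal.tsum_comm]
  have h1 : ∀ q : Occ n × Occ n,
      (∑' p : Occ n × Occ n, w (p.1 + p.2) *
        ‖V.U (tens (sq A.op q.1) (sq B.op q.2)) p‖ₑ ^ 2) =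
      ∑' p : Occ n × Occ n, w (p.1 + p.2) * ((‖sq A.op q.1 p.1‖ₑ ^ 2) * ‖sq B.op q.2 p.2‖ₑ ^ 2) := by
    intro q
    rw [V.tsum_weight_U]
    refine tsum_congr (fun p => ?_)
    rw [tens_apply, enorm_mul, mul_pow]
  simp only [h1]
  rw [ENNReal.tsum_comm]
  refine tsum_congr (fun p => ?_)
  rw [ENNReal.tsum_mul_left]
  congr 1
  have h2 := ENNReal.tsum_prod (f := fun a b => (‖sq A.op a p.1‖ₑ ^ 2) * ‖sq B.op b p.2‖ₑ ^ 2)
  refine h2.trans ?_
  simp only [ENNReal.tsum_mul_left]
  rw [ENNReal.tsum_mul_right, ← dia_eq_sq, ← dia_eq_sq]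

theorem BSIso.dia_out {η : ℝ} (V : BSIso n η) (A B : FockState n) (k : Occ n) :
    dia (V.out A B) k = ∑' e : Occ n, V.joint A B (k, e) := by
  unfold BSIso.out
  rw [dia_eq_of_ens (V.hasSum_chi A B)]
  rw [ENNReal.tsum_prod', ENNReal.tsum_comm]
  rfl

/-- the mean photon number as an extended nonnegative number -/
def energy (A : FockState n) : ℝ≥0∞ := ∑' k : Occ n, ((∑ j, k j : ℕ) : ℝ≥0∞) * dia A k

theorem energy_term (A : FockState n) (k : Occ n) :
    ((∑ j, k j : ℕ) : ℝ≥0∞) * dia A k =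
      ENNReal.ofReal (((∑ j, k j : ℕ) : ℝ) * (entry A.op k k).re) := by
  unfold dia
  rw [ENNReal.ofReal_mul (by positivity), ENNReal.ofReal_natCast]

theorem finiteEnergy_iff (A : FockState n) : FiniteEnergy A ↔ energy A ≠ ⊤ := by
  unfold FiniteEnergy energy
  simp only [energy_term]
  constructor
  · intro h
    rw [← ENNReal.ofReal_tsum_of_nonneg (fun k => mul_nonneg (by positivity)
      (entry_diag_nonneg A k)) h]
    exact ENNReal.ofReal_ne_top
  · intro h
    have h1 := ENNReal.summable_toReal h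
    refine h1.congr (fun k => ?_)
    rw [ENNReal.toReal_ofReal (mul_nonneg (by positivity) (entry_diag_nonneg A k))]

theorem energy_toReal (A : FockState n) : (energy A).toReal =
    ∑' k : Occ n, ((∑ j, k j : ℕ) : ℝ) * (entry A.op k k).re := by
  unfold energy
  simp only [energy_term]
  rw [ENNReal.tsum_toReal_eq (fun _ => ENNReal.ofReal_ne_top)]
  refine tsum_congr (fun k => ?_)
  rw [ENNReal.toReal_ofReal (mul_nonneg (by positivity) (entry_diag_nonneg A k))]

/-- weights of the output are dominated by weights of the inputs -/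
theorem BSIso.tsum_dia_out_le {η : ℝ} (V : BSIso n η) (A B : FockState n) (u w : Occ n → ℝ≥0∞)
    (huw : ∀ k e, u k ≤ w (k + e)) :
    ∑' k, u k * dia (V.out A B) k ≤ ∑' p : Occ n × Occ n, w (p.1 + p.2) * (dia A p.1 * dia B p.2) := by
  rw [← V.tsum_joint_weight A B w]
  simp only [V.dia_out, ← ENNReal.tsum_mul_left]
  rw [ENNReal.tsum_prod (f := fun k e => w (k + e) * V.joint A B (k, e))]
  exact ENNReal.tsum_le_tsum (fun k => ENNReal.tsum_le_tsum (fun e => mul_le_mul_left (huw k e) _))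

theorem tsum_pair_energy (A B : FockState n) :
    ∑' p : Occ n × Occ n, ((∑ j, (p.1 + p.2) j : ℕ) : ℝ≥0∞) * (dia A p.1 * dia B p.2) =
      energy A + energy B := by
  have h : ∀ p : Occ n × Occ n, ((∑ j, (p.1 + p.2) j : ℕ) : ℝ≥0∞) * (dia A p.1 * dia B p.2) =
      (((∑ j, p.1 j : ℕ) : ℝ≥0∞) * dia A p.1) * dia B p.2 +
        dia A p.1 * (((∑ j, p.2 j : ℕ) : ℝ≥0∞) * dia B p.2) := by
    intro p
    simp only [Pi.add_apply, Finset.sum_add_distrib]
    push_cast
    ring
  simp only [h]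
  rw [ENNReal.tsum_add, ENNReal.tsum_prod (f := fun a b =>
      (((∑ j, a j : ℕ) : ℝ≥0∞) * dia A a) * dia B b),
    ENNReal.tsum_prod (f := fun a b => dia A a * (((∑ j, b j : ℕ) : ℝ≥0∞) * dia B b))]
  simp only [ENNReal.tsum_mul_left, ENNReal.tsum_mul_right, tsum_dia, one_mul, mul_one]
  rfl

theorem BSIso.energy_out_le {η : ℝ} (V : BSIso n η) (A B : FockState n) :
    energy (V.out A B) ≤ energy A + energy B := by
  rw [← tsum_pair_energy]
  refine V.tsum_dia_out_le A B (fun k => ((∑ j, k j : ℕ) : ℝ≥0∞))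
    (fun s => ((∑ j, s j : ℕ) : ℝ≥0∞)) (fun k e => ?_)
  exact_mod_cast Finset.sum_le_sum (fun j _ => Nat.le_add_right _ _)

theorem BSIso.finiteEnergy_out {η : ℝ} (V : BSIso n η) {A B : FockState n} (hA : FiniteEnergy A)
    (hB : FiniteEnergy B) : FiniteEnergy (V.out A B) := by
  rw [finiteEnergy_iff] at *
  exact ne_top_of_le_ne_top (ENNReal.add_ne_top.mpr ⟨hA, hB⟩) (V.energy_out_le A B)


/-! ### tails and continuity of the output -/

theorem ennreal_mul_le (a b : ℝ≥0∞) : a * b ≤ a ^ 2 + b ^ 2 := by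
  rcases le_total a b with h | h
  · calc a * b ≤ b * b := by gcongr
      _ = b ^ 2 := (pow_two b).symm
      _ ≤ a ^ 2 + b ^ 2 := le_add_self
  · calc a * b ≤ a * a := by gcongr
      _ = a ^ 2 := (pow_two a).symm
      _ ≤ a ^ 2 + b ^ 2 := le_self_add

theorem BSIso.enorm_outBlock_le {η : ℝ} (V : BSIso n η) (A B : FockState n) (k l e : Occ n) :
    ‖outBlock η A B k l e‖ₑ ≤ V.joint A B (k, e) + V.joint A B (l, e) := by
  unfold BSIso.joint
  rw [← ENNReal.tsum_add]
  refine (V.hasSum_fiber A B k l e).enorm_le_of_bounded ENNReal.summable.hasSum (fun p => ?_)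
  rw [enorm_mul]
  have h1 : ‖conj (V.chi A B (p, e) l)‖ₑ = ‖V.chi A B (p, e) l‖ₑ := by
    rw [enorm_eq_iff_norm_eq, RCLike.norm_conj]
  rw [h1]
  exact ennreal_mul_le _ _

theorem BSIso.tail_joint_le {η : ℝ} (V : BSIso n η) (A B : FockState n) (k : Occ n) (R : ℕ)
    (F : Finset (Occ n)) (hF : ∀ e, e ∉ F → R ≤ ∑ j, e j) :
    (R : ℝ≥0∞) * ∑' e, (if e ∈ F then 0 else V.joint A B (k, e)) ≤ energy A + energy B := by
  rw [← tsum_pair_energy, ← V.tsum_joint_weight A B (fun s => ((∑ j, s j : ℕ) : ℝ≥0∞))]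
  rw [← ENNReal.tsum_mul_left]
  have h1 : ∀ e, (R : ℝ≥0∞) * (if e ∈ F then 0 else V.joint A B (k, e)) ≤
      ((∑ j, (k + e) j : ℕ) : ℝ≥0∞) * V.joint A B (k, e) := by
    intro e
    split_ifs with h
    · simp
    · refine mul_le_mul_left ?_ _
      have h2 := hF e h
      have h3 : R ≤ ∑ j, (k + e) j :=
        h2.trans (Finset.sum_le_sum (fun j _ => Nat.le_add_left _ _))
      exact_mod_cast h3
  refine (ENNReal.tsum_le_tsum h1).trans ?_
  have h4 := ENNReal.tsum_prod
    (f := fun k e => ((∑ j, (k + e) j : ℕ) : ℝ≥0∞) * V.joint A B (k, e))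
  rw [h4]
  exact ENNReal.le_tsum (f := fun k => ∑' e, ((∑ j, (k + e) j : ℕ) : ℝ≥0∞) * V.joint A B (k, e)) k

theorem BSIso.tail_entry_le {η : ℝ} (V : BSIso n η) (A B : FockState n) (k l : Occ n) (R : ℕ)
    (F : Finset (Occ n)) (hF : ∀ e, e ∉ F → R ≤ ∑ j, e j) :
    (R : ℝ≥0∞) * ‖entry (V.out A B).op k l - ∑ e ∈ F, outBlock η A B k l e‖ₑ ≤
      2 * (energy A + energy B) := by
  have h1 : HasSum (fun e => if e ∈ F then 0 else outBlock η A B k l e)
      (entry (V.out A B).op k l - ∑ e ∈ F, outBlock η A B k l e) := by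
    have h2 := V.isOutput_out A B k l
    have h3 : HasSum (fun e => if e ∈ F then outBlock η A B k l e else 0)
        (∑ e ∈ F, outBlock η A B k l e) := by
      have h4 : HasSum (fun e => if e ∈ F then outBlock η A B k l e else 0)
          (∑ e ∈ F, if e ∈ F then outBlock η A B k l e else 0) :=
        hasSum_sum_of_ne_finset_zero (fun e he => by simp [he])
      rwa [Finset.sum_congr rfl (fun e he => by rw [if_pos he])] at h4
    have h5 := h2.sub h3
    have h6 : (fun e => if e ∈ F then 0 else outBlock η A B k l e) =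
        fun e => outBlock η A B k l e - (if e ∈ F then outBlock η A B k l e else 0) := by
      funext e
      split_ifs <;> simp
    rw [h6]
    exact h5
  have h2 : ∀ e, ‖(if e ∈ F then 0 else outBlock η A B k l e)‖ₑ ≤
      (if e ∈ F then 0 else V.joint A B (k, e)) + (if e ∈ F then 0 else V.joint A B (l, e)) := by
    intro e
    split_ifs with h
    · simp
    · exact V.enorm_outBlock_le A B k l e
  have h3 := h1.enorm_le_of_bounded ENNReal.summable.hasSum h2
  rw [ENNReal.tsum_add] at h3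
  calc (R : ℝ≥0∞) * ‖entry (V.out A B).op k l - ∑ e ∈ F, outBlock η A B k l e‖ₑ
      ≤ (R : ℝ≥0∞) * (∑' e, (if e ∈ F then 0 else V.joint A B (k, e)) +
          ∑' e, (if e ∈ F then 0 else V.joint A B (l, e))) := by gcongr
    _ = (R : ℝ≥0∞) * ∑' e, (if e ∈ F then 0 else V.joint A B (k, e)) +
          (R : ℝ≥0∞) * ∑' e, (if e ∈ F then 0 else V.joint A B (l, e)) := mul_add _ _ _
    _ ≤ (energy A + energy B) + (energy A + energy B) :=
        add_le_add (V.tail_joint_le A B k R F hF) (V.tail_joint_le A B l R F hF)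
    _ = 2 * (energy A + energy B) := by ring

/-- the box of occupations below `R` -/
def boxF (n R : ℕ) : Finset (Occ n) := Fintype.piFinset (fun _ : Fin n => Finset.range R)

theorem mem_boxF {R : ℕ} {e : Occ n} : e ∈ boxF n R ↔ ∀ j, e j < R := by
  simp [boxF]

theorem le_of_notMem_boxF {R : ℕ} {e : Occ n} (h : e ∉ boxF n R) : R ≤ ∑ j, e j := by
  rw [mem_boxF] at h
  push Not at h
  obtain ⟨j, hj⟩ := h
  exact hj.trans (Finset.single_le_sum (f := fun j => e j) (fun _ _ => Nat.zero_le _)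
    (Finset.mem_univ j))

theorem tendsto_outBlock {η : ℝ} {ι : Type*} {L : Filter ι} {A' B' : ι → FockState n}
    {A B : FockState n}
    (hA : ∀ k l, Tendsto (fun i => entry (A' i).op k l) L (𝓝 (entry A.op k l)))
    (hB : ∀ k l, Tendsto (fun i => entry (B' i).op k l) L (𝓝 (entry B.op k l)))
    (k l e : Occ n) :
    Tendsto (fun i => outBlock η (A' i) (B' i) k l e) L (𝓝 (outBlock η A B k l e)) := by
  unfold outBlock
  refine tendsto_finsetSum _ (fun a _ => tendsto_finsetSum _ (fun b _ => ?_))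
  exact ((tendsto_const_nhds.mul (hA _ _)).mul (hB _ _)).mul tendsto_const_nhds

/-- continuity of the output, under a uniform energy bound -/
theorem BSIso.tendsto_entry_out {η : ℝ} (V : BSIso n η) {ι : Type*} {L : Filter ι}
    {A' B' : ι → FockState n} {A B : FockState n} {E : ℝ≥0∞} (hE : E ≠ ⊤)
    (hA : ∀ k l, Tendsto (fun i => entry (A' i).op k l) L (𝓝 (entry A.op k l)))
    (hB : ∀ k l, Tendsto (fun i => entry (B' i).op k l) L (𝓝 (entry B.op k l)))
    (hEn : ∀ᶠ i in L, energy (A' i) + energy (B' i) ≤ E) (k l : Occ n) :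
    Tendsto (fun i => entry (V.out (A' i) (B' i)).op k l) L (𝓝 (entry (V.out A B).op k l)) := by
  rw [Metric.tendsto_nhds]
  intro ε hε
  -- a large box for the limit
  have hlim := V.isOutput_out A B k l
  have h1 : ∀ᶠ F : Finset (Occ n) in atTop,
      dist (∑ e ∈ F, outBlock η A B k l e) (entry (V.out A B).op k l) < ε / 3 :=
    hlim.eventually (Metric.ball_mem_nhds _ (by positivity))
  obtain ⟨F0, hF0⟩ := eventually_atTop.mp h1
  -- a large cut-off for the tails
  obtain ⟨R, hR⟩ : ∃ R : ℕ, 2 * E.toReal / (ε / 3) < R := exists_nat_gt _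
  set F := F0 ∪ boxF n R with hFdef
  have hFout : ∀ e, e ∉ F → R ≤ ∑ j, e j := by
    intro e he
    exact le_of_notMem_boxF (fun h => he (Finset.mem_union_right _ h))
  have hRpos : (0 : ℝ) < R := lt_of_le_of_lt (by positivity) hR
  have h2 : Tendsto (fun i => ∑ e ∈ F, outBlock η (A' i) (B' i) k l e) L
      (𝓝 (∑ e ∈ F, outBlock η A B k l e)) :=
    tendsto_finsetSum _ (fun e _ => tendsto_outBlock hA hB k l e)
  have h3 := (Metric.tendsto_nhds.mp h2) (ε / 3) (by positivity)
  filter_upwards [h3, hEn] with i hi hEi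
  have h4 : dist (entry (V.out (A' i) (B' i)).op k l)
      (∑ e ∈ F, outBlock η (A' i) (B' i) k l e) < ε / 3 := by
    have h5 := V.tail_entry_le (A' i) (B' i) k l R F hFout
    have h6 : (R : ℝ≥0∞) * ‖entry (V.out (A' i) (B' i)).op k l -
        ∑ e ∈ F, outBlock η (A' i) (B' i) k l e‖ₑ ≤ 2 * E := h5.trans (by gcongr)
    have h7 := ENNReal.toReal_mono (ENNReal.mul_ne_top (by norm_num) hE) h6
    rw [ENNReal.toReal_mul, ENNReal.toReal_mul, ENNReal.toReal_natCast, toReal_enorm] at h7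
    rw [dist_eq_norm]
    have h8 : (2 : ℝ≥0∞).toReal = 2 := by norm_num
    rw [h8] at h7
    rw [div_lt_iff₀ (by positivity)] at hR
    nlinarith
  calc dist (entry (V.out (A' i) (B' i)).op k l) (entry (V.out A B).op k l)
      ≤ dist (entry (V.out (A' i) (B' i)).op k l) (∑ e ∈ F, outBlock η (A' i) (B' i) k l e) +
        dist (∑ e ∈ F, outBlock η (A' i) (B' i) k l e) (∑ e ∈ F, outBlock η A B k l e) +
        dist (∑ e ∈ F, outBlock η A B k l e) (entry (V.out A B).op k l) := dist_triangle4 _ _ _ _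
    _ < ε / 3 + ε / 3 + ε / 3 := by
        have h9 := hF0 F Finset.subset_union_left
        linarith
    _ = ε := by ring


/-! ### statements without the isometry -/

section noV

variable {η : ℝ}

theorem exists_output (hη : η ∈ Set.Icc (0 : ℝ) 1) (A B : FockState n) :
    ∃ C : FockState n, IsBeamSplitterOutput η A B C :=
  ⟨(bsIso hη).out A B, (bsIso hη).isOutput_out A B⟩

theorem energy_output_le (hη : η ∈ Set.Icc (0 : ℝ) 1) {A B C : FockState n}
    (h : IsBeamSplitterOutput η A B C) : energy C ≤ energy A + energy B := by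
  rw [(bsIso hη).isOutput_iff.mp h]
  exact (bsIso hη).energy_out_le A B

theorem finiteEnergy_output (hη : η ∈ Set.Icc (0 : ℝ) 1) {A B C : FockState n}
    (h : IsBeamSplitterOutput η A B C) (hA : FiniteEnergy A) (hB : FiniteEnergy B) :
    FiniteEnergy C := by
  rw [(bsIso hη).isOutput_iff.mp h]
  exact (bsIso hη).finiteEnergy_out hA hB

theorem tendsto_entry_output (hη : η ∈ Set.Icc (0 : ℝ) 1) {ι : Type*} {L : Filter ι}
    {A' B' C' : ι → FockState n} {A B C : FockState n} {E : ℝ≥0∞} (hE : E ≠ ⊤)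
    (hC' : ∀ i, IsBeamSplitterOutput η (A' i) (B' i) (C' i))
    (hC : IsBeamSplitterOutput η A B C)
    (hA : ∀ k l, Tendsto (fun i => entry (A' i).op k l) L (𝓝 (entry A.op k l)))
    (hB : ∀ k l, Tendsto (fun i => entry (B' i).op k l) L (𝓝 (entry B.op k l)))
    (hEn : ∀ᶠ i in L, energy (A' i) + energy (B' i) ≤ E) (k l : Occ n) :
    Tendsto (fun i => entry (C' i).op k l) L (𝓝 (entry C.op k l)) := by
  have h1 : C' = fun i => (bsIso hη).out (A' i) (B' i) :=
    funext fun i => (bsIso hη).isOutput_iff.mp (hC' i)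
  rw [h1, (bsIso hη).isOutput_iff.mp hC]
  exact (bsIso hη).tendsto_entry_out hE hA hB hEn k l

end noV

/-! ### general ensembles -/

section generalEns

variable {η : ℝ} (V : BSIso n η) {J K : Type} {φ : J → Fock n} {ψ : K → Fock n}

theorem norm_apply_le (f : Fock n) (k : Occ n) : ‖f k‖ ≤ ‖f‖ :=
  lp.norm_apply_le_norm (by norm_num) f k

theorem summable_ens_mul (hφ : Summable (fun j => ‖φ j‖ ^ 2)) (k l : Occ n) :
    Summable (fun j => ‖φ j k * conj (φ j l)‖) := by
  refine Summable.of_nonneg_of_le (fun _ => norm_nonneg _) (fun j => ?_) hφ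
  rw [norm_mul, RCLike.norm_conj, pow_two]
  exact mul_le_mul (norm_apply_le _ k) (norm_apply_le _ l) (norm_nonneg _) (norm_nonneg _)

namespace BSIso

/-- the ensemble of the transmitted modes, for general input ensembles -/
def chiG (φ : J → Fock n) (ψ : K → Fock n) (j : (J × K) × Occ n) : Fock n :=
  slice (V.U (tens (φ j.1.1) (ψ j.1.2))) j.2

theorem hasSum_chiG {a b : ℝ} (hφ : HasSum (fun j => ‖φ j‖ ^ 2) a)
    (hψ : HasSum (fun j => ‖ψ j‖ ^ 2) b) : HasSum (fun j => ‖V.chiG φ ψ j‖ ^ 2) (a * b) := by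
  have h0 : HasSum (fun p : J × K => ‖φ p.1‖ ^ 2 * ‖ψ p.2‖ ^ 2) (a * b) :=
    hasSum_mul_real (f := fun k => ‖φ k‖ ^ 2) (g := fun k => ‖ψ k‖ ^ 2)
      hφ hψ (fun _ => sq_nonneg _) (fun _ => sq_nonneg _)
  have h1 : HasSum (fun p : J × K => ‖V.U (tens (φ p.1) (ψ p.2))‖ ^ 2) (a * b) := by
    have h : (fun p : J × K => ‖V.U (tens (φ p.1) (ψ p.2))‖ ^ 2) =
        fun p => ‖φ p.1‖ ^ 2 * ‖ψ p.2‖ ^ 2 := by
      funext p
      rw [LinearIsometry.norm_map, normSq_tens]
    rwa [h]
  have h2 : ∀ p : J × K, HasSum (fun e => ‖V.chiG φ ψ (p, e)‖ ^ 2)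
      (‖V.U (tens (φ p.1) (ψ p.2))‖ ^ 2) := by
    intro p
    exact hasSum_normSq_slice (V.U (tens (φ p.1) (ψ p.2)))
  have h3 : ∀ j : (J × K) × Occ n, 0 ≤ ‖V.chiG φ ψ j‖ ^ 2 := fun j => sq_nonneg _
  exact hasSum_prod_of_fiber h3 h2 h1

theorem hasSum_fiberG (hφ : HasSum (fun j => ‖φ j‖ ^ 2) 1) (hψ : HasSum (fun j => ‖ψ j‖ ^ 2) 1)
    (k l e : Occ n) :
    HasSum (fun p : J × K => V.chiG φ ψ (p, e) k * conj (V.chiG φ ψ (p, e) l))
      (outBlock η (ensState φ hφ) (ensState ψ hψ) k l e) := by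
  unfold outBlock
  have h1 : ∀ (a : Splitting (k + e)) (b : Splitting (l + e)),
      HasSum (fun p : J × K =>
        (ampOcc η a.fst a.snd k e : ℂ) * (φ p.1 a.fst * conj (φ p.1 b.fst)) *
        (ψ p.2 a.snd * conj (ψ p.2 b.snd)) * (ampOcc η b.fst b.snd l e : ℂ))
      ((ampOcc η a.fst a.snd k e : ℂ) * entry (ensState φ hφ).op a.fst b.fst *
        entry (ensState ψ hψ).op a.snd b.snd * (ampOcc η b.fst b.snd l e : ℂ)) := by
    intro a b
    have h2 := hasSum_mul_complex (hasSum_entry_ensOp hφ.summable a.fst b.fst)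
      (hasSum_entry_ensOp hψ.summable a.snd b.snd)
      (summable_ens_mul hφ.summable a.fst b.fst) (summable_ens_mul hψ.summable a.snd b.snd)
    have h3 := (h2.mul_left (ampOcc η a.fst a.snd k e : ℂ)).mul_right
      (ampOcc η b.fst b.snd l e : ℂ)
    simp only [← mul_assoc] at h3 ⊢
    exact h3
  have h2 := hasSum_sum (s := Finset.univ) (fun a (_ : a ∈ Finset.univ) =>
    hasSum_sum (s := Finset.univ) (fun b (_ : b ∈ Finset.univ) => h1 a b))
  have h3 : (fun p : J × K => V.chiG φ ψ (p, e) k * conj (V.chiG φ ψ (p, e) l)) =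
      fun p => ∑ a : Splitting (k + e), ∑ b : Splitting (l + e),
        (ampOcc η a.fst a.snd k e : ℂ) * (φ p.1 a.fst * conj (φ p.1 b.fst)) *
        (ψ p.2 a.snd * conj (ψ p.2 b.snd)) * (ampOcc η b.fst b.snd l e : ℂ) := by
    funext p
    have e1 : ∀ k : Occ n, V.chiG φ ψ (p, e) k = ∑ a : Splitting (k + e),
        (ampOcc η a.fst a.snd k e : ℂ) * (φ p.1 a.fst * ψ p.2 a.snd) := by
      intro k
      unfold chiG
      rw [slice_apply, V.apply]
      rfl
    rw [e1, e1, map_sum, Finset.sum_mul_sum]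
    refine Finset.sum_congr rfl (fun a _ => Finset.sum_congr rfl (fun b _ => ?_))
    simp only [map_mul, Complex.conj_ofReal]
    ring
  rw [h3]
  exact h2

theorem isOutput_ens (hφ : HasSum (fun j => ‖φ j‖ ^ 2) 1) (hψ : HasSum (fun j => ‖ψ j‖ ^ 2) 1)
    (hχ : HasSum (fun j => ‖V.chiG φ ψ j‖ ^ 2) 1) :
    IsBeamSplitterOutput η (ensState φ hφ) (ensState ψ hψ) (ensState (V.chiG φ ψ) hχ) := by
  intro k l
  have h1 : HasSum (fun j => V.chiG φ ψ j k * conj (V.chiG φ ψ j l))
      (entry (ensState (V.chiG φ ψ) hχ).op k l) :=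
    hasSum_entry_ensOp hχ.summable k l
  have h2 : HasSum (fun j : Occ n × (J × K) =>
      V.chiG φ ψ (j.2, j.1) k * conj (V.chiG φ ψ (j.2, j.1) l))
      (entry (ensState (V.chiG φ ψ) hχ).op k l) :=
    (Equiv.prodComm (Occ n) (J × K)).hasSum_iff.mpr h1
  exact h2.prod_fiberwise (fun e => V.hasSum_fiberG hφ hψ k l e)

theorem out_ensState (hφ : HasSum (fun j => ‖φ j‖ ^ 2) 1) (hψ : HasSum (fun j => ‖ψ j‖ ^ 2) 1) :
    V.out (ensState φ hφ) (ensState ψ hψ) =
      ensState (V.chiG φ ψ) (by simpa using V.hasSum_chiG hφ hψ) :=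
  (V.isOutput_iff.mp (V.isOutput_ens hφ hψ _)).symm

end BSIso

end generalEns

/-! ### truncations -/

section trunc

variable (A : FockState n) (F : Finset (Occ n))

/-- the mass of `A` on `F` -/
def massF : ℝ := ∑ k ∈ F, (entry A.op k k).re

/-- restriction of a vector to `F` -/
def resF (F : Finset (Occ n)) (f : Fock n) : Fock n :=
  mk2 (fun k => if k ∈ F then f k else 0) (by
    refine Summable.of_nonneg_of_le (fun _ => by positivity) (fun p => ?_) (summable_normSq f)
    split_ifs with h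
    · exact le_rfl
    · simp)

theorem resF_apply (f : Fock n) (k : Occ n) : resF F f k = if k ∈ F then f k else 0 := rfl

theorem normSq_resF (f : Fock n) : ‖resF F f‖ ^ 2 = ∑ k ∈ F, ‖f k‖ ^ 2 := by
  have h1 := hasSum_normSq (resF F f)
  have h2 : HasSum (fun k => ‖resF F f k‖ ^ 2) (∑ k ∈ F, ‖resF F f k‖ ^ 2) :=
    hasSum_sum_of_ne_finset_zero (fun k hk => by simp [resF_apply, hk])
  rw [h1.unique h2]
  refine Finset.sum_congr rfl (fun k hk => ?_)
  rw [resF_apply, if_pos hk]

theorem hasSum_truncVec (hF : 0 < massF A F) :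
    HasSum (fun m => ‖((Real.sqrt (massF A F))⁻¹ : ℂ) • resF F (sq A.op m)‖ ^ 2) 1 := by
  have h1 : ∀ m, ‖((Real.sqrt (massF A F))⁻¹ : ℂ) • resF F (sq A.op m)‖ ^ 2 =
      (massF A F)⁻¹ * ∑ k ∈ F, ‖sq A.op m k‖ ^ 2 := by
    intro m
    rw [norm_smul, mul_pow, normSq_resF, norm_inv, Complex.norm_real, Real.norm_eq_abs,
      abs_of_nonneg (Real.sqrt_nonneg _), inv_pow, Real.sq_sqrt hF.le]
  simp only [h1]
  have h2 : HasSum (fun m => ∑ k ∈ F, ‖sq A.op m k‖ ^ 2) (massF A F) := by
    unfold massF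
    refine hasSum_sum (fun k _ => ?_)
    have h := Complex.hasSum_re (hasSum_entry_sq A k k)
    have h4 : (fun m => (sq A.op m k * conj (sq A.op m k)).re) = fun m => ‖sq A.op m k‖ ^ 2 := by
      funext j
      rw [Complex.mul_conj, Complex.ofReal_re, Complex.normSq_eq_norm_sq]
    rwa [h4] at h
  have h3 := h2.mul_left (massF A F)⁻¹
  rwa [inv_mul_cancel₀ hF.ne'] at h3

/-- the truncation of a state to a finite set of occupations, normalised -/
def trunc (hF : 0 < massF A F) : FockState n := ensState _ (hasSum_truncVec A F hF)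

theorem entry_trunc (hF : 0 < massF A F) (k l : Occ n) :
    entry (trunc A F hF).op k l =
      if k ∈ F ∧ l ∈ F then ((massF A F)⁻¹ : ℂ) * entry A.op k l else 0 := by
  have h1 := hasSum_entry_ensOp (hasSum_truncVec A F hF).summable k l
  have h2 : HasSum (fun m => ((massF A F)⁻¹ : ℂ) * (if k ∈ F ∧ l ∈ F then
      sq A.op m k * conj (sq A.op m l) else 0))
      (if k ∈ F ∧ l ∈ F then ((massF A F)⁻¹ : ℂ) * entry A.op k l else 0) := by
    split_ifs with h
    · exact (hasSum_entry_sq A k l).mul_left _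
    · simp
  refine h1.unique ?_
  have h3 : (fun m => (((Real.sqrt (massF A F))⁻¹ : ℂ) • resF F (sq A.op m) : Fock n) k *
      conj ((((Real.sqrt (massF A F))⁻¹ : ℂ) • resF F (sq A.op m) : Fock n) l)) =
      fun m => ((massF A F)⁻¹ : ℂ) * (if k ∈ F ∧ l ∈ F then
      sq A.op m k * conj (sq A.op m l) else 0) := by
    funext m
    rw [lp.coeFn_smul, Pi.smul_apply, Pi.smul_apply, resF_apply, resF_apply, smul_eq_mul,
      smul_eq_mul, map_mul, map_inv₀, Complex.conj_ofReal]
    have h4 : ((massF A F : ℝ) : ℂ)⁻¹ = ((Real.sqrt (massF A F) : ℝ) : ℂ)⁻¹ *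
        ((Real.sqrt (massF A F) : ℝ) : ℂ)⁻¹ := by
      rw [← mul_inv, ← Complex.ofReal_mul, Real.mul_self_sqrt hF.le]
    rw [h4]
    by_cases hk : k ∈ F
    · by_cases hl : l ∈ F
      · simp only [hk, hl, and_self, if_true]
        ring
      · simp [hk, hl]
    · simp [hk]
  rw [h3]
  exact h2

theorem massF_le_one : massF A F ≤ 1 :=
  sum_le_hasSum F (fun k _ => entry_diag_nonneg A k) A.traceOne

theorem dia_trunc (hF : 0 < massF A F) (k : Occ n) :
    dia (trunc A F hF) k = if k ∈ F then ENNReal.ofReal (massF A F)⁻¹ * dia A k else 0 := by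
  unfold dia
  rw [entry_trunc]
  by_cases hk : k ∈ F
  · simp only [hk, and_self, if_true]
    rw [← Complex.ofReal_inv, Complex.re_ofReal_mul, ENNReal.ofReal_mul (by positivity)]
  · simp [hk]

theorem energy_trunc_le (hF : 0 < massF A F) :
    energy (trunc A F hF) ≤ ENNReal.ofReal (massF A F)⁻¹ * energy A := by
  unfold energy
  rw [← ENNReal.tsum_mul_left]
  refine ENNReal.tsum_le_tsum (fun k => ?_)
  rw [dia_trunc]
  split_ifs with h
  · rw [mul_left_comm]
  · simp

theorem energy_trunc_ne_top (hF : 0 < massF A F) : energy (trunc A F hF) ≠ ⊤ := by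
  have h1 : energy (trunc A F hF) = ∑ k ∈ F, ((∑ j, k j : ℕ) : ℝ≥0∞) * dia (trunc A F hF) k := by
    unfold energy
    refine tsum_eq_sum (fun k hk => ?_)
    rw [dia_trunc, if_neg hk, mul_zero]
  rw [h1]
  refine (ENNReal.sum_lt_top.mpr (fun k _ => ?_)).ne
  exact ENNReal.mul_lt_top (by simp) (by unfold dia; exact ENNReal.ofReal_lt_top)

theorem tendsto_massF : Tendsto (massF A) atTop (𝓝 1) := A.traceOne

theorem eventually_massF_pos {c : ℝ} (hc : c < 1) : ∀ᶠ F in atTop, c < massF A F :=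
  (tendsto_massF A).eventually (lt_mem_nhds hc)

theorem tendsto_boxF : Tendsto (boxF n) atTop atTop := by
  refine tendsto_atTop_finset_of_monotone ?_ ?_
  · intro R R' h e he
    rw [mem_boxF] at he ⊢
    exact fun j => (he j).trans_le h
  · intro e
    refine ⟨(∑ j, e j) + 1, ?_⟩
    rw [mem_boxF]
    intro j
    have h := Finset.single_le_sum (f := fun j => e j) (fun _ _ => Nat.zero_le _)
      (Finset.mem_univ j)
    exact Nat.lt_succ_of_le h

/-- a total version of the truncation -/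
def truncT : FockState n := if hF : 0 < massF A F then trunc A F hF else A

theorem truncT_of_pos (hF : 0 < massF A F) : truncT A F = trunc A F hF := dif_pos hF

theorem tendsto_entry_truncT (k l : Occ n) :
    Tendsto (fun F => entry (truncT A F).op k l) atTop (𝓝 (entry A.op k l)) := by
  have h1 : Tendsto (fun F => ((massF A F : ℝ) : ℂ)⁻¹ * entry A.op k l) atTop
      (𝓝 (((1 : ℝ) : ℂ)⁻¹ * entry A.op k l)) := by
    refine Tendsto.mul_const _ (Tendsto.inv₀ ?_ (by simp))
    exact (Complex.continuous_ofReal.tendsto _).comp (tendsto_massF A)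
  simp only [Complex.ofReal_one, inv_one, one_mul] at h1
  refine h1.congr' ?_
  filter_upwards [eventually_massF_pos A (c := 0) (by norm_num),
    eventually_ge_atTop ({k, l} : Finset (Occ n))] with F hF hkl
  have hk : k ∈ F := hkl (by simp)
  have hl : l ∈ F := hkl (by simp)
  rw [truncT_of_pos A F hF, entry_trunc, if_pos ⟨hk, hl⟩]

theorem energy_truncT_le : ∀ᶠ F in atTop, energy (truncT A F) ≤ 2 * energy A := by
  filter_upwards [eventually_massF_pos A (c := 1 / 2) (by norm_num)] with F hF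
  have hF' : 0 < massF A F := by linarith
  rw [truncT_of_pos A F hF']
  refine (energy_trunc_le A F hF').trans ?_
  gcongr
  rw [show (2 : ℝ≥0∞) = ENNReal.ofReal 2 by norm_num]
  refine ENNReal.ofReal_le_ofReal ?_
  rw [inv_le_comm₀ hF' (by norm_num)]
  linarith

end trunc

end

end Crest.Agent.R331.Out118
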