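/-
Row 331 (S0514): glue. `result_of_LINbox` : the tangent-plane inequality for box supported states
(`Fext682.LINbox`) implies the literal statement S0514.
-/
import Mathlib
import Crest.Prelude.Def_FockState
import Crest.Agent.R331.Wrap_587
import Crest.Agent.R331.Fext2_682
import Crest.Agent.R331.Out2_118

set_option autoImplicit false

noncomputable section

namespace Crest.Agent.R331.Main944

open scoped ENNReal Topology
open Filter Crest.MathPhysics.Bosonic Crest.Agent.R331.Fext682 Crest.Agent.R331.CPT682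

theorem Eph_eq_energy {n : ℕ} (ρ : FockState n) : Eph ρ = Out118.energy ρ := by
  rw [Eph_eq]
  unfold Out118.energy Out118.dia
  refine tsum_congr fun k => ?_
  rw [ENNReal.ofReal_mul (by positivity), ENNReal.ofReal_natCast]

theorem outEnergy : OutEnergy := by
  intro n η hη A B C hC
  simp only [Eph_eq_energy]
  exact Out118.energy_output_le ⟨hη.1.le, hη.2.le⟩ hC

theorem outCont : OutCont := by
  intro n η hη A B C A' B' C' hC hC' E hE hA hB hlA hlB k l
  have hE2 : E + E ≠ ⊤ := ENNReal.add_ne_top.2 ⟨hE, hE⟩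
  refine Out118.tendsto_entry_output (L := atTop) ⟨hη.1.le, hη.2.le⟩ hE2 hC hC' hlA hlB
    (Eventually.of_forall fun m => ?_) k l
  rw [← Eph_eq_energy, ← Eph_eq_energy]
  exact add_le_add (hA m) (hB m)

/-- The final glue: the tangent-plane inequality for box supported states implies S0514. -/
theorem result_of_LINbox (hbox : LINbox) (n : ℕ) (hn : 1 ≤ n) (η : ℝ)
    (hη : η ∈ Set.Icc (0 : ℝ) 1) (ρA ρB : FockState n) (hA : FiniteEnergy ρA) (hB : FiniteEnergy ρB)
    (sA sB : ℝ) (hsA : HasEntropy ρA sA) (hsB : HasEntropy ρB sB) (tA tB : ℝ) (htA : 0 ≤ tA)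
    (htB : 0 ≤ tB) (hgA : gBose tA = sA / n) (hgB : gBose tB = sB / n) :
    ∃ ρC : FockState n, IsBeamSplitterOutput η ρA ρB ρC ∧
      ∃ sC : ℝ, HasEntropy ρC sC ∧ gBose (η * tA + (1 - η) * tB) ≤ sC / n :=
  Wrap587.wrap (outExists outEnergy) (lin_of_box outEnergy outCont hbox) n hn η hη ρA ρB hA hB
    sA sB hsA hsB tA tB htA htB hgA hgB

end Crest.Agent.R331.Main944
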