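import Mathlib
import Crest.Agent.R331.FLMin_628
import Crest.Agent.R331.LEn_380
import Crest.Agent.R331.FRec_380
import Crest.Agent.R331.FGapInst_633
import Crest.Agent.R331.FinWF_87
import Crest.Agent.R331.FLgap_136
import Crest.Agent.R331.Link_915
import Crest.Agent.R331.Main_944

/-!
Row 331 (S0514): final glue of the FIN track from the last open literal Props.
-/

set_option autoImplicit false

namespace Crest.Agent.R331.FGlue136

open Crest.MathPhysics.Bosonic
open Crest.Agent.R331.FDefs136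

theorem fgap (hpos : FMINpos) (hel : FMINel) (hopi : FOPI) : FGAP :=
  FGapInst633.fgap FinW87.FW_holds hpos hel hopi

theorem lenergy (hen : FENERGY) : LENERGY :=
  FCur380.LENERGY_of hen FinW87.FENSUM_holds

theorem lgap (hpos : FMINpos) (hel : FMINel) (hopi : FOPI) (herr : FERR) (hedge : FEDGE)
    (hen : FENERGY) : LGAP :=
  FDefs136.lgap_of (fgap hpos hel hopi) herr hedge hen

theorem finmain (hex : FMINexists) (hpos : FMINpos) (hel : FMINel) (hopi : FOPI) (herr : FERR)
    (hedge : FEDGE) (hen : FENERGY) (hval : FVALUE) : FINMAIN :=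
  have hE := lenergy hen
  have hG := lgap hpos hel hopi herr hedge hen
  FTop_628.finmain_of_leaves hex FinW87.FW_holds hE hG (FCur380.LENC_of hG hE)
    (FCur380.LREC_of hG hE) hval FinW87.FENSUM_holds

/-- literal conclusion of S0514 from the open Props -/
theorem result (hex : FMINexists) (hpos : FMINpos) (hel : FMINel) (hopi : FOPI) (herr : FERR)
    (hedge : FEDGE) (hen : FENERGY) (hval : FVALUE) (n : ℕ) (hn : 1 ≤ n) (η : ℝ)
    (hη : η ∈ Set.Icc (0 : ℝ) 1) (ρA ρB : FockState n) (hA : FiniteEnergy ρA) (hB : FiniteEnergy ρB)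
    (sA sB : ℝ) (hsA : HasEntropy ρA sA) (hsB : HasEntropy ρB sB) (tA tB : ℝ) (htA : 0 ≤ tA)
    (htB : 0 ≤ tB) (hgA : gBose tA = sA / n) (hgB : gBose tB = sB / n) :
    ∃ ρC : FockState n, IsBeamSplitterOutput η ρA ρB ρC ∧
      ∃ sC : ℝ, HasEntropy ρC sC ∧ gBose (η * tA + (1 - η) * tB) ≤ sC / n :=
  Main944.result_of_LINbox
    (Link915.linbox_of_finmain136 (finmain hex hpos hel hopi herr hedge hen hval)) n hn η hη
    ρA ρB hA hB sA sB hsA hsB tA tB htA htB hgA hgB

end Crest.Agent.R331.FGlue136
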