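import Mathlib
import Crest.Agent.R331.FDefs2_136

/-!
Row 331 (S0514), finite track: LGAP from FGAP, FERR, FEDGE, FENERGY.
-/

set_option autoImplicit false

namespace Crest.Agent.R331.FLGap561

open Matrix Crest.Quantum Crest.MathPhysics.Bosonic Filter Topology
open scoped Kronecker ComplexOrder BigOperators
open Crest.Agent.R331.FDefs136

/-- `ℓ_K = log (2K+2) + 1` -/
noncomputable def ell (K : ℕ) : ℝ := Real.log (2 * (K : ℝ) + 2) + 1

lemma one_le_ell (K : ℕ) : 1 ≤ ell K := by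
  unfold ell
  have hK : (0 : ℝ) ≤ K := Nat.cast_nonneg K
  have : 0 ≤ Real.log (2 * (K : ℝ) + 2) := Real.log_nonneg (by linarith)
  linarith

lemma ell_le (K : ℕ) : ell K ≤ 17 * ((K : ℝ) + 1) ^ (1 / 8 : ℝ) := by
  unfold ell
  have hK : (0 : ℝ) ≤ K := Nat.cast_nonneg K
  have h1 : (1 : ℝ) ≤ ((K : ℝ) + 1) ^ (1 / 8 : ℝ) := Real.one_le_rpow (by linarith) (by norm_num)
  have h2 : Real.log (2 * (K : ℝ) + 2) ≤ (2 * (K : ℝ) + 2) ^ (1 / 8 : ℝ) / (1 / 8) :=
    Real.log_le_rpow_div (by linarith) (by norm_num)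
  have h3 : (2 * (K : ℝ) + 2) ^ (1 / 8 : ℝ) = 2 ^ (1 / 8 : ℝ) * ((K : ℝ) + 1) ^ (1 / 8 : ℝ) := by
    rw [← Real.mul_rpow (by norm_num) (by linarith)]
    congr 1
    ring
  have h4 : (2 : ℝ) ^ (1 / 8 : ℝ) ≤ 2 := by
    calc (2 : ℝ) ^ (1 / 8 : ℝ) ≤ 2 ^ (1 : ℝ) :=
          Real.rpow_le_rpow_of_exponent_le (by norm_num) (by norm_num)
      _ = 2 := by norm_num
  have h5 : (2 : ℝ) ^ (1 / 8 : ℝ) * ((K : ℝ) + 1) ^ (1 / 8 : ℝ) ≤ 2 * ((K : ℝ) + 1) ^ (1 / 8 : ℝ) :=
    mul_le_mul_of_nonneg_right h4 (by linarith)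
  rw [h3] at h2
  linarith

/-- the basic null sequence `ℓ² √(K+1) / K` -/
lemma tendsto_basic : Tendsto (fun K : ℕ => ell K ^ 2 * (Real.sqrt ((K : ℝ) + 1) / K)) atTop (𝓝 0) := by
  have hlim : Tendsto (fun K : ℕ => 578 * ((K : ℝ) + 1) ^ (-(1 / 4) : ℝ)) atTop (𝓝 0) := by
    have h1 : Tendsto (fun K : ℕ => (K : ℝ) + 1) atTop atTop :=
      tendsto_atTop_add_const_right _ _ tendsto_natCast_atTop_atTop
    have h2 := (tendsto_rpow_neg_atTop (show (0 : ℝ) < 1 / 4 by norm_num)).comp h1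
    simpa using h2.const_mul (578 : ℝ)
  refine squeeze_zero' ?_ ?_ hlim
  · filter_upwards with K
    positivity
  · filter_upwards [eventually_ge_atTop 1] with K hK1
    have hK : (1 : ℝ) ≤ K := by exact_mod_cast hK1
    have hp : (0 : ℝ) < (K : ℝ) + 1 := by linarith
    have hl0 : 0 ≤ ell K := by linarith [one_le_ell K]
    have h1 : ell K ^ 2 ≤ (17 * ((K : ℝ) + 1) ^ (1 / 8 : ℝ)) ^ 2 :=
      pow_le_pow_left₀ hl0 (ell_le K) 2
    have h2 : (17 * ((K : ℝ) + 1) ^ (1 / 8 : ℝ)) ^ 2 = 289 * ((K : ℝ) + 1) ^ (1 / 4 : ℝ) := by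
      rw [mul_pow, ← Real.rpow_natCast (((K : ℝ) + 1) ^ (1 / 8 : ℝ)) 2, ← Real.rpow_mul hp.le]
      norm_num
    have h3 : Real.sqrt ((K : ℝ) + 1) / K ≤ 2 * ((K : ℝ) + 1) ^ (-(1 / 2) : ℝ) := by
      rw [div_le_iff₀ (by linarith), Real.sqrt_eq_rpow]
      have h4 : ((K : ℝ) + 1) ^ (1 / 2 : ℝ) = ((K : ℝ) + 1) ^ (-(1 / 2) : ℝ) * ((K : ℝ) + 1) := by
        nth_rewrite 3 [← Real.rpow_one ((K : ℝ) + 1)]
        rw [← Real.rpow_add hp]
        norm_num
      rw [h4]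
      have h5 : 0 ≤ ((K : ℝ) + 1) ^ (-(1 / 2) : ℝ) := by positivity
      nlinarith
    calc ell K ^ 2 * (Real.sqrt ((K : ℝ) + 1) / K)
        ≤ (289 * ((K : ℝ) + 1) ^ (1 / 4 : ℝ)) * (2 * ((K : ℝ) + 1) ^ (-(1 / 2) : ℝ)) := by
          apply mul_le_mul (h1.trans h2.le) h3 (by positivity) (by positivity)
      _ = 578 * ((K : ℝ) + 1) ^ (-(1 / 4) : ℝ) := by
          have : ((K : ℝ) + 1) ^ (-(1 / 4) : ℝ)
              = ((K : ℝ) + 1) ^ (1 / 4 : ℝ) * ((K : ℝ) + 1) ^ (-(1 / 2) : ℝ) := by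
            rw [← Real.rpow_add hp]
            norm_num
          rw [this]
          ring

lemma kap_epsK (n K : ℕ) : kap (epsK n K) = (n + 4) * Real.log ((K : ℝ) + 1) := by
  unfold kap epsK
  rw [one_div_one_div, Real.log_pow]
  push_cast
  ring

lemma epsK_pos (n K : ℕ) : 0 < epsK n K := by
  unfold epsK
  positivity

lemma epsK_le_half (n K : ℕ) (hK : 1 ≤ K) : epsK n K ≤ 1 / 2 := by
  unfold epsK
  have hK' : (1 : ℝ) ≤ K := by exact_mod_cast hK
  have h1 : (2 : ℝ) ≤ ((K : ℝ) + 1) ^ (n + 4) := by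
    calc (2 : ℝ) ≤ (K : ℝ) + 1 := by linarith
      _ ≤ ((K : ℝ) + 1) ^ (n + 4) := le_self_pow₀ (by linarith) (by omega)
  exact one_div_le_one_div_of_le (by norm_num) h1

lemma kap_nonneg (n K : ℕ) : 0 ≤ kap (epsK n K) := by
  rw [kap_epsK]
  have hK : (0 : ℝ) ≤ K := Nat.cast_nonneg K
  have : 0 ≤ Real.log ((K : ℝ) + 1) := Real.log_nonneg (by linarith)
  positivity

lemma kap_le (n K : ℕ) : kap (epsK n K) + 1 ≤ (n + 5) * ell K := by
  rw [kap_epsK]
  have hK : (0 : ℝ) ≤ K := Nat.cast_nonneg K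
  have h1 : Real.log ((K : ℝ) + 1) ≤ Real.log (2 * (K : ℝ) + 2) :=
    Real.log_le_log (by linarith) (by linarith)
  have h0 : 0 ≤ Real.log ((K : ℝ) + 1) := Real.log_nonneg (by linarith)
  have h2 := one_le_ell K
  have h3 : Real.log ((K : ℝ) + 1) ≤ ell K := by unfold ell; linarith
  have hn : (0 : ℝ) ≤ n := Nat.cast_nonneg n
  nlinarith

lemma a_le (n K : ℕ) : kap (epsK n K) + n * Real.log (2 * K + 2) + 1 ≤ (2 * n + 5) * ell K := by
  have h1 := kap_le n K
  have h2 : Real.log (2 * K + 2) ≤ ell K := by unfold ell; linarith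
  have hn : (0 : ℝ) ≤ n := Nat.cast_nonneg n
  nlinarith

/-- the power term -/
lemma pow_term (n K : ℕ) :
    epsK n K * ((2 * K + 1 : ℕ) : ℝ) ^ (n + 1) ≤ 2 ^ (n + 1) / ((K : ℝ) + 1) ^ 3 := by
  unfold epsK
  have hK : (0 : ℝ) ≤ K := Nat.cast_nonneg K
  have hp : (0 : ℝ) < (K : ℝ) + 1 := by linarith
  have h1 : ((2 * K + 1 : ℕ) : ℝ) ^ (n + 1) ≤ 2 ^ (n + 1) * ((K : ℝ) + 1) ^ (n + 1) := by
    rw [← mul_pow]
    apply pow_le_pow_left₀ (by positivity)
    push_cast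
    linarith
  rw [div_mul_eq_mul_div, one_mul, div_le_div_iff₀ (by positivity) (by positivity)]
  calc ((2 * K + 1 : ℕ) : ℝ) ^ (n + 1) * ((K : ℝ) + 1) ^ 3
      ≤ (2 ^ (n + 1) * ((K : ℝ) + 1) ^ (n + 1)) * ((K : ℝ) + 1) ^ 3 :=
        mul_le_mul_of_nonneg_right h1 (by positivity)
    _ = 2 ^ (n + 1) * ((K : ℝ) + 1) ^ (n + 4) := by ring

lemma Tp_nonneg {n K : ℕ} (j : Fin n) {A : Matrix (Bx n K) (Bx n K) ℂ} (hA : IsDensity A) :
    0 ≤ Tp j A := by
  unfold Tp top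
  rw [Matrix.trace, Complex.re_sum]
  refine Finset.sum_nonneg fun k _ => ?_
  simp only [Matrix.diag_apply, Matrix.mul_diagonal]
  split_ifs
  · rw [mul_one]
    have := hA.1.diag_nonneg (i := k)
    exact (Complex.le_def.1 this).1
  · simp

lemma En_nonneg {n K : ℕ} {A : Matrix (Bx n K) (Bx n K) ℂ} (hA : IsDensity A) :
    0 ≤ En A := by
  unfold En num
  rw [Matrix.trace, Complex.re_sum]
  refine Finset.sum_nonneg fun k _ => ?_
  simp only [Matrix.diag_apply, Matrix.mul_diagonal]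
  have h := hA.1.diag_nonneg (i := k)
  have h1 : 0 ≤ (A k k).re := (Complex.le_def.1 h).1
  have h2 : (A k k * ((∑ j, (k j : ℕ) : ℕ) : ℂ)).re = (A k k).re * ((∑ j, (k j : ℕ) : ℕ) : ℝ) := by
    rw [Complex.mul_re, Complex.natCast_re, Complex.natCast_im]
    ring
  rw [h2]
  positivity

lemma bC_pos (p : Par) : 0 < p.bC := by
  unfold Par.bC bN
  have hN : 0 < p.NC := by
    unfold Par.NC
    have h1 := mul_pos p.η_pos p.NA_pos
    have h2 := mul_pos (sub_pos.2 p.η_lt) p.NB_pos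
    linarith
  apply Real.log_pos
  have : 0 < 1 / p.NC := by positivity
  linarith

/-- the null sequence -/
noncomputable def zz (K : ℕ) : ℝ := ell K ^ 2 * (Real.sqrt ((K : ℝ) + 1) / K)

lemma tendsto_zz : Tendsto zz atTop (𝓝 0) := tendsto_basic

lemma zz_nonneg (K : ℕ) : 0 ≤ zz K := by unfold zz; positivity

set_option maxHeartbeats 1000000 in
theorem lgap (hgap : FGAP) (herr : FERR) (hedge : FEDGE) (hen : FENERGY) : LGAP := by
  intro p n j δ hδ
  obtain ⟨c1, hc1, herr⟩ := herr p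
  obtain ⟨c2, hc2, hedge⟩ := hedge p
  obtain ⟨E0, hE⟩ := hen p n
  have hμ := p.μ_pos
  have hb := bC_pos p
  have hβ : 0 < p.β := by unfold Par.β; linarith
  set R : ℝ := Real.sqrt (1 + E0 + E0) with hR
  have hR0 : 0 ≤ R := Real.sqrt_nonneg _
  have hn0 : (0 : ℝ) ≤ n := Nat.cast_nonneg n
  -- constants
  set D1 : ℝ := c1 * (((n : ℝ) + 5) * (2 * (c2 * (2 * n + 5))) * R + ((n : ℝ) + 5) * 2 ^ (n + 1))
    with hD1
  set D2 : ℝ := c2 * (((n : ℝ) + 5) * (c2 * (2 * n + 5))) with hD2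
  have hD10 : 0 ≤ D1 := by positivity
  have hD20 : 0 ≤ D2 := by positivity
  set D : ℝ := p.bC / p.μ * (p.β * D1) + D2 + 1 with hD
  have hDpos : 0 < D := by positivity
  have hev : ∀ᶠ K in atTop, zz K ≤ δ / D := by
    have : (0 : ℝ) < δ / D := by positivity
    exact (tendsto_zz.eventually (ge_mem_nhds this))
  obtain ⟨K1, hK1⟩ := eventually_atTop.1 hev
  refine ⟨max (max 1 K1) ⌈2 * (E0 + E0 + 1)⌉₊, fun K hK A B hAB => ?_⟩
  have hKa : 1 ≤ K := le_trans (le_trans (le_max_left _ _) (le_max_left _ _)) hK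
  have hKb : K1 ≤ K := le_trans (le_trans (le_max_right _ _) (le_max_left _ _)) hK
  have hKc : 2 * (E0 + E0 + 1) ≤ K := by
    have h1 : ⌈2 * (E0 + E0 + 1)⌉₊ ≤ K := le_trans (le_max_right _ _) hK
    exact (Nat.le_ceil _).trans (by exact_mod_cast h1)
  have hK1r : (1 : ℝ) ≤ K := by exact_mod_cast hKa
  have hKpos : (0 : ℝ) < K := by linarith
  have hε0 := epsK_pos n K
  have hεh := epsK_le_half n K hKa
  obtain ⟨hEA, hEB⟩ := hE K (epsK n K) hε0 A B hAB
  have hEA0 := En_nonneg hAB.dA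
  have hEB0 := En_nonneg hAB.dB
  have hE2 : 2 * (En A + En B + 1) ≤ K := by linarith
  obtain ⟨hTA, hTB, hmA, hmB⟩ := hedge n K j (epsK n K) hε0 hεh A B hAB hE2
  have hz := hK1 K hKb
  have hl1 := one_le_ell K
  have hl0 : 0 ≤ ell K := by linarith
  set κ := kap (epsK n K) with hκ
  have hκ0 : 0 ≤ κ := kap_nonneg n K
  have hκ1 : κ + 1 ≤ (n + 5) * ell K := kap_le n K
  set a : ℝ := κ + n * Real.log (2 * K + 2) + 1 with ha
  have ha1 : a ≤ (2 * n + 5) * ell K := a_le n K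
  have ha0 : 0 ≤ a := by
    have : 0 ≤ Real.log (2 * (K : ℝ) + 2) := Real.log_nonneg (by linarith)
    positivity
  set s : ℝ := Real.sqrt ((K : ℝ) + 1) with hs
  have hs0 : 0 ≤ s := Real.sqrt_nonneg _
  have hs1 : 1 ≤ s := by rw [hs]; exact Real.one_le_sqrt.2 (by linarith)
  set t : ℝ := c2 * a / K with ht
  have ht0 : 0 ≤ t := by positivity
  have ht1 : t ≤ c2 * (2 * n + 5) * ell K / K := by
    rw [ht]
    apply div_le_div_of_nonneg_right _ hKpos.le
    calc c2 * a ≤ c2 * ((2 * n + 5) * ell K) := mul_le_mul_of_nonneg_left ha1 hc2.le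
      _ = _ := by ring
  -- square roots of the edge weights
  have hsA : Real.sqrt ((K + 1) * Tp j A) ≤ s * t := by
    rw [Real.sqrt_le_left (by positivity)]
    have hs2 : s ^ 2 = (K : ℝ) + 1 := Real.sq_sqrt (by linarith)
    rw [mul_pow, hs2]
    exact mul_le_mul_of_nonneg_left hTA (by linarith)
  have hsB : Real.sqrt ((K + 1) * Tp j B) ≤ s * t := by
    rw [Real.sqrt_le_left (by positivity)]
    have hs2 : s ^ 2 = (K : ℝ) + 1 := Real.sq_sqrt (by linarith)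
    rw [mul_pow, hs2]
    exact mul_le_mul_of_nonneg_left hTB (by linarith)
  have hsAB : Real.sqrt ((K + 1) * (Tp j A + Tp j B)) ≤ 2 * (s * t) := by
    rw [Real.sqrt_le_left (by positivity)]
    have hs2 : s ^ 2 = (K : ℝ) + 1 := Real.sq_sqrt (by linarith)
    have h1 : (2 * (s * t)) ^ 2 = ((K : ℝ) + 1) * (4 * t ^ 2) := by
      rw [mul_pow, mul_pow, hs2]; ring
    rw [h1]
    have h2 := add_le_add hTA hTB
    have h3 := sq_nonneg t
    exact mul_le_mul_of_nonneg_left (by linarith only [h2, h3]) (by positivity)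
  have hst : s * t ≤ c2 * (2 * n + 5) * (ell K * (s / K)) := by
    calc s * t ≤ s * (c2 * (2 * n + 5) * ell K / K) := mul_le_mul_of_nonneg_left ht1 hs0
      _ = _ := by ring
  have hzdef : zz K = ell K * (ell K * (s / K)) := by
    unfold zz
    rw [← hs]
    ring
  have hX0 : 0 ≤ ell K * (s / K) := by positivity
  have hzz0 := zz_nonneg K
  -- means
  have hmean : ∀ v T : ℝ, v ≤ c2 * κ * T → T ≤ s * t → 0 ≤ T → v ≤ D2 * zz K := by
    intro v T hv hT hT0
    calc v ≤ c2 * κ * T := hv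
      _ ≤ c2 * κ * (s * t) := mul_le_mul_of_nonneg_left hT (by positivity)
      _ ≤ c2 * ((n + 5) * ell K) * (c2 * (2 * n + 5) * (ell K * (s / K))) := by
          apply mul_le_mul _ hst (by positivity) (by positivity)
          apply mul_le_mul_of_nonneg_left _ hc2.le
          linarith
      _ = D2 * zz K := by rw [hzdef, hD2]; ring
  have hDz : D * zz K ≤ δ := by
    calc D * zz K ≤ D * (δ / D) := mul_le_mul_of_nonneg_left hz hDpos.le
      _ = δ := by field_simp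
  have hfin2 : D2 * zz K ≤ δ := by
    refine le_trans (mul_le_mul_of_nonneg_right ?_ hzz0) hDz
    rw [hD]
    have : 0 ≤ p.bC / p.μ * (p.β * D1) := by positivity
    linarith
  refine ⟨?_, ?_, ?_⟩
  · -- the slack
    have hg := hgap p n K (epsK n K) j hε0 A B hAB
    have he := herr n K j (epsK n K) hε0 hεh A B hAB.dA hAB.dB
    have hsR : Real.sqrt (1 + En A + En B) ≤ R := Real.sqrt_le_sqrt (by linarith)
    have hpow := pow_term n K
    have hpw2 : epsK n K * (κ + 1) * ((2 * K + 1 : ℕ) : ℝ) ^ (n + 1)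
        ≤ ((n : ℝ) + 5) * 2 ^ (n + 1) * zz K := by
      have h1 : epsK n K * (κ + 1) * ((2 * K + 1 : ℕ) : ℝ) ^ (n + 1)
          = (κ + 1) * (epsK n K * ((2 * K + 1 : ℕ) : ℝ) ^ (n + 1)) := by ring
      have h2 : 2 ^ (n + 1) / ((K : ℝ) + 1) ^ 3 ≤ 2 ^ (n + 1) * (ell K * (s / K)) := by
        rw [div_eq_mul_inv]
        apply mul_le_mul_of_nonneg_left _ (by positivity)
        have h3 : (((K : ℝ) + 1) ^ 3)⁻¹ ≤ (K : ℝ)⁻¹ := by
          apply inv_anti₀ hKpos
          calc (K : ℝ) ≤ (K : ℝ) + 1 := by linarith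
            _ ≤ ((K : ℝ) + 1) ^ 3 := le_self_pow₀ (by linarith) (by norm_num)
        have h4 : (K : ℝ)⁻¹ ≤ ell K * (s / K) := by
          have h5 : ell K * (s / K) = (ell K * s) * (K : ℝ)⁻¹ := by ring
          rw [h5]
          have h6 : 1 ≤ ell K * s := one_le_mul_of_one_le_of_one_le hl1 hs1
          have h7 : 0 ≤ (K : ℝ)⁻¹ := by positivity
          exact le_mul_of_one_le_left h7 h6
        exact h3.trans h4
      rw [h1]
      calc (κ + 1) * (epsK n K * ((2 * K + 1 : ℕ) : ℝ) ^ (n + 1))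
          ≤ ((n + 5) * ell K) * (2 ^ (n + 1) * (ell K * (s / K))) := by
            apply mul_le_mul hκ1 (hpow.trans h2) (by positivity) (by positivity)
        _ = _ := by rw [hzdef]; ring
    have hterm1 : (κ + 1) * Real.sqrt ((K + 1) * (Tp j A + Tp j B)) * Real.sqrt (1 + En A + En B)
        ≤ ((n : ℝ) + 5) * (2 * (c2 * (2 * n + 5))) * R * zz K := by
      calc (κ + 1) * Real.sqrt ((K + 1) * (Tp j A + Tp j B)) * Real.sqrt (1 + En A + En B)
          ≤ ((n + 5) * ell K) * (2 * (c2 * (2 * n + 5) * (ell K * (s / K)))) * R := by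
            apply mul_le_mul _ hsR (Real.sqrt_nonneg _) (by positivity)
            apply mul_le_mul hκ1 _ (Real.sqrt_nonneg _) (by positivity)
            exact hsAB.trans (mul_le_mul_of_nonneg_left hst (by norm_num))
        _ = _ := by rw [hzdef]; ring
    have hge : gapErr p (epsK n K) j A B ≤ D1 * zz K := by
      refine he.trans ?_
      rw [hD1]
      calc c1 * ((κ + 1) * Real.sqrt ((K + 1) * (Tp j A + Tp j B)) * Real.sqrt (1 + En A + En B)
            + epsK n K * (κ + 1) * ((2 * K + 1 : ℕ) : ℝ) ^ (n + 1))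
          ≤ c1 * (((n : ℝ) + 5) * (2 * (c2 * (2 * n + 5))) * R * zz K
              + ((n : ℝ) + 5) * 2 ^ (n + 1) * zz K) := by
            apply mul_le_mul_of_nonneg_left _ hc1.le
            linarith
        _ = _ := by ring
    have h1 : p.μ / p.bC * formD p.bC (outQ p.η (epsK n K) A B) (GQc p (epsK n K) j A B)
        ≤ p.β * (D1 * zz K) := hg.trans (mul_le_mul_of_nonneg_left hge hβ.le)
    have h2 : formD p.bC (outQ p.η (epsK n K) A B) (GQc p (epsK n K) j A B)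
        ≤ p.bC / p.μ * (p.β * (D1 * zz K)) := by
      have h3 : formD p.bC (outQ p.η (epsK n K) A B) (GQc p (epsK n K) j A B)
          = p.bC / p.μ * (p.μ / p.bC *
            formD p.bC (outQ p.η (epsK n K) A B) (GQc p (epsK n K) j A B)) := by
        field_simp
      rw [h3]
      exact mul_le_mul_of_nonneg_left h1 (by positivity)
    refine h2.trans (le_trans (le_of_eq (by ring)) (le_trans
      (mul_le_mul_of_nonneg_right (show p.bC / p.μ * (p.β * D1) ≤ D by rw [hD]; linarith) hzz0) hDz))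
  · exact (hmean _ _ hmA hsA (Real.sqrt_nonneg _)).trans hfin2
  · exact (hmean _ _ hmB hsB (Real.sqrt_nonneg _)).trans hfin2

end Crest.Agent.R331.FLGap561
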