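import Mathlib
import Crest.Agent.R331.FEn_839

set_option autoImplicit false

/-!
Row 331, finite track: leaf FMINexists (helper839).
-/

namespace Crest.Agent.R331.FEn839

open Matrix Crest.Quantum Crest.MathPhysics.Bosonic Filter Topology
open Crest.Agent.R331.FDefs136 Crest.Agent.R331.Fin3_839
open scoped Kronecker ComplexOrder BigOperators

noncomputable section

section smul
variable {ι : Type*} [Fintype ι] [DecidableEq ι]

/-- `S(τ C) = τ S(C) + (-τ log τ) Tr C` -/
theorem vn_smul {C : Matrix ι ι ℂ} (hC : C.IsHermitian) (τ : ℝ) :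
    vnEntropy ((τ : ℂ) • C) = τ * vnEntropy C + Real.negMulLog τ * ∑ i, hC.eigenvalues i := by
  have hU : star (hC.eigenvectorUnitary : Matrix ι ι ℂ) * (hC.eigenvectorUnitary : Matrix ι ι ℂ) = 1 :=
    Unitary.coe_star_mul_self _
  have hs : C = (hC.eigenvectorUnitary : Matrix ι ι ℂ) *
      diagonal (fun j => (hC.eigenvalues j : ℂ)) *
      star (hC.eigenvectorUnitary : Matrix ι ι ℂ) := by
    conv_lhs => rw [hC.spectral_theorem]
    rw [Unitary.conjStarAlgAut_apply]
    rfl
  have h1 : vnEntropy ((τ : ℂ) • C) = ∑ i, Real.negMulLog (τ * hC.eigenvalues i) := by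
    refine FLim_628.vn_of_diag (hC.eigenvectorUnitary : Matrix ι ι ℂ) hU _ ?_
    have hd : diagonal (fun i => ((τ * hC.eigenvalues i : ℝ) : ℂ))
        = (τ : ℂ) • diagonal (fun i => (hC.eigenvalues i : ℂ)) := by
      rw [← Matrix.diagonal_smul]
      congr 1
      funext i
      simp
    rw [hd, Matrix.mul_smul, Matrix.smul_mul, ← hs]
  rw [h1, Fin8_628.vn_eq hC, Finset.mul_sum, Finset.mul_sum, ← Finset.sum_add_distrib]
  refine Finset.sum_congr rfl fun i _ => ?_
  rw [Real.negMulLog_mul]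
  ring

/-- continuity of `C ↦ S(C + ε)` on density matrices -/
theorem continuousOn_vn_add {ε : ℝ} (hε : 0 < ε) :
    ContinuousOn (fun C : Matrix ι ι ℂ => vnEntropy (C + (ε : ℂ) • (1 : Matrix ι ι ℂ)))
      (Dens ι) := by
  set τ : ℝ := 1 + ε * Fintype.card ι with hτ
  have hτ0 : 0 < τ := by positivity
  set N : Matrix ι ι ℂ → Matrix ι ι ℂ :=
    fun C => ((τ⁻¹ : ℝ) : ℂ) • (C + (ε : ℂ) • (1 : Matrix ι ι ℂ)) with hN
  have hmaps : Set.MapsTo N (Dens ι) (Dens ι) := by
    intro C hC
    refine ⟨?_, ?_⟩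
    · have h1 : (C + (ε : ℂ) • (1 : Matrix ι ι ℂ)).PosSemidef :=
        hC.1.add (Matrix.PosSemidef.one.smul (by exact_mod_cast hε.le))
      exact h1.smul (by exact_mod_cast (inv_pos.2 hτ0).le)
    · rw [hN]
      simp only [Matrix.trace_smul, Matrix.trace_add, Matrix.trace_one, hC.2, smul_eq_mul]
      rw [show (1 : ℂ) + (ε : ℂ) * (Fintype.card ι : ℂ) = (τ : ℂ) by rw [hτ]; push_cast; ring,
        ← Complex.ofReal_mul, inv_mul_cancel₀ hτ0.ne', Complex.ofReal_one]
  have hcont : ContinuousOn N (Dens ι) := by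
    refine Continuous.continuousOn ?_
    have h0 : Continuous fun C : Matrix ι ι ℂ => C + (ε : ℂ) • (1 : Matrix ι ι ℂ) :=
      continuous_id.add continuous_const
    exact h0.const_smul ((τ⁻¹ : ℝ) : ℂ)
  have hS := continuousOn_Sm.comp hcont hmaps
  have h2 : ContinuousOn (fun C => τ * Sm (N C) + Real.negMulLog τ) (Dens ι) :=
    (continuousOn_const.mul hS).add continuousOn_const
  refine h2.congr fun C hC => ?_
  have hNC := hmaps hC
  have e1 : C + (ε : ℂ) • (1 : Matrix ι ι ℂ) = (τ : ℂ) • N C := by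
    rw [hN]
    simp only
    rw [smul_smul, ← Complex.ofReal_mul, mul_inv_cancel₀ hτ0.ne', Complex.ofReal_one, one_smul]
  show vnEntropy (C + (ε : ℂ) • (1 : Matrix ι ι ℂ)) = τ * Sm (N C) + Real.negMulLog τ
  rw [e1, vn_smul hNC.1.1, Fin8_628.sum_eig hNC, mul_one, vn_eq_Sm _ hNC.1.1]

end smul

variable {n K : ℕ}

theorem continuous_outC (η : ℝ) (n K : ℕ) :
    Continuous fun p : Matrix (Bx n K) (Bx n K) ℂ × Matrix (Bx n K) (Bx n K) ℂ =>
      outC η p.1 p.2 := by
  unfold outC FCov76.ptR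
  have hk : Continuous fun p : Matrix (Bx n K) (Bx n K) ℂ × Matrix (Bx n K) (Bx n K) ℂ =>
      p.1 ⊗ₖ p.2 := by
    refine continuous_matrix fun i j => ?_
    simp only [Matrix.kroneckerMap_apply]
    exact ((continuous_apply_apply _ _).comp continuous_fst).mul
      ((continuous_apply_apply _ _).comp continuous_snd)
  have hm : Continuous fun p : Matrix (Bx n K) (Bx n K) ℂ × Matrix (Bx n K) (Bx n K) ℂ =>
      bsW η n K * (p.1 ⊗ₖ p.2) * (bsW η n K)ᴴ :=
    (continuous_const.matrix_mul hk).matrix_mul continuous_const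
  refine continuous_matrix fun i j => ?_
  refine continuous_finsetSum _ fun k _ => ?_
  exact (continuous_apply_apply _ _).comp hm

theorem continuous_En (n K : ℕ) : Continuous fun A : Matrix (Bx n K) (Bx n K) ℂ => En A := by
  unfold FDefs136.En
  exact Complex.continuous_re.comp (continuous_id.matrix_mul continuous_const).matrix_trace

/-- **LEAF FMINexists** -/
theorem fminexists : FDefs136.FMINexists := by
  intro p n K ε hε
  have hcont : ContinuousOn
      (fun q : Matrix (Bx n K) (Bx n K) ℂ × Matrix (Bx n K) (Bx n K) ℂ => FDefs136.F p ε q.1 q.2)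
      (Dens (Bx n K) ×ˢ Dens (Bx n K)) := by
    unfold FDefs136.F
    have h1 : ContinuousOn
        (fun q : Matrix (Bx n K) (Bx n K) ℂ × Matrix (Bx n K) (Bx n K) ℂ =>
          vnEntropy (outQ p.η ε q.1 q.2)) (Dens (Bx n K) ×ˢ Dens (Bx n K)) := by
      have := (continuousOn_vn_add (ι := Bx n (2 * K)) hε).comp
        (continuous_outC p.η n K).continuousOn
        (s := Dens (Bx n K) ×ˢ Dens (Bx n K))
        (fun q hq => outC_isDensity p.η_pos.le p.η_lt.le hq.1 hq.2)
      exact this
    have h2 : ContinuousOn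
        (fun q : Matrix (Bx n K) (Bx n K) ℂ × Matrix (Bx n K) (Bx n K) ℂ =>
          vnEntropy q.1) (Dens (Bx n K) ×ˢ Dens (Bx n K)) := by
      have := (continuousOn_Sm (ι := Bx n K)).comp continuousOn_fst
        (s := Dens (Bx n K) ×ˢ Dens (Bx n K)) (fun q hq => hq.1)
      exact this.congr fun q hq => vn_eq_Sm _ hq.1.1.1
    have h3 : ContinuousOn
        (fun q : Matrix (Bx n K) (Bx n K) ℂ × Matrix (Bx n K) (Bx n K) ℂ =>
          vnEntropy q.2) (Dens (Bx n K) ×ˢ Dens (Bx n K)) := by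
      have := (continuousOn_Sm (ι := Bx n K)).comp continuousOn_snd
        (s := Dens (Bx n K) ×ˢ Dens (Bx n K)) (fun q hq => hq.2)
      exact this.congr fun q hq => vn_eq_Sm _ hq.2.1.1
    have h4 : Continuous
        (fun q : Matrix (Bx n K) (Bx n K) ℂ × Matrix (Bx n K) (Bx n K) ℂ =>
          p.μ * (p.η * En q.1 + (1 - p.η) * En q.2)) :=
      continuous_const.mul ((continuous_const.mul ((continuous_En n K).comp continuous_fst)).add
        (continuous_const.mul ((continuous_En n K).comp continuous_snd)))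
    exact ((h1.sub (continuousOn_const.mul h2)).sub (continuousOn_const.mul h3)).add
      h4.continuousOn
  obtain ⟨A, hA, B, hB, h⟩ := exists_min (fun A B => FDefs136.F p ε A B) hcont
  exact ⟨A, B, ⟨hA, hB, fun A' B' hA' hB' => h A' hA' B' hB'⟩⟩

end

end Crest.Agent.R331.FEn839
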