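import Mathlib
import Crest.Agent.R331.FMin_299
import Crest.Agent.R331.FDefs_136
import Crest.Agent.R331.FinPhi2_280
import Crest.Agent.R331.FinW_87

/-!
# Row 331 (S0514), FIN track: the leaves FMINexists, FMINpos, FMINel, FS of `FDefs_136`
-/

set_option autoImplicit false
set_option linter.unusedSectionVars false

open scoped ComplexOrder Matrix Topology Kronecker
open Matrix Filter Crest.Agent.R332.Full Crest.Agent.R331.Duh839 Crest.Agent.R331.FMin299
open Crest.Quantum Crest.MathPhysics.Bosonic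

namespace Crest.Agent.R331.FMinI299

/-! ### dictionary `FMin_299` ↔ `FDefs_136` -/

section dict

variable {ι : Type*} [Fintype ι] [DecidableEq ι]

lemma vnEntropy_eq {A : Matrix ι ι ℂ} (hA : A.IsHermitian) : vnEntropy A = ent A := by
  rw [vnEntropy, dif_pos hA, ent_eq_sum hA, ← Finset.sum_neg_distrib]
  refine Finset.sum_congr rfl fun i _ => ?_
  rw [Real.negMulLog]; ring

lemma mlog_eq {X : Matrix ι ι ℂ} (hX : X.IsHermitian) : FDefs136.mlog X = FMin299.mlog X := by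
  rw [FDefs136.mlog, dif_pos hX, FMin299.mlog, cf_form hX]
  rfl

lemma LM_eq {p q : ℝ} (hp : 0 < p) (hq : 0 < q) :
    FDefs136.LM p q = LMe (Real.log p) (Real.log q) := by
  rw [LMe_log hp hq]; rfl

lemma formM_eq {X : Matrix ι ι ℂ} (hX : X.PosDef) (Y : Matrix ι ι ℂ) :
    FDefs136.formM X Y = MF hX.1 Y := by
  rw [FDefs136.formM, FDefs136.qf, dif_pos hX.1, MF]
  refine Finset.sum_congr rfl fun i _ => Finset.sum_congr rfl fun j _ => ?_
  rw [LM_eq (hX.eigenvalues_pos i) (hX.eigenvalues_pos j), Complex.normSq_eq_norm_sq]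
  rfl

lemma trace_conj_aux {T : Matrix ι ι ℂ} (hTT : T * Tᴴ = 1) (M W : Matrix ι ι ℂ) :
    (Tᴴ * M * T * (Tᴴ * W * T)ᴴ).trace = (M * Wᴴ).trace := by
  rw [Matrix.conjTranspose_mul, Matrix.conjTranspose_mul, Matrix.conjTranspose_conjTranspose]
  have e : Tᴴ * M * T * (Tᴴ * (Wᴴ * T)) = Tᴴ * (M * (T * Tᴴ) * Wᴴ * T) := by
    simp only [Matrix.mul_assoc]
  have e2 : M * 1 * Wᴴ * T * Tᴴ = M * Wᴴ * (T * Tᴴ) := by
    rw [Matrix.mul_one]; simp only [Matrix.mul_assoc]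
  rw [e, hTT, Matrix.trace_mul_comm, e2, hTT, Matrix.mul_one]

/-- a weighted double sum does not depend on the diagonalisation -/
theorem weighted_sum_indep {U V : Matrix ι ι ℂ} {p q : ι → ℝ} (hU : Uᴴ * U = 1)
    (hV : Vᴴ * V = 1)
    (h : U * diagonal (fun i => ((p i : ℝ) : ℂ)) * Uᴴ = V * diagonal (fun i => ((q i : ℝ) : ℂ)) * Vᴴ)
    (w : ℝ → ℝ → ℝ) (Y : Matrix ι ι ℂ) :
    ∑ i, ∑ j, w (p i) (p j) * ‖(Uᴴ * Y * U) i j‖ ^ 2 =
      ∑ i, ∑ j, w (q i) (q j) * ‖(Vᴴ * Y * V) i j‖ ^ 2 := by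
  have hU' : U * Uᴴ = 1 := mul_eq_one_comm.mp hU
  have hV' : V * Vᴴ = 1 := mul_eq_one_comm.mp hV
  set T : Matrix ι ι ℂ := Uᴴ * V with hT
  have hTT : T * Tᴴ = 1 := by
    rw [hT, Matrix.conjTranspose_mul, Matrix.conjTranspose_conjTranspose]
    calc Uᴴ * V * (Vᴴ * U) = Uᴴ * (V * Vᴴ) * U := by simp only [Matrix.mul_assoc]
      _ = 1 := by rw [hV', Matrix.mul_one, hU]
  have hcomm : diagonal (fun i => ((p i : ℝ) : ℂ)) * T = T * diagonal (fun i => ((q i : ℝ) : ℂ)) := by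
    have e1 : Uᴴ * (U * diagonal (fun i => ((p i : ℝ) : ℂ)) * Uᴴ) * V =
        diagonal (fun i => ((p i : ℝ) : ℂ)) * T := by
      calc _ = (Uᴴ * U) * diagonal (fun i => ((p i : ℝ) : ℂ)) * (Uᴴ * V) := by
            simp only [Matrix.mul_assoc]
        _ = _ := by rw [hU, Matrix.one_mul]
    have e2 : Uᴴ * (V * diagonal (fun i => ((q i : ℝ) : ℂ)) * Vᴴ) * V =
        T * diagonal (fun i => ((q i : ℝ) : ℂ)) := by
      calc _ = (Uᴴ * V) * diagonal (fun i => ((q i : ℝ) : ℂ)) * (Vᴴ * V) := by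
            simp only [Matrix.mul_assoc]
        _ = _ := by rw [hV, Matrix.mul_one]
    rw [← e1, ← e2, h]
  have hz : ∀ i k, T i k ≠ 0 → p i = q k := by
    intro i k hne
    have := congrFun (congrFun hcomm i) k
    rw [Matrix.diagonal_mul, Matrix.mul_diagonal, mul_comm (T i k)] at this
    exact_mod_cast mul_right_cancel₀ hne this
  set W : Matrix ι ι ℂ := Uᴴ * Y * U with hW
  have hW0 : Vᴴ * Y * V = Tᴴ * W * T := by
    rw [hT, hW, Matrix.conjTranspose_mul, Matrix.conjTranspose_conjTranspose]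
    calc Vᴴ * Y * V = Vᴴ * 1 * Y * 1 * V := by simp
      _ = _ := by rw [← hU']; simp only [Matrix.mul_assoc]
  -- Hadamard products
  have key : ∀ (r : ι → ℝ) (Z : Matrix ι ι ℂ),
      ((∑ i, ∑ j, w (r i) (r j) * ‖Z i j‖ ^ 2 : ℝ) : ℂ) =
        ((Matrix.of fun i j => (w (r i) (r j) : ℂ) * Z i j) * Zᴴ).trace := by
    intro r Z
    rw [Matrix.trace, Complex.ofReal_sum]
    refine Finset.sum_congr rfl fun i _ => ?_
    rw [Matrix.diag_apply, Matrix.mul_apply, Complex.ofReal_sum]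
    refine Finset.sum_congr rfl fun j _ => ?_
    rw [Matrix.of_apply, Matrix.conjTranspose_apply, RCLike.star_def, mul_assoc, Complex.mul_conj,
      Complex.normSq_eq_norm_sq]
    push_cast
    ring
  have hH : (Matrix.of fun k l => (w (q k) (q l) : ℂ) * (Vᴴ * Y * V) k l) =
      Tᴴ * (Matrix.of fun i j => (w (p i) (p j) : ℂ) * W i j) * T := by
    rw [hW0]
    ext k l
    rw [Matrix.of_apply, Matrix.mul_apply, Matrix.mul_apply, Finset.mul_sum]
    refine Finset.sum_congr rfl fun j _ => ?_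
    rw [Matrix.mul_apply, Matrix.mul_apply, Finset.sum_mul, Finset.sum_mul, Finset.mul_sum]
    refine Finset.sum_congr rfl fun i _ => ?_
    rw [Matrix.conjTranspose_apply, Matrix.of_apply]
    by_cases h1 : T i k = 0
    · rw [h1]; simp
    by_cases h2 : T j l = 0
    · rw [h2]; simp
    rw [hz i k h1, hz j l h2]
    ring
  have : ((∑ i, ∑ j, w (p i) (p j) * ‖W i j‖ ^ 2 : ℝ) : ℂ) =
      ((∑ i, ∑ j, w (q i) (q j) * ‖(Vᴴ * Y * V) i j‖ ^ 2 : ℝ) : ℂ) := by
    rw [key, key, hH, hW0, trace_conj_aux hTT]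
  exact_mod_cast this

/-- `qf` in any diagonalisation -/
theorem qf_eq_of_diag {X : Matrix ι ι ℂ} {U : Matrix ι ι ℂ} {p : ι → ℝ} (hU : Uᴴ * U = 1)
    (hX : X = U * diagonal (fun i => ((p i : ℝ) : ℂ)) * Uᴴ) (w : ℝ → ℝ → ℝ) (Y : Matrix ι ι ℂ) :
    FDefs136.qf X w Y = ∑ i, ∑ j, w (p i) (p j) * ‖(Uᴴ * Y * U) i j‖ ^ 2 := by
  have hH : X.IsHermitian := by
    unfold Matrix.IsHermitian
    rw [hX, Matrix.conjTranspose_mul, Matrix.conjTranspose_mul, Matrix.conjTranspose_conjTranspose,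
      Matrix.diagonal_conjTranspose, Matrix.mul_assoc]
    congr 2
    congr 1
    funext i
    simp
  rw [FDefs136.qf, dif_pos hH]
  symm
  refine weighted_sum_indep hU (V := (hH.eigenvectorUnitary : Matrix ι ι ℂ)) ?_ ?_ w Y
  · rw [← star_eq_conjTranspose]
    exact Unitary.coe_star_mul_self _
  · rw [← hX]
    exact spectral_form hH

/-- scaling of a form under `X ↦ s X` -/
theorem qf_smul_left {X : Matrix ι ι ℂ} (hX : X.IsHermitian) (s : ℝ) (w : ℝ → ℝ → ℝ)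
    (Y : Matrix ι ι ℂ) :
    FDefs136.qf ((s : ℂ) • X) w Y = FDefs136.qf X (fun x y => w (s * x) (s * y)) Y := by
  have hX' : (s : ℂ) • X = (hX.eigenvectorUnitary : Matrix ι ι ℂ) *
      diagonal (fun i => ((s * hX.eigenvalues i : ℝ) : ℂ)) *
      (hX.eigenvectorUnitary : Matrix ι ι ℂ)ᴴ := by
    conv_lhs => rw [spectral_form hX]
    rw [← Matrix.smul_mul, ← Matrix.mul_smul, star_eq_conjTranspose]
    congr 2
    ext i j
    by_cases hij : i = j
    · subst hij; simp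
    · simp [hij]
  rw [qf_eq_of_diag (U := (hX.eigenvectorUnitary : Matrix ι ι ℂ)) ?_ hX', FDefs136.qf, dif_pos hX]
  · rfl
  · rw [← star_eq_conjTranspose]
    exact Unitary.coe_star_mul_self _

end dict

/-! ### scaling -/

section scaling

variable {ι : Type*} [Fintype ι] [DecidableEq ι]

lemma smul_eq_cf {X : Matrix ι ι ℂ} (hX : X.IsHermitian) (s : ℝ) :
    s • X = cf (fun x => s * x) X := by
  rw [← cf_smul s (fun x => x) X, cf_id hX]

lemma mlog_smul {X : Matrix ι ι ℂ} (hX : X.PosDef) {s : ℝ} (hs : 0 < s) :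
    FMin299.mlog (s • X) = FMin299.mlog X + Real.log s • 1 := by
  rw [smul_eq_cf hX.1, FMin299.mlog, cf_comp _ _ hX.1, ← cf_const hX.1, FMin299.mlog, cf_add]
  refine cf_congr fun x hx => ?_
  rw [Real.log_mul hs.ne' (spec_pos hX hx).ne']
  ring

lemma ent_smul {X : Matrix ι ι ℂ} (hX : X.IsHermitian) (s : ℝ) :
    ent (s • X) = s * ent X + Real.negMulLog s * X.trace.re := by
  have h : cf Real.negMulLog (s • X) = s • cf Real.negMulLog X + Real.negMulLog s • X := by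
    rw [smul_eq_cf hX, cf_comp _ _ hX, cf_smul]
    conv_rhs => rw [smul_eq_cf hX, cf_add]
    refine cf_congr fun x _ => ?_
    rw [Real.negMulLog_mul]
    ring
  rw [ent, h, Matrix.trace_add, Matrix.trace_smul, Matrix.trace_smul, Complex.add_re, ent]
  simp

lemma LM_smul {s x y : ℝ} (hs : 0 < s) (hx : 0 < x) (hy : 0 < y) :
    FDefs136.LM (s * x) (s * y) = s * FDefs136.LM x y := by
  unfold FDefs136.LM
  by_cases h : x = y
  · subst h; simp
  · have h' : s * x ≠ s * y := fun h'' => h (mul_left_cancel₀ hs.ne' h'')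
    rw [if_neg h, if_neg h', Real.log_mul hs.ne' hx.ne', Real.log_mul hs.ne' hy.ne']
    rw [mul_div_assoc', mul_sub]
    congr 1
    ring

lemma formM_smul_left {X : Matrix ι ι ℂ} (hX : X.PosDef) {s : ℝ} (hs : 0 < s)
    (Y : Matrix ι ι ℂ) : FDefs136.formM (s • X) Y = s * FDefs136.formM X Y := by
  rw [FDefs136.formM, smul_coe, qf_smul_left hX.1, FDefs136.formM, FDefs136.qf, FDefs136.qf,
    dif_pos hX.1, dif_pos hX.1, Finset.mul_sum]
  refine Finset.sum_congr rfl fun i _ => ?_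
  rw [Finset.mul_sum]
  refine Finset.sum_congr rfl fun j _ => ?_
  rw [LM_smul hs (hX.eigenvalues_pos i) (hX.eigenvalues_pos j)]
  ring

lemma MF_scale {X : Matrix ι ι ℂ} (hX : X.PosDef) (s : ℝ) (Z : Matrix ι ι ℂ) :
    MF hX.1 (s • Z) = s ^ 2 * MF hX.1 Z := by
  rw [smul_coe, MF_smul, Complex.normSq_ofReal, sq]

end scaling

/-! ### facts at an arbitrary joint minimiser -/

section facts

variable {ι : Type*} [Fintype ι] [DecidableEq ι] {ι' : Type*} [Fintype ι'] [DecidableEq ι']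
  {κ : Type*} [Fintype κ] [DecidableEq κ]
  {Psi : Matrix ι ι ℂ → Matrix ι' ι' ℂ → Matrix κ κ ℂ}
  {PA : Matrix ι' ι' ℂ → (Matrix κ κ ℂ →ₗ[ℂ] Matrix ι ι ℂ)}
  {PB : Matrix ι ι ℂ → (Matrix κ κ ℂ →ₗ[ℂ] Matrix ι' ι' ℂ)}

theorem facts [Nonempty ι] [Nonempty ι'] [Nonempty κ] (D : PairData Psi PA PB)
    {hA : Matrix ι ι ℂ} {hB : Matrix ι' ι' ℂ} (hhA : hA.IsHermitian) (hhB : hB.IsHermitian)
    {lamA lamB : ℝ} (hlA : 0 < lamA) (hlB : 0 < lamB) {A : Matrix ι ι ℂ} {B : Matrix ι' ι' ℂ}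
    (dA : IsDens A) (dB : IsDens B)
    (hmin : ∀ A' B', IsDens A' → IsDens B' →
        FF2 Psi hA hB lamA lamB A B ≤ FF2 Psi hA hB lamA lamB A' B') :
    ∃ (pA : A.PosDef) (pB : B.PosDef) (cA cB : ℝ),
      lamA • FMin299.mlog A = PA B (FMin299.mlog (Psi A B)) - hA - cA • 1 ∧
      lamB • FMin299.mlog B = PB A (FMin299.mlog (Psi A B)) - hB - cB • 1 ∧
      (∀ A', IsDens A' → rel (Psi A' B) (Psi A B) ≤ lamA * rel A' A) ∧
      (∀ B', IsDens B' → rel (Psi A B') (Psi A B) ≤ lamB * rel B' B) ∧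
      (∀ Y, MF pA.1 (PA B Y - (Psi A B * Y).trace • 1) ≤
        lamA * MF (D.posDef A B dA dB).1 (Y - (Psi A B * Y).trace • 1)) ∧
      (∀ Y, MF pB.1 (PB A Y - (Psi A B * Y).trace • 1) ≤
        lamB * MF (D.posDef A B dA dB).1 (Y - (Psi A B * Y).trace • 1)) := by
  have DA := D.elA dB
  have DB := D.elB dA
  have hminA : ∀ A', IsDens A' →
      FF (fun A => Psi A B) hA lamA A ≤ FF (fun A => Psi A B) hA lamA A' := by
    intro A' hA'
    have := hmin A' B hA' dB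
    simp only [FF2] at this
    simp only [FF]
    linarith
  have hminB : ∀ B', IsDens B' →
      FF (fun B => Psi A B) hB lamB B ≤ FF (fun B => Psi A B) hB lamB B' := by
    intro B' hB'
    have := hmin A B' dA hB'
    simp only [FF2] at this
    simp only [FF]
    linarith
  obtain ⟨cA, EA⟩ := DA.exists_EL hhA hlA dA hminA
  obtain ⟨cB, EB⟩ := DB.exists_EL hhB hlB dB hminB
  have rA : ∀ A', IsDens A' → rel (Psi A' B) (Psi A B) ≤ lamA * rel A' A := fun A' hA' =>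
    EA.rel_le DA hminA hA'
  have rB : ∀ B', IsDens B' → rel (Psi A B') (Psi A B) ≤ lamB * rel B' B := fun B' hB' =>
    EB.rel_le DB hminB hB'
  refine ⟨EA.posDef, EB.posDef, cA, cB, EA.eq, EB.eq, rA, rB, fun Y => ?_, fun Y => ?_⟩
  · have h := DA.sdpi_centred hlA dA EA.posDef rA Y
    have e : (A * PA B Y).trace = (Psi A B * Y).trace := (D.dualA A B Y dA dB).symm
    rw [e] at h
    exact h
  · have h := DB.sdpi_centred hlB dB EB.posDef rB Y
    have e : (B * PB A Y).trace = (Psi A B * Y).trace := (D.dualB A B Y dA dB).symm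
    rw [e] at h
    exact h

end facts

/-! ### the concrete beam splitter on boxes -/

lemma PB_generic {α β γ δ : Type*} [Fintype α] [Fintype β] [Fintype γ] [Fintype δ]
    [DecidableEq α] [DecidableEq β] [DecidableEq γ] [DecidableEq δ]
    (W : Matrix (γ × δ) (α × β) ℂ) (A : Matrix α α ℂ) (Y : Matrix γ γ ℂ) :
    FCov76.ptR (((1 : Matrix β β ℂ) ⊗ₖ A) * ((W.submatrix id Prod.swap)ᴴ *
      (Y ⊗ₖ (1 : Matrix δ δ ℂ)) * W.submatrix id Prod.swap)) = FinPhi280.PB W A Y := by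
  have hs : ((W.submatrix id Prod.swap)ᴴ * (Y ⊗ₖ (1 : Matrix δ δ ℂ)) *
      W.submatrix id Prod.swap) = (FinPhi280.Gm W Y).submatrix Prod.swap Prod.swap := by
    ext ⟨j, i⟩ ⟨j', i'⟩
    simp [FinPhi280.Gm, Matrix.mul_apply]
  have hPB : FinPhi280.PB W A Y = FinPhi280.tr1 ((A ⊗ₖ (1 : Matrix β β ℂ)) * FinPhi280.Gm W Y) :=
    rfl
  rw [hs, hPB]
  generalize FinPhi280.Gm W Y = G
  ext j j'
  simp only [FCov76.ptR, FinPhi280.tr1_apply, Matrix.mul_apply,
    Fintype.sum_prod_type, kroneckerMap_apply, submatrix_apply, Prod.swap_prod_mk,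
    Matrix.one_apply]
  refine Finset.sum_congr rfl fun i _ => ?_
  rw [Finset.sum_comm]
  refine Finset.sum_congr rfl fun k _ => Finset.sum_congr rfl fun l _ => ?_
  ring

section boxes

variable {n K : ℕ}

/-- embedding of a box into all occupations -/
def emb (n K : ℕ) (k : FDefs136.Bx n K) : Occ n := fun i => (k i : ℕ)

lemma isCut (n K : ℕ) : FinW87.IsCut (emb n K) (emb n (2 * K)) where
  injS k l h := by
    funext i
    exact Fin.ext (congrFun h i)
  injT k l h := by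
    funext i
    exact Fin.ext (congrFun h i)
  downS k l h := ⟨fun i => ⟨l i, lt_of_le_of_lt (h i) (k i).2⟩, rfl⟩
  downT k l h := ⟨fun i => ⟨l i, lt_of_le_of_lt (h i) (k i).2⟩, rfl⟩
  dom k l p h := ⟨fun i => ⟨p i, by
    have h1 := h i
    have h2 := (k i).2
    have h3 := (l i).2
    simp only [Pi.add_apply, emb] at h1
    omega⟩, rfl⟩

lemma bsW_eq (η : ℝ) : FDefs136.bsW η n K = FinW87.iota η (emb n K) (emb n (2 * K)) := rfl

lemma bsW_iso {η : ℝ} (h0 : 0 ≤ η) (h1 : η ≤ 1) :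
    (FDefs136.bsW η n K)ᴴ * FDefs136.bsW η n K = 1 := by
  rw [bsW_eq]
  exact FinW87.iota_isometry h0 h1 (isCut n K)

lemma outC_eq (η : ℝ) (A B : Matrix (FDefs136.Bx n K) (FDefs136.Bx n K) ℂ) :
    FDefs136.outC η A B = FinPhi280.Phi (FDefs136.bsW η n K) A B := rfl

lemma PA_eq (η : ℝ) (B : Matrix (FDefs136.Bx n K) (FDefs136.Bx n K) ℂ)
    (Y : Matrix (FDefs136.Bx n (2 * K)) (FDefs136.Bx n (2 * K)) ℂ) :
    FDefs136.PA η B Y = FinPhi280.PA (FDefs136.bsW η n K) B Y := rfl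

lemma PB_eq (η : ℝ) (A : Matrix (FDefs136.Bx n K) (FDefs136.Bx n K) ℂ)
    (Y : Matrix (FDefs136.Bx n (2 * K)) (FDefs136.Bx n (2 * K)) ℂ) :
    FDefs136.PB η A Y = FinPhi280.PB (FDefs136.bsW η n K) A Y :=
  PB_generic _ _ _

end boxes

/-! ### `Q = C + ε`, normalised -/

section norm

variable {I J K L : Type*} [Fintype I] [DecidableEq I] [Fintype J] [DecidableEq J]
  [Fintype K] [DecidableEq K] [Fintype L] [DecidableEq L] (W : Matrix (K × L) (I × J) ℂ)

/-- `Q = C + ε` -/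
noncomputable def QQ (ε : ℝ) (A : Matrix I I ℂ) (B : Matrix J J ℂ) : Matrix K K ℂ :=
  FinPhi280.Phi W A B + (ε : ℂ) • (1 : Matrix K K ℂ)

/-- the trace of `Q` -/
noncomputable def tau (K : Type*) [Fintype K] (ε : ℝ) : ℝ := 1 + ε * Fintype.card K

lemma tau_pos {ε : ℝ} (hε : 0 < ε) : 0 < tau K ε := by
  unfold tau; positivity

/-- normalised output -/
noncomputable def Psi (ε : ℝ) (A : Matrix I I ℂ) (B : Matrix J J ℂ) : Matrix K K ℂ :=
  (tau K ε)⁻¹ • QQ W ε A B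

/-- dual map for the first input -/
noncomputable def PAl (ε : ℝ) (B : Matrix J J ℂ) : Matrix K K ℂ →ₗ[ℂ] Matrix I I ℂ where
  toFun Y := (tau K ε)⁻¹ • (FinPhi280.PA W B Y + ((ε : ℂ) * Y.trace) • (1 : Matrix I I ℂ))
  map_add' Y Z := by
    rw [FinPhi280.PA_add, Matrix.trace_add, mul_add, add_smul, ← smul_add]
    congr 1
    abel
  map_smul' c Y := by
    rw [FinPhi280.PA_smul, Matrix.trace_smul, RingHom.id_apply, smul_comm c, smul_eq_mul]
    congr 1
    rw [smul_add, smul_smul]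
    congr 2
    ring

/-- dual map for the second input -/
noncomputable def PBl (ε : ℝ) (A : Matrix I I ℂ) : Matrix K K ℂ →ₗ[ℂ] Matrix J J ℂ where
  toFun Y := (tau K ε)⁻¹ • (FinPhi280.PB W A Y + ((ε : ℂ) * Y.trace) • (1 : Matrix J J ℂ))
  map_add' Y Z := by
    rw [FinPhi280.PB_add, Matrix.trace_add, mul_add, add_smul, ← smul_add]
    congr 1
    abel
  map_smul' c Y := by
    rw [FinPhi280.PB_smul, Matrix.trace_smul, RingHom.id_apply, smul_comm c, smul_eq_mul]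
    congr 1
    rw [smul_add, smul_smul]
    congr 2
    ring

lemma PAl_apply (ε : ℝ) (B : Matrix J J ℂ) (Y : Matrix K K ℂ) : PAl W ε B Y =
    (tau K ε)⁻¹ • (FinPhi280.PA W B Y + ((ε : ℂ) * Y.trace) • (1 : Matrix I I ℂ)) := rfl

lemma PBl_apply (ε : ℝ) (A : Matrix I I ℂ) (Y : Matrix K K ℂ) : PBl W ε A Y =
    (tau K ε)⁻¹ • (FinPhi280.PB W A Y + ((ε : ℂ) * Y.trace) • (1 : Matrix J J ℂ)) := rfl

lemma QQ_posDef {ε : ℝ} (hε : 0 < ε) {A : Matrix I I ℂ} {B : Matrix J J ℂ} (hA : IsDens A)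
    (hB : IsDens B) : (QQ W ε A B).PosDef :=
  FinPhi280.posDef_add_eps (FinPhi280.Phi_posSemidef W hA.1 hB.1) hε

lemma QQ_trace (hW : Wᴴ * W = 1) (ε : ℝ) {A : Matrix I I ℂ} {B : Matrix J J ℂ} (hA : IsDens A)
    (hB : IsDens B) : (QQ W ε A B).trace = ((tau K ε : ℝ) : ℂ) := by
  rw [QQ, Matrix.trace_add, FinPhi280.trace_Phi W hW, hA.2, hB.2, Matrix.trace_smul,
    Matrix.trace_one, tau]
  push_cast
  simp

lemma QQ_mul_trace (ε : ℝ) (A : Matrix I I ℂ) (B : Matrix J J ℂ) (Y : Matrix K K ℂ) :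
    (QQ W ε A B * Y).trace = (FinPhi280.Phi W A B * Y).trace + (ε : ℂ) * Y.trace := by
  rw [QQ, Matrix.add_mul, Matrix.trace_add, Matrix.smul_mul, Matrix.one_mul, Matrix.trace_smul,
    smul_eq_mul]

lemma Psi_mul_trace (ε : ℝ) (A : Matrix I I ℂ) (B : Matrix J J ℂ) (Y : Matrix K K ℂ) :
    (Psi W ε A B * Y).trace =
      (tau K ε)⁻¹ • ((FinPhi280.Phi W A B * Y).trace + (ε : ℂ) * Y.trace) := by
  rw [Psi, Matrix.smul_mul, Matrix.trace_smul, QQ_mul_trace]

lemma mul_PAl_trace (ε : ℝ) {A : Matrix I I ℂ} (hA : A.trace = 1) (B : Matrix J J ℂ)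
    (Y : Matrix K K ℂ) :
    (A * PAl W ε B Y).trace =
      (tau K ε)⁻¹ • ((FinPhi280.Phi W A B * Y).trace + (ε : ℂ) * Y.trace) := by
  rw [PAl_apply, Matrix.mul_smul, Matrix.trace_smul, Matrix.mul_add, Matrix.trace_add,
    Matrix.mul_smul, Matrix.mul_one, Matrix.trace_smul, hA, smul_eq_mul, mul_one,
    ← FinPhi280.trace_Phi_mul_PA]

lemma mul_PBl_trace (ε : ℝ) (A : Matrix I I ℂ) {B : Matrix J J ℂ} (hB : B.trace = 1)
    (Y : Matrix K K ℂ) :
    (B * PBl W ε A Y).trace =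
      (tau K ε)⁻¹ • ((FinPhi280.Phi W A B * Y).trace + (ε : ℂ) * Y.trace) := by
  rw [PBl_apply, Matrix.mul_smul, Matrix.trace_smul, Matrix.mul_add, Matrix.trace_add,
    Matrix.mul_smul, Matrix.mul_one, Matrix.trace_smul, hB, smul_eq_mul, mul_one,
    ← FinPhi280.trace_Phi_mul_PB]

lemma continuous_Phi : Continuous (fun p : Matrix I I ℂ × Matrix J J ℂ =>
    FinPhi280.Phi W p.1 p.2) := by
  refine continuous_matrix fun k k' => ?_
  simp only [FinPhi280.Phi, FinPhi280.tr2_apply, Matrix.mul_apply, kroneckerMap_apply]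
  fun_prop

lemma pairData (hW : Wᴴ * W = 1) {ε : ℝ} (hε : 0 < ε) :
    PairData (Psi W ε) (PAl W ε) (PBl W ε) where
  posDef A B hA hB := (QQ_posDef W hε hA hB).smul (inv_pos.2 (tau_pos hε))
  trace_one A B hA hB := by
    rw [Psi, Matrix.trace_smul, QQ_trace W hW ε hA hB, Complex.real_smul, ← Complex.ofReal_mul,
      inv_mul_cancel₀ (tau_pos hε).ne', Complex.ofReal_one]
  cont := by
    have h : Continuous (fun p : Matrix I I ℂ × Matrix J J ℂ => Psi W ε p.1 p.2) := by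
      unfold Psi QQ
      exact ((continuous_Phi W).add continuous_const).const_smul ((tau K ε)⁻¹)
    exact h.continuousOn
  dualA A B Y hA hB := by rw [Psi_mul_trace, mul_PAl_trace W ε hA.2]
  dualB A B Y hA hB := by rw [Psi_mul_trace, mul_PBl_trace W ε A hB.2]
  starA B Y hB := by
    rw [PAl_apply, PAl_apply, FinPhi280.PA_conjTranspose W hB.1.1, Matrix.trace_conjTranspose,
      Matrix.conjTranspose_smul, Matrix.conjTranspose_add, Matrix.conjTranspose_smul,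
      Matrix.conjTranspose_one]
    simp
  starB A Y hA := by
    rw [PBl_apply, PBl_apply, FinPhi280.PB_conjTranspose W hA.1.1, Matrix.trace_conjTranspose,
      Matrix.conjTranspose_smul, Matrix.conjTranspose_add, Matrix.conjTranspose_smul,
      Matrix.conjTranspose_one]
    simp

/-- the unnormalised functional -/
noncomputable def Fu (ε : ℝ) (hA : Matrix I I ℂ) (hB : Matrix J J ℂ) (lamA lamB : ℝ)
    (A : Matrix I I ℂ) (B : Matrix J J ℂ) : ℝ :=
  ent (QQ W ε A B) + tp A hA + tp B hB - lamA * ent A - lamB * ent B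

lemma Fu_eq (hW : Wᴴ * W = 1) {ε : ℝ} (hε : 0 < ε) (hA : Matrix I I ℂ) (hB : Matrix J J ℂ)
    (lamA lamB : ℝ) {A : Matrix I I ℂ} {B : Matrix J J ℂ} (dA : IsDens A) (dB : IsDens B) :
    Fu W ε hA hB lamA lamB A B = tau K ε * FF2 (Psi W ε) ((tau K ε)⁻¹ • hA) ((tau K ε)⁻¹ • hB)
      ((tau K ε)⁻¹ * lamA) ((tau K ε)⁻¹ * lamB) A B + Real.negMulLog (tau K ε) := by
  have ht := tau_pos (K := K) hε
  have hQ : QQ W ε A B = tau K ε • Psi W ε A B := by
    rw [Psi, smul_smul, mul_inv_cancel₀ ht.ne', one_smul]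
  have D := pairData W hW hε
  rw [Fu, FF2, hQ, ent_smul (D.posDef A B dA dB).1, D.trace_one A B dA dB, tp_smul_right,
    tp_smul_right, Complex.one_re]
  field_simp
  ring

theorem factsQ [Nonempty I] [Nonempty J] [Nonempty K] (hW : Wᴴ * W = 1) {ε : ℝ} (hε : 0 < ε)
    {hA : Matrix I I ℂ} {hB : Matrix J J ℂ} (hhA : hA.IsHermitian) (hhB : hB.IsHermitian)
    {lamA lamB : ℝ} (hlA : 0 < lamA) (hlB : 0 < lamB) {A : Matrix I I ℂ} {B : Matrix J J ℂ}
    (dA : IsDens A) (dB : IsDens B)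
    (hmin : ∀ A' B', IsDens A' → IsDens B' →
        Fu W ε hA hB lamA lamB A B ≤ Fu W ε hA hB lamA lamB A' B') :
    A.PosDef ∧ B.PosDef ∧
      (∃ r : ℝ, lamA • FMin299.mlog A = FinPhi280.PA W B (FMin299.mlog (QQ W ε A B)) - hA -
        r • (1 : Matrix I I ℂ)) ∧
      (∃ r : ℝ, lamB • FMin299.mlog B = FinPhi280.PB W A (FMin299.mlog (QQ W ε A B)) - hB -
        r • (1 : Matrix J J ℂ)) ∧
      (∀ Y, FDefs136.formM A (FDefs136.cen A (FinPhi280.PA W B Y)) ≤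
        lamA * FDefs136.formM (QQ W ε A B) Y) ∧
      (∀ Y, FDefs136.formM B (FDefs136.cen B (FinPhi280.PB W A Y)) ≤
        lamB * FDefs136.formM (QQ W ε A B) Y) := by
  have ht := tau_pos (K := K) hε
  have hti := inv_pos.2 ht
  have D := pairData W hW hε
  set τ := tau K ε with hτ
  have hQ := QQ_posDef W hε dA dB
  have hmin' : ∀ A' B', IsDens A' → IsDens B' →
      FF2 (Psi W ε) (τ⁻¹ • hA) (τ⁻¹ • hB) (τ⁻¹ * lamA) (τ⁻¹ * lamB) A B ≤
        FF2 (Psi W ε) (τ⁻¹ • hA) (τ⁻¹ • hB) (τ⁻¹ * lamA) (τ⁻¹ * lamB) A' B' := by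
    intro A' B' dA' dB'
    have h := hmin A' B' dA' dB'
    rw [Fu_eq W hW hε hA hB lamA lamB dA dB, Fu_eq W hW hε hA hB lamA lamB dA' dB'] at h
    exact le_of_mul_le_mul_left (by linarith) ht
  obtain ⟨pA, pB, cA, cB, eA, eB, -, -, sA, sB⟩ := facts D (hhA.smul (by simp [IsSelfAdjoint]))
    (hhB.smul (by simp [IsSelfAdjoint])) (mul_pos hti hlA) (mul_pos hti hlB) dA dB hmin'
  have hlogP : FMin299.mlog (Psi W ε A B) = FMin299.mlog (QQ W ε A B) + Real.log τ⁻¹ • 1 := by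
    rw [Psi, mlog_smul hQ hti]
  have hLr : ∀ {L₀ : Matrix K K ℂ}, L₀.IsHermitian → L₀.trace = ((L₀.trace.re : ℝ) : ℂ) := by
    intro L₀ hL
    have h : star L₀.trace = L₀.trace := by rw [← Matrix.trace_conjTranspose, hL.eq]
    exact (Complex.conj_eq_iff_re.1 h).symm
  have hherm : (FMin299.mlog (QQ W ε A B) + Real.log τ⁻¹ • (1 : Matrix K K ℂ)).IsHermitian := by
    rw [← hlogP]; exact isHermitian_mlog _
  have htr := hLr hherm
  set L₀ := FMin299.mlog (QQ W ε A B) with hL₀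
  set t₀ : ℝ := (L₀ + Real.log τ⁻¹ • (1 : Matrix K K ℂ)).trace.re with ht₀
  have h1 : ∀ c : ℝ, FinPhi280.PA W B (c • (1 : Matrix K K ℂ)) = c • (1 : Matrix I I ℂ) := by
    intro c
    rw [smul_coe, FinPhi280.PA_smul, FinPhi280.PA_one W hW dB.2, ← smul_coe]
  have h2 : ∀ c : ℝ, FinPhi280.PB W A (c • (1 : Matrix K K ℂ)) = c • (1 : Matrix J J ℂ) := by
    intro c
    rw [smul_coe, FinPhi280.PB_smul, FinPhi280.PB_one W hW dA.2, ← smul_coe]
  have hR : ∀ Y : Matrix K K ℂ, MF (D.posDef A B dA dB).1 (Y - (Psi W ε A B * Y).trace • 1) ≤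
      τ⁻¹ * FDefs136.formM (QQ W ε A B) Y := by
    intro Y
    rw [MF_sub_mean (D.posDef A B dA dB) (D.trace_one A B dA dB)]
    have h3 : MF (D.posDef A B dA dB).1 Y = τ⁻¹ * FDefs136.formM (QQ W ε A B) Y := by
      rw [← formM_smul_left hQ hti]
      exact (formM_eq (D.posDef A B dA dB) Y).symm
    rw [h3]
    linarith [Complex.normSq_nonneg (Psi W ε A B * Y).trace]
  refine ⟨pA, pB, ⟨τ * cA - Real.log τ⁻¹ - ε * t₀, ?_⟩, ⟨τ * cB - Real.log τ⁻¹ - ε * t₀, ?_⟩,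
    fun Y => ?_, fun Y => ?_⟩
  · have e := congrArg (fun Z => τ • Z) eA
    beta_reduce at e
    rw [hlogP, PAl_apply, htr, FinPhi280.PA_add, h1, ← Complex.ofReal_mul, ← smul_coe] at e
    rw [← hτ] at e
    simp only [smul_sub, smul_smul, mul_inv_cancel₀ ht.ne', one_smul, ← mul_assoc, one_mul] at e
    rw [e, sub_smul, sub_smul, ← smul_smul, ← smul_smul]
    abel
  · have e := congrArg (fun Z => τ • Z) eB
    beta_reduce at e
    rw [hlogP, PBl_apply, htr, FinPhi280.PB_add, h2, ← Complex.ofReal_mul, ← smul_coe] at e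
    rw [← hτ] at e
    simp only [smul_sub, smul_smul, mul_inv_cancel₀ ht.ne', one_smul, ← mul_assoc, one_mul] at e
    rw [e, sub_smul, sub_smul, ← smul_smul, ← smul_smul]
    abel
  · have e := (sA Y).trans (mul_le_mul_of_nonneg_left (hR Y) (mul_pos hti hlA).le)
    have e3 : PAl W ε B Y - (Psi W ε A B * Y).trace • (1 : Matrix I I ℂ) =
        τ⁻¹ • FDefs136.cen A (FinPhi280.PA W B Y) := by
      rw [FDefs136.cen, PAl_apply, Psi_mul_trace, ← FinPhi280.trace_Phi_mul_PA, ← hτ, smul_sub,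
        smul_add, smul_assoc, add_smul, smul_add]
      abel
    rw [e3, MF_scale pA, ← formM_eq pA] at e
    have h4 : τ⁻¹ ^ 2 * FDefs136.formM A (FDefs136.cen A (FinPhi280.PA W B Y)) ≤
        τ⁻¹ ^ 2 * (lamA * FDefs136.formM (QQ W ε A B) Y) := by
      calc _ ≤ _ := e
        _ = _ := by ring
    exact le_of_mul_le_mul_left h4 (by positivity)
  · have e := (sB Y).trans (mul_le_mul_of_nonneg_left (hR Y) (mul_pos hti hlB).le)
    have e3 : PBl W ε A Y - (Psi W ε A B * Y).trace • (1 : Matrix J J ℂ) =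
        τ⁻¹ • FDefs136.cen B (FinPhi280.PB W A Y) := by
      rw [FDefs136.cen, PBl_apply, Psi_mul_trace, ← FinPhi280.trace_Phi_mul_PB, ← hτ, smul_sub,
        smul_add, smul_assoc, add_smul, smul_add]
      abel
    rw [e3, MF_scale pB, ← formM_eq pB] at e
    have h4 : τ⁻¹ ^ 2 * FDefs136.formM B (FDefs136.cen B (FinPhi280.PB W A Y)) ≤
        τ⁻¹ ^ 2 * (lamB * FDefs136.formM (QQ W ε A B) Y) := by
      calc _ ≤ _ := e
        _ = _ := by ring
    exact le_of_mul_le_mul_left h4 (by positivity)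

end norm

/-! ### the literal leaves -/

section leaves

open FDefs136

variable {n K : ℕ}

lemma par_pos (p : Par) : 0 < p.bA ∧ 0 < p.bB ∧ 0 < p.bC ∧ 0 < p.β ∧ 0 < p.lamA ∧ 0 < p.lamB := by
  have hb : ∀ {N : ℝ}, 0 < N → 0 < bN N := by
    intro N hN
    unfold bN
    apply Real.log_pos
    have : 0 < 1 / N := by positivity
    linarith
  have hNC : 0 < p.NC := by
    unfold Par.NC
    have h1 := mul_pos p.η_pos p.NA_pos
    have h2 := mul_pos (sub_pos.2 p.η_lt) p.NB_pos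
    linarith
  have h1 := hb p.NA_pos
  have h2 := hb p.NB_pos
  have h3 := hb hNC
  have h4 : 0 < p.β := by
    unfold Par.β Par.bC
    have := p.μ_pos
    linarith
  refine ⟨h1, h2, h3, h4, ?_, ?_⟩
  · exact div_pos (mul_pos p.η_pos h4) h1
  · exact div_pos (mul_pos (sub_pos.2 p.η_lt) h4) h2

lemma num_herm : (num n K).IsHermitian := by
  unfold num Matrix.IsHermitian
  rw [Matrix.diagonal_conjTranspose]
  congr 1
  funext i
  simp

lemma tp_num (c : ℝ) (A : Matrix (Bx n K) (Bx n K) ℂ) : tp A (c • num n K) = c * En A := by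
  rw [tp_smul_right]; rfl

lemma F_eq (p : Par) {ε : ℝ} {A B : Matrix (Bx n K) (Bx n K) ℂ} (dA : IsDensity A)
    (dB : IsDensity B) : F p ε A B = Fu (bsW p.η n K) ε ((p.μ * p.η) • num n K)
      ((p.μ * (1 - p.η)) • num n K) p.lamA p.lamB A B := by
  have hQ : (outQ p.η ε A B).IsHermitian := by
    unfold outQ
    refine Matrix.IsHermitian.add ?_ ?_
    · rw [outC_eq]
      exact (FinPhi280.Phi_posSemidef (bsW p.η n K) dA.1 dB.1).1
    · rw [← smul_coe]
      exact Matrix.isHermitian_one.smul (by simp [IsSelfAdjoint])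
  rw [F, vnEntropy_eq hQ, vnEntropy_eq dA.1.1, vnEntropy_eq dB.1.1, Fu, tp_num, tp_num]
  have : QQ (bsW p.η n K) ε A B = outQ p.η ε A B := rfl
  rw [this]
  ring

lemma isMin_iff (p : Par) {ε : ℝ} {A B : Matrix (Bx n K) (Bx n K) ℂ} :
    IsMin p ε A B ↔ IsDens A ∧ IsDens B ∧ ∀ A' B', IsDens A' → IsDens B' →
      Fu (bsW p.η n K) ε ((p.μ * p.η) • num n K) ((p.μ * (1 - p.η)) • num n K) p.lamA p.lamB A B
      ≤ Fu (bsW p.η n K) ε ((p.μ * p.η) • num n K) ((p.μ * (1 - p.η)) • num n K)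
        p.lamA p.lamB A' B' := by
  constructor
  · intro h
    refine ⟨h.dA, h.dB, fun A' B' dA' dB' => ?_⟩
    rw [← F_eq p h.dA h.dB, ← F_eq p dA' dB']
    exact h.le A' B' dA' dB'
  · rintro ⟨dA, dB, h⟩
    refine ⟨dA, dB, fun A' B' dA' dB' => ?_⟩
    rw [F_eq p dA dB, F_eq p dA' dB']
    exact h A' B' dA' dB'

/-- LEAF FMIN: existence. -/
theorem fminExists : FMINexists := by
  intro p n K ε hε
  have hW := bsW_iso (n := n) (K := K) p.η_pos.le p.η_lt.le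
  have D := pairData (bsW p.η n K) hW hε
  set τ := tau (Bx n (2 * K)) ε with hτ
  have ht : 0 < τ := tau_pos hε
  obtain ⟨A, B, dA, dB, hmin⟩ := exists_min_pair _
    (D.continuousOn_FF2 (τ⁻¹ • ((p.μ * p.η) • num n K)) (τ⁻¹ • ((p.μ * (1 - p.η)) • num n K))
      (τ⁻¹ * p.lamA) (τ⁻¹ * p.lamB))
  refine ⟨A, B, (isMin_iff p).2 ⟨dA, dB, fun A' B' dA' dB' => ?_⟩⟩
  rw [Fu_eq (bsW p.η n K) hW hε _ _ p.lamA p.lamB dA dB,
    Fu_eq (bsW p.η n K) hW hε _ _ p.lamA p.lamB dA' dB']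
  have h := mul_le_mul_of_nonneg_left (hmin A' B' dA' dB') ht.le
  linarith

lemma allFacts (p : Par) {ε : ℝ} (hε : 0 < ε) {A B : Matrix (Bx n K) (Bx n K) ℂ}
    (h : IsMin p ε A B) :
    A.PosDef ∧ B.PosDef ∧
      (∃ r : ℝ, p.lamA • FMin299.mlog A = FinPhi280.PA (bsW p.η n K) B
        (FMin299.mlog (QQ (bsW p.η n K) ε A B)) - (p.μ * p.η) • num n K -
        r • (1 : Matrix (Bx n K) (Bx n K) ℂ)) ∧
      (∃ r : ℝ, p.lamB • FMin299.mlog B = FinPhi280.PB (bsW p.η n K) A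
        (FMin299.mlog (QQ (bsW p.η n K) ε A B)) - (p.μ * (1 - p.η)) • num n K -
        r • (1 : Matrix (Bx n K) (Bx n K) ℂ)) ∧
      (∀ Y, formM A (cen A (FinPhi280.PA (bsW p.η n K) B Y)) ≤
        p.lamA * formM (QQ (bsW p.η n K) ε A B) Y) ∧
      (∀ Y, formM B (cen B (FinPhi280.PB (bsW p.η n K) A Y)) ≤
        p.lamB * formM (QQ (bsW p.η n K) ε A B) Y) :=
  factsQ (bsW p.η n K) (bsW_iso (n := n) (K := K) p.η_pos.le p.η_lt.le) hε
    (num_herm.smul (k := p.μ * p.η) (by simp [IsSelfAdjoint]))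
    (num_herm.smul (k := p.μ * (1 - p.η)) (by simp [IsSelfAdjoint]))
    (par_pos p).2.2.2.2.1 (par_pos p).2.2.2.2.2 h.dA h.dB ((isMin_iff p).1 h).2.2

/-- LEAF FMIN: full rank. -/
theorem fminPos : FMINpos := by
  intro p n K ε hε A B h
  obtain ⟨pA, pB, -⟩ := allFacts p hε h
  exact ⟨pA, pB⟩

lemma KL_eq {ι : Type*} [Fintype ι] [DecidableEq ι] {X : Matrix ι ι ℂ} (hX : X.IsHermitian) :
    KL X = - FMin299.mlog X := by
  rw [KL, mlog_eq hX]

/-- LEAF FMIN: Euler-Lagrange. -/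
theorem fminEl : FMINel := by
  intro p n K ε hε A B h
  obtain ⟨pA, pB, ⟨rA, eA⟩, ⟨rB, eB⟩, -⟩ := allFacts p hε h
  have hQ : (outQ p.η ε A B).PosDef := QQ_posDef (bsW p.η n K) hε h.dA h.dB
  have hQQ : QQ (bsW p.η n K) ε A B = outQ p.η ε A B := rfl
  refine ⟨⟨rA, ?_⟩, ⟨rB, ?_⟩⟩
  · rw [KL_eq pA.1, KL_eq hQ.1, PA_eq, ← neg_one_smul ℂ (FMin299.mlog (outQ p.η ε A B)),
      FinPhi280.PA_smul, ← smul_coe, ← smul_coe, ← smul_coe, smul_neg, eA, hQQ, neg_one_smul]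
    abel
  · rw [KL_eq pB.1, KL_eq hQ.1, PB_eq, ← neg_one_smul ℂ (FMin299.mlog (outQ p.η ε A B)),
      FinPhi280.PB_smul, ← smul_coe, ← smul_coe, ← smul_coe, smul_neg, eB, hQQ, neg_one_smul]
    abel

/-- LEAF FS: Kubo-Mori contraction. -/
theorem fs : FS := by
  intro p n K ε hε A B h Y
  obtain ⟨-, -, -, -, sA, sB⟩ := allFacts p hε h
  refine ⟨?_, ?_⟩
  · rw [PA_eq]
    exact sA Y
  · rw [PB_eq]
    exact sB Y

end leaves

end Crest.Agent.R331.FMinI299
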