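import Crest.Agent.R331.FOpi_712
import Crest.Agent.R331.BridgeOPI_776

/-! # Row 331 (EPnI): the bridge function `Z x = Phi (1,1,1,1) x` satisfies `ZFacts` -/

set_option autoImplicit false

open Finset Filter Topology MeasureTheory Set

namespace Crest.Agent.R331.FOpiZ712

open NetDefs835 (u)
open FOpiDefs712 FOpi712 Phi712

/-- scaling of the weight -/
lemma w_scale (β : Fin 4 → ℕ) (x : Fin 4 → ℝ) {c : ℝ} (hc : 0 < c) (l : ℝ) :
    Bridge776.w β (fun i => c * x i) (c * l) = (c ^ (∑ i, β i))⁻¹ * Bridge776.w β x l := by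
  unfold Bridge776.w
  have h : ∀ i, ((c * l + c * x i) ^ (β i))⁻¹ = (c ^ (β i))⁻¹ * ((l + x i) ^ (β i))⁻¹ := by
    intro i
    rw [← mul_add, mul_pow, mul_inv]
  simp only [h]
  rw [Finset.prod_mul_distrib, Finset.prod_inv_distrib, Finset.prod_pow_eq_pow_sum]

lemma M_scale (k : ℕ) (β : Fin 4 → ℕ) (x : Fin 4 → ℝ) {c : ℝ} (hc : 0 < c) :
    Bridge776.M k β (fun i => c * x i)
      = c * (c ^ k * (c ^ (∑ i, β i))⁻¹) * Bridge776.M k β x := by
  have h := MeasureTheory.integral_comp_mul_left_Ioi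
    (fun l => l ^ k * Bridge776.w β (fun i => c * x i) l) 0 hc
  rw [mul_zero, smul_eq_mul] at h
  unfold Bridge776.M
  have h2 : ∫ l in Ioi (0:ℝ), (c * l) ^ k * Bridge776.w β (fun i => c * x i) (c * l)
      = (c ^ k * (c ^ (∑ i, β i))⁻¹) * ∫ l in Ioi (0:ℝ), l ^ k * Bridge776.w β x l := by
    rw [← integral_const_mul]
    refine setIntegral_congr_fun measurableSet_Ioi (fun l _ => ?_)
    beta_reduce
    rw [w_scale β x hc, mul_pow]
    ring
  rw [h2] at h
  have hc' : c ≠ 0 := hc.ne'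
  rw [mul_assoc, h, ← mul_assoc, mul_inv_cancel₀ hc', one_mul]

lemma Phi_scale (β : Fin 4 → ℕ) (x : Fin 4 → ℝ) {c : ℝ} (hc : 0 < c) :
    Bridge776.Phi β (fun i => c * x i) = c * Bridge776.Phi β x := by
  unfold Bridge776.Phi
  rw [M_scale 1 β x hc, M_scale 0 β x hc]
  have hc' : c ≠ 0 := hc.ne'
  have h1 : (c ^ (∑ i, β i))⁻¹ ≠ 0 := by positivity
  by_cases h0 : Bridge776.M 0 β x = 0
  · simp [h0]
  · field_simp

lemma inc_eq_up (β : Fin 4 → ℕ) (i : Fin 4) : inc β i = Bridge776.up β i := by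
  funext j
  unfold inc Bridge776.up
  by_cases h : j = i
  · subst h; simp
  · simp [Function.update_of_ne h, Pi.single_eq_of_ne h]

lemma phiFacts : PhiFacts (fun β x => Bridge776.Phi β x) where
  pos β x hβ hx := Bridge776.Phi_pos β hx (by have := four_le_tot hβ; unfold tot at this; omega)
  recu β x hβ hx := by
    have h4 := four_le_tot hβ
    unfold tot at h4
    have h := Bridge776.Phi_rec β hx (by omega)
    unfold tot
    rw [h]
    refine Finset.sum_congr rfl fun i _ => ?_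
    rw [inc_eq_up]
  lower β x m hβ hm hx := by
    have h4 := four_le_tot hβ
    unfold tot at h4
    exact Bridge776.Phi_lower β (fun i => hm.trans_le (hx i)) (by omega) hx
  upper β x M hβ hx hM := by
    have h4 := four_le_tot hβ
    unfold tot at h4
    exact Bridge776.Phi_upper β hx (by omega) hM

/-- the bridge conductance -/
noncomputable def Z (x : Fin 4 → ℝ) : ℝ := Bridge776.Phi (1 : Fin 4 → ℕ) x

lemma zFacts : ZFacts Z where
  pos x hx := Bridge776.Phi_pos _ hx (by simp)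
  hom c x hc _ := Phi_scale _ x hc
  val b t := by
    have h := Bridge776.cb_rel b t
    unfold Bridge776.cb Bridge776.fv at h
    unfold Z
    rw [mul_comm]
    exact h
  val' b hb := by
    have h1 := Bridge776.diag1 b
    have h2 := Bridge776.diag2 b
    have h0 := Bridge776.M0_four_pos b b
    have hp := u_pos b
    have hq := u_pos (-b)
    change Bridge776.Phi 1 (Bridge776.fv b b) * _ = _
    unfold Bridge776.Phi
    change 2 * Bridge776.M 1 1 (Bridge776.fv b b) + (u b + u (-b)) * Bridge776.M 0 1 (Bridge776.fv b b)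
      = (u b * u (-b))⁻¹ at h1
    change b ^ 2 * Bridge776.M 0 1 (Bridge776.fv b b) = (u b + u (-b)) * (u b * u (-b))⁻¹ - 2 at h2
    set m0 := Bridge776.M 0 1 (Bridge776.fv b b) with hm0
    set m1 := Bridge776.M 1 1 (Bridge776.fv b b) with hm1
    have hπ : u b * u (-b) ≠ 0 := by positivity
    rw [div_mul_eq_mul_div, div_eq_iff h0.ne']
    have hbq : u (-b) = u b + b := u_neg_add b
    set π := (u b * u (-b))⁻¹ with hπd
    have hππ : π * (u b * u (-b)) = 1 := inv_mul_cancel₀ hπ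
    rw [hbq] at h1 h2 hππ ⊢
    linear_combination ((u b + (u b + b)) - 2 * (u b * (u b + b))) / 2 * h1 - (1 / 2) * h2 - hππ
  super := by
    intro ι τ _ _ T g h hg hh hyp z
    set D : ℝ := 1 + ∑ i, ∑ c, (g i c)⁻¹ + ∑ i, ∑ s, (h i s)⁻¹ with hD
    set E : ℝ := 1 + ∑ i, ∑ c, g i c + ∑ i, ∑ s, h i s with hE
    have n1 : 0 ≤ ∑ i, ∑ c, (g i c)⁻¹ :=
      Finset.sum_nonneg fun i _ => Finset.sum_nonneg fun c _ => (inv_pos.2 (hg i c)).le
    have n2 : 0 ≤ ∑ i, ∑ s, (h i s)⁻¹ :=
      Finset.sum_nonneg fun i _ => Finset.sum_nonneg fun c _ => (inv_pos.2 (hh i c)).le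
    have n3 : 0 ≤ ∑ i, ∑ c, g i c :=
      Finset.sum_nonneg fun i _ => Finset.sum_nonneg fun c _ => (hg i c).le
    have n4 : 0 ≤ ∑ i, ∑ s, h i s :=
      Finset.sum_nonneg fun i _ => Finset.sum_nonneg fun c _ => (hh i c).le
    have hD1 : 1 ≤ D := by rw [hD]; linarith
    have hE1 : 1 ≤ E := by rw [hE]; linarith
    have hD0 : 0 < D := by linarith
    have hsum : ∀ {κ : Type} [Fintype κ] (f : Fin 4 → κ → ℝ), (∀ i c, 0 ≤ f i c) → ∀ i c,
        f i c ≤ ∑ i, ∑ c, f i c := by
      intro κ _ f hf i c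
      calc f i c ≤ ∑ c, f i c := Finset.single_le_sum (fun c _ => hf i c) (Finset.mem_univ c)
        _ ≤ _ := Finset.single_le_sum (f := fun i => ∑ c, f i c)
            (fun i _ => Finset.sum_nonneg fun c _ => hf i c) (Finset.mem_univ i)
    refine phi_super phiFacts T (g := g) (h := h) (m := D⁻¹) (M := E) (inv_pos.2 hD0) ?_ ?_ ?_ ?_
      ?_ hyp (β := 1) (fun i => le_rfl) z
    · intro i c
      rw [inv_le_comm₀ hD0 (hg i c)]
      have := hsum (fun i c => (g i c)⁻¹) (fun i c => (inv_pos.2 (hg i c)).le) i c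
      rw [hD]; linarith
    · intro i c
      have := hsum g (fun i c => (hg i c).le) i c
      rw [hE]; linarith
    · intro i c
      rw [inv_le_comm₀ hD0 (hh i c)]
      have := hsum (fun i c => (h i c)⁻¹) (fun i c => (inv_pos.2 (hh i c)).le) i c
      rw [hD]; linarith
    · intro i c
      have := hsum h (fun i c => (hh i c).le) i c
      rw [hE]; linarith
    · exact (inv_le_one_of_one_le₀ hD1).trans hE1

end Crest.Agent.R331.FOpiZ712
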