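import Crest.Agent.R331.FOpiM_712
import Crest.Agent.R331.FOpiZ_712
import Crest.Agent.R331.FDefs_136

/-! # Row 331 (EPnI), leaf FOPI of `FDefs_136` -/

set_option autoImplicit false

open Matrix Finset
open scoped Kronecker ComplexOrder

namespace Crest.Agent.R331.FOpiI712


open Crest.Agent.R331.Fin7_380 (Diag wForm)
open Crest.Agent.R331.FCur380 (D0)
open Duh839 (LMe LMe_pos dg)
open FDefs136
open Crest.Quantum

section forms

variable {κ : Type} [Fintype κ] [DecidableEq κ] {X : Matrix κ κ ℂ}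

/-- log-eigenvalues -/
noncomputable def hh (hX : X.PosDef) : κ → ℝ := fun k => Real.log (hX.isHermitian.eigenvalues k)

theorem diag (hX : X.PosDef) :
    Diag X (hX.isHermitian.eigenvectorUnitary : Matrix κ κ ℂ) (hh hX) := by
  have hH := hX.isHermitian
  refine ⟨?_, ?_⟩
  · have := Unitary.coe_star_mul_self hH.eigenvectorUnitary
    rwa [Matrix.star_eq_conjTranspose] at this
  · have h1 := hH.spectral_theorem
    rw [Unitary.conjStarAlgAut_apply] at h1
    rw [Matrix.star_eq_conjTranspose] at h1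
    conv_lhs => rw [h1]
    congr 2
    ext i j
    by_cases hij : i = j
    · subst hij
      simp [hh, Real.exp_log (hX.eigenvalues_pos i)]
    · simp [hij]

lemma LM_eq {x y : ℝ} (hx : 0 < x) (hy : 0 < y) : LM x y = LMe (Real.log x) (Real.log y) := by
  unfold LM LMe
  by_cases h : x = y
  · subst h; simp [Real.exp_log hx]
  · have h2 : Real.log x ≠ Real.log y := fun h3 => h (Real.log_injOn_pos hx hy h3)
    rw [if_neg h, if_neg h2, Real.exp_log hx, Real.exp_log hy]

lemma qf_eq (hX : X.PosDef) (w : ℝ → ℝ → ℝ) (Y : Matrix κ κ ℂ) :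
    qf X w Y = ∑ i, ∑ j, w (hX.isHermitian.eigenvalues i) (hX.isHermitian.eigenvalues j)
      * ‖((hX.isHermitian.eigenvectorUnitary : Matrix κ κ ℂ)ᴴ * Y
        * (hX.isHermitian.eigenvectorUnitary : Matrix κ κ ℂ)) i j‖ ^ 2 := by
  unfold qf
  rw [dif_pos hX.isHermitian]
  rfl

lemma formM_eq (hX : X.PosDef) (Y : Matrix κ κ ℂ) :
    formM X Y = wForm (hh hX) (fun _ => 1)
      ((hX.isHermitian.eigenvectorUnitary : Matrix κ κ ℂ)ᴴ * Y
        * (hX.isHermitian.eigenvectorUnitary : Matrix κ κ ℂ)) := by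
  unfold formM
  rw [qf_eq hX]
  unfold wForm
  refine Finset.sum_congr rfl fun i _ => Finset.sum_congr rfl fun j _ => ?_
  rw [LM_eq (hX.eigenvalues_pos i) (hX.eigenvalues_pos j), mul_one]
  rfl

lemma formH_eq (hX : X.PosDef) (b : ℝ) (Y : Matrix κ κ ℂ) :
    formH b X Y = wForm (hh hX) (FOpiDefs712.H b)
      ((hX.isHermitian.eigenvectorUnitary : Matrix κ κ ℂ)ᴴ * Y
        * (hX.isHermitian.eigenvectorUnitary : Matrix κ κ ℂ)) := by
  unfold formH
  rw [qf_eq hX]
  unfold wForm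
  refine Finset.sum_congr rfl fun i _ => Finset.sum_congr rfl fun j _ => ?_
  rw [LM_eq (hX.eigenvalues_pos i) (hX.eigenvalues_pos j), mul_comm (FDefs136.H _ _)]
  rfl

lemma formD_eq (hX : X.PosDef) (b : ℝ) (Y : Matrix κ κ ℂ) :
    formD b X Y = D0 (hh hX) (FOpiDefs712.al b)
      ((hX.isHermitian.eigenvectorUnitary : Matrix κ κ ℂ)ᴴ * Y
        * (hX.isHermitian.eigenvectorUnitary : Matrix κ κ ℂ)) := by
  unfold formD
  rw [qf_eq hX]
  unfold D0
  refine Finset.sum_congr rfl fun i _ => Finset.sum_congr rfl fun j _ => ?_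
  have e1 : Real.exp (hh hX i) = hX.isHermitian.eigenvalues i := Real.exp_log (hX.eigenvalues_pos i)
  have e2 : Real.exp (hh hX j) = hX.isHermitian.eigenvalues j := Real.exp_log (hX.eigenvalues_pos j)
  rw [e1, e2]
  congr 1
  rw [mul_comm (al b _ ^ 2), mul_comm ((1 - al b _) ^ 2)]
  rfl

end forms

/-! ### linearity -/

variable {n K : ℕ}

lemma heis_add (η : ℝ) (Y Z : Matrix (Bx n (2 * K)) (Bx n (2 * K)) ℂ) :
    heis η (Y + Z) = heis η Y + heis η Z := by
  unfold heis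
  rw [Matrix.add_kronecker, Matrix.mul_add, Matrix.add_mul]

lemma heis_smul (η : ℝ) (z : ℂ) (Y : Matrix (Bx n (2 * K)) (Bx n (2 * K)) ℂ) :
    heis η (z • Y) = z • heis η Y := by
  unfold heis
  rw [Matrix.smul_kronecker, Matrix.mul_smul, Matrix.smul_mul]

/-- `Y ↦ cen A (PA η B Y)` as a linear map -/
noncomputable def TA (η : ℝ) (A B : Matrix (Bx n K) (Bx n K) ℂ) :
    Matrix (Bx n (2 * K)) (Bx n (2 * K)) ℂ →ₗ[ℂ] Matrix (Bx n K) (Bx n K) ℂ where
  toFun Y := cen A (PA η B Y)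
  map_add' Y Z := by
    unfold cen PA
    rw [heis_add, Matrix.mul_add, FCov76.ptR_add, Matrix.mul_add, Matrix.trace_add, add_smul]
    abel
  map_smul' z Y := by
    unfold cen PA
    rw [heis_smul, Matrix.mul_smul, FCov76.ptR_smul, Matrix.mul_smul, Matrix.trace_smul,
      smul_eq_mul, mul_smul, smul_sub]
    rfl

/-- `Y ↦ cen B (PB η A Y)` as a linear map -/
noncomputable def TB (η : ℝ) (A B : Matrix (Bx n K) (Bx n K) ℂ) :
    Matrix (Bx n (2 * K)) (Bx n (2 * K)) ℂ →ₗ[ℂ] Matrix (Bx n K) (Bx n K) ℂ where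
  toFun Y := cen B (PB η A Y)
  map_add' Y Z := by
    unfold cen PB
    rw [Matrix.add_kronecker, Matrix.mul_add, Matrix.add_mul, Matrix.mul_add, FCov76.ptR_add,
      Matrix.mul_add, Matrix.trace_add, add_smul]
    abel
  map_smul' z Y := by
    unfold cen PB
    rw [Matrix.smul_kronecker, Matrix.mul_smul, Matrix.smul_mul, Matrix.mul_smul,
      FCov76.ptR_smul, Matrix.mul_smul, Matrix.trace_smul, smul_eq_mul, mul_smul, smul_sub]
    rfl

/-! ### positivity of `Q` -/

lemma ptR_posSemidef {α β : Type} [Fintype α] [Fintype β] [DecidableEq α] [DecidableEq β]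
    {M : Matrix (α × β) (α × β) ℂ} (hM : M.PosSemidef) : (FCov76.ptR M).PosSemidef := by
  have e : FCov76.ptR M = ∑ j : β, M.submatrix (fun i => (i, j)) (fun i => (i, j)) := by
    ext i i'
    simp [FCov76.ptR, Matrix.sum_apply]
  rw [e]
  exact posSemidef_sum _ fun j _ => hM.submatrix _

lemma outC_posSemidef (η : ℝ) {A B : Matrix (Bx n K) (Bx n K) ℂ} (hA : A.PosSemidef)
    (hB : B.PosSemidef) : (outC η A B).PosSemidef :=
  ptR_posSemidef ((hA.kronecker hB).mul_mul_conjTranspose_same (bsW η n K))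

lemma outQ_posDef (η : ℝ) {ε : ℝ} (hε : 0 < ε) {A B : Matrix (Bx n K) (Bx n K) ℂ}
    (hA : A.PosSemidef) (hB : B.PosSemidef) : (outQ η ε A B).PosDef := by
  unfold outQ
  refine Matrix.PosDef.posSemidef_add (outC_posSemidef η hA hB) ?_
  exact Matrix.PosDef.smul Matrix.PosDef.one (by exact_mod_cast hε)

/-! ### parameters -/

lemma NC_pos (p : Par) : 0 < p.NC := by
  unfold Par.NC
  have h1 := p.η_pos
  have h2 : 0 < 1 - p.η := by linarith [p.η_lt]
  have h3 := p.NA_pos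
  have h4 := p.NB_pos
  positivity

lemma bA_pos (p : Par) : 0 < p.bA := FCur380.b_pos p.NA_pos
lemma bB_pos (p : Par) : 0 < p.bB := FCur380.b_pos p.NB_pos
lemma bC_pos (p : Par) : 0 < p.bC := FCur380.b_pos (NC_pos p)

lemma budget_p (p : Par) : p.lamA * u p.bA + p.lamB * u p.bB = p.β / p.bC * u p.bC := by
  have h1 : u p.bA = p.bA * p.NA := FCur380.u_b p.NA_pos
  have h2 : u p.bB = p.bB * p.NB := FCur380.u_b p.NB_pos
  have h3 : u p.bC = p.bC * p.NC := FCur380.u_b (NC_pos p)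
  have e1 := (bA_pos p).ne'
  have e2 := (bB_pos p).ne'
  have e3 := (bC_pos p).ne'
  rw [h1, h2, h3]
  unfold Par.lamA Par.lamB
  rw [show p.NC = p.η * p.NA + (1 - p.η) * p.NB from rfl]
  field_simp

lemma budget_q (p : Par) : p.lamA * u (-p.bA) + p.lamB * u (-p.bB) = p.β / p.bC * u (-p.bC) := by
  have h1 : u (-p.bA) = p.bA * (p.NA + 1) := FCur380.u_neg_b p.NA_pos
  have h2 : u (-p.bB) = p.bB * (p.NB + 1) := FCur380.u_neg_b p.NB_pos
  have h3 : u (-p.bC) = p.bC * (p.NC + 1) := FCur380.u_neg_b (NC_pos p)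
  have e1 := (bA_pos p).ne'
  have e2 := (bB_pos p).ne'
  have e3 := (bC_pos p).ne'
  rw [h1, h2, h3]
  unfold Par.lamA Par.lamB
  rw [show p.NC = p.η * p.NA + (1 - p.η) * p.NB from rfl]
  field_simp
  ring

/-- the operator inequality with slack, from the contraction inequalities -/
theorem opi_of (p : Par) {ε : ℝ} (hε : 0 < ε) {A B : Matrix (Bx n K) (Bx n K) ℂ}
    (hA : A.PosDef) (hB : B.PosDef)
    (hS : ∀ Y : Matrix (Bx n (2 * K)) (Bx n (2 * K)) ℂ,
      formM A (cen A (PA p.η B Y)) ≤ p.lamA * formM (outQ p.η ε A B) Y ∧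
      formM B (cen B (PB p.η A Y)) ≤ p.lamB * formM (outQ p.η ε A B) Y)
    (hAN : ∀ Y : Matrix (Bx n (2 * K)) (Bx n (2 * K)) ℂ,
      formR A (cen A (PA p.η B Y)) + formR B (cen B (PB p.η A Y)) ≤ formR (outQ p.η ε A B) Y ∧
      formL A (cen A (PA p.η B Y)) + formL B (cen B (PB p.η A Y)) ≤ formL (outQ p.η ε A B) Y)
    (Y : Matrix (Bx n (2 * K)) (Bx n (2 * K)) ℂ) :
      formH p.bA A (cen A (PA p.η B Y)) + formH p.bB B (cen B (PB p.η A Y))
        + p.μ / p.bC * formD p.bC (outQ p.η ε A B) Y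
      ≤ p.β / p.bC * formH p.bC (outQ p.η ε A B) Y := by
  have hQ := outQ_posDef p.η hε hA.posSemidef hB.posSemidef
  have hb := bC_pos p
  have hr : 1 ≤ p.β / p.bC := by
    rw [one_le_div hb]
    unfold Par.β
    linarith [p.μ_pos]
  have hμ : p.μ / p.bC = p.β / p.bC - 1 := by
    unfold Par.β
    field_simp
    ring
  have key := FOpiM712.fopi FOpiZ712.zFacts (diag hA) (diag hB) (diag hQ) (TA p.η A B) (TB p.η A B)
    (bA_pos p) (bB_pos p) hb hr
    (fun Y => by
      have h := (hS Y).1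
      rwa [formM_eq hA, formM_eq hQ] at h)
    (fun Y => by
      have h := (hS Y).2
      rwa [formM_eq hB, formM_eq hQ] at h)
    (fun Y => (hAN Y).1) (fun Y => (hAN Y).2)
    (budget_p p).le (budget_q p).le Y
  rw [formH_eq hA, formH_eq hB, formH_eq hQ, formD_eq hQ, hμ]
  exact key

/-- **LEAF FOPI** -/
theorem fopi_of (hpos : FMINpos) (hS : FS) (hAN : FANOVA) : FOPI := by
  intro p n K ε hε A B hmin Y
  obtain ⟨hA, hB⟩ := hpos p n K ε hε A B hmin
  exact opi_of p hε hA hB (hS p n K ε hε A B hmin)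
    (hAN p.η ε n K p.η_pos p.η_lt hε A B hmin.dA hmin.dB) Y

end Crest.Agent.R331.FOpiI712
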