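import Crest.Agent.R331.FOpi_712
import Crest.Agent.R331.FCur_380

/-! # Row 331 (EPnI): matrix form of the finite operator inequality with slack -/

set_option autoImplicit false

open Matrix Finset

namespace Crest.Agent.R331.FOpiM712

open NetDefs835 (u)
open FOpiDefs712 FOpi712
open Crest.Agent.R331.Fin7_380 (Diag wForm)
open Crest.Agent.R331.FCur380 (D0)
open Duh839 (LMe LMe_pos)

section

variable {α β γ : Type} [Fintype α] [DecidableEq α] [Fintype β] [DecidableEq β]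
  [Fintype γ] [DecidableEq γ]

lemma wForm_u {κ : Type} [Fintype κ] (h : κ → ℝ) (Y : Matrix κ κ ℂ) :
    wForm h u Y = ∑ k, ∑ l, Real.exp (h l) * ‖Y k l‖ ^ 2 := by
  unfold wForm
  refine Finset.sum_congr rfl fun k _ => Finset.sum_congr rfl fun l _ => ?_
  rw [mul_comm (LMe _ _), u_mul_LMe]

lemma wForm_u_neg {κ : Type} [Fintype κ] (h : κ → ℝ) (Y : Matrix κ κ ℂ) :
    wForm h (fun t => u (-t)) Y = ∑ k, ∑ l, Real.exp (h k) * ‖Y k l‖ ^ 2 := by
  unfold wForm
  refine Finset.sum_congr rfl fun k _ => Finset.sum_congr rfl fun l _ => ?_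
  rw [mul_comm (LMe _ _), u_neg_mul_LMe]

lemma wForm_const {κ : Type} [Fintype κ] (h : κ → ℝ) (a : ℝ) (Y : Matrix κ κ ℂ) :
    wForm h (fun _ => a) Y = a * wForm h (fun _ => 1) Y := by
  unfold wForm
  simp only [Finset.mul_sum]
  refine Finset.sum_congr rfl fun k _ => Finset.sum_congr rfl fun l _ => ?_
  ring

lemma wForm_slack {κ : Type} [Fintype κ] (h : κ → ℝ) (b : ℝ) (Y : Matrix κ κ ℂ) :
    wForm h (slack b) Y = D0 h (al b) Y := by
  unfold wForm D0 slack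
  refine Finset.sum_congr rfl fun k _ => Finset.sum_congr rfl fun l _ => ?_
  have e1 := u_mul_LMe (h k) (h l)
  have e2 := u_neg_mul_LMe (h k) (h l)
  linear_combination (al b (h k - h l) ^ 2 * ‖Y k l‖ ^ 2) * e1
    + ((1 - al b (h k - h l)) ^ 2 * ‖Y k l‖ ^ 2) * e2

lemma wForm_prod {κ : Type} [Fintype κ] (h : κ → ℝ) (w : ℝ → ℝ) (Y : Matrix κ κ ℂ) :
    wForm h w Y = ∑ p : κ × κ, LMe (h p.1) (h p.2) * w (h p.1 - h p.2) * ‖Y p.1 p.2‖ ^ 2 := by
  unfold wForm
  rw [← Finset.univ_product_univ, Finset.sum_product]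

/-- the transported linear map -/
noncomputable def Tmap (UA : Matrix α α ℂ) (UB : Matrix β β ℂ) (UQ : Matrix γ γ ℂ)
    (TA : Matrix γ γ ℂ →ₗ[ℂ] Matrix α α ℂ) (TB : Matrix γ γ ℂ →ₗ[ℂ] Matrix β β ℂ) :
    (γ × γ → ℂ) →ₗ[ℂ] ((α × α) ⊕ (β × β) → ℂ) where
  toFun z := Sum.elim
    (fun p => (UAᴴ * TA (UQ * (Matrix.of fun k l => z (k, l)) * UQᴴ) * UA) p.1 p.2)
    (fun p => (UBᴴ * TB (UQ * (Matrix.of fun k l => z (k, l)) * UQᴴ) * UB) p.1 p.2)
  map_add' z w := by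
    have e : (UQ * (Matrix.of fun k l => (z + w) (k, l)) * UQᴴ)
        = (UQ * (Matrix.of fun k l => z (k, l)) * UQᴴ)
          + (UQ * (Matrix.of fun k l => w (k, l)) * UQᴴ) := by
      rw [← Matrix.add_mul, ← Matrix.mul_add]
      congr 2
    rw [e, map_add, map_add]
    funext s
    rcases s with p | p <;> simp [Matrix.mul_add, Matrix.add_mul]
  map_smul' a z := by
    have e : (UQ * (Matrix.of fun k l => (a • z) (k, l)) * UQᴴ)
        = a • (UQ * (Matrix.of fun k l => z (k, l)) * UQᴴ) := by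
      rw [← Matrix.smul_mul, ← Matrix.mul_smul]
      congr 2
    rw [e, map_smul, map_smul]
    funext s
    rcases s with p | p <;> simp

/-- entries in the eigenbasis as a vector -/
noncomputable def vec (UQ : Matrix γ γ ℂ) (Y : Matrix γ γ ℂ) : γ × γ → ℂ :=
  fun p => (UQᴴ * Y * UQ) p.1 p.2

lemma Tmap_vec {UA : Matrix α α ℂ} {UB : Matrix β β ℂ} {Q UQ : Matrix γ γ ℂ} {hQ : γ → ℝ}
    (DQ : Diag Q UQ hQ) (TA : Matrix γ γ ℂ →ₗ[ℂ] Matrix α α ℂ)
    (TB : Matrix γ γ ℂ →ₗ[ℂ] Matrix β β ℂ) (Y : Matrix γ γ ℂ) :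
    Tmap UA UB UQ TA TB (vec UQ Y) = Sum.elim (fun p => (UAᴴ * TA Y * UA) p.1 p.2)
      (fun p => (UBᴴ * TB Y * UB) p.1 p.2) := by
  have e : UQ * (Matrix.of fun k l => vec UQ Y (k, l)) * UQᴴ = Y := by
    have e1 : (Matrix.of fun k l => vec UQ Y (k, l)) = UQᴴ * Y * UQ := by
      ext k l; rfl
    rw [e1]
    calc UQ * (UQᴴ * Y * UQ) * UQᴴ = (UQ * UQᴴ) * Y * (UQ * UQᴴ) := by
          simp only [Matrix.mul_assoc]
      _ = Y := by rw [DQ.unit']; simp
  unfold Tmap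
  simp only [LinearMap.coe_mk, AddHom.coe_mk]
  rw [e]

lemma exists_vec {Q UQ : Matrix γ γ ℂ} {hQ : γ → ℝ}
    (DQ : Diag Q UQ hQ) (z : γ × γ → ℂ) : ∃ Y, vec UQ Y = z := by
  refine ⟨UQ * (Matrix.of fun k l => z (k, l)) * UQᴴ, ?_⟩
  funext p
  unfold vec
  have e : UQᴴ * (UQ * (Matrix.of fun k l => z (k, l)) * UQᴴ) * UQ
      = Matrix.of fun k l => z (k, l) := by
    calc UQᴴ * (UQ * (Matrix.of fun k l => z (k, l)) * UQᴴ) * UQ
        = (UQᴴ * UQ) * (Matrix.of fun k l => z (k, l)) * (UQᴴ * UQ) := by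
          simp only [Matrix.mul_assoc]
      _ = _ := by rw [DQ.unit]; simp
  rw [e]
  rfl

/-- **FOPI, matrix form**: operator inequality with slack. -/
theorem fopi {Z : (Fin 4 → ℝ) → ℝ} (hZ : ZFacts Z)
    {A UA : Matrix α α ℂ} {hA : α → ℝ} {B UB : Matrix β β ℂ} {hB : β → ℝ}
    {Q UQ : Matrix γ γ ℂ} {hQ : γ → ℝ}
    (DA : Diag A UA hA) (DB : Diag B UB hB) (DQ : Diag Q UQ hQ)
    (TA : Matrix γ γ ℂ →ₗ[ℂ] Matrix α α ℂ) (TB : Matrix γ γ ℂ →ₗ[ℂ] Matrix β β ℂ)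
    {bA bB bC lA lB r : ℝ} (hbA : 0 < bA) (hbB : 0 < bB) (hbC : 0 < bC) (hr : 1 ≤ r)
    (SA : ∀ Y, wForm hA (fun _ => 1) (UAᴴ * TA Y * UA)
      ≤ lA * wForm hQ (fun _ => 1) (UQᴴ * Y * UQ))
    (SB : ∀ Y, wForm hB (fun _ => 1) (UBᴴ * TB Y * UB)
      ≤ lB * wForm hQ (fun _ => 1) (UQᴴ * Y * UQ))
    (AR : ∀ Y, (trace (A * ((TA Y)ᴴ * TA Y))).re + (trace (B * ((TB Y)ᴴ * TB Y))).re
      ≤ (trace (Q * (Yᴴ * Y))).re)
    (AL : ∀ Y, (trace (A * (TA Y * (TA Y)ᴴ))).re + (trace (B * (TB Y * (TB Y)ᴴ))).re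
      ≤ (trace (Q * (Y * Yᴴ))).re)
    (hp : lA * u bA + lB * u bB ≤ r * u bC)
    (hq : lA * u (-bA) + lB * u (-bB) ≤ r * u (-bC))
    (Y : Matrix γ γ ℂ) :
    wForm hA (H bA) (UAᴴ * TA Y * UA) + wForm hB (H bB) (UBᴴ * TB Y * UB)
      + (r - 1) * D0 hQ (al bC) (UQᴴ * Y * UQ)
      ≤ r * wForm hQ (H bC) (UQᴴ * Y * UQ) := by
  -- general evaluation of the sums
  have ev : ∀ (wA wB : ℝ → ℝ) (Y : Matrix γ γ ℂ),
      ∑ s, Sum.elim (fun p : α × α => LMe (hA p.1) (hA p.2)) (fun p : β × β =>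
          LMe (hB p.1) (hB p.2)) s
        * Sum.elim (fun p : α × α => wA (hA p.1 - hA p.2)) (fun p : β × β =>
          wB (hB p.1 - hB p.2)) s
        * ‖Tmap UA UB UQ TA TB (vec UQ Y) s‖ ^ 2
      = wForm hA wA (UAᴴ * TA Y * UA) + wForm hB wB (UBᴴ * TB Y * UB) := by
    intro wA wB Y
    rw [Tmap_vec DQ, Fintype.sum_sum_type, wForm_prod, wForm_prod]
    rfl
  have evC : ∀ (w : ℝ → ℝ) (Y : Matrix γ γ ℂ),
      ∑ c : γ × γ, LMe (hQ c.1) (hQ c.2) * w (hQ c.1 - hQ c.2) * ‖vec UQ Y c‖ ^ 2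
      = wForm hQ w (UQᴴ * Y * UQ) := by
    intro w Y
    rw [wForm_prod]
    rfl
  have hposQ : ∀ Y, 0 ≤ wForm hQ (fun _ => 1) (UQᴴ * Y * UQ) := by
    intro Y
    unfold wForm
    refine Finset.sum_nonneg fun k _ => Finset.sum_nonneg fun l _ => ?_
    have := LMe_pos (hQ k) (hQ l)
    positivity
  have key := opi hZ (Tmap UA UB UQ TA TB)
    (mC := fun c => LMe (hQ c.1) (hQ c.2)) (kC := fun c => hQ c.1 - hQ c.2)
    (m := Sum.elim (fun p : α × α => LMe (hA p.1) (hA p.2)) (fun p : β × β =>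
          LMe (hB p.1) (hB p.2)))
    (k := Sum.elim (fun p : α × α => hA p.1 - hA p.2) (fun p : β × β => hB p.1 - hB p.2))
    (bs := Sum.elim (fun _ => bA) (fun _ => bB)) (β := bC) (r := r) hbC
    (by rintro (p | p) <;> assumption) hr (fun c => LMe_pos _ _)
    (by rintro (p | p) <;> exact LMe_pos _ _)
    (by
      intro z
      obtain ⟨Y, rfl⟩ := exists_vec DQ z
      have e1 := ev (fun _ => u bA) (fun _ => u bB) Y
      have e2 := evC (fun _ => u bC) Y
      rw [wForm_const hA (u bA), wForm_const hB (u bB)] at e1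
      rw [wForm_const hQ (u bC)] at e2
      rw [e2]
      refine le_trans (le_of_eq ?_) (le_trans (le_of_eq e1) ?_)
      · refine Finset.sum_congr rfl fun s _ => ?_
        rcases s with p | p <;> rfl
      · have a1 := mul_le_mul_of_nonneg_left (SA Y) (u_pos bA).le
        have a2 := mul_le_mul_of_nonneg_left (SB Y) (u_pos bB).le
        have a3 := mul_le_mul_of_nonneg_right hp (hposQ Y)
        linarith)
    (by
      intro z
      obtain ⟨Y, rfl⟩ := exists_vec DQ z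
      have e1 := ev (fun _ => u (-bA)) (fun _ => u (-bB)) Y
      have e2 := evC (fun _ => u (-bC)) Y
      rw [wForm_const hA (u (-bA)), wForm_const hB (u (-bB))] at e1
      rw [wForm_const hQ (u (-bC))] at e2
      rw [e2]
      refine le_trans (le_of_eq ?_) (le_trans (le_of_eq e1) ?_)
      · refine Finset.sum_congr rfl fun s _ => ?_
        rcases s with p | p <;> rfl
      · have a1 := mul_le_mul_of_nonneg_left (SA Y) (u_pos (-bA)).le
        have a2 := mul_le_mul_of_nonneg_left (SB Y) (u_pos (-bB)).le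
        have a3 := mul_le_mul_of_nonneg_right hq (hposQ Y)
        linarith)
    (by
      intro z
      obtain ⟨Y, rfl⟩ := exists_vec DQ z
      have e1 := ev u u Y
      have e2 := evC u Y
      rw [e2]
      refine le_trans (le_of_eq ?_) (le_trans (le_of_eq e1) ?_)
      · refine Finset.sum_congr rfl fun s _ => ?_
        rcases s with p | p <;> rfl
      · rw [wForm_u, wForm_u, wForm_u, ← DA.trace_right, ← DB.trace_right, ← DQ.trace_right]
        exact AR Y)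
    (by
      intro z
      obtain ⟨Y, rfl⟩ := exists_vec DQ z
      have e1 := ev (fun t => u (-t)) (fun t => u (-t)) Y
      have e2 := evC (fun t => u (-t)) Y
      rw [e2]
      refine le_trans (le_of_eq ?_) (le_trans (le_of_eq e1) ?_)
      · refine Finset.sum_congr rfl fun s _ => ?_
        rcases s with p | p <;> rfl
      · rw [wForm_u_neg, wForm_u_neg, wForm_u_neg, ← DA.trace_left, ← DB.trace_left,
          ← DQ.trace_left]
        exact AL Y)
    (vec UQ Y)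
  have e1 := ev (H bA) (H bB) Y
  have e2 := evC (H bC) Y
  have e3 := evC (slack bC) Y
  rw [wForm_slack] at e3
  rw [e2, e3] at key
  rw [← e1]
  refine le_trans (le_of_eq ?_) key
  congr 1
  refine Finset.sum_congr rfl fun s _ => ?_
  rcases s with p | p <;> rfl

end

end Crest.Agent.R331.FOpiM712
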