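import Crest.Agent.R331.Phi_712
import Crest.Agent.R331.FOpiDefs_712

/-! # Row 331 (EPnI): finite operator inequality (OPI) with slack, from the bridge function `Z`

`u t = t / (e^t - 1)`.  Weights: `u t * M` is the `R`-weight, `u (-t) * M` the `L`-weight. -/

set_option autoImplicit false

open Finset Filter Topology

namespace Crest.Agent.R331.FOpi712

open NetDefs835 (u)
open FOpiDefs712

/-- facts on the bridge conductance -/
structure ZFacts (Z : (Fin 4 → ℝ) → ℝ) : Prop where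
  pos : ∀ x, (∀ i, 0 < x i) → 0 < Z x
  hom : ∀ (c : ℝ) x, 0 < c → (∀ i, 0 < x i) → Z (fun i => c * x i) = c * Z x
  val : ∀ b t, Z ![u b, u (-b), u t, u (-t)] * ((u b + u (-b)) - (u t + u (-t)))
    = u t * u (-t) - u b * u (-b)
  val' : ∀ b, 0 < b → Z ![u b, u (-b), u b, u (-b)] * (u b + u (-b) - 2 * (u b * u (-b)))
    = u b * u (-b) * (u b + u (-b) - 2)
  super : ∀ {ι τ : Type} [Fintype ι] [Fintype τ] (T : (ι → ℂ) →ₗ[ℂ] (τ → ℂ))
    (g : Fin 4 → ι → ℝ) (h : Fin 4 → τ → ℝ), (∀ i c, 0 < g i c) → (∀ i s, 0 < h i s) →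
    (∀ i z, ∑ s, h i s * ‖T z s‖ ^ 2 ≤ ∑ c, g i c * ‖z c‖ ^ 2) →
    ∀ z, ∑ s, Z (fun i => h i s) * ‖T z s‖ ^ 2 ≤ ∑ c, Z (fun i => g i c) * ‖z c‖ ^ 2

lemma vec_pos (b t : ℝ) : ∀ i, 0 < (![u b, u (-b), u t, u (-t)] : Fin 4 → ℝ) i := by
  intro i
  fin_cases i
  · exact u_pos b
  · exact u_pos (-b)
  · exact u_pos t
  · exact u_pos (-t)

section

variable {Z : (Fin 4 → ℝ) → ℝ} (hZ : ZFacts Z)
include hZ

lemma mono {x y : Fin 4 → ℝ} (hx : ∀ i, 0 < x i) (hy : ∀ i, 0 < y i) (h : ∀ i, x i ≤ y i) :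
    Z x ≤ Z y := by
  have h1 := hZ.super (ι := Unit) (τ := Unit) LinearMap.id (fun i _ => y i) (fun i _ => x i)
    (fun i _ => hy i) (fun i _ => hx i) (by
      intro i z
      simp only [univ_unique, sum_singleton, LinearMap.id_apply]
      gcongr
      exact h i) (fun _ => 1)
  simpa using h1

/-- Wheatstone balance: with `W = Z (u b, u (-b), u t, u (-t))`,
`A = u b + u t`, `B = u (-b) + u (-t)`: `A B + W (A + B) = H (A + B + 4 W)`. -/
lemma wheatstone {b : ℝ} (hb : 0 < b) (t : ℝ) :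
    (u b + u t) * (u (-b) + u (-t))
      + Z ![u b, u (-b), u t, u (-t)] * ((u b + u t) + (u (-b) + u (-t)))
    = H b t * ((u b + u t) + (u (-b) + u (-t)) + 4 * Z ![u b, u (-b), u t, u (-t)]) := by
  by_cases h : t = b
  · subst h
    have h1 := hZ.val' t hb
    rw [H, if_pos rfl]
    linear_combination 2 * h1
  · have h1 := hZ.val b t
    rw [H, if_neg h]
    have hb : b - t ≠ 0 := sub_ne_zero.2 (Ne.symm h)
    rw [div_mul_eq_mul_div, eq_div_iff hb]
    have e3 : u (-t) = u t + t := u_neg_add t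
    have e4 : u (-b) = u b + b := u_neg_add b
    rw [e3, e4] at h1 ⊢
    linear_combination (b + t) * h1

/-- the optimal potential in network form -/
lemma al_eq {b : ℝ} (hb : 0 < b) (t : ℝ) :
    al b t * ((u b + u t) + (u (-b) + u (-t)) + 4 * Z ![u b, u (-b), u t, u (-t)])
      = u (-b) + u (-t) + 2 * Z ![u b, u (-b), u t, u (-t)] := by
  by_cases h : t = b
  · subst h
    have h1 := hZ.val' t hb
    rw [al, if_pos rfl, div_mul_eq_mul_div, div_eq_iff hb.ne']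
    have e3 : u (-t) = u t + t := u_neg_add t
    rw [e3] at h1 ⊢
    linear_combination 2 * h1
  · have h1 := hZ.val b t
    rw [al, if_neg h]
    have hb : b - t ≠ 0 := sub_ne_zero.2 (Ne.symm h)
    rw [div_mul_eq_mul_div, div_eq_iff hb]
    have e3 : u (-t) = u t + t := u_neg_add t
    have e4 : u (-b) = u b + b := u_neg_add b
    rw [e3, e4] at h1 ⊢
    linear_combination 2 * h1


lemma S_pos (b t : ℝ) :
    0 < (u b + u t) + (u (-b) + u (-t)) + 4 * Z ![u b, u (-b), u t, u (-t)] := by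
  have hW := hZ.pos _ (vec_pos b t)
  have h1 := u_pos b
  have h2 := u_pos (-b)
  have h3 := u_pos t
  have h4 := u_pos (-t)
  positivity

lemma H_pos {b : ℝ} (hb : 0 < b) (t : ℝ) : 0 < H b t := by
  have h := wheatstone hZ hb t
  have hW := hZ.pos _ (vec_pos b t)
  have h1 := u_pos b
  have h2 := u_pos (-b)
  have h3 := u_pos t
  have h4 := u_pos (-t)
  have h5 : 0 < (u b + u t) * (u (-b) + u (-t))
      + Z ![u b, u (-b), u t, u (-t)] * ((u b + u t) + (u (-b) + u (-t))) := by positivity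
  rw [h] at h5
  exact (mul_pos_iff_of_pos_right (S_pos hZ b t)).1 h5

lemma al_pos {b : ℝ} (hb : 0 < b) (t : ℝ) : 0 < al b t := by
  have h := al_eq hZ hb t
  have hW := hZ.pos _ (vec_pos b t)
  have h2 := u_pos (-b)
  have h4 := u_pos (-t)
  have h5 : 0 < u (-b) + u (-t) + 2 * Z ![u b, u (-b), u t, u (-t)] := by positivity
  rw [← h] at h5
  exact (mul_pos_iff_of_pos_right (S_pos hZ b t)).1 h5

lemma al_lt_one {b : ℝ} (hb : 0 < b) (t : ℝ) : al b t < 1 := by
  have h := al_eq hZ hb t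
  have hW := hZ.pos _ (vec_pos b t)
  have h2 := u_pos b
  have h4 := u_pos t
  have h5 : 0 < u b + u t + 2 * Z ![u b, u (-b), u t, u (-t)] := by positivity
  have h6 : 0 < (1 - al b t) *
      ((u b + u t) + (u (-b) + u (-t)) + 4 * Z ![u b, u (-b), u t, u (-t)]) := by
    rw [sub_mul, h]; linarith
  have := (mul_pos_iff_of_pos_right (S_pos hZ b t)).1 h6
  linarith

/-- energy of the optimal potentials -/
lemma net_upper {b : ℝ} (hb : 0 < b) (t : ℝ) :
    (u b + u t) * al b t ^ 2 + (u (-b) + u (-t)) * (1 - al b t) ^ 2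
      + Z ![u b, u (-b), u t, u (-t)] * (2 * al b t - 1) ^ 2 = H b t := by
  have h1 := wheatstone hZ hb t
  have h2 := al_eq hZ hb t
  have hS := S_pos hZ b t
  set W := Z ![u b, u (-b), u t, u (-t)] with hW
  set A := u b + u t with hA
  set B := u (-b) + u (-t) with hB
  have e1 : al b t = (B + 2 * W) / (A + B + 4 * W) := by
    rw [eq_div_iff hS.ne', h2]
  have e2 : H b t = (A * B + W * (A + B)) / (A + B + 4 * W) := by
    rw [eq_div_iff hS.ne', ← h1]
  have hne : A + B + 4 * W ≠ 0 := hS.ne'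
  rw [e1, e2]
  have e3 : 1 - (B + 2 * W) / (A + B + 4 * W) = (A + 2 * W) / (A + B + 4 * W) := by
    rw [eq_div_iff hne, sub_mul, div_mul_cancel₀ _ hne]; ring
  have e4 : 2 * ((B + 2 * W) / (A + B + 4 * W)) - 1 = (B - A) / (A + B + 4 * W) := by
    rw [eq_div_iff hne, sub_mul, mul_assoc, div_mul_cancel₀ _ hne]; ring
  rw [e3, e4, div_pow, div_pow, div_pow, ← mul_div_assoc, ← mul_div_assoc, ← mul_div_assoc,
    ← add_div, ← add_div, div_eq_div_iff (pow_ne_zero 2 hne) hne]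
  ring

/-- lower bound for the dissipation with arbitrary potentials -/
lemma net_lower {b : ℝ} (hb : 0 < b) (t : ℝ) (a₁ a₂ : ℂ) :
    H b t * ‖a₁ + a₂‖ ^ 2 ≤ (u b + u t) * ‖a₁‖ ^ 2 + (u (-b) + u (-t)) * ‖a₂‖ ^ 2
      + Z ![u b, u (-b), u t, u (-t)] * ‖a₁ - a₂‖ ^ 2 := by
  have h := wheatstone hZ hb t
  have hW := hZ.pos _ (vec_pos b t)
  set W := Z ![u b, u (-b), u t, u (-t)] with hWdef
  have h1 := u_pos b
  have h2 := u_pos (-b)
  have h3 := u_pos t
  have h4 := u_pos (-t)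
  set A := u b + u t with hA
  set B := u (-b) + u (-t) with hB
  have hA0 : 0 < A := by positivity
  have hB0 : 0 < B := by positivity
  have hp := Phi712.par (x := A + 2 * W) (y := B + 2 * W) (by positivity) (by positivity) a₁ a₂
  have hpar : ‖a₁ - a₂‖ ^ 2 = 2 * ‖a₁‖ ^ 2 + 2 * ‖a₂‖ ^ 2 - ‖a₁ + a₂‖ ^ 2 := by
    have := parallelogram_law_with_norm ℝ a₁ a₂
    linarith
  have hH : H b t = (A + 2 * W) * (B + 2 * W) / (A + 2 * W + (B + 2 * W)) - W := by
    have h6 : 0 < A + 2 * W + (B + 2 * W) := by positivity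
    rw [eq_sub_iff_add_eq, eq_div_iff h6.ne']
    linear_combination -h
  rw [hH, hpar, sub_mul]
  linarith

end

/-- the slack coefficient `u(t) al² + u(-t) (1-al)²` -/
noncomputable def slack (b t : ℝ) : ℝ := u t * al b t ^ 2 + u (-t) * (1 - al b t) ^ 2

/-- **Operator inequality with slack**, finite index sets, arbitrary positive weights. -/
theorem opi {Z : (Fin 4 → ℝ) → ℝ} (hZ : ZFacts Z) {σ τ : Type} [Fintype σ] [Fintype τ]
    (T : (σ → ℂ) →ₗ[ℂ] (τ → ℂ)) {mC kC : σ → ℝ} {m k bs : τ → ℝ} {β r : ℝ}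
    (hβ : 0 < β) (hbs : ∀ s, 0 < bs s) (hr : 1 ≤ r) (hmC : ∀ c, 0 < mC c) (hm : ∀ s, 0 < m s)
    (h0 : ∀ z, ∑ s, m s * u (bs s) * ‖T z s‖ ^ 2 ≤ r * ∑ c, mC c * u β * ‖z c‖ ^ 2)
    (h1 : ∀ z, ∑ s, m s * u (-bs s) * ‖T z s‖ ^ 2 ≤ r * ∑ c, mC c * u (-β) * ‖z c‖ ^ 2)
    (h2 : ∀ z, ∑ s, m s * u (k s) * ‖T z s‖ ^ 2 ≤ ∑ c, mC c * u (kC c) * ‖z c‖ ^ 2)
    (h3 : ∀ z, ∑ s, m s * u (-k s) * ‖T z s‖ ^ 2 ≤ ∑ c, mC c * u (-kC c) * ‖z c‖ ^ 2)
    (z : σ → ℂ) :
    ∑ s, m s * H (bs s) (k s) * ‖T z s‖ ^ 2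
      + (r - 1) * ∑ c, mC c * slack β (kC c) * ‖z c‖ ^ 2
      ≤ r * ∑ c, mC c * H β (kC c) * ‖z c‖ ^ 2 := by
  have hr0 : 0 < r := by linarith
  -- the bridge form
  have hW : ∀ y : σ → ℂ, ∑ s, m s * Z ![u (bs s), u (-bs s), u (k s), u (-k s)] * ‖T y s‖ ^ 2
      ≤ r * ∑ c, mC c * Z ![u β, u (-β), u (kC c), u (-kC c)] * ‖y c‖ ^ 2 := by
    intro y
    have key := hZ.super T
      (fun i c => (![r * (mC c * u β), r * (mC c * u (-β)), mC c * u (kC c), mC c * u (-kC c)] :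
        Fin 4 → ℝ) i)
      (fun i s => m s * (![u (bs s), u (-bs s), u (k s), u (-k s)] : Fin 4 → ℝ) i)
      (by
        intro i c
        have e1 := u_pos β
        have e2 := u_pos (-β)
        have e3 := u_pos (kC c)
        have e4 := u_pos (-kC c)
        have e5 := hmC c
        fin_cases i <;> simp <;> positivity)
      (by
        intro i s
        exact mul_pos (hm s) (vec_pos _ _ i))
      (by
        intro i z
        fin_cases i
        · simpa [Finset.mul_sum, mul_assoc] using h0 z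
        · simpa [Finset.mul_sum, mul_assoc] using h1 z
        · simpa using h2 z
        · simpa using h3 z) y
    have lhs : ∑ s, m s * Z ![u (bs s), u (-bs s), u (k s), u (-k s)] * ‖T y s‖ ^ 2
        = ∑ s, Z (fun i => m s * (![u (bs s), u (-bs s), u (k s), u (-k s)] : Fin 4 → ℝ) i)
          * ‖T y s‖ ^ 2 := by
      refine Finset.sum_congr rfl fun s _ => ?_
      rw [hZ.hom (m s) ![u (bs s), u (-bs s), u (k s), u (-k s)] (hm s) (vec_pos _ _)]
    have rhs : ∑ c, Z (fun i => (![r * (mC c * u β), r * (mC c * u (-β)), mC c * u (kC c),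
          mC c * u (-kC c)] : Fin 4 → ℝ) i) * ‖y c‖ ^ 2
        ≤ r * ∑ c, mC c * Z ![u β, u (-β), u (kC c), u (-kC c)] * ‖y c‖ ^ 2 := by
      rw [Finset.mul_sum]
      refine Finset.sum_le_sum fun c _ => ?_
      have hrw : r * (mC c * Z ![u β, u (-β), u (kC c), u (-kC c)] * ‖y c‖ ^ 2)
          = r * mC c * Z ![u β, u (-β), u (kC c), u (-kC c)] * ‖y c‖ ^ 2 := by ring
      rw [hrw]
      refine mul_le_mul_of_nonneg_right ?_ (sq_nonneg _)
      have e1 := u_pos β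
      have e2 := u_pos (-β)
      have e3 := u_pos (kC c)
      have e4 := u_pos (-kC c)
      have e5 := hmC c
      have hh := hZ.hom (r * mC c) ![u β, u (-β), u (kC c), u (-kC c)] (mul_pos hr0 e5)
        (vec_pos _ _)
      rw [← hh]
      have hp1 : ∀ i, 0 < (![r * (mC c * u β), r * (mC c * u (-β)), mC c * u (kC c),
          mC c * u (-kC c)] : Fin 4 → ℝ) i := by
        intro i
        fin_cases i <;> simp <;> positivity
      have hp2 : ∀ i, 0 < r * mC c * (![u β, u (-β), u (kC c), u (-kC c)] : Fin 4 → ℝ) i :=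
        fun i => mul_pos (mul_pos hr0 e5) (vec_pos _ _ i)
      refine mono hZ hp1 hp2 ?_
      · intro i
        have e6 : mC c * u (kC c) ≤ r * mC c * u (kC c) := by
          have := mul_pos e5 e3; nlinarith
        have e7 : mC c * u (-kC c) ≤ r * mC c * u (-kC c) := by
          have := mul_pos e5 e4; nlinarith
        fin_cases i
        · simp [mul_assoc]
        · simp [mul_assoc]
        · simpa using e6
        · simpa using e7
    rw [lhs]
    exact key.trans rhs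
  -- potentials
  set z₁ : σ → ℂ := fun c => ((al β (kC c) : ℝ) : ℂ) * z c with hz₁
  set z₂ : σ → ℂ := fun c => ((1 - al β (kC c) : ℝ) : ℂ) * z c with hz₂
  have hz : z = z₁ + z₂ := by
    funext c
    simp only [hz₁, hz₂, Pi.add_apply]
    push_cast
    ring
  have hT : ∀ s, T z s = T z₁ s + T z₂ s := by
    intro s
    rw [hz, map_add, Pi.add_apply]
  have hT' : ∀ s, T (z₁ - z₂) s = T z₁ s - T z₂ s := by
    intro s
    rw [map_sub, Pi.sub_apply]
  have n1 : ∀ c, ‖z₁ c‖ ^ 2 = al β (kC c) ^ 2 * ‖z c‖ ^ 2 := by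
    intro c
    simp only [hz₁]
    rw [norm_mul, Complex.norm_real, Real.norm_eq_abs, mul_pow, sq_abs]
  have n2 : ∀ c, ‖z₂ c‖ ^ 2 = (1 - al β (kC c)) ^ 2 * ‖z c‖ ^ 2 := by
    intro c
    simp only [hz₂]
    rw [norm_mul, Complex.norm_real, Real.norm_eq_abs, mul_pow, sq_abs]
  have n3 : ∀ c, ‖(z₁ - z₂) c‖ ^ 2 = (2 * al β (kC c) - 1) ^ 2 * ‖z c‖ ^ 2 := by
    intro c
    have e : (z₁ - z₂) c = ((2 * al β (kC c) - 1 : ℝ) : ℂ) * z c := by
      simp only [hz₁, hz₂, Pi.sub_apply]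
      push_cast
      ring
    rw [e, norm_mul, Complex.norm_real, Real.norm_eq_abs, mul_pow, sq_abs]
  have hlow : ∑ s, m s * H (bs s) (k s) * ‖T z s‖ ^ 2 ≤
      ∑ s, m s * u (bs s) * ‖T z₁ s‖ ^ 2 + ∑ s, m s * u (k s) * ‖T z₁ s‖ ^ 2
      + (∑ s, m s * u (-bs s) * ‖T z₂ s‖ ^ 2 + ∑ s, m s * u (-k s) * ‖T z₂ s‖ ^ 2)
      + ∑ s, m s * Z ![u (bs s), u (-bs s), u (k s), u (-k s)] * ‖T (z₁ - z₂) s‖ ^ 2 := by
    rw [← Finset.sum_add_distrib, ← Finset.sum_add_distrib, ← Finset.sum_add_distrib,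
      ← Finset.sum_add_distrib]
    refine Finset.sum_le_sum fun s _ => ?_
    have h := mul_le_mul_of_nonneg_left (net_lower hZ (hbs s) (k s) (T z₁ s) (T z₂ s)) (hm s).le
    rw [hT s, hT' s]
    linarith
  have hup : r * ∑ c, mC c * H β (kC c) * ‖z c‖ ^ 2
      = (r * ∑ c, mC c * u β * ‖z₁ c‖ ^ 2) + (∑ c, mC c * u (kC c) * ‖z₁ c‖ ^ 2)
      + ((r * ∑ c, mC c * u (-β) * ‖z₂ c‖ ^ 2) + (∑ c, mC c * u (-kC c) * ‖z₂ c‖ ^ 2))
      + (r * ∑ c, mC c * Z ![u β, u (-β), u (kC c), u (-kC c)] * ‖(z₁ - z₂) c‖ ^ 2)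
      + (r - 1) * ∑ c, mC c * slack β (kC c) * ‖z c‖ ^ 2 := by
    simp only [Finset.mul_sum, ← Finset.sum_add_distrib]
    refine Finset.sum_congr rfl fun c _ => ?_
    rw [n1, n2, n3, ← net_upper hZ hβ (kC c)]
    unfold slack
    ring
  rw [hup]
  have a0 := h0 z₁
  have a1 := h1 z₂
  have a2 := h2 z₁
  have a3 := h3 z₂
  have a4 := hW (z₁ - z₂)
  linarith

end Crest.Agent.R331.FOpi712
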