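import Crest.Agent.R331.NetDefs_835

/-!
Row 331 (S0514), leaf FIN-7 (7a): lower bounds for the slack of the strict operator inequality.

Notation: `p = u b`, `q = u (-b)`, `x = u t`, `y = u (-t)` (`b > 0`, `t` real), `W ≥ 0` the bridge
conductance (`W = 2 Z p q x y`), `2 S = p + q + x + y + 2 W`.
* optimal potentials: `α = (q + y + W) / (2 S)`, `β = (p + x + W) / (2 S)`, `α + β = 1`,
  and `α = (q - y) / (b - t)`, `β = (x - p) / (b - t)` if `t ≠ b`;
* slack `e = x α ^ 2 + y β ^ 2`; current `H = x α + y β`.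
No upper bound for `W` is needed.
-/

set_option autoImplicit false

namespace Crest.Agent.R331.Fin7a563

open NetDefs835

/-! ### Facts on `u` -/

lemma u_pos (t : ℝ) : 0 < u t := by
  unfold u
  split_ifs with h
  · exact one_pos
  · rcases lt_or_gt_of_ne h with h | h
    · have h1 : Real.exp t < 1 := by rw [Real.exp_lt_one_iff]; exact h
      exact div_pos_of_neg_of_neg h (by linarith)
    · have h1 : 1 < Real.exp t := Real.one_lt_exp_iff.mpr h
      exact div_pos h (by linarith)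

lemma u_neg (t : ℝ) : u (-t) = u t + t := by
  unfold u
  by_cases h : t = 0
  · simp [h]
  · rw [if_neg h, if_neg (neg_ne_zero.mpr h)]
    have h1 : Real.exp t ≠ 1 := by
      intro h2; exact h (Real.exp_eq_one_iff t |>.mp h2)
    have h3 : Real.exp t - 1 ≠ 0 := sub_ne_zero.mpr h1
    have h4 : Real.exp t ≠ 0 := (Real.exp_pos t).ne'
    have h5 : Real.exp (-t) - 1 ≠ 0 := by
      rw [Real.exp_neg]
      intro h6
      apply h1
      field_simp at h6
      linarith
    rw [Real.exp_neg] at h5 ⊢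
    have h6 : (Real.exp t)⁻¹ - 1 = -(Real.exp t - 1) / Real.exp t := by field_simp; ring
    rw [h6]
    field_simp
    ring

lemma u_le_one {t : ℝ} (ht : 0 ≤ t) : u t ≤ 1 := by
  unfold u
  split_ifs with h
  · exact le_rfl
  · have h1 : 0 < t := lt_of_le_of_ne ht (Ne.symm h)
    have h2 : t + 1 ≤ Real.exp t := Real.add_one_le_exp t
    rw [div_le_one (by linarith)]
    linarith

lemma one_le_u {t : ℝ} (ht : t ≤ 0) : 1 ≤ u t := by
  unfold u
  split_ifs with h
  · exact le_rfl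
  · have h1 : t < 0 := lt_of_le_of_ne ht h
    have h2 : t + 1 ≤ Real.exp t := Real.add_one_le_exp t
    have h3 : Real.exp t < 1 := by rw [Real.exp_lt_one_iff]; exact h1
    rw [le_div_iff_of_neg (by linarith)]
    linarith

lemma one_le_sigma (t : ℝ) : 1 ≤ u t + u (-t) := by
  rcases le_total 0 t with h | h
  · have h1 : 1 ≤ u (-t) := one_le_u (by linarith)
    linarith [u_pos t]
  · have h1 : 1 ≤ u t := one_le_u h
    linarith [u_pos (-t)]

lemma sigma_le (t : ℝ) : u t + u (-t) ≤ 2 + |t| := by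
  rcases le_total 0 t with h | h
  · have h1 := u_le_one h
    rw [u_neg, abs_of_nonneg h]
    linarith
  · have h1 : u (-t) ≤ 1 := u_le_one (by linarith)
    have h2 := u_neg t
    rw [abs_of_nonpos h]
    linarith

lemma u_le_u_neg {b : ℝ} (hb : 0 ≤ b) : u b ≤ u (-b) := by
  rw [u_neg]; linarith

/-! ### The slack -/

/-- The slack (loss of the two `t`-edges at the optimal potentials), 76's / 835's form. -/
noncomputable def slack (p q x y W : ℝ) : ℝ :=
  (x * (q + y + W) ^ 2 + y * (p + x + W) ^ 2) / (4 * ((p + q + x + y) / 2 + W) ^ 2)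

lemma slack_eq {p q x y W : ℝ} (h : 0 < p + q + x + y) (hW : 0 ≤ W) :
    slack p q x y W = x * ((q + y + W) / (p + q + x + y + 2 * W)) ^ 2 +
      y * ((p + x + W) / (p + q + x + y + 2 * W)) ^ 2 := by
  have h1 : 0 < p + q + x + y + 2 * W := by linarith
  have h2 : (p + q + x + y) / 2 + W = (p + q + x + y + 2 * W) / 2 := by ring
  unfold slack
  rw [h2]
  field_simp
  ring

/-- **(7a), general form.**  `x, y > 0`, `0 < p ≤ q`, `0 ≤ W` arbitrary. -/
theorem slack_ge {p q x y W : ℝ} (hp : 0 < p) (hpq : p ≤ q) (hx : 0 < x) (hy : 0 < y)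
    (hW : 0 ≤ W) : (x + y) * (p / (p + q + x + y)) ^ 2 ≤ slack p q x y W := by
  have hs : 0 < p + q + x + y := by linarith
  have hS : 0 < p + q + x + y + 2 * W := by linarith
  rw [slack_eq hs hW]
  have h1 : p / (p + q + x + y) ≤ (q + y + W) / (p + q + x + y + 2 * W) := by
    rw [div_le_div_iff₀ hs hS]
    nlinarith [mul_nonneg hW (by linarith : 0 ≤ q - p), mul_nonneg hW hx.le, mul_nonneg hW hy.le,
      mul_pos hs hy, mul_nonneg hs.le (by linarith : 0 ≤ q - p)]
  have h2 : p / (p + q + x + y) ≤ (p + x + W) / (p + q + x + y + 2 * W) := by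
    rw [div_le_div_iff₀ hs hS]
    nlinarith [mul_nonneg hW (by linarith : 0 ≤ q - p), mul_nonneg hW hx.le, mul_nonneg hW hy.le,
      mul_pos hs hx, mul_nonneg hs.le (by linarith : 0 ≤ q - p)]
  have h0 : 0 ≤ p / (p + q + x + y) := by positivity
  have h3 : (p / (p + q + x + y)) ^ 2 ≤ ((q + y + W) / (p + q + x + y + 2 * W)) ^ 2 := by gcongr
  have h4 : (p / (p + q + x + y)) ^ 2 ≤ ((p + x + W) / (p + q + x + y + 2 * W)) ^ 2 := by gcongr
  nlinarith [mul_le_mul_of_nonneg_left h3 hx.le, mul_le_mul_of_nonneg_left h4 hy.le]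

/-- The constant `c(b) = (u b / (u b + u (-b) + 1)) ^ 2`. -/
noncomputable def cb (b : ℝ) : ℝ := (u b / (u b + u (-b) + 1)) ^ 2

lemma cb_pos (b : ℝ) : 0 < cb b := by
  have := u_pos b
  have := u_pos (-b)
  unfold cb
  positivity

/-- scalar step: only `x + y ≥ 1` and `x + y ≤ 2 + |t|` are used, so `x, y` may be exchanged. -/
theorem slack_ge_of {b x y W T : ℝ} (hb : 0 ≤ b) (hx : 0 < x) (hy : 0 < y) (hW : 0 ≤ W)
    (h1 : 1 ≤ x + y) (hT : x + y ≤ 2 + T) :
    cb b / (2 + T) ≤ slack (u b) (u (-b)) x y W := by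
  refine le_trans ?_ (slack_ge (u_pos b) (u_le_u_neg hb) hx hy hW)
  have hp := u_pos b
  have hq := u_pos (-b)
  set p := u b
  set q := u (-b)
  have hcb : cb b = (p / (p + q + 1)) ^ 2 := rfl
  have h2 : 0 < x + y := by linarith
  have h3 : p + q + x + y ≤ (x + y) * (p + q + 1) := by nlinarith
  have h4 : p / ((x + y) * (p + q + 1)) ≤ p / (p + q + x + y) := by gcongr
  have h5 : (x + y) * (p / ((x + y) * (p + q + 1))) ^ 2 ≤ (x + y) * (p / (p + q + x + y)) ^ 2 := by
    gcongr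
  refine le_trans ?_ h5
  have h6 : (x + y) * (p / ((x + y) * (p + q + 1))) ^ 2 = cb b / (x + y) := by
    rw [hcb]; field_simp
  rw [h6]
  have := cb_pos b
  gcongr

/-- **(7a), form of 76 / 835** (`x = u t`, `y = u (-t)`). -/
theorem slack_u_ge {b W : ℝ} (t : ℝ) (hb : 0 ≤ b) (hW : 0 ≤ W) :
    cb b / (2 + |t|) ≤ slack (u b) (u (-b)) (u t) (u (-t)) W :=
  slack_ge_of hb (u_pos t) (u_pos (-t)) hW (one_le_sigma t) (sigma_le t)

/-- **(7a), the same with `x` and `y` exchanged** (`x = u (-t)`, `y = u t`). -/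
theorem slack_u_ge' {b W : ℝ} (t : ℝ) (hb : 0 ≤ b) (hW : 0 ≤ W) :
    cb b / (2 + |t|) ≤ slack (u b) (u (-b)) (u (-t)) (u t) W :=
  slack_ge_of hb (u_pos (-t)) (u_pos t) hW (by linarith [one_le_sigma t])
    (by linarith [sigma_le t])

/-! ### The form of 136 / 86 / 633: optimal potentials as difference quotients -/

/-- `α = (u (-b) - u (-t)) / (b - t)` -/
noncomputable def alpha (b t : ℝ) : ℝ := (u (-b) - u (-t)) / (b - t)

/-- `β = (u t - u b) / (b - t)` -/
noncomputable def beta (b t : ℝ) : ℝ := (u t - u b) / (b - t)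

lemma alpha_add_beta {b t : ℝ} (h : t ≠ b) : alpha b t + beta b t = 1 := by
  have h1 : b - t ≠ 0 := sub_ne_zero.mpr (Ne.symm h)
  unfold alpha beta
  rw [u_neg b, u_neg t]
  field_simp
  ring

/-- current form of `H` -/
lemma current {b t : ℝ} (h : t ≠ b) :
    u t * alpha b t + u (-t) * beta b t = (b * u (-t) - t * u (-b)) / (b - t) := by
  have h1 : b - t ≠ 0 := sub_ne_zero.mpr (Ne.symm h)
  unfold alpha beta
  rw [u_neg b, u_neg t]
  field_simp
  ring

/-- the difference quotients are the optimal potentials of the bridge -/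
lemma alpha_eq {b t W : ℝ} (h : t ≠ b) (hW : 0 ≤ W)
    (hf : W * ((u b + u (-b)) - (u t + u (-t))) = 2 * (u t * u (-t) - u b * u (-b))) :
    alpha b t = (u (-b) + u (-t) + W) / (u b + u (-b) + u t + u (-t) + 2 * W) := by
  have h1 : b - t ≠ 0 := sub_ne_zero.mpr (Ne.symm h)
  have hS : 0 < u b + u (-b) + u t + u (-t) + 2 * W := by
    linarith [u_pos b, u_pos (-b), u_pos t, u_pos (-t)]
  unfold alpha
  rw [div_eq_div_iff h1 hS.ne']
  rw [u_neg b, u_neg t] at hf ⊢
  linear_combination hf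

lemma beta_eq {b t W : ℝ} (h : t ≠ b) (hW : 0 ≤ W)
    (hf : W * ((u b + u (-b)) - (u t + u (-t))) = 2 * (u t * u (-t) - u b * u (-b))) :
    beta b t = (u b + u t + W) / (u b + u (-b) + u t + u (-t) + 2 * W) := by
  have h1 := alpha_add_beta h
  have h2 := alpha_eq h hW hf
  have hS : 0 < u b + u (-b) + u t + u (-t) + 2 * W := by
    linarith [u_pos b, u_pos (-b), u_pos t, u_pos (-t)]
  have h3 : beta b t = 1 - alpha b t := by linarith
  rw [h3, h2, eq_div_iff hS.ne', sub_mul, div_mul_cancel₀ _ hS.ne']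
  ring

/-- 136/86/633's slack equals 76's slack. -/
lemma slack_alpha_beta {b t W : ℝ} (h : t ≠ b) (hW : 0 ≤ W)
    (hf : W * ((u b + u (-b)) - (u t + u (-t))) = 2 * (u t * u (-t) - u b * u (-b))) :
    u t * alpha b t ^ 2 + u (-t) * beta b t ^ 2 = slack (u b) (u (-b)) (u t) (u (-t)) W := by
  rw [slack_eq (by linarith [u_pos b, u_pos (-b), u_pos t, u_pos (-t)]) hW, alpha_eq h hW hf,
    beta_eq h hW hf]

/-- **(7a), form of 136 / 86 / 633**, from a nonnegative solution `W` of the value formula. -/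
theorem alpha_beta_ge_of {b t W : ℝ} (hb : 0 ≤ b) (h : t ≠ b) (hW : 0 ≤ W)
    (hf : W * ((u b + u (-b)) - (u t + u (-t))) = 2 * (u t * u (-t) - u b * u (-b))) :
    cb b / (2 + |t|) ≤ u t * alpha b t ^ 2 + u (-t) * beta b t ^ 2 := by
  rw [slack_alpha_beta h hW hf]
  exact slack_u_ge t hb hW

/-- **(7a), form of 136 / 86 / 633** under `ScalarInput` (W = 2 Z). -/
theorem alpha_beta_ge (hS : ScalarInput) {b t : ℝ} (hb : 0 ≤ b) (h : t ≠ b) :
    cb b / (2 + |t|) ≤ u t * alpha b t ^ 2 + u (-t) * beta b t ^ 2 := by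
  refine alpha_beta_ge_of (W := 2 * Z ![u b, u (-b), u t, u (-t)]) hb h ?_ ?_
  · have := hS.pos ![u b, u (-b), u t, u (-t)] (by
      intro i
      fin_cases i
      · exact u_pos b
      · exact u_pos (-b)
      · exact u_pos t
      · exact u_pos (-t))
    linarith
  · have := hS.formula b t
    linear_combination 2 * this

/-- 86's inequality `H ^ 2 ≤ (u t + u (-t)) * slack` (Cauchy–Schwarz for the two `t`-edges), for
arbitrary potentials. -/
theorem current_sq_le {x y v w : ℝ} (hx : 0 ≤ x) (hy : 0 ≤ y) :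
    (x * v + y * w) ^ 2 ≤ (x + y) * (x * v ^ 2 + y * w ^ 2) := by
  nlinarith [mul_nonneg (mul_nonneg hx hy) (sq_nonneg (v - w))]

theorem H_sq_le {b t : ℝ} (h : t ≠ b) :
    ((b * u (-t) - t * u (-b)) / (b - t)) ^ 2 ≤
      (u t + u (-t)) * (u t * alpha b t ^ 2 + u (-t) * beta b t ^ 2) := by
  rw [← current h]
  exact current_sq_le (u_pos t).le (u_pos (-t)).le

/-- 633's weight: `min 1 |t - b| ^ 2 / (3 + b) ^ 2 ≤ (t - b) ^ 2 / ((1 + |t|) * (2 + |t|))`. -/
theorem min_sq_le {b : ℝ} (t : ℝ) (hb : 0 ≤ b) :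
    (min 1 |t - b|) ^ 2 / (3 + b) ^ 2 ≤ (t - b) ^ 2 / ((1 + |t|) * (2 + |t|)) := by
  have h0 : 0 ≤ |t| := abs_nonneg t
  have h1 : (t - b) ^ 2 / (2 + |t|) ^ 2 ≤ (t - b) ^ 2 / ((1 + |t|) * (2 + |t|)) := by
    have : (1 + |t|) * (2 + |t|) ≤ (2 + |t|) ^ 2 := by nlinarith
    have h2 : 0 < (1 + |t|) * (2 + |t|) := by positivity
    gcongr
  refine le_trans ?_ h1
  rw [← div_pow, ← div_pow, ← sq_abs ((t - b) / (2 + |t|)), abs_div,
    abs_of_pos (by positivity : 0 < 2 + |t|)]
  have h3 : |t| ≤ |t - b| + b := by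
    have := abs_add_le (t - b) b
    rw [abs_of_nonneg hb] at this
    simpa using this
  have h4 : min 1 |t - b| / (3 + b) ≤ |t - b| / (2 + |t|) := by
    have h5 : 0 ≤ |t - b| := abs_nonneg _
    rw [div_le_div_iff₀ (by positivity) (by positivity)]
    rcases le_total 1 |t - b| with h6 | h6
    · rw [min_eq_left h6]
      nlinarith
    · rw [min_eq_right h6]
      nlinarith
  have h7 : 0 ≤ min 1 |t - b| / (3 + b) := by positivity
  gcongr

/-- Combined, in the form used on the eigenbasis: `LM ≥ max / (1 + |t|)` times the slack. -/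
theorem weight_ge {b t m M e : ℝ} (hb : 0 ≤ b) (hM : 0 ≤ M) (hm : M / (1 + |t|) ≤ m)
    (he : cb b / (2 + |t|) ≤ e) :
    cb b / (3 + b) ^ 2 * (M * (min 1 |t - b|) ^ 2) ≤ m * e * (t - b) ^ 2 := by
  have h0 : 0 ≤ |t| := abs_nonneg t
  have h1 := min_sq_le t hb
  have h2 := cb_pos b
  have h3 : 0 ≤ cb b / (2 + |t|) := by positivity
  have h4 : 0 ≤ M / (1 + |t|) := by positivity
  have h5 : 0 ≤ m := h4.trans hm
  calc cb b / (3 + b) ^ 2 * (M * (min 1 |t - b|) ^ 2)
      = cb b * M * ((min 1 |t - b|) ^ 2 / (3 + b) ^ 2) := by ring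
    _ ≤ cb b * M * ((t - b) ^ 2 / ((1 + |t|) * (2 + |t|))) := by gcongr
    _ = (M / (1 + |t|)) * (cb b / (2 + |t|)) * (t - b) ^ 2 := by
        field_simp
    _ ≤ m * e * (t - b) ^ 2 := by gcongr

end Crest.Agent.R331.Fin7a563
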