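import Mathlib
import Crest.Prelude.Def_FockState
import Crest.Agent.R331.Main_944
import Crest.Agent.R331.Link_915
import Crest.Agent.R331.FLMin_628
import Crest.Agent.R331.FRec_380
import Crest.Agent.R331.LEn_380
import Crest.Agent.R331.FLgap_136
import Crest.Agent.R331.FAnova_136
import Crest.Agent.R331.FOpiI_712
import Crest.Agent.R331.FGapInst_633
import Crest.Agent.R331.FinWF_87
import Crest.Agent.R331.FinWBox_87
import Crest.Agent.R331.FEn_839

/-!
Row 331 (S0514), final assembly (captain: helper944): the literal conclusion of S0514 from the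
remaining literal Props of the finite matrix track.
-/

set_option autoImplicit false

namespace Crest.Agent.R331.Final944

open Crest.MathPhysics.Bosonic
open Crest.Agent.R331.FDefs136

theorem lgap (hEx : FMINexists) (hPos : FMINpos) (hEL : FMINel) (hFS : FS)
    (hERR : FERR) (hEDGE : FEDGE) : LGAP :=
  lgap_of (FGapInst633.fgap FinW87.FW_holds hPos hEL (FOpiI712.fopi_of hPos hFS fanova))
    hERR hEDGE FEn839.fenergy

theorem finmain (hEx : FMINexists) (hPos : FMINpos) (hEL : FMINel) (hFS : FS)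
    (hERR : FERR) (hEDGE : FEDGE) : FDefs136.FINMAIN :=
  have hG : LGAP := lgap hEx hPos hEL hFS hERR hEDGE
  have hE : LENERGY := FCur380.LENERGY_of FEn839.fenergy FinW87.FENSUM_holds
  FTop_628.finmain_of_leaves hEx FinW87.FW_holds hE hG (FCur380.LENC_of hG hE)
    (FCur380.LREC_of hG hE) FEn839.fvalue FinW87.FENSUM_holds

theorem linbox (hEx : FMINexists) (hPos : FMINpos) (hEL : FMINel) (hFS : FS)
    (hERR : FERR) (hEDGE : FEDGE) : Fext682.LINbox :=
  Link915.linbox_of_finmain136 (finmain hEx hPos hEL hFS hERR hEDGE)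

theorem result_of_leaves (hEx : FMINexists) (hPos : FMINpos) (hEL : FMINel) (hFS : FS)
    (hERR : FERR) (hEDGE : FEDGE)
    (n : ℕ) (hn : 1 ≤ n) (η : ℝ)
    (hη : η ∈ Set.Icc (0 : ℝ) 1) (ρA ρB : FockState n) (hA : FiniteEnergy ρA) (hB : FiniteEnergy ρB)
    (sA sB : ℝ) (hsA : HasEntropy ρA sA) (hsB : HasEntropy ρB sB) (tA tB : ℝ) (htA : 0 ≤ tA)
    (htB : 0 ≤ tB) (hgA : gBose tA = sA / n) (hgB : gBose tB = sB / n) :
    ∃ ρC : FockState n, IsBeamSplitterOutput η ρA ρB ρC ∧
      ∃ sC : ℝ, HasEntropy ρC sC ∧ gBose (η * tA + (1 - η) * tB) ≤ sC / n :=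
  Main944.result_of_LINbox (linbox hEx hPos hEL hFS hERR hEDGE) n hn η hη ρA ρB hA hB sA sB
    hsA hsB tA tB htA htB hgA hgB

end Crest.Agent.R331.Final944

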