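import Mathlib
import Crest.Prelude.Def_FockState

set_option autoImplicit false

open Crest Crest.MathPhysics Crest.MathPhysics.Bosonic
open scoped InnerProductSpace

namespace Crest.Agent.R331.Gibbs914

/-! ## Operator tangent inequality on a general Hilbert space -/

section General

variable {H : Type*} [NormedAddCommGroup H] [InnerProductSpace ℂ H] [CompleteSpace H]

/-- the entropy function as used in the frozen statement -/
noncomputable def etaC : ℂ → ℂ := fun z => (-(z.re * Real.log z.re) : ℂ)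

lemma etaC_eq (z : ℂ) : etaC z = ((Real.negMulLog z.re : ℝ) : ℂ) := by
  simp [etaC, Real.negMulLog]

lemma cfc_etaC (T : H →L[ℂ] H) (hT : IsSelfAdjoint T) :
    cfc etaC T = cfc Real.negMulLog T := by
  rw [cfc_real_eq_complex Real.negMulLog hT]
  congr 1
  funext z
  exact etaC_eq z

lemma cfc_frozen (T : H →L[ℂ] H) (hT : IsSelfAdjoint T) :
    cfc (fun z : ℂ => (-(z.re * Real.log z.re) : ℂ)) T = cfc Real.negMulLog T :=
  cfc_etaC T hT

/-- scalar tangent inequality -/
lemma negMulLog_le_tangent {t l : ℝ} (ht : 0 ≤ t) (hl : 0 < l) :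
    Real.negMulLog t ≤ -(t * Real.log l) + l - t := by
  rcases ht.eq_or_lt with h | h
  · subst h; simp [hl.le]
  · have h1 : Real.log (l / t) ≤ l / t - 1 := Real.log_le_sub_one_of_pos (by positivity)
    rw [Real.log_div hl.ne' h.ne'] at h1
    have h2 := mul_le_mul_of_nonneg_left h1 h.le
    have h3 : t * (l / t - 1) = l - t := by field_simp
    rw [h3] at h2
    simp only [Real.negMulLog]
    nlinarith

lemma spectrum_nonneg {T : H →L[ℂ] H} (hT : T.IsPositive) {t : ℝ} (ht : t ∈ spectrum ℝ T) :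
    0 ≤ t := by
  have h : (0 : H →L[ℂ] H) ≤ T := (ContinuousLinearMap.nonneg_iff_isPositive T).2 hT
  exact spectrum_nonneg_of_nonneg h ht

/-- operator tangent inequality -/
lemma cfc_negMulLog_le {T : H →L[ℂ] H} (hT : T.IsPositive) {l : ℝ} (hl : 0 < l) :
    cfc Real.negMulLog T ≤ (-(Real.log l) - 1) • T + l • (1 : H →L[ℂ] H) := by
  have hsa : IsSelfAdjoint T := hT.isSelfAdjoint
  have h1 : cfc (fun t : ℝ => (-(Real.log l) - 1) * t + l) T
      = (-(Real.log l) - 1) • T + l • (1 : H →L[ℂ] H) := by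
    rw [cfc_add T (fun t : ℝ => (-(Real.log l) - 1) * t) (fun _ : ℝ => l),
      cfc_const_mul_id (-(Real.log l) - 1) T, cfc_const l T, Algebra.algebraMap_eq_smul_one]
  rw [← h1]
  refine cfc_mono (fun t ht => ?_) (Real.continuous_negMulLog.continuousOn)
    (by fun_prop)
  have := negMulLog_le_tangent (spectrum_nonneg hT ht) hl
  linarith

/-- expectation form of the tangent inequality -/
lemma re_inner_cfc_le {T : H →L[ℂ] H} (hT : T.IsPositive) {l : ℝ} (hl : 0 < l) (x : H) :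
    (⟪x, cfc Real.negMulLog T x⟫_ℂ).re
      ≤ (-(Real.log l) - 1) * (⟪x, T x⟫_ℂ).re + l * ‖x‖ ^ 2 := by
  have h := cfc_negMulLog_le hT hl
  have h2 := (ContinuousLinearMap.le_def _ _).1 h
  have h3 := h2.re_inner_nonneg_right x
  simp only [sub_apply, add_apply, smul_apply, one_apply_eq_self, inner_sub_right,
    inner_add_right, map_sub, map_add] at h3
  have e1 : ⟪x, (-(Real.log l) - 1) • T x⟫_ℂ = (((-(Real.log l) - 1) : ℝ) : ℂ) * ⟪x, T x⟫_ℂ := by
    rw [← inner_smul_right]; rfl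
  have e2 : ⟪x, l • x⟫_ℂ = ((l : ℝ) : ℂ) * ⟪x, x⟫_ℂ := by
    rw [← inner_smul_right]; rfl
  rw [e1, e2] at h3
  have e3 : (⟪x, x⟫_ℂ).re = ‖x‖ ^ 2 := by
    have := inner_self_eq_norm_sq (𝕜 := ℂ) x
    simpa using this
  simp only [RCLike.re_to_complex, Complex.mul_re, Complex.ofReal_re, Complex.ofReal_im, zero_mul,
    sub_zero, e3] at h3
  linarith

/-- Peierls / Jensen: `⟪x, f(T) x⟫ ≤ f(⟪x, T x⟫)` for unit vectors, `f(t) = -t log t`. -/
lemma re_inner_cfc_le_negMulLog {T : H →L[ℂ] H} (hT : T.IsPositive) (x : H) (hx : ‖x‖ = 1) :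
    (⟪x, cfc Real.negMulLog T x⟫_ℂ).re ≤ Real.negMulLog (⟪x, T x⟫_ℂ).re := by
  have h0 : 0 ≤ (⟪x, T x⟫_ℂ).re := hT.re_inner_nonneg_right x
  rcases h0.eq_or_lt with h | h
  · rw [← h, Real.negMulLog_zero]
    refine le_of_forall_pos_le_add fun ε hε => ?_
    have := re_inner_cfc_le hT hε x
    rw [← h, hx] at this
    linarith
  · have := re_inner_cfc_le hT h x
    rw [hx] at this
    simp only [Real.negMulLog]
    nlinarith

/-- the form of a positive operator through its square root -/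
lemma re_inner_eq_norm_sqrt {T : H →L[ℂ] H} (hT : T.IsPositive) (x : H) :
    (⟪x, T x⟫_ℂ).re = ‖CFC.sqrt T x‖ ^ 2 := by
  have h0 : (0 : H →L[ℂ] H) ≤ T := (ContinuousLinearMap.nonneg_iff_isPositive T).2 hT
  have h1 : CFC.sqrt T * CFC.sqrt T = T := CFC.sqrt_mul_sqrt_self T h0
  have hs : (CFC.sqrt T).IsPositive :=
    (ContinuousLinearMap.nonneg_iff_isPositive _).1 (CFC.sqrt_nonneg T)
  have h2 : ⟪x, T x⟫_ℂ = ⟪CFC.sqrt T x, CFC.sqrt T x⟫_ℂ := by
    conv_lhs => rw [← h1]
    rw [hs.inner_left_eq_inner_right]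
    rfl
  rw [h2]
  have := inner_self_eq_norm_sq (𝕜 := ℂ) (CFC.sqrt T x)
  simpa using this

/-- Cauchy-Schwarz for the form of a positive operator. -/
lemma norm_inner_sq_le {T : H →L[ℂ] H} (hT : T.IsPositive) (x y : H) :
    ‖⟪x, T y⟫_ℂ‖ ^ 2 ≤ (⟪x, T x⟫_ℂ).re * (⟪y, T y⟫_ℂ).re := by
  have h0 : (0 : H →L[ℂ] H) ≤ T := (ContinuousLinearMap.nonneg_iff_isPositive T).2 hT
  have h1 : CFC.sqrt T * CFC.sqrt T = T := CFC.sqrt_mul_sqrt_self T h0
  have hs : (CFC.sqrt T).IsPositive :=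
    (ContinuousLinearMap.nonneg_iff_isPositive _).1 (CFC.sqrt_nonneg T)
  have h2 : ⟪x, T y⟫_ℂ = ⟪CFC.sqrt T x, CFC.sqrt T y⟫_ℂ := by
    conv_lhs => rw [← h1]
    rw [hs.inner_left_eq_inner_right]
    rfl
  rw [h2, re_inner_eq_norm_sqrt hT, re_inner_eq_norm_sqrt hT, ← mul_pow]
  exact pow_le_pow_left₀ (norm_nonneg _) (norm_inner_le_norm _ _) 2

/-- `‖T y‖² ≤ (Tr T) ⟪y, T y⟫` -/
lemma norm_sq_le_trace {ι : Type*} (b : HilbertBasis ι ℂ H) {T : H →L[ℂ] H} (hT : T.IsPositive)
    {s : ℝ} (hs : HasSum (fun i => (⟪b i, T (b i)⟫_ℂ).re) s) (y : H) :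
    ‖T y‖ ^ 2 ≤ s * (⟪y, T y⟫_ℂ).re := by
  have h1 := b.hasSum_inner_mul_inner (T y) (T y)
  have h2 : HasSum (fun i => ‖⟪b i, T y⟫_ℂ‖ ^ 2) (‖T y‖ ^ 2) := by
    have h3 := (Complex.reCLM.hasSum h1)
    have h4 : Complex.reCLM ⟪T y, T y⟫_ℂ = ‖T y‖ ^ 2 := by
      have := inner_self_eq_norm_sq (𝕜 := ℂ) (T y)
      simpa using this
    rw [h4] at h3
    have h5 : (fun i => Complex.reCLM (⟪T y, b i⟫_ℂ * ⟪b i, T y⟫_ℂ))
        = fun i => ‖⟪b i, T y⟫_ℂ‖ ^ 2 := by
      funext i
      rw [← inner_conj_symm (T y) (b i), ← Complex.normSq_eq_conj_mul_self, ← Complex.sq_norm]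
      exact Complex.ofReal_re _
    rw [h5] at h3
    exact h3
  have h5 : HasSum (fun i => (⟪b i, T (b i)⟫_ℂ).re * (⟪y, T y⟫_ℂ).re) (s * (⟪y, T y⟫_ℂ).re) :=
    hs.mul_right _
  exact hasSum_le (fun i => norm_inner_sq_le hT (b i) y) h2 h5

lemma norm_apply_le_trace {ι : Type*} (b : HilbertBasis ι ℂ H) {T : H →L[ℂ] H} (hT : T.IsPositive)
    {s : ℝ} (hs : HasSum (fun i => (⟪b i, T (b i)⟫_ℂ).re) s) (y : H) :
    ‖T y‖ ≤ s * ‖y‖ := by
  have h1 := norm_sq_le_trace b hT hs y
  have hs0 : 0 ≤ s := hs.nonneg fun _ => hT.re_inner_nonneg_right _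
  have h2 : (⟪y, T y⟫_ℂ).re ≤ ‖y‖ * ‖T y‖ := (Complex.re_le_norm _).trans (norm_inner_le_norm _ _)
  rcases (norm_nonneg (T y)).eq_or_lt with h | h
  · rw [← h]; positivity
  · have h3 : ‖T y‖ * ‖T y‖ ≤ (s * ‖y‖) * ‖T y‖ := by
      nlinarith [mul_le_mul_of_nonneg_left h2 hs0]
    exact le_of_mul_le_mul_right h3 h

lemma opNorm_le_trace {ι : Type*} (b : HilbertBasis ι ℂ H) {T : H →L[ℂ] H} (hT : T.IsPositive)
    {s : ℝ} (hs : HasSum (fun i => (⟪b i, T (b i)⟫_ℂ).re) s) : ‖T‖ ≤ s :=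
  T.opNorm_le_bound (hs.nonneg fun _ => hT.re_inner_nonneg_right _) (norm_apply_le_trace b hT hs)

lemma cfc_negMulLog_nonneg {T : H →L[ℂ] H} (hT : T.IsPositive) (h1 : ‖T‖ ≤ 1) :
    (cfc Real.negMulLog T).IsPositive := by
  rw [← ContinuousLinearMap.nonneg_iff_isPositive]
  refine cfc_nonneg fun t ht => ?_
  have h2 : 0 ≤ t := spectrum_nonneg hT ht
  have h3 : ‖t‖ ≤ ‖T‖ := by
    rcases subsingleton_or_nontrivial H with hH | hH
    · exfalso
      have : Subsingleton (H →L[ℂ] H) := inferInstance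
      rw [spectrum.of_subsingleton] at ht
      exact ht
    · exact spectrum.norm_le_norm_of_mem ht
  rw [Real.norm_of_nonneg h2] at h3
  exact Real.negMulLog_nonneg h2 (h3.trans h1)

/-- `entOp T = -T log T`, in the frozen form. -/
noncomputable def entOp (T : H →L[ℂ] H) : H →L[ℂ] H :=
  cfc (fun z : ℂ => (-(z.re * Real.log z.re) : ℂ)) T

lemma entOp_eq {T : H →L[ℂ] H} (hT : T.IsPositive) : entOp T = cfc Real.negMulLog T :=
  cfc_frozen T hT.isSelfAdjoint

lemma entOp_isPositive {T : H →L[ℂ] H} (hT : T.IsPositive) (h1 : ‖T‖ ≤ 1) :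
    (entOp T).IsPositive := by
  rw [entOp_eq hT]; exact cfc_negMulLog_nonneg hT h1

lemma re_inner_entOp_le {T : H →L[ℂ] H} (hT : T.IsPositive) {l : ℝ} (hl : 0 < l) (x : H) :
    (⟪x, entOp T x⟫_ℂ).re ≤ (-(Real.log l) - 1) * (⟪x, T x⟫_ℂ).re + l * ‖x‖ ^ 2 := by
  rw [entOp_eq hT]; exact re_inner_cfc_le hT hl x

lemma re_inner_entOp_le_negMulLog {T : H →L[ℂ] H} (hT : T.IsPositive) (x : H) (hx : ‖x‖ = 1) :
    (⟪x, entOp T x⟫_ℂ).re ≤ Real.negMulLog (⟪x, T x⟫_ℂ).re := by
  rw [entOp_eq hT]; exact re_inner_cfc_le_negMulLog hT x hx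

end General

/-! ## Fock states: number basis -/

section Fock

variable {n : ℕ}

/-- the number basis as a Hilbert basis -/
noncomputable def numB (n : ℕ) : HilbertBasis (Occ n) ℂ (Fock n) :=
  HilbertBasis.ofRepr (LinearIsometryEquiv.refl ℂ (Fock n))

lemma numB_apply (k : Occ n) : numB n k = ket k := by
  rw [← (numB n).repr_symm_single k]
  rfl

lemma norm_ket (k : Occ n) : ‖ket k‖ = 1 := by
  rw [← numB_apply]; exact (numB n).orthonormal.1 k

lemma ket_apply (k l : Occ n) : (ket k : Fock n) l = if l = k then 1 else 0 := by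
  by_cases h : l = k
  · subst h; simp [ket]
  · simp [ket, h]

lemma inner_ket_left (k : Occ n) (x : Fock n) : ⟪ket k, x⟫_ℂ = x k := by
  rw [ket, lp.inner_single_left]
  simp

lemma hasSum_ket (x : Fock n) : HasSum (fun k : Occ n => x k • ket k) x := by
  have := (numB n).hasSum_repr x
  simp only [numB_apply] at this
  exact this

variable (ρ : FockState n)

lemma entry_re_nonneg (k : Occ n) : 0 ≤ (entry ρ.op k k).re := ρ.pos.re_inner_nonneg_right _

lemma entry_re_le_one (k : Occ n) : (entry ρ.op k k).re ≤ 1 :=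
  le_hasSum ρ.traceOne k fun j _ => entry_re_nonneg ρ j

lemma norm_op_le_one : ‖ρ.op‖ ≤ 1 := by
  refine opNorm_le_trace (numB n) ρ.pos ?_
  simp only [numB_apply]
  exact ρ.traceOne

/-- the diagonal of `-ρ log ρ` in the number basis -/
noncomputable def entDiag (k : Occ n) : ℝ := (entry (entOp ρ.op) k k).re

/-- (1a) -/
lemma entDiag_nonneg (k : Occ n) : 0 ≤ entDiag ρ k :=
  (entOp_isPositive ρ.pos (norm_op_le_one ρ)).re_inner_nonneg_right _

/-- (1b) -/
lemma entDiag_le (k : Occ n) {l : ℝ} (hl : 0 < l) :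
    entDiag ρ k ≤ -((entry ρ.op k k).re * Real.log l) + l - (entry ρ.op k k).re := by
  have := re_inner_entOp_le ρ.pos hl (ket k)
  rw [norm_ket] at this
  simp only [entry, entDiag]
  nlinarith

/-- (1c) -/
lemma entDiag_le_negMulLog (k : Occ n) : entDiag ρ k ≤ Real.negMulLog (entry ρ.op k k).re :=
  re_inner_entOp_le_negMulLog ρ.pos (ket k) (norm_ket k)

lemma hasEntropy_iff (s : ℝ) : HasEntropy ρ s ↔ HasSum (entDiag ρ) s := Iff.rfl

lemma hasEntropy_unique {s t : ℝ} (hs : HasEntropy ρ s) (ht : HasEntropy ρ t) : s = t :=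
  HasSum.unique hs ht

lemma hasEntropy_nonneg {s : ℝ} (hs : HasEntropy ρ s) : 0 ≤ s :=
  ((hasEntropy_iff ρ s).1 hs).nonneg fun k => entDiag_nonneg ρ k

/-- (2) Gibbs inequality with positive summable weights in the number basis. -/
theorem gibbs (q : Occ n → ℝ) (hq : ∀ k, 0 < q k) (hqs : Summable q)
    (hρq : Summable fun k => (entry ρ.op k k).re * Real.log (q k)) :
    ∃ s, HasEntropy ρ s ∧ 0 ≤ s ∧
      s ≤ -(∑' k, (entry ρ.op k k).re * Real.log (q k)) + (∑' k, q k) - 1 := by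
  have hub : HasSum (fun k => -((entry ρ.op k k).re * Real.log (q k)) + q k - (entry ρ.op k k).re)
      (-(∑' k, (entry ρ.op k k).re * Real.log (q k)) + (∑' k, q k) - 1) :=
    (hρq.hasSum.neg.add hqs.hasSum).sub ρ.traceOne
  have hsum : Summable (entDiag ρ) :=
    Summable.of_nonneg_of_le (entDiag_nonneg ρ) (fun k => entDiag_le ρ k (hq k)) hub.summable
  refine ⟨∑' k, entDiag ρ k, (hasEntropy_iff ρ _).2 hsum.hasSum,
    tsum_nonneg (entDiag_nonneg ρ), ?_⟩
  exact hasSum_le (fun k => entDiag_le ρ k (hq k)) hsum.hasSum hub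

/-- (2') Gibbs inequality, upper bound for a given entropy value. -/
theorem gibbs_le {s : ℝ} (hs : HasEntropy ρ s) (q : Occ n → ℝ) (hq : ∀ k, 0 < q k)
    (hqs : Summable q) (hρq : Summable fun k => (entry ρ.op k k).re * Real.log (q k)) :
    s ≤ -(∑' k, (entry ρ.op k k).re * Real.log (q k)) + (∑' k, q k) - 1 := by
  obtain ⟨t, ht, -, hle⟩ := gibbs ρ q hq hqs hρq
  rwa [hasEntropy_unique ρ hs ht]

end Fock

/-! ## thermal weights -/

/-- product of one-dimensional sums -/
lemma hasSum_prod_occ {n : ℕ} (f : Fin n → ℕ → ℝ) (s : Fin n → ℝ)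
    (hf : ∀ j m, 0 ≤ f j m) (hs : ∀ j, HasSum (f j) (s j)) :
    HasSum (fun k : Fin n → ℕ => ∏ j, f j (k j)) (∏ j, s j) := by
  induction n with
  | zero =>
    simp [hasSum_unique]
  | succ n ih =>
    have ih' := ih (fun j : Fin n => f j.succ) (fun j => s j.succ)
      (fun j m => hf _ m) (fun j => hs _)
    have h0 := hs 0
    have hF : (0 : ℕ → ℝ) ≤ f 0 := fun m => hf 0 m
    have hG : (0 : (Fin n → ℕ) → ℝ) ≤ fun k : Fin n → ℕ => ∏ j : Fin n, f j.succ (k j) :=
      fun k => Finset.prod_nonneg fun j _ => hf _ _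
    have s1 : Summable (f 0) := h0.summable
    have s2 : Summable (fun k : Fin n → ℕ => ∏ j : Fin n, f j.succ (k j)) := ih'.summable
    generalize hg : (fun k : Fin n → ℕ => ∏ j : Fin n, f j.succ (k j)) = g at s2 hG ih'
    have hsm := Summable.mul_of_nonneg s1 s2 hF hG
    have h1 := HasSum.mul h0 ih' hsm
    subst hg
    rw [Fin.prod_univ_succ]
    have e : (fun x : ℕ × (Fin n → ℕ) => f 0 x.1 * ∏ j : Fin n, f j.succ (x.2 j))
        = (fun k : Fin (n + 1) → ℕ => ∏ j, f j (k j)) ∘ (Fin.consEquiv fun _ : Fin (n + 1) => ℕ) := by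
      funext x
      simp [Fin.consEquiv, Fin.prod_univ_succ]
    rw [e] at h1
    exact ((Fin.consEquiv fun _ : Fin (n + 1) => ℕ).hasSum_iff).1 h1

/-- one-mode thermal weights, mean photon number `N` -/
noncomputable def thW1 (N : ℝ) (m : ℕ) : ℝ := (N + 1)⁻¹ * (N / (N + 1)) ^ m

/-- `n`-mode thermal weights -/
noncomputable def thW {n : ℕ} (N : ℝ) (k : Occ n) : ℝ := ∏ j, thW1 N (k j)

lemma thW1_nonneg {N : ℝ} (hN : 0 ≤ N) (m : ℕ) : 0 ≤ thW1 N m := by
  unfold thW1; positivity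

lemma thW1_pos {N : ℝ} (hN : 0 < N) (m : ℕ) : 0 < thW1 N m := by
  unfold thW1; positivity

lemma hasSum_thW1 {N : ℝ} (hN : 0 ≤ N) : HasSum (thW1 N) 1 := by
  have h1 : N / (N + 1) < 1 := by rw [div_lt_one (by positivity)]; linarith
  have h := (hasSum_geometric_of_lt_one (by positivity : 0 ≤ N / (N + 1)) h1).mul_left (N + 1)⁻¹
  have e : (N + 1)⁻¹ * (1 - N / (N + 1))⁻¹ = 1 := by
    have : (N + 1) ≠ 0 := by positivity
    have h2 : 1 - N / (N + 1) = (N + 1)⁻¹ := by field_simp; ring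
    rw [h2, inv_inv]; field_simp
  rw [e] at h
  exact h

lemma hasSum_mul_thW1 {N : ℝ} (hN : 0 ≤ N) : HasSum (fun m : ℕ => (m : ℝ) * thW1 N m) N := by
  have h1 : N / (N + 1) < 1 := by rw [div_lt_one (by positivity)]; linarith
  have h0 : ‖N / (N + 1)‖ < 1 := by rw [Real.norm_of_nonneg (by positivity)]; exact h1
  have h := (hasSum_coe_mul_geometric_of_norm_lt_one h0).mul_left (N + 1)⁻¹
  have hne : (N + 1) ≠ 0 := by positivity
  have e : (N + 1)⁻¹ * (N / (N + 1) / (1 - N / (N + 1)) ^ 2) = N := by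
    have h2 : 1 - N / (N + 1) = (N + 1)⁻¹ := by field_simp; ring
    rw [h2]; field_simp
  rw [e] at h
  have e2 : (fun m : ℕ => (m : ℝ) * thW1 N m)
      = fun m : ℕ => (N + 1)⁻¹ * ((m : ℝ) * (N / (N + 1)) ^ m) := by
    funext m; unfold thW1; ring
  rw [e2]
  exact h

lemma thW_nonneg {n : ℕ} {N : ℝ} (hN : 0 ≤ N) (k : Occ n) : 0 ≤ thW N k :=
  Finset.prod_nonneg fun _ _ => thW1_nonneg hN _

lemma thW_pos {n : ℕ} {N : ℝ} (hN : 0 < N) (k : Occ n) : 0 < thW N k :=
  Finset.prod_pos fun _ _ => thW1_pos hN _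

lemma hasSum_thW {n : ℕ} {N : ℝ} (hN : 0 ≤ N) : HasSum (thW N : Occ n → ℝ) 1 := by
  have := hasSum_prod_occ (fun _ : Fin n => thW1 N) (fun _ => 1) (fun _ m => thW1_nonneg hN m)
    (fun _ => hasSum_thW1 hN)
  rw [Finset.prod_const_one] at this
  exact this

lemma hasSum_coord_thW {n : ℕ} {N : ℝ} (hN : 0 ≤ N) (j : Fin n) :
    HasSum (fun k : Occ n => (k j : ℝ) * thW N k) N := by
  have := hasSum_prod_occ (fun i : Fin n => fun m => (if i = j then (m : ℝ) else 1) * thW1 N m)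
    (fun i => if i = j then N else 1)
    (fun i m => by
      have := thW1_nonneg hN m
      split_ifs <;> positivity)
    (fun i => by
      split_ifs with h
      · simpa using hasSum_mul_thW1 hN
      · simpa using hasSum_thW1 hN)
  have e1 : ∏ i : Fin n, (if i = j then N else 1) = N := by simp
  have e2 : (fun k : Occ n => (k j : ℝ) * thW N k)
      = fun k : Occ n => ∏ i, ((if i = j then (k i : ℝ) else 1) * thW1 N (k i)) := by
    funext k
    rw [Finset.prod_mul_distrib]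
    simp [thW]
  rw [e1] at this
  rw [e2]
  exact this

lemma hasSum_total_thW {n : ℕ} {N : ℝ} (hN : 0 ≤ N) :
    HasSum (fun k : Occ n => ((∑ j, k j : ℕ) : ℝ) * thW N k) (n * N) := by
  have := hasSum_sum (f := fun (j : Fin n) (k : Occ n) => (k j : ℝ) * thW N k)
    (a := fun _ => N) (s := Finset.univ) fun j _ => hasSum_coord_thW hN j
  simpa [Finset.sum_mul] using this

lemma log_thW {n : ℕ} {N : ℝ} (hN : 0 < N) (k : Occ n) :
    Real.log (thW N k) = -(n * Real.log (N + 1))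
      - ((∑ j, k j : ℕ) : ℝ) * (Real.log (N + 1) - Real.log N) := by
  have h1 : ∀ m : ℕ, Real.log (thW1 N m) = -Real.log (N + 1)
      - (m : ℝ) * (Real.log (N + 1) - Real.log N) := by
    intro m
    have hne : (N + 1) ≠ 0 := by positivity
    rw [thW1, Real.log_mul (by positivity) (by positivity), Real.log_inv, Real.log_pow,
      Real.log_div hN.ne' hne]
    ring
  rw [thW, Real.log_prod (fun j _ => (thW1_pos hN _).ne')]
  simp only [h1, Finset.sum_sub_distrib, Finset.sum_neg_distrib, Finset.sum_const,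
    Finset.card_univ, Fintype.card_fin, nsmul_eq_mul, ← Finset.sum_mul]
  push_cast
  ring

/-! ## finite energy implies finite entropy, bounded by the thermal one -/

section Energy

variable {n : ℕ} (ρ : FockState n)

/-- total photon number of an occupation tuple, as a real number -/
noncomputable def tot (k : Occ n) : ℝ := ((∑ j, k j : ℕ) : ℝ)

lemma tot_nonneg (k : Occ n) : 0 ≤ tot k := Nat.cast_nonneg _

/-- mean photon number -/
noncomputable def meanN : ℝ := ∑' k : Occ n, tot k * (entry ρ.op k k).re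

lemma finiteEnergy_iff : FiniteEnergy ρ ↔ Summable fun k : Occ n => tot k * (entry ρ.op k k).re :=
  Iff.rfl

lemma hasSum_meanN (hE : FiniteEnergy ρ) :
    HasSum (fun k : Occ n => tot k * (entry ρ.op k k).re) (meanN ρ) := hE.hasSum

lemma meanN_nonneg : 0 ≤ meanN ρ :=
  tsum_nonneg fun k => mul_nonneg (tot_nonneg k) (entry_re_nonneg ρ k)

/-- (3) with a free parameter `N > 0` (mean photon number per mode of the comparison state). -/
theorem exists_entropy_le (hE : FiniteEnergy ρ) :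
    ∃ s, HasEntropy ρ s ∧ 0 ≤ s ∧ ∀ N : ℝ, 0 < N →
      s ≤ n * Real.log (N + 1) + meanN ρ * (Real.log (N + 1) - Real.log N) := by
  have key : ∀ N : ℝ, 0 < N → HasSum (fun k : Occ n => (entry ρ.op k k).re * Real.log (thW N k))
      (-(n * Real.log (N + 1) + meanN ρ * (Real.log (N + 1) - Real.log N))) := by
    intro N hN
    have h1 := (ρ.traceOne.mul_right (-(n * Real.log (N + 1)))).sub
      ((hasSum_meanN ρ hE).mul_right (Real.log (N + 1) - Real.log N))
    have e : (fun k : Occ n => (entry ρ.op k k).re * Real.log (thW N k))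
        = fun k : Occ n => (entry ρ.op k k).re * (-(n * Real.log (N + 1)))
          - tot k * (entry ρ.op k k).re * (Real.log (N + 1) - Real.log N) := by
      funext k
      rw [log_thW hN, tot]
      ring
    have e2 : -(n * Real.log (N + 1) + meanN ρ * (Real.log (N + 1) - Real.log N))
        = 1 * (-(n * Real.log (N + 1))) - meanN ρ * (Real.log (N + 1) - Real.log N) := by ring
    rw [e, e2]
    exact h1
  obtain ⟨s, hs, hs0, -⟩ := gibbs ρ (thW 1) (fun k => thW_pos one_pos k)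
    (hasSum_thW zero_le_one).summable (key 1 one_pos).summable
  refine ⟨s, hs, hs0, fun N hN => ?_⟩
  have h2 := gibbs_le ρ hs (thW N) (fun k => thW_pos hN k) (hasSum_thW hN.le).summable
    (key N hN).summable
  rw [(key N hN).tsum_eq, (hasSum_thW hN.le).tsum_eq] at h2
  linarith

lemma gBose_zero : gBose 0 = 0 := by simp [gBose]

/-- (3) finite energy implies finite entropy `≤ n g(E/n)`. -/
theorem exists_entropy_le_gBose (hE : FiniteEnergy ρ) :
    ∃ s, HasEntropy ρ s ∧ 0 ≤ s ∧ s ≤ n * gBose (meanN ρ / n) := by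
  obtain ⟨s, hs, hs0, hle⟩ := exists_entropy_le ρ hE
  refine ⟨s, hs, hs0, ?_⟩
  rcases (meanN_nonneg ρ).eq_or_lt with h | h
  · rw [← h, zero_div, gBose_zero, mul_zero]
    have hlim : Filter.Tendsto (fun N : ℝ => (n : ℝ) * Real.log (N + 1))
        (nhdsWithin 0 (Set.Ioi 0)) (nhds (n * Real.log (0 + 1))) := by
      refine Filter.Tendsto.mono_left (ContinuousAt.tendsto ?_) nhdsWithin_le_nhds
      refine ContinuousAt.mul continuousAt_const (ContinuousAt.log (by fun_prop) (by norm_num))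
    rw [zero_add, Real.log_one, mul_zero] at hlim
    refine ge_of_tendsto hlim ?_
    filter_upwards [self_mem_nhdsWithin] with N hN
    have := hle N hN
    rw [← h, zero_mul, add_zero] at this
    exact this
  · rcases Nat.eq_zero_or_pos n with hn | hn
    · subst hn
      exfalso
      have : meanN ρ = 0 := by
        unfold meanN
        simp [tot]
      linarith
    · have hn' : (0 : ℝ) < n := by exact_mod_cast hn
      have hN : 0 < meanN ρ / n := by positivity
      have := hle _ hN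
      have e : (n : ℝ) * gBose (meanN ρ / n) = n * Real.log (meanN ρ / n + 1)
          + meanN ρ * (Real.log (meanN ρ / n + 1) - Real.log (meanN ρ / n)) := by
        unfold gBose
        have h3 : (n : ℝ) * (meanN ρ / n) = meanN ρ := by field_simp
        calc (n : ℝ) * ((meanN ρ / n + 1) * Real.log (meanN ρ / n + 1)
              - meanN ρ / n * Real.log (meanN ρ / n))
            = n * Real.log (meanN ρ / n + 1)
              + (n * (meanN ρ / n)) * (Real.log (meanN ρ / n + 1) - Real.log (meanN ρ / n)) := by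
              ring
          _ = _ := by rw [h3]
      rw [e]
      exact this

theorem entropy_le_gBose (hE : FiniteEnergy ρ) {s : ℝ} (hs : HasEntropy ρ s) :
    s ≤ n * gBose (meanN ρ / n) := by
  obtain ⟨t, ht, -, hle⟩ := exists_entropy_le_gBose ρ hE
  rwa [hasEntropy_unique ρ hs ht]

theorem entropy_le_thermal (hE : FiniteEnergy ρ) {s : ℝ} (hs : HasEntropy ρ s) {N : ℝ}
    (hN : 0 < N) :
    s ≤ n * Real.log (N + 1) + meanN ρ * (Real.log (N + 1) - Real.log N) := by
  obtain ⟨t, ht, -, hle⟩ := exists_entropy_le ρ hE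
  rw [hasEntropy_unique ρ hs ht]
  exact hle N hN

end Energy

end Crest.Agent.R331.Gibbs914
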