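import Mathlib
import Crest.Agent.R331.NetDefs_835

/-!
Row 331: operator half of (LINOP / OPI).  Everything is stated for weights on index sets (eigenbasis
pairs), with linear maps `T x` on finitely supported vectors of the `C` side.
-/

set_option autoImplicit false

open scoped ENNReal
open Crest.Agent.R331.NetDefs835

namespace Crest.Agent.R331.Net835

section Basic

variable {σC ι : Type*} {σ : ι → Type*} {T : ∀ x, (σC →₀ ℂ) →ₗ[ℂ] (σ x → ℂ)}

/-- multiply a finitely supported vector by a real function -/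
noncomputable def mulF (θ : σC → ℝ) (z : σC →₀ ℂ) : σC →₀ ℂ :=
  Finsupp.onFinset z.support (fun s => (θ s : ℂ) * z s) (by
    intro s hs
    rw [Finsupp.mem_support_iff]
    intro h
    apply hs
    simp [h])

@[simp] lemma mulF_apply (θ : σC → ℝ) (z : σC →₀ ℂ) (s : σC) : mulF θ z s = (θ s : ℂ) * z s := rfl

lemma mulF_add (θ η : σC → ℝ) (z : σC →₀ ℂ) :
    mulF (fun s => θ s + η s) z = mulF θ z + mulF η z := by
  ext s
  simp [add_mul]

lemma mulF_one (z : σC →₀ ℂ) : mulF (fun _ => 1) z = z := by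
  ext s
  simp

lemma enorm_sq_eq (a : ℂ) : ‖a‖ₑ ^ 2 = ENNReal.ofReal (‖a‖ ^ 2) := by
  rw [ENNReal.ofReal_pow (norm_nonneg _), ofReal_norm]

lemma ofReal_mul_enorm (r : ℝ) (hr : 0 ≤ r) (a : ℂ) :
    ENNReal.ofReal r * ‖a‖ₑ ^ 2 = ENNReal.ofReal (r * ‖a‖ ^ 2) := by
  rw [enorm_sq_eq, ← ENNReal.ofReal_mul hr]

/-- General "test vector" principle: if the weights `f` satisfy pointwise a variational upper bound by
finitely many good forms, with equality on the `C` side, then `f` is good. -/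
theorem good_of_split {m : ℕ} (fC : σC → ℝ) (f : ∀ x, σ x → ℝ)
    (aC : Fin m → σC → ℝ) (a : Fin m → ∀ x, σ x → ℝ)
    (ha : ∀ j, Good T (aC j) (a j)) (ha0 : ∀ j x s, 0 ≤ a j x s) (haC0 : ∀ j s, 0 ≤ aC j s)
    (hf0 : ∀ x s, 0 ≤ f x s)
    (θ : Fin m → σC → ℝ)
    (hC : ∀ s, ∑ j, aC j s * (θ j s) ^ 2 ≤ fC s)
    (hX : ∀ x (z : σC →₀ ℂ) (s : σ x),
      f x s * ‖T x z s‖ ^ 2 ≤ ∑ j, a j x s * ‖T x (mulF (θ j) z) s‖ ^ 2) :
    Good T fC f := by
  intro z
  calc ∑' p : (Σ x, σ x), ENNReal.ofReal (f p.1 p.2) * ‖T p.1 z p.2‖ₑ ^ 2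
      ≤ ∑' p : (Σ x, σ x), ∑ j, ENNReal.ofReal (a j p.1 p.2) * ‖T p.1 (mulF (θ j) z) p.2‖ₑ ^ 2 := by
        refine ENNReal.tsum_le_tsum fun p => ?_
        rw [ofReal_mul_enorm _ (hf0 _ _)]
        have : ∀ j ∈ Finset.univ, ENNReal.ofReal (a j p.1 p.2) * ‖T p.1 (mulF (θ j) z) p.2‖ₑ ^ 2
            = ENNReal.ofReal (a j p.1 p.2 * ‖T p.1 (mulF (θ j) z) p.2‖ ^ 2) := fun j _ =>
          ofReal_mul_enorm _ (ha0 _ _ _) _
        rw [Finset.sum_congr rfl this, ← ENNReal.ofReal_sum_of_nonneg]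
        · exact ENNReal.ofReal_le_ofReal (hX _ _ _)
        · intro j _
          exact mul_nonneg (ha0 _ _ _) (by positivity)
    _ = ∑ j, ∑' p : (Σ x, σ x), ENNReal.ofReal (a j p.1 p.2) * ‖T p.1 (mulF (θ j) z) p.2‖ₑ ^ 2 := by
        rw [Summable.tsum_finsetSum]
        intro j _
        exact ENNReal.summable
    _ ≤ ∑ j, ∑' s, ENNReal.ofReal (aC j s) * ‖mulF (θ j) z s‖ₑ ^ 2 :=
        Finset.sum_le_sum fun j _ => ha j _
    _ = ∑' s, ∑ j, ENNReal.ofReal (aC j s) * ‖mulF (θ j) z s‖ₑ ^ 2 := by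
        rw [Summable.tsum_finsetSum]
        intro j _
        exact ENNReal.summable
    _ ≤ ∑' s, ENNReal.ofReal (fC s) * ‖z s‖ₑ ^ 2 := by
        refine ENNReal.tsum_le_tsum fun s => ?_
        have hfC : 0 ≤ fC s :=
          le_trans (Finset.sum_nonneg fun j _ => mul_nonneg (haC0 j s) (sq_nonneg _)) (hC s)
        rw [ofReal_mul_enorm _ hfC]
        have : ∀ j ∈ Finset.univ, ENNReal.ofReal (aC j s) * ‖mulF (θ j) z s‖ₑ ^ 2
            = ENNReal.ofReal (aC j s * (θ j s) ^ 2 * ‖z s‖ ^ 2) := by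
          intro j _
          rw [ofReal_mul_enorm _ (haC0 _ _), mulF_apply, norm_mul, Complex.norm_real,
            Real.norm_eq_abs, mul_pow, sq_abs, mul_assoc]
        rw [Finset.sum_congr rfl this, ← ENNReal.ofReal_sum_of_nonneg]
        · apply ENNReal.ofReal_le_ofReal
          rw [← Finset.sum_mul]
          exact mul_le_mul_of_nonneg_right (hC s) (by positivity)
        · intro j _
          exact mul_nonneg (mul_nonneg (haC0 _ _) (sq_nonneg _)) (by positivity)

theorem good_mono {fC gC : σC → ℝ} {f g : ∀ x, σ x → ℝ} (h : Good T fC f)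
    (hC : ∀ s, fC s ≤ gC s) (hX : ∀ x s, g x s ≤ f x s) : Good T gC g := by
  intro z
  refine le_trans ?_ ((h z).trans ?_)
  · exact ENNReal.tsum_le_tsum fun p => by gcongr; exact hX _ _
  · exact ENNReal.tsum_le_tsum fun s => by gcongr; exact hC _

theorem good_add {fC gC : σC → ℝ} {f g : ∀ x, σ x → ℝ} (hf : Good T fC f) (hg : Good T gC g)
    (hfC : ∀ s, 0 ≤ fC s) (hgC : ∀ s, 0 ≤ gC s) (hf0 : ∀ x s, 0 ≤ f x s) (hg0 : ∀ x s, 0 ≤ g x s) :
    Good T (fun s => fC s + gC s) (fun x s => f x s + g x s) := by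
  intro z
  have h1 : ∀ p : (Σ x, σ x), ENNReal.ofReal (f p.1 p.2 + g p.1 p.2) * ‖T p.1 z p.2‖ₑ ^ 2
      = ENNReal.ofReal (f p.1 p.2) * ‖T p.1 z p.2‖ₑ ^ 2
        + ENNReal.ofReal (g p.1 p.2) * ‖T p.1 z p.2‖ₑ ^ 2 := by
    intro p
    rw [ENNReal.ofReal_add (hf0 _ _) (hg0 _ _), add_mul]
  have h2 : ∀ s, ENNReal.ofReal (fC s + gC s) * ‖z s‖ₑ ^ 2
      = ENNReal.ofReal (fC s) * ‖z s‖ₑ ^ 2 + ENNReal.ofReal (gC s) * ‖z s‖ₑ ^ 2 := by
    intro s
    rw [ENNReal.ofReal_add (hfC _) (hgC _), add_mul]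
  simp only [h1, h2]
  rw [ENNReal.tsum_add, ENNReal.tsum_add]
  exact add_le_add (hf z) (hg z)

theorem good_smul {fC : σC → ℝ} {f : ∀ x, σ x → ℝ} (hf : Good T fC f) (r : ℝ) (hr : 0 ≤ r) :
    Good T (fun s => r * fC s) (fun x s => r * f x s) := by
  intro z
  simp only [ENNReal.ofReal_mul hr, mul_assoc]
  rw [ENNReal.tsum_mul_left, ENNReal.tsum_mul_left]
  gcongr
  exact hf z

/-- scalar inequality: `par f g |a+b|² ≤ f|a|² + g|b|²`. -/
lemma par_le (f g : ℝ) (hf : 0 < f) (hg : 0 < g) (a b : ℂ) :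
    par f g * ‖a + b‖ ^ 2 ≤ f * ‖a‖ ^ 2 + g * ‖b‖ ^ 2 := by
  have h1 : ‖a + b‖ ^ 2 ≤ (‖a‖ + ‖b‖) ^ 2 := by
    gcongr
    exact norm_add_le _ _
  have hp : 0 ≤ par f g := by unfold par; positivity
  refine (mul_le_mul_of_nonneg_left h1 hp).trans ?_
  unfold par
  rw [div_mul_eq_mul_div, div_le_iff₀ (by positivity)]
  nlinarith [sq_nonneg (f * ‖a‖ - g * ‖b‖)]

theorem good_par {fC gC : σC → ℝ} {f g : ∀ x, σ x → ℝ} (hf : Good T fC f) (hg : Good T gC g)
    (hfC : ∀ s, 0 < fC s) (hgC : ∀ s, 0 < gC s) (hf0 : ∀ x s, 0 < f x s) (hg0 : ∀ x s, 0 < g x s) :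
    Good T (fun s => par (fC s) (gC s)) (fun x s => par (f x s) (g x s)) := by
  refine good_of_split _ _ ![fC, gC] ![f, g] ?_ ?_ ?_ ?_
    ![fun s => gC s / (fC s + gC s), fun s => fC s / (fC s + gC s)] ?_ ?_
  · intro j
    fin_cases j
    · exact hf
    · exact hg
  · intro j
    fin_cases j
    · exact fun x s => (hf0 x s).le
    · exact fun x s => (hg0 x s).le
  · intro j
    fin_cases j
    · exact fun s => (hfC s).le
    · exact fun s => (hgC s).le
  · intro x s
    have := hf0 x s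
    have := hg0 x s
    unfold par
    positivity
  · intro s
    have h1 := hfC s
    have h2 := hgC s
    simp only [Fin.sum_univ_two, Matrix.cons_val_zero, Matrix.cons_val_one]
    apply le_of_eq
    unfold par
    field_simp
    ring
  · intro x z s
    simp only [Fin.sum_univ_two, Matrix.cons_val_zero, Matrix.cons_val_one]
    have hz : z = mulF (fun s => gC s / (fC s + gC s)) z + mulF (fun s => fC s / (fC s + gC s)) z := by
      rw [← mulF_add]
      conv_lhs => rw [← mulF_one z]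
      congr 1
      funext s
      have h1 := hfC s
      have h2 := hgC s
      field_simp
      ring
    have hT : T x z s = T x (mulF (fun s => gC s / (fC s + gC s)) z) s
        + T x (mulF (fun s => fC s / (fC s + gC s)) z) s := by
      conv_lhs => rw [hz]
      rw [map_add]
      rfl
    rw [hT]
    exact par_le _ _ (hf0 x s) (hg0 x s) _ _

/-- Pointwise limits of good weights are good (finite sums on the `C` side, Fatou on the `X` side). -/
theorem good_lim {fC : σC → ℝ} {f : ∀ x, σ x → ℝ} (gC : ℕ → σC → ℝ) (g : ℕ → ∀ x, σ x → ℝ)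
    (hg : ∀ n, Good T (gC n) (g n))
    (hC : ∀ s, Filter.Tendsto (fun n => gC n s) Filter.atTop (nhds (fC s)))
    (hX : ∀ x s, Filter.Tendsto (fun n => g n x s) Filter.atTop (nhds (f x s))) :
    Good T fC f := by
  intro z
  rw [ENNReal.tsum_eq_iSup_sum]
  refine iSup_le fun S => ?_
  have hR : ∀ h : σC → ℝ, ∑' s, ENNReal.ofReal (h s) * ‖z s‖ₑ ^ 2
      = ∑ s ∈ z.support, ENNReal.ofReal (h s) * ‖z s‖ₑ ^ 2 := by
    intro h
    refine tsum_eq_sum fun s hs => ?_
    rw [Finsupp.notMem_support_iff] at hs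
    simp [hs]
  rw [hR]
  have hlimR : Filter.Tendsto (fun n => ∑ s ∈ z.support, ENNReal.ofReal (gC n s) * ‖z s‖ₑ ^ 2)
      Filter.atTop (nhds (∑ s ∈ z.support, ENNReal.ofReal (fC s) * ‖z s‖ₑ ^ 2)) := by
    refine tendsto_finsetSum _ fun s _ => ?_
    refine ENNReal.Tendsto.mul_const ((ENNReal.continuous_ofReal.tendsto _).comp (hC s)) ?_
    right
    finiteness
  have hlimL : Filter.Tendsto (fun n => ∑ p ∈ S, ENNReal.ofReal (g n p.1 p.2) * ‖T p.1 z p.2‖ₑ ^ 2)
      Filter.atTop (nhds (∑ p ∈ S, ENNReal.ofReal (f p.1 p.2) * ‖T p.1 z p.2‖ₑ ^ 2)) := by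
    refine tendsto_finsetSum _ fun p _ => ?_
    refine ENNReal.Tendsto.mul_const ((ENNReal.continuous_ofReal.tendsto _).comp (hX p.1 p.2)) ?_
    right
    finiteness
  refine le_of_tendsto_of_tendsto' hlimL hlimR fun n => ?_
  rw [← hR]
  exact (ENNReal.sum_le_tsum _).trans (hg n z)

lemma eval_pos {n : ℕ} (F : SP n) (x : Fin n → ℝ) (hx : ∀ i, 0 < x i) : 0 < F.eval x := by
  induction F with
  | var i => exact hx i
  | par F G hF hG =>
    simp only [SP.eval, par]
    positivity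
  | add F G hF hG =>
    simp only [SP.eval]
    positivity
  | smul r hr F hF =>
    simp only [SP.eval]
    positivity

/-- every network of good forms is good -/
theorem good_net {n : ℕ} (F : SP n) (xC : Fin n → σC → ℝ) (x : Fin n → ∀ i, σ i → ℝ)
    (hxC : ∀ i s, 0 < xC i s) (hx : ∀ i j s, 0 < x i j s) (h : ∀ i, Good T (xC i) (x i)) :
    Good T (fun s => F.eval (fun i => xC i s)) (fun j s => F.eval (fun i => x i j s)) := by
  induction F with
  | var i => exact h i
  | par F G hF hG =>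
    simp only [SP.eval]
    exact good_par hF hG (fun s => eval_pos _ _ fun i => hxC i s)
      (fun s => eval_pos _ _ fun i => hxC i s) (fun j s => eval_pos _ _ fun i => hx i j s)
      (fun j s => eval_pos _ _ fun i => hx i j s)
  | add F G hF hG =>
    simp only [SP.eval]
    exact good_add hF hG (fun s => (eval_pos _ _ fun i => hxC i s).le)
      (fun s => (eval_pos _ _ fun i => hxC i s).le) (fun j s => (eval_pos _ _ fun i => hx i j s).le)
      (fun j s => (eval_pos _ _ fun i => hx i j s).le)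
  | smul r hr F hF =>
    simp only [SP.eval]
    exact good_smul hF r hr.le

/-- Four good forms give a good `Z`. -/
theorem good_Z (hS : ScalarInput) (xC : Fin 4 → σC → ℝ) (x : Fin 4 → ∀ i, σ i → ℝ)
    (hxC : ∀ i s, 0 < xC i s) (hx : ∀ i j s, 0 < x i j s) (h : ∀ i, Good T (xC i) (x i)) :
    Good T (fun s => Z (fun i => xC i s)) (fun j s => Z (fun i => x i j s)) := by
  obtain ⟨N, hN⟩ := hS.exists_net
  exact good_lim (fun n s => (N n).eval (fun i => xC i s)) (fun n j s => (N n).eval (fun i => x i j s))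
    (fun n => good_net (N n) xC x hxC hx h) (fun s => hN _ fun i => hxC i s)
    (fun j s => hN _ fun i => hx i j s)

/-- Bridge function (Wheatstone): `min_v a(1+v)²/4 + d(1-v)²/4 + (w/2) v²`. -/
noncomputable def bridge (a d w : ℝ) : ℝ := (a + d) / 4 - (a - d) ^ 2 / (4 * (a + d + 2 * w))

lemma bridge_le (a d w v : ℝ) (ha : 0 < a) (hd : 0 < d) (hw : 0 < w) :
    bridge a d w ≤ a * ((1 + v) / 2) ^ 2 + d * ((1 - v) / 2) ^ 2 + w / 2 * v ^ 2 := by
  unfold bridge
  have hpos : 0 < a + d + 2 * w := by positivity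
  rw [sub_le_iff_le_add, ← sub_le_iff_le_add', le_div_iff₀ (by positivity)]
  nlinarith [sq_nonneg ((a + d + 2 * w) * v + (a - d))]

lemma bridge_eq (a d w : ℝ) (ha : 0 < a) (hd : 0 < d) (hw : 0 < w) :
    a * ((1 + (d - a) / (a + d + 2 * w)) / 2) ^ 2 + d * ((1 - (d - a) / (a + d + 2 * w)) / 2) ^ 2
      + w / 2 * ((d - a) / (a + d + 2 * w)) ^ 2 = bridge a d w := by
  unfold bridge
  have hpos : 0 < a + d + 2 * w := by positivity
  field_simp
  ring

lemma bridge_pos (a d w : ℝ) (ha : 0 < a) (hd : 0 < d) (hw : 0 < w) : 0 < bridge a d w := by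
  unfold bridge
  have hpos : 0 < a + d + 2 * w := by positivity
  rw [sub_pos, div_lt_div_iff₀ (by positivity) (by positivity)]
  nlinarith [mul_pos ha hd, mul_pos ha hw, mul_pos hd hw]

/-- complex form of the bridge inequality -/
lemma bridge_le_complex (a d w : ℝ) (ha : 0 < a) (hd : 0 < d) (hw : 0 < w) (α β : ℂ) :
    bridge a d w * ‖α + β‖ ^ 2 ≤ a * ‖α‖ ^ 2 + d * ‖β‖ ^ 2 + w / 2 * ‖α - β‖ ^ 2 := by
  have h1 : ‖α + β‖ ^ 2 + ‖α - β‖ ^ 2 = 2 * (‖α‖ ^ 2 + ‖β‖ ^ 2) := by
    have := parallelogram_law_with_norm ℝ α β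
    nlinarith [this]
  -- reduce to real case via coordinates
  have key : ∀ x y : ℝ, bridge a d w * (x + y) ^ 2 ≤ a * x ^ 2 + d * y ^ 2 + w / 2 * (x - y) ^ 2 := by
    intro x y
    by_cases hxy : x + y = 0
    · have : y = -x := by linarith
      subst this
      simp only [add_neg_cancel]
      nlinarith [sq_nonneg x, mul_nonneg ha.le (sq_nonneg x), mul_nonneg hd.le (sq_nonneg x),
        mul_nonneg hw.le (sq_nonneg x)]
    · have h := bridge_le a d w ((x - y) / (x + y)) ha hd hw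
      have h2 := mul_le_mul_of_nonneg_right h (sq_nonneg (x + y))
      refine h2.trans (le_of_eq ?_)
      field_simp
      ring
  have hre := key α.re β.re
  have him := key α.im β.im
  simp only [Complex.sq_norm, Complex.normSq_apply, Complex.add_re, Complex.add_im, Complex.sub_re,
    Complex.sub_im]
  nlinarith [hre, him]

theorem good_bridge {aC dC wC : σC → ℝ} {a d w : ∀ x, σ x → ℝ} (ha : Good T aC a)
    (hd : Good T dC d) (hw : Good T wC w)
    (haC : ∀ s, 0 < aC s) (hdC : ∀ s, 0 < dC s) (hwC : ∀ s, 0 < wC s)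
    (ha0 : ∀ x s, 0 < a x s) (hd0 : ∀ x s, 0 < d x s) (hw0 : ∀ x s, 0 < w x s) :
    Good T (fun s => bridge (aC s) (dC s) (wC s)) (fun x s => bridge (a x s) (d x s) (w x s)) := by
  set v : σC → ℝ := fun s => (dC s - aC s) / (aC s + dC s + 2 * wC s) with hv
  refine good_of_split _ _ ![aC, dC, fun s => (1 / 2) * wC s] ![a, d, fun x s => (1 / 2) * w x s]
    ?_ ?_ ?_ ?_ ![fun s => (1 + v s) / 2, fun s => (1 - v s) / 2, v] ?_ ?_
  · intro j
    fin_cases j
    · exact ha
    · exact hd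
    · exact good_smul hw _ (by norm_num)
  · intro j
    fin_cases j
    · exact fun x s => (ha0 x s).le
    · exact fun x s => (hd0 x s).le
    · exact fun x s => by
        have := hw0 x s
        show 0 ≤ (1 / 2) * w x s
        positivity
  · intro j
    fin_cases j
    · exact fun s => (haC s).le
    · exact fun s => (hdC s).le
    · exact fun s => by
        have := hwC s
        show 0 ≤ (1 / 2) * wC s
        positivity
  · intro x s
    exact (bridge_pos _ _ _ (ha0 x s) (hd0 x s) (hw0 x s)).le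
  · intro s
    rw [Fin.sum_univ_three]
    change aC s * ((1 + v s) / 2) ^ 2 + dC s * ((1 - v s) / 2) ^ 2 + (1 / 2 * wC s) * (v s) ^ 2 ≤ _
    have := bridge_eq (aC s) (dC s) (wC s) (haC s) (hdC s) (hwC s)
    apply le_of_eq
    rw [← this]
    simp only [hv]
    ring
  · intro x z s
    rw [Fin.sum_univ_three]
    change _ ≤ a x s * ‖T x (mulF (fun s => (1 + v s) / 2) z) s‖ ^ 2
      + d x s * ‖T x (mulF (fun s => (1 - v s) / 2) z) s‖ ^ 2
      + (1 / 2 * w x s) * ‖T x (mulF v z) s‖ ^ 2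
    have hz : z = mulF (fun s => (1 + v s) / 2) z + mulF (fun s => (1 - v s) / 2) z := by
      rw [← mulF_add]
      conv_lhs => rw [← mulF_one z]
      congr 1
      funext s
      ring
    have hz2 : mulF v z = mulF (fun s => (1 + v s) / 2) z - mulF (fun s => (1 - v s) / 2) z := by
      ext s
      simp only [mulF_apply, Finsupp.coe_sub, Pi.sub_apply]
      push_cast
      ring
    have hT : T x z s = T x (mulF (fun s => (1 + v s) / 2) z) s
        + T x (mulF (fun s => (1 - v s) / 2) z) s := by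
      conv_lhs => rw [hz]
      rw [map_add]
      rfl
    have hT2 : T x (mulF v z) s = T x (mulF (fun s => (1 + v s) / 2) z) s
        - T x (mulF (fun s => (1 - v s) / 2) z) s := by
      rw [hz2, map_sub]
      rfl
    rw [hT, hT2]
    have := bridge_le_complex (a x s) (d x s) (w x s) (ha0 x s) (hd0 x s) (hw0 x s)
      (T x (mulF (fun s => (1 + v s) / 2) z) s) (T x (mulF (fun s => (1 - v s) / 2) z) s)
    refine this.trans (le_of_eq ?_)
    ring

end Basic

end Crest.Agent.R331.Net835
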