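import Mathlib
import Crest.Agent.R331.NetDefs_835
import Crest.Agent.R331.Net_835

/-!
Row 331: the four-variable bridge mean `HH p q x y`, its superadditivity, homogeneity, monotonicity,
the slack inequality, and the closed formula on the curve `(u b, u (-b), u (-k), u k)`.
-/

set_option autoImplicit false

open scoped ENNReal
open Crest.Agent.R331.NetDefs835 Crest.Agent.R331.Net835

namespace Crest.Agent.R331.NetH835

/-! ### Monotonicity and homogeneity of networks -/

lemma par_mono {a b a' b' : ℝ} (ha : 0 < a) (hb : 0 < b) (haa : a ≤ a') (hbb : b ≤ b') :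
    par a b ≤ par a' b' := by
  unfold par
  have ha' : 0 < a' := ha.trans_le haa
  have hb' : 0 < b' := hb.trans_le hbb
  rw [div_le_div_iff₀ (by positivity) (by positivity)]
  nlinarith [mul_le_mul_of_nonneg_left hbb (mul_pos ha ha').le,
    mul_le_mul_of_nonneg_left haa (mul_pos hb hb').le]

lemma eval_mono {n : ℕ} (F : SP n) (x y : Fin n → ℝ) (hx : ∀ i, 0 < x i) (hxy : ∀ i, x i ≤ y i) :
    F.eval x ≤ F.eval y := by
  induction F with
  | var i => exact hxy i
  | par F G hF hG => exact par_mono (eval_pos F x hx) (eval_pos G x hx) hF hG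
  | add F G hF hG => exact add_le_add hF hG
  | smul r hr F hF => exact mul_le_mul_of_nonneg_left hF hr.le

lemma eval_smul {n : ℕ} (F : SP n) (x : Fin n → ℝ) (r : ℝ) (hr : r ≠ 0) :
    F.eval (fun i => r * x i) = r * F.eval x := by
  induction F with
  | var i => rfl
  | par F G hF hG =>
    simp only [SP.eval, NetDefs835.par]
    rw [hF, hG, ← mul_add]
    rw [show r * F.eval x * (r * G.eval x) = r * (r * (F.eval x * G.eval x)) by ring,
      mul_div_mul_left _ _ hr, mul_div_assoc]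
  | add F G hF hG =>
    simp only [SP.eval]
    rw [hF, hG]; ring
  | smul s hs F hF =>
    simp only [SP.eval]
    rw [hF]; ring

lemma Z_mono (hS : ScalarInput) (x y : Fin 4 → ℝ) (hx : ∀ i, 0 < x i) (hxy : ∀ i, x i ≤ y i) :
    Z x ≤ Z y := by
  obtain ⟨N, hN⟩ := hS.exists_net
  exact le_of_tendsto_of_tendsto' (hN x hx) (hN y fun i => (hx i).trans_le (hxy i))
    fun n => eval_mono _ _ _ hx hxy

lemma Z_smul (hS : ScalarInput) (x : Fin 4 → ℝ) (hx : ∀ i, 0 < x i) (r : ℝ) (hr : 0 < r) :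
    Z (fun i => r * x i) = r * Z x := by
  obtain ⟨N, hN⟩ := hS.exists_net
  refine tendsto_nhds_unique (hN (fun i => r * x i) fun i => mul_pos hr (hx i)) ?_
  simp only [eval_smul _ _ r hr.ne']
  exact (hN x hx).const_mul r

lemma cons4_pos {p q x y : ℝ} (hp : 0 < p) (hq : 0 < q) (hx : 0 < x) (hy : 0 < y) :
    ∀ i, 0 < (![p, q, x, y] : Fin 4 → ℝ) i := by
  intro i
  fin_cases i
  · exact hp
  · exact hq
  · exact hx
  · exact hy

lemma cons4_le {p q x y p' q' x' y' : ℝ} (hp : p ≤ p') (hq : q ≤ q') (hx : x ≤ x') (hy : y ≤ y') :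
    ∀ i, (![p, q, x, y] : Fin 4 → ℝ) i ≤ (![p', q', x', y'] : Fin 4 → ℝ) i := by
  intro i
  fin_cases i
  · exact hp
  · exact hq
  · exact hx
  · exact hy

lemma cons4_smul (r p q x y : ℝ) :
    (fun i => r * (![p, q, x, y] : Fin 4 → ℝ) i) = ![r * p, r * q, r * x, r * y] := by
  funext i
  fin_cases i <;> rfl

/-- crude upper bound of `Z` -/
lemma Z_le (hS : ScalarInput) {p q x y : ℝ} (hp : 0 < p) (hq : 0 < q) (hx : 0 < x) (hy : 0 < y) :
    Z ![p, q, x, y] ≤ (p + q + x + y) * Z ![1, 1, 1, 1] := by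
  have hs : 0 < p + q + x + y := by positivity
  rw [← Z_smul hS _ (cons4_pos one_pos one_pos one_pos one_pos) _ hs, cons4_smul]
  refine Z_mono hS _ _ (cons4_pos hp hq hx hy) (cons4_le ?_ ?_ ?_ ?_) <;> linarith

/-! ### Bridge: monotonicity -/

lemma bridge_mono {a d w a' d' w' : ℝ} (ha : 0 < a) (hd : 0 < d) (hw : 0 < w) (haa : a ≤ a')
    (hdd : d ≤ d') (hww : w ≤ w') : bridge a d w ≤ bridge a' d' w' := by
  rw [← bridge_eq a' d' w' (ha.trans_le haa) (hd.trans_le hdd) (hw.trans_le hww)]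
  refine (bridge_le a d w ((d' - a') / (a' + d' + 2 * w')) ha hd hw).trans ?_
  gcongr

lemma bridge_smul {a d w r : ℝ} (ha : 0 < a) (hd : 0 < d) (hw : 0 < w) (hr : 0 < r) :
    bridge (r * a) (r * d) (r * w) = r * bridge a d w := by
  unfold bridge
  have : 0 < a + d + 2 * w := by positivity
  field_simp

/-! ### The four-variable bridge mean -/

/-- The bridge mean. -/
noncomputable def HH (p q x y : ℝ) : ℝ := bridge (q + x) (p + y) (2 * Z ![p, q, x, y])

/-- Total conductance `q + x + p + y + 4 Z` (twice `S`). -/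
noncomputable def SS (p q x y : ℝ) : ℝ := (q + x) + (p + y) + 2 * (2 * Z ![p, q, x, y])

/-- Optimal potential splitting: fraction of `x`. -/
noncomputable def al (p q x y : ℝ) : ℝ := (p + y + 2 * Z ![p, q, x, y]) / SS p q x y

/-- Slack energy `x α² + y (1-α)²`. -/
noncomputable def ee (p q x y : ℝ) : ℝ :=
  x * (al p q x y) ^ 2 + y * (1 - al p q x y) ^ 2

section scalar

variable (hS : ScalarInput)
include hS

lemma HH_pos {p q x y : ℝ} (hp : 0 < p) (hq : 0 < q) (hx : 0 < x) (hy : 0 < y) : 0 < HH p q x y :=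
  bridge_pos _ _ _ (by positivity) (by positivity)
    (mul_pos two_pos (hS.pos _ (cons4_pos hp hq hx hy)))

lemma SS_pos {p q x y : ℝ} (hp : 0 < p) (hq : 0 < q) (hx : 0 < x) (hy : 0 < y) : 0 < SS p q x y := by
  unfold SS
  have := hS.pos _ (cons4_pos hp hq hx hy)
  positivity

lemma SS_le {p q x y : ℝ} (hp : 0 < p) (hq : 0 < q) (hx : 0 < x) (hy : 0 < y) :
    SS p q x y ≤ (1 + 4 * Z ![1, 1, 1, 1]) * (p + q + x + y) := by
  have := Z_le hS hp hq hx hy
  unfold SS
  nlinarith

lemma HH_smul {p q x y r : ℝ} (hp : 0 < p) (hq : 0 < q) (hx : 0 < x) (hy : 0 < y) (hr : 0 < r) :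
    HH (r * p) (r * q) (r * x) (r * y) = r * HH p q x y := by
  have h := Z_smul hS _ (cons4_pos hp hq hx hy) r hr
  rw [cons4_smul] at h
  unfold HH
  rw [h, show r * q + r * x = r * (q + x) by ring, show r * p + r * y = r * (p + y) by ring,
    show 2 * (r * Z ![p, q, x, y]) = r * (2 * Z ![p, q, x, y]) by ring]
  exact bridge_smul (by positivity) (by positivity)
    (mul_pos two_pos (hS.pos _ (cons4_pos hp hq hx hy))) hr

lemma HH_mono {p q x y p' q' x' y' : ℝ} (hp : 0 < p) (hq : 0 < q) (hx : 0 < x) (hy : 0 < y)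
    (hpp : p ≤ p') (hqq : q ≤ q') (hxx : x ≤ x') (hyy : y ≤ y') : HH p q x y ≤ HH p' q' x' y' := by
  unfold HH
  refine bridge_mono (by positivity) (by positivity)
    (mul_pos two_pos (hS.pos _ (cons4_pos hp hq hx hy))) (by linarith) (by linarith) ?_
  have := Z_mono hS _ _ (cons4_pos hp hq hx hy) (cons4_le hpp hqq hxx hyy)
  linarith

lemma al_mem {p q x y : ℝ} (hp : 0 < p) (hq : 0 < q) (hx : 0 < x) (hy : 0 < y) :
    0 < al p q x y ∧ 0 < 1 - al p q x y := by
  have h1 := SS_pos hS hp hq hx hy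
  have h2 := hS.pos _ (cons4_pos hp hq hx hy)
  unfold al
  refine ⟨by positivity, ?_⟩
  rw [sub_pos, div_lt_one h1]
  unfold SS
  nlinarith

/-- Current balance / optimality: `HH = (q + x) α² + (p + y) (1-α)² + Z (2α-1)²`. -/
lemma HH_eq {p q x y : ℝ} (hp : 0 < p) (hq : 0 < q) (hx : 0 < x) (hy : 0 < y) :
    (q + x) * (al p q x y) ^ 2 + (p + y) * (1 - al p q x y) ^ 2
      + Z ![p, q, x, y] * (2 * al p q x y - 1) ^ 2 = HH p q x y := by
  have h1 := SS_pos hS hp hq hx hy
  have h2 := hS.pos _ (cons4_pos hp hq hx hy)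
  have := bridge_eq (q + x) (p + y) (2 * Z ![p, q, x, y]) (by positivity) (by positivity)
    (by positivity)
  unfold HH
  rw [← this]
  have hal : al p q x y = (1 + ((p + y) - (q + x)) / ((q + x) + (p + y) + 2 * (2 * Z ![p, q, x, y]))) / 2
      := by
    unfold al SS
    unfold SS at h1
    field_simp
    ring
  rw [hal]
  ring

/-- Slack inequality: if only the `p, q` budgets are enlarged by `r ≥ 1`, the conductance is at most
`r HH - (r-1) ee`. -/
lemma HH_slack {p q x y r : ℝ} (hp : 0 < p) (hq : 0 < q) (hx : 0 < x) (hy : 0 < y) (hr : 1 ≤ r) :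
    HH (r * p) (r * q) x y ≤ r * HH p q x y - (r - 1) * ee p q x y := by
  have hr0 : 0 < r := one_pos.trans_le hr
  have h2 := hS.pos _ (cons4_pos hp hq hx hy)
  have h3 := hS.pos _ (cons4_pos (mul_pos hr0 hp) (mul_pos hr0 hq) hx hy)
  have hZ : Z ![r * p, r * q, x, y] ≤ r * Z ![p, q, x, y] := by
    rw [← Z_smul hS _ (cons4_pos hp hq hx hy) r hr0, cons4_smul]
    refine Z_mono hS _ _ (cons4_pos (mul_pos hr0 hp) (mul_pos hr0 hq) hx hy)
      (cons4_le le_rfl le_rfl ?_ ?_) <;> nlinarith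
  have hb := bridge_le (r * q + x) (r * p + y) (2 * Z ![r * p, r * q, x, y]) (2 * al p q x y - 1)
    (by positivity) (by positivity) (by positivity)
  have e1 : (1 + (2 * al p q x y - 1)) / 2 = al p q x y := by ring
  have e2 : (1 - (2 * al p q x y - 1)) / 2 = 1 - al p q x y := by ring
  rw [e1, e2] at hb
  have hE := HH_eq hS hp hq hx hy
  change HH (r * p) (r * q) x y ≤ _ at hb
  refine hb.trans ?_
  unfold ee
  rw [← hE]
  have h4 : Z ![r * p, r * q, x, y] * (2 * al p q x y - 1) ^ 2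
      ≤ r * Z ![p, q, x, y] * (2 * al p q x y - 1) ^ 2 :=
    mul_le_mul_of_nonneg_right hZ (sq_nonneg _)
  nlinarith [h4]

lemma ee_pos {p q x y : ℝ} (hp : 0 < p) (hq : 0 < q) (hx : 0 < x) (hy : 0 < y) : 0 < ee p q x y := by
  obtain ⟨h1, h2⟩ := al_mem hS hp hq hx hy
  unfold ee
  positivity

/-- `ee` dominates the `p,q`-mixture: crude lower bound. -/
lemma ee_ge {p q x y : ℝ} (hp : 0 < p) (hq : 0 < q) (hx : 0 < x) (hy : 0 < y) (m : ℝ) (hm : 0 < m)
    (hmp : m ≤ p) (hmq : m ≤ q) :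
    (x + y) / 2 * (m / ((1 + 4 * Z ![1, 1, 1, 1]) * (p + q + x + y))) ^ 2 ≤ ee p q x y := by
  have h1 := SS_pos hS hp hq hx hy
  have hSS := SS_le hS hp hq hx hy
  have h2 := hS.pos _ (cons4_pos hp hq hx hy)
  have hz := hS.pos _ (cons4_pos one_pos one_pos one_pos one_pos)
  set c := m / ((1 + 4 * Z ![1, 1, 1, 1]) * (p + q + x + y)) with hc
  have hc0 : 0 < c := by positivity
  have ha : c ≤ al p q x y := by
    unfold al
    rw [hc, div_le_div_iff₀ (by positivity) h1]
    calc m * SS p q x y ≤ m * ((1 + 4 * Z ![1, 1, 1, 1]) * (p + q + x + y)) := by gcongr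
      _ ≤ _ := by
        gcongr
        linarith
  have hb : c ≤ 1 - al p q x y := by
    have e : 1 - al p q x y = (q + x + 2 * Z ![p, q, x, y]) / SS p q x y := by
      unfold al
      rw [eq_div_iff h1.ne', sub_mul, div_mul_cancel₀ _ h1.ne']
      unfold SS
      ring
    rw [e, hc, div_le_div_iff₀ (by positivity) h1]
    calc m * SS p q x y ≤ m * ((1 + 4 * Z ![1, 1, 1, 1]) * (p + q + x + y)) := by gcongr
      _ ≤ _ := by
        gcongr
        linarith
  unfold ee
  have h5 : c ^ 2 ≤ (al p q x y) ^ 2 := by gcongr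
  have h6 : c ^ 2 ≤ (1 - al p q x y) ^ 2 := by gcongr
  have h7 : x * c ^ 2 ≤ x * (al p q x y) ^ 2 := by gcongr
  have h8 : y * c ^ 2 ≤ y * (1 - al p q x y) ^ 2 := by gcongr
  have h9 : 0 ≤ (x + y) * c ^ 2 := by positivity
  nlinarith

end scalar

/-! ### The curve `u` -/

lemma u_neg (t : ℝ) : u (-t) = u t + t := by
  unfold u
  by_cases h : t = 0
  · simp [h]
  · have h' : -t ≠ 0 := neg_ne_zero.mpr h
    rw [if_neg h, if_neg h']
    have h1 : Real.exp t - 1 ≠ 0 := by
      intro h2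
      apply h
      have : Real.exp t = 1 := by linarith
      simpa using this
    have h3 : Real.exp (-t) - 1 ≠ 0 := by
      intro h2
      apply h'
      have : Real.exp (-t) = 1 := by linarith
      simpa using this
    rw [div_add' _ _ _ h1, div_eq_div_iff h3 h1]
    have h4 : Real.exp (-t) * Real.exp t = 1 := by
      rw [← Real.exp_add]; simp
    linear_combination (-t) * h4

lemma u_pos (t : ℝ) : 0 < u t := by
  unfold u
  split_ifs with h
  · exact one_pos
  · rcases lt_or_gt_of_ne h with h | h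
    · apply div_pos_of_neg_of_neg h
      have : Real.exp t < 1 := by
        rw [← Real.exp_zero]; exact Real.exp_lt_exp.mpr h
      linarith
    · apply div_pos h
      have : 1 < Real.exp t := Real.one_lt_exp_iff.mpr h
      linarith

lemma u_le_one {t : ℝ} (ht : 0 ≤ t) : u t ≤ 1 := by
  unfold u
  split_ifs with h
  · exact le_rfl
  · have h1 : 0 < t := lt_of_le_of_ne ht (Ne.symm h)
    have h2 : 1 < Real.exp t := Real.one_lt_exp_iff.mpr h1
    rw [div_le_one (by linarith)]
    have := Real.add_one_le_exp t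
    linarith

lemma one_le_u_neg {t : ℝ} (ht : 0 ≤ t) : 1 ≤ u (-t) := by
  unfold u
  split_ifs with h
  · exact le_rfl
  · have h0 : t ≠ 0 := by
      intro h'
      apply h
      simp [h']
    have h1 : 0 < t := lt_of_le_of_ne ht (Ne.symm h0)
    have h2 : Real.exp (-t) < 1 := by
      rw [← Real.exp_zero]; exact Real.exp_lt_exp.mpr (by linarith)
    rw [le_div_iff_of_neg (by linarith)]
    have := Real.add_one_le_exp (-t)
    linarith

/-- `σ k = u k + u (-k)` lies in `[1, 2 + |k|]`. -/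
lemma sig_bounds (k : ℝ) : 1 ≤ u k + u (-k) ∧ u k + u (-k) ≤ 2 + |k| := by
  rcases le_total 0 k with h | h
  · have h1 := u_le_one h
    have h2 := one_le_u_neg h
    have h3 := u_neg k
    have h4 := u_pos k
    rw [abs_of_nonneg h]
    constructor <;> linarith
  · have h' : 0 ≤ -k := by linarith
    have h1 := u_le_one h'
    have h2 := one_le_u_neg h'
    rw [neg_neg] at h2
    have h3 := u_neg k
    have h4 := u_pos (-k)
    rw [abs_of_nonpos h]
    constructor <;> linarith

/-- `q b k = H`: the bridge mean on the curve. -/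
noncomputable def qH (b k : ℝ) : ℝ := HH (u b) (u (-b)) (u (-k)) (u k)

/-- slack energy on the curve -/
noncomputable def eH (b k : ℝ) : ℝ := ee (u b) (u (-b)) (u (-k)) (u k)

section curve

variable (hS : ScalarInput)
include hS

lemma SS_mul (b k : ℝ) :
    SS (u b) (u (-b)) (u (-k)) (u k) * ((u b + u (-b)) - (u k + u (-k))) = b ^ 2 - k ^ 2 := by
  have h := hS.formula b (-k)
  rw [neg_neg] at h
  unfold SS
  rw [u_neg b, u_neg k] at *
  linear_combination 4 * h

/-- The identity `(b - k) q b k = b u k - k u b`. -/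
theorem qH_identity (b k : ℝ) : (b - k) * qH b k = b * u k - k * u b := by
  have hSSp := SS_pos hS (u_pos b) (u_pos (-b)) (u_pos (-k)) (u_pos k)
  have h := SS_mul hS b k
  unfold qH HH bridge
  change (b - k) * ((u (-b) + u (-k) + (u b + u k)) / 4 - (u (-b) + u (-k) - (u b + u k)) ^ 2
    / (4 * SS (u b) (u (-b)) (u (-k)) (u k))) = _
  set s := SS (u b) (u (-b)) (u (-k)) (u k) with hs
  rw [u_neg b, u_neg k] at *
  field_simp
  linear_combination (b + k) * h

lemma qH_pos (b k : ℝ) : 0 < qH b k := HH_pos hS (u_pos _) (u_pos _) (u_pos _) (u_pos _)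

lemma eH_pos (b k : ℝ) : 0 < eH b k := ee_pos hS (u_pos _) (u_pos _) (u_pos _) (u_pos _)

/-- constant in the lower bound of the slack -/
noncomputable def cb (b : ℝ) : ℝ :=
  (min (u b) (u (-b)) / ((1 + 4 * Z ![1, 1, 1, 1]) * (1 + (u b + u (-b))))) ^ 2 / 2

lemma cb_pos (b : ℝ) : 0 < cb b := by
  have hz := hS.pos _ (cons4_pos one_pos one_pos one_pos one_pos)
  have h1 := u_pos b
  have h2 := u_pos (-b)
  unfold cb
  have : 0 < min (u b) (u (-b)) := lt_min h1 h2
  positivity

/-- `e(k) ≥ c_b / (2 + |k|)`. -/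
theorem eH_ge (b k : ℝ) : cb b / (2 + |k|) ≤ eH b k := by
  have hz := hS.pos _ (cons4_pos one_pos one_pos one_pos one_pos)
  have hp := u_pos b
  have hq := u_pos (-b)
  have hx := u_pos (-k)
  have hy := u_pos k
  have hm : 0 < min (u b) (u (-b)) := lt_min hp hq
  refine le_trans ?_ (ee_ge hS hp hq hx hy (min (u b) (u (-b))) hm (min_le_left _ _)
    (min_le_right _ _))
  obtain ⟨h1, h2⟩ := sig_bounds k
  set m := min (u b) (u (-b)) with hmdef
  set z := Z ![1, 1, 1, 1] with hzdef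
  set σb := u b + u (-b) with hσb
  have hσb0 : 0 < σb := by positivity
  have hsum : u (-k) + u k = u k + u (-k) := add_comm _ _
  set σk := u k + u (-k) with hσk
  have h3 : u b + u (-b) + u (-k) + u k = σb + σk := by
    rw [hσb, hσk]; ring
  rw [h3, hsum]
  have hσk0 : 0 < σk := by positivity
  -- σb + σk ≤ (1 + σb) σk
  have h4 : σb + σk ≤ (1 + σb) * σk := by nlinarith
  have h5 : m / ((1 + 4 * z) * ((1 + σb) * σk)) ≤ m / ((1 + 4 * z) * (σb + σk)) := by
    gcongr
  have h6 : (m / ((1 + 4 * z) * ((1 + σb) * σk))) ^ 2 ≤ (m / ((1 + 4 * z) * (σb + σk))) ^ 2 := by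
    gcongr
  have h7 : σk / 2 * (m / ((1 + 4 * z) * ((1 + σb) * σk))) ^ 2
      ≤ σk / 2 * (m / ((1 + 4 * z) * (σb + σk))) ^ 2 := by
    gcongr
  refine le_trans ?_ h7
  have h8 : σk / 2 * (m / ((1 + 4 * z) * ((1 + σb) * σk))) ^ 2 = cb b / σk := by
    unfold cb
    rw [← hmdef, ← hzdef, ← hσb]
    field_simp
  rw [h8]
  have := cb_pos hS b
  gcongr

end curve

/-! ### Superadditivity -/

section Good

variable {σC ι : Type*} {σ : ι → Type*} {T : ∀ x, (σC →₀ ℂ) →ₗ[ℂ] (σ x → ℂ)}

/-- Four good forms give a good bridge mean. -/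
theorem good_HH (hS : ScalarInput) {pC qC xC yC : σC → ℝ} {p q x y : ∀ j, σ j → ℝ}
    (hpC : ∀ s, 0 < pC s) (hqC : ∀ s, 0 < qC s) (hxC : ∀ s, 0 < xC s) (hyC : ∀ s, 0 < yC s)
    (hp : ∀ j s, 0 < p j s) (hq : ∀ j s, 0 < q j s) (hx : ∀ j s, 0 < x j s) (hy : ∀ j s, 0 < y j s)
    (Gp : Good T pC p) (Gq : Good T qC q) (Gx : Good T xC x) (Gy : Good T yC y) :
    Good T (fun s => HH (pC s) (qC s) (xC s) (yC s)) (fun j s => HH (p j s) (q j s) (x j s) (y j s)) := by
  have hZ : Good T (fun s => Z ![pC s, qC s, xC s, yC s])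
      (fun j s => Z ![p j s, q j s, x j s, y j s]) := by
    have h := good_Z (T := T) hS (fun i s => (![pC s, qC s, xC s, yC s] : Fin 4 → ℝ) i)
      (fun i j s => (![p j s, q j s, x j s, y j s] : Fin 4 → ℝ) i)
      (fun i s => cons4_pos (hpC s) (hqC s) (hxC s) (hyC s) i)
      (fun i j s => cons4_pos (hp j s) (hq j s) (hx j s) (hy j s) i) (by
        intro i
        fin_cases i
        · exact Gp
        · exact Gq
        · exact Gx
        · exact Gy)
    exact h
  have hqx := good_add Gq Gx (fun s => (hqC s).le) (fun s => (hxC s).le) (fun j s => (hq j s).le)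
    (fun j s => (hx j s).le)
  have hpy := good_add Gp Gy (fun s => (hpC s).le) (fun s => (hyC s).le) (fun j s => (hp j s).le)
    (fun j s => (hy j s).le)
  have hZC : ∀ s, 0 < Z ![pC s, qC s, xC s, yC s] := fun s =>
    hS.pos _ (cons4_pos (hpC s) (hqC s) (hxC s) (hyC s))
  have hZX : ∀ j s, 0 < Z ![p j s, q j s, x j s, y j s] := fun j s =>
    hS.pos _ (cons4_pos (hp j s) (hq j s) (hx j s) (hy j s))
  exact good_bridge hqx hpy (good_smul hZ 2 (by norm_num)) (fun s => add_pos (hqC s) (hxC s))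
    (fun s => add_pos (hpC s) (hyC s)) (fun s => mul_pos two_pos (hZC s))
    (fun j s => add_pos (hq j s) (hx j s))
    (fun j s => add_pos (hp j s) (hy j s)) (fun j s => mul_pos two_pos (hZX j s))

/-- Slack form. -/
theorem good_HH_slack (hS : ScalarInput) {pC qC xC yC : σC → ℝ} {p q x y : ∀ j, σ j → ℝ}
    (hpC : ∀ s, 0 < pC s) (hqC : ∀ s, 0 < qC s) (hxC : ∀ s, 0 < xC s) (hyC : ∀ s, 0 < yC s)
    (hp : ∀ j s, 0 < p j s) (hq : ∀ j s, 0 < q j s) (hx : ∀ j s, 0 < x j s) (hy : ∀ j s, 0 < y j s)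
    {r : ℝ} (hr : 1 ≤ r)
    (Gp : Good T (fun s => r * pC s) p) (Gq : Good T (fun s => r * qC s) q) (Gx : Good T xC x)
    (Gy : Good T yC y) :
    Good T (fun s => r * HH (pC s) (qC s) (xC s) (yC s) - (r - 1) * ee (pC s) (qC s) (xC s) (yC s))
      (fun j s => HH (p j s) (q j s) (x j s) (y j s)) := by
  have hr0 : 0 < r := one_pos.trans_le hr
  exact good_mono (good_HH hS (fun s => mul_pos hr0 (hpC s)) (fun s => mul_pos hr0 (hqC s)) hxC hyC
    hp hq hx hy Gp Gq Gx Gy) (fun s => HH_slack hS (hpC s) (hqC s) (hxC s) (hyC s) hr)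
    (fun _ _ => le_rfl)

end Good

end Crest.Agent.R331.NetH835
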