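import Mathlib

/-! # Row 331 (EPnI): superadditivity of the Dirichlet means `Φ(β; x)` along a linear map
(elementary replacement of the Pick-function argument; recursion of helper776).

Everything is diagonal: `g i c` (resp. `h i s`) are four positive weights on a finite index set, `T`
is an arbitrary linear map.  If `T` is contractive for the four weighted norms, it is contractive for
the weights `Φ β (g · c)`. -/

set_option autoImplicit false

open Finset Filter Topology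

namespace Crest.Agent.R331.Phi712

/-- `β + e_i` -/
def inc (β : Fin 4 → ℕ) (i : Fin 4) : Fin 4 → ℕ := Function.update β i (β i + 1)

/-- `|β|` -/
def tot (β : Fin 4 → ℕ) : ℕ := ∑ i, β i

lemma tot_inc (β : Fin 4 → ℕ) (i : Fin 4) : tot (inc β i) = tot β + 1 := by
  unfold tot inc
  rw [Finset.sum_update_of_mem (mem_univ i)]
  have h := Finset.add_sum_erase univ β (mem_univ i)
  rw [← Finset.sdiff_singleton_eq_erase] at h
  omega

lemma one_le_inc {β : Fin 4 → ℕ} (h : ∀ i, 1 ≤ β i) (j : Fin 4) : ∀ i, 1 ≤ inc β j i := by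
  intro i
  unfold inc
  by_cases hij : i = j
  · subst hij; simp
  · rw [Function.update_of_ne hij]; exact h i

lemma four_le_tot {β : Fin 4 → ℕ} (h : ∀ i, 1 ≤ β i) : 4 ≤ tot β := by
  unfold tot
  calc 4 = ∑ _i : Fin 4, 1 := by simp
    _ ≤ _ := Finset.sum_le_sum fun i _ => h i

/-- the scalar facts on the Dirichlet means -/
structure PhiFacts (Φ : (Fin 4 → ℕ) → (Fin 4 → ℝ) → ℝ) : Prop where
  pos : ∀ β x, (∀ i, 1 ≤ β i) → (∀ i, 0 < x i) → 0 < Φ β x
  recu : ∀ β x, (∀ i, 1 ≤ β i) → (∀ i, 0 < x i) →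
    ((tot β : ℝ) - 2) * Φ β x =
      ∑ i, (β i : ℝ) * (x i * Φ (inc β i) x / (x i + Φ (inc β i) x))
  lower : ∀ β x m, (∀ i, 1 ≤ β i) → 0 < m → (∀ i, m ≤ x i) → m ≤ ((tot β : ℝ) - 2) * Φ β x
  upper : ∀ β x M, (∀ i, 1 ≤ β i) → (∀ i, 0 < x i) → (∀ i, x i ≤ M) →
    ((tot β : ℝ) - 2) * Φ β x ≤ M

/-- parallel sum inequality -/
lemma par {x y : ℝ} (hx : 0 < x) (hy : 0 < y) (a b : ℂ) :
    x * y / (x + y) * ‖a + b‖ ^ 2 ≤ x * ‖a‖ ^ 2 + y * ‖b‖ ^ 2 := by
  have h1 : ‖a + b‖ ≤ ‖a‖ + ‖b‖ := norm_add_le _ _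
  have h2 : ‖a + b‖ ^ 2 ≤ (‖a‖ + ‖b‖) ^ 2 := by gcongr
  have h3 : x * y / (x + y) * (‖a‖ + ‖b‖) ^ 2 ≤ x * ‖a‖ ^ 2 + y * ‖b‖ ^ 2 := by
    rw [div_mul_eq_mul_div, div_le_iff₀ (by positivity)]
    nlinarith [sq_nonneg (x * ‖a‖ - y * ‖b‖)]
  exact le_trans (by gcongr) h3

lemma prod_tendsto {c : ℝ} (hc0 : 0 < c) (hc1 : c ≤ 1) {N : ℕ} (hN : 1 ≤ N) :
    Tendsto (fun n => ∏ j ∈ range n, (1 - c / ((N + j : ℕ) : ℝ))) atTop (𝓝 0) := by
  have hNr : (1 : ℝ) ≤ N := by exact_mod_cast hN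
  have h1 : ∀ j : ℕ, c / ((N + j : ℕ) : ℝ) ≤ 1 := by
    intro j
    rw [div_le_one (by positivity)]
    push_cast
    have : (0 : ℝ) ≤ j := Nat.cast_nonneg j
    linarith
  have h2 : ∀ n, ∏ j ∈ range n, (1 - c / ((N + j : ℕ) : ℝ)) ≤
      Real.exp (-(c / N * ∑ j ∈ range n, 1 / ((j : ℝ) + 1))) := by
    intro n
    calc ∏ j ∈ range n, (1 - c / ((N + j : ℕ) : ℝ))
        ≤ ∏ j ∈ range n, Real.exp (-(c / N * (1 / ((j : ℝ) + 1)))) := by
          refine Finset.prod_le_prod (fun j _ => by linarith [h1 j]) fun j _ => ?_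
          refine le_trans ?_ (Real.add_one_le_exp _)
          have h3 : c / N * (1 / ((j : ℝ) + 1)) ≤ c / ((N + j : ℕ) : ℝ) := by
            rw [div_mul_div_comm, mul_one]
            have : (0 : ℝ) ≤ j := Nat.cast_nonneg j
            push_cast
            gcongr
            nlinarith
          linarith
      _ = _ := by
          rw [← Real.exp_sum, Finset.sum_neg_distrib, ← Finset.mul_sum]
  have h4 : Tendsto (fun n => Real.exp (-(c / N * ∑ j ∈ range n, 1 / ((j : ℝ) + 1)))) atTop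
      (𝓝 0) := by
    refine Real.tendsto_exp_neg_atTop_nhds_zero.comp ?_
    exact Real.tendsto_sum_range_one_div_nat_succ_atTop.const_mul_atTop (by positivity)
  exact tendsto_of_tendsto_of_tendsto_of_le_of_le tendsto_const_nhds h4
    (fun n => Finset.prod_nonneg fun j _ => by linarith [h1 j]) h2

section main

variable {Φ : (Fin 4 → ℕ) → (Fin 4 → ℝ) → ℝ} (hΦ : PhiFacts Φ)
variable {ι τ : Type*} [Fintype ι] [Fintype τ] (T : (ι → ℂ) →ₗ[ℂ] (τ → ℂ))
variable {g : Fin 4 → ι → ℝ} {h : Fin 4 → τ → ℝ} {m M : ℝ}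

include hΦ in
/-- one step of the recursion -/
lemma step (hm : 0 < m) (hgm : ∀ i c, m ≤ g i c) (hgM : ∀ i c, g i c ≤ M)
    (hhm : ∀ i s, 0 < h i s)
    (hT : ∀ i z, ∑ s, h i s * ‖T z s‖ ^ 2 ≤ ∑ c, g i c * ‖z c‖ ^ 2)
    {β : Fin 4 → ℕ} (hβ : ∀ i, 1 ≤ β i) {K : ℝ} (hK : 1 ≤ K)
    (hP : ∀ i z, ∑ s, Φ (inc β i) (fun j => h j s) * ‖T z s‖ ^ 2 ≤
      K * ∑ c, Φ (inc β i) (fun j => g j c) * ‖z c‖ ^ 2) (z : ι → ℂ) :
    ∑ s, Φ β (fun j => h j s) * ‖T z s‖ ^ 2 ≤
      (1 + (K - 1) * (1 - m / (M + m) / (tot β : ℝ))) *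
        ∑ c, Φ β (fun j => g j c) * ‖z c‖ ^ 2 := by
  classical
  have htot : (4 : ℝ) ≤ tot β := by exact_mod_cast four_le_tot hβ
  have hg0 : ∀ i c, 0 < g i c := fun i c => hm.trans_le (hgm i c)
  set G : Fin 4 → ι → ℝ := fun i c => Φ (inc β i) (fun j => g j c) with hG
  set H : Fin 4 → τ → ℝ := fun i s => Φ (inc β i) (fun j => h j s) with hH
  have hG0 : ∀ i c, 0 < G i c := fun i c => hΦ.pos _ _ (one_le_inc hβ i) fun j => hg0 j c
  have hH0 : ∀ i s, 0 < H i s := fun i s => hΦ.pos _ _ (one_le_inc hβ i) fun j => hhm j s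
  set θ : Fin 4 → ι → ℝ := fun i c => g i c / (g i c + G i c) with hθ
  set ρ : ℝ := 1 - m / (M + m) / (tot β : ℝ) with hρ
  have hθρ : ∀ i c, θ i c ≤ ρ := by
    intro i c
    have h1 : m ≤ ((tot β : ℝ) - 1) * G i c := by
      have := hΦ.lower (inc β i) (fun j => g j c) m (one_le_inc hβ i) hm (fun j => hgm j c)
      rw [tot_inc] at this
      push_cast at this
      have e : (tot β : ℝ) + 1 - 2 = tot β - 1 := by ring
      rwa [e] at this
    have hgc := hg0 i c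
    have hGc := hG0 i c
    have hMm : 0 < M + m := by linarith [hgM i c]
    show g i c / (g i c + G i c) ≤ 1 - m / (M + m) / (tot β : ℝ)
    have e1 : g i c / (g i c + G i c) = 1 - G i c / (g i c + G i c) := by
      field_simp; ring
    rw [e1]
    have e2 : m / (M + m) / (tot β : ℝ) ≤ G i c / (g i c + G i c) := by
      rw [div_div, div_le_div_iff₀ (by positivity) (by positivity)]
      have h3 := hgM i c
      nlinarith [mul_pos hm hGc, mul_pos hm hgc]
    linarith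
  have hscal : ∀ i c, g i c * (1 - θ i c) ^ 2 + K * (G i c * (θ i c) ^ 2) ≤
      (1 + (K - 1) * ρ) * (g i c * G i c / (g i c + G i c)) := by
    intro i c
    have hgc := hg0 i c
    have hGc := hG0 i c
    have e1 : g i c * (1 - θ i c) ^ 2 + K * (G i c * (θ i c) ^ 2) =
        (1 + (K - 1) * θ i c) * (g i c * G i c / (g i c + G i c)) := by
      simp only [hθ]
      field_simp
      ring
    rw [e1]
    have h2 : 0 ≤ g i c * G i c / (g i c + G i c) := by positivity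
    have h3 := hθρ i c
    have h4 : 0 ≤ K - 1 := by linarith
    gcongr
  have hrecg : ∀ c, ((tot β : ℝ) - 2) * Φ β (fun j => g j c) =
      ∑ i, (β i : ℝ) * (g i c * G i c / (g i c + G i c)) := fun c =>
    hΦ.recu β _ hβ fun j => hg0 j c
  have hrech : ∀ s, ((tot β : ℝ) - 2) * Φ β (fun j => h j s) =
      ∑ i, (β i : ℝ) * (h i s * H i s / (h i s + H i s)) := fun s =>
    hΦ.recu β _ hβ fun j => hhm j s
  have htot2 : 0 < (tot β : ℝ) - 2 := by linarith
  refine le_of_mul_le_mul_left ?_ htot2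
  calc ((tot β : ℝ) - 2) * ∑ s, Φ β (fun j => h j s) * ‖T z s‖ ^ 2
      = ∑ s, ∑ i, (β i : ℝ) * (h i s * H i s / (h i s + H i s)) * ‖T z s‖ ^ 2 := by
        rw [Finset.mul_sum]
        refine Finset.sum_congr rfl fun s _ => ?_
        rw [← mul_assoc, hrech, Finset.sum_mul]
    _ = ∑ i, (β i : ℝ) * ∑ s, (h i s * H i s / (h i s + H i s)) * ‖T z s‖ ^ 2 := by
        rw [Finset.sum_comm]
        refine Finset.sum_congr rfl fun i _ => ?_
        rw [Finset.mul_sum]
        exact Finset.sum_congr rfl fun s _ => by ring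
    _ ≤ ∑ i, (β i : ℝ) * ∑ c, ((1 + (K - 1) * ρ) * (g i c * G i c / (g i c + G i c))) *
          ‖z c‖ ^ 2 := by
        refine Finset.sum_le_sum fun i _ => mul_le_mul_of_nonneg_left ?_ (Nat.cast_nonneg _)
        set z1 : ι → ℂ := fun c => ((1 - θ i c : ℝ) : ℂ) * z c with hz1
        set z2 : ι → ℂ := fun c => ((θ i c : ℝ) : ℂ) * z c with hz2
        have hz : z = z1 + z2 := by
          funext c
          simp only [hz1, hz2, Pi.add_apply]
          push_cast; ring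
        have hn1 : ∀ c, ‖z1 c‖ ^ 2 = (1 - θ i c) ^ 2 * ‖z c‖ ^ 2 := by
          intro c
          simp only [hz1]
          rw [norm_mul, mul_pow, Complex.norm_real, Real.norm_eq_abs, sq_abs]
        have hn2 : ∀ c, ‖z2 c‖ ^ 2 = (θ i c) ^ 2 * ‖z c‖ ^ 2 := by
          intro c
          simp only [hz2]
          rw [norm_mul, mul_pow, Complex.norm_real, Real.norm_eq_abs, sq_abs]
        calc ∑ s, (h i s * H i s / (h i s + H i s)) * ‖T z s‖ ^ 2
            ≤ ∑ s, (h i s * ‖T z1 s‖ ^ 2 + H i s * ‖T z2 s‖ ^ 2) := by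
              refine Finset.sum_le_sum fun s _ => ?_
              have e : T z s = T z1 s + T z2 s := by
                conv_lhs => rw [hz]
                rw [map_add]; rfl
              rw [e]
              exact par (hhm i s) (hH0 i s) _ _
          _ = ∑ s, h i s * ‖T z1 s‖ ^ 2 + ∑ s, H i s * ‖T z2 s‖ ^ 2 := Finset.sum_add_distrib
          _ ≤ ∑ c, g i c * ‖z1 c‖ ^ 2 + K * ∑ c, G i c * ‖z2 c‖ ^ 2 :=
              add_le_add (hT i z1) (hP i z2)
          _ = ∑ c, (g i c * (1 - θ i c) ^ 2 + K * (G i c * (θ i c) ^ 2)) * ‖z c‖ ^ 2 := by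
              rw [Finset.mul_sum, ← Finset.sum_add_distrib]
              refine Finset.sum_congr rfl fun c _ => ?_
              rw [hn1, hn2]; ring
          _ ≤ _ := Finset.sum_le_sum fun c _ =>
              mul_le_mul_of_nonneg_right (hscal i c) (by positivity)
    _ = (1 + (K - 1) * ρ) * ∑ c, (∑ i, (β i : ℝ) * (g i c * G i c / (g i c + G i c))) *
          ‖z c‖ ^ 2 := by
        rw [Finset.mul_sum]
        simp only [Finset.sum_mul, Finset.mul_sum]
        rw [Finset.sum_comm]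
        refine Finset.sum_congr rfl fun c _ => Finset.sum_congr rfl fun i _ => by ring
    _ = ((tot β : ℝ) - 2) * ((1 + (K - 1) * ρ) * ∑ c, Φ β (fun j => g j c) * ‖z c‖ ^ 2) := by
        rw [mul_left_comm, Finset.mul_sum (s := univ) (a := (tot β : ℝ) - 2)]
        congr 1
        refine Finset.sum_congr rfl fun c _ => ?_
        rw [← hrecg]; ring

include hΦ in
/-- crude bound -/
lemma crude (hm : 0 < m) (hgm : ∀ i c, m ≤ g i c) (hgM : ∀ i c, g i c ≤ M)
    (hhm : ∀ i s, m ≤ h i s) (hhM : ∀ i s, h i s ≤ M) (hmM : m ≤ M)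
    (hT : ∀ i z, ∑ s, h i s * ‖T z s‖ ^ 2 ≤ ∑ c, g i c * ‖z c‖ ^ 2)
    {β : Fin 4 → ℕ} (hβ : ∀ i, 1 ≤ β i) (z : ι → ℂ) :
    ∑ s, Φ β (fun j => h j s) * ‖T z s‖ ^ 2 ≤
      (M / m) ^ 2 * ∑ c, Φ β (fun j => g j c) * ‖z c‖ ^ 2 := by
  have htot : (4 : ℝ) ≤ tot β := by exact_mod_cast four_le_tot hβ
  have htot2 : 0 < (tot β : ℝ) - 2 := by linarith
  have hM : 0 < M := hm.trans_le hmM
  refine le_of_mul_le_mul_left ?_ htot2
  calc ((tot β : ℝ) - 2) * ∑ s, Φ β (fun j => h j s) * ‖T z s‖ ^ 2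
      = ∑ s, (((tot β : ℝ) - 2) * Φ β (fun j => h j s)) * ‖T z s‖ ^ 2 := by
        rw [Finset.mul_sum]; exact Finset.sum_congr rfl fun s _ => by ring
    _ ≤ ∑ s, M * ‖T z s‖ ^ 2 := Finset.sum_le_sum fun s _ =>
        mul_le_mul_of_nonneg_right (hΦ.upper β _ M hβ (fun j => hm.trans_le (hhm j s))
          fun j => hhM j s) (by positivity)
    _ ≤ ∑ s, (M / m) * (h 0 s * ‖T z s‖ ^ 2) := by
        refine Finset.sum_le_sum fun s _ => ?_
        have h1 := hhm 0 s
        have h2 : M ≤ M / m * h 0 s := by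
          rw [div_mul_eq_mul_div, le_div_iff₀ hm]; gcongr
        calc M * ‖T z s‖ ^ 2 ≤ (M / m * h 0 s) * ‖T z s‖ ^ 2 := by gcongr
          _ = _ := by ring
    _ = (M / m) * ∑ s, h 0 s * ‖T z s‖ ^ 2 := by rw [Finset.mul_sum]
    _ ≤ (M / m) * ∑ c, g 0 c * ‖z c‖ ^ 2 := by gcongr; exact hT 0 z
    _ ≤ (M / m) * ∑ c, (M / m) * ((((tot β : ℝ) - 2) * Φ β (fun j => g j c)) * ‖z c‖ ^ 2) := by
        refine mul_le_mul_of_nonneg_left (Finset.sum_le_sum fun c _ => ?_) (by positivity)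
        have h1 := hΦ.lower β (fun j => g j c) m hβ hm fun j => hgm j c
        have h2 : g 0 c ≤ (M / m) * (((tot β : ℝ) - 2) * Φ β (fun j => g j c)) := by
          refine (hgM 0 c).trans ?_
          rw [div_mul_eq_mul_div, le_div_iff₀ hm]; gcongr
        calc g 0 c * ‖z c‖ ^ 2 ≤ ((M / m) * (((tot β : ℝ) - 2) * Φ β (fun j => g j c))) *
              ‖z c‖ ^ 2 := by gcongr
          _ = _ := by ring
    _ = ((tot β : ℝ) - 2) * ((M / m) ^ 2 * ∑ c, Φ β (fun j => g j c) * ‖z c‖ ^ 2) := by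
        simp only [Finset.mul_sum]
        exact Finset.sum_congr rfl fun s _ => by ring

include hΦ in
/-- **superadditivity of the Dirichlet means.** -/
theorem phi_super (hm : 0 < m) (hgm : ∀ i c, m ≤ g i c) (hgM : ∀ i c, g i c ≤ M)
    (hhm : ∀ i s, m ≤ h i s) (hhM : ∀ i s, h i s ≤ M) (hmM : m ≤ M)
    (hT : ∀ i z, ∑ s, h i s * ‖T z s‖ ^ 2 ≤ ∑ c, g i c * ‖z c‖ ^ 2)
    {β : Fin 4 → ℕ} (hβ : ∀ i, 1 ≤ β i) (z : ι → ℂ) :
    ∑ s, Φ β (fun j => h j s) * ‖T z s‖ ^ 2 ≤ ∑ c, Φ β (fun j => g j c) * ‖z c‖ ^ 2 := by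
  have hM : 0 < M := hm.trans_le hmM
  set c0 : ℝ := m / (M + m) with hc0
  have hc0p : 0 < c0 := by positivity
  have hc01 : c0 ≤ 1 := by rw [hc0, div_le_one (by positivity)]; linarith
  set K0 : ℝ := (M / m) ^ 2 with hK0
  have hK01 : 1 ≤ K0 := by
    have : 1 ≤ M / m := by rw [le_div_iff₀ hm]; linarith
    nlinarith
  have key : ∀ n : ℕ, ∀ β : Fin 4 → ℕ, (∀ i, 1 ≤ β i) → ∀ z,
      ∑ s, Φ β (fun j => h j s) * ‖T z s‖ ^ 2 ≤
        (1 + (K0 - 1) * ∏ j ∈ range n, (1 - c0 / ((tot β + j : ℕ) : ℝ))) *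
          ∑ c, Φ β (fun j => g j c) * ‖z c‖ ^ 2 := by
    intro n
    induction n with
    | zero =>
      intro β hβ z
      have := crude hΦ T hm hgm hgM hhm hhM hmM hT hβ z
      simpa using this
    | succ n ih =>
      intro β hβ z
      have htot : (4 : ℝ) ≤ tot β := by exact_mod_cast four_le_tot hβ
      set p : ℝ := ∏ j ∈ range n, (1 - c0 / ((tot β + 1 + j : ℕ) : ℝ)) with hp
      have hp0 : 0 ≤ p := by
        refine Finset.prod_nonneg fun j _ => ?_
        have : c0 / ((tot β + 1 + j : ℕ) : ℝ) ≤ 1 := by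
          rw [div_le_one (by positivity)]
          push_cast
          have : (0 : ℝ) ≤ j := Nat.cast_nonneg j
          linarith
        linarith
      have h1 := step hΦ T (K := 1 + (K0 - 1) * p) hm hgm hgM
        (fun i s => hm.trans_le (hhm i s)) hT hβ (by nlinarith)
        (fun i z => by
          have := ih (inc β i) (one_le_inc hβ i) z
          rwa [tot_inc] at this) z
      refine h1.trans (le_of_eq ?_)
      rw [Finset.prod_range_succ']
      have e : ∏ j ∈ range n, (1 - c0 / ((tot β + (j + 1) : ℕ) : ℝ)) = p := by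
        rw [hp]
        refine Finset.prod_congr rfl fun j _ => ?_
        congr 3; omega
      rw [e]
      simp only [Nat.add_zero]
      ring
  have hlim : Tendsto (fun n => (1 + (K0 - 1) * ∏ j ∈ range n,
      (1 - c0 / ((tot β + j : ℕ) : ℝ))) * ∑ c, Φ β (fun j => g j c) * ‖z c‖ ^ 2) atTop
      (𝓝 ((1 + (K0 - 1) * 0) * ∑ c, Φ β (fun j => g j c) * ‖z c‖ ^ 2)) := by
    have h4 := four_le_tot hβ
    exact ((((prod_tendsto hc0p hc01 (by omega : 1 ≤ tot β)).const_mul _).const_add _).mul_const _)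
  have := ge_of_tendsto hlim (Eventually.of_forall fun n => key n β hβ z)
  simpa using this

end main

end Crest.Agent.R331.Phi712
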