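import Mathlib

/-!
# Row 331 (EPnI), leaf [RIG]: abstract rigidity (helper884)

Normal form of helper835 (`M = 1`): in the eigenbasis of `ρ_X` the index set `σ X` is the set of
pairs, `z (i,j) = √(LM p_i p_j) Y_ij`, `k (i,j) = log (p_i/p_j)`, `M[Y] = ∑ |z|²`,
`L[Y] = ∑ u(-k)|z|²`, `R[Y] = ∑ u(k)|z|²`.

`rig`: stationary data (contraction of the `R` forms with equality at `c`, the commutator identity
`(h5)`, the Euler-Lagrange identity `(h4)`) plus the strict operator inequality OPI give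
`(k - β) c = 0`.
-/

open scoped ENNReal ComplexConjugate BigOperators

noncomputable section

namespace Crest.Agent.R331.Rig884

/-! ### weighted sums -/

section weighted

variable {ι : Type*} {ω : ι → ℝ} {y z : ι → ℂ}

theorem summable_ip (hω : ∀ i, 0 ≤ ω i) (hy : Summable fun i => ω i * ‖y i‖ ^ 2)
    (hz : Summable fun i => ω i * ‖z i‖ ^ 2) :
    Summable fun i => conj (y i) * ((ω i : ℂ) * z i) := by
  refine Summable.of_norm_bounded (hy.add hz) ?_
  intro i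
  rw [norm_mul, norm_mul, RCLike.norm_conj, Complex.norm_real, Real.norm_of_nonneg (hω i)]
  nlinarith [mul_nonneg (hω i) (sq_nonneg (‖y i‖ - ‖z i‖)), mul_nonneg (hω i) (sq_nonneg ‖y i‖),
    mul_nonneg (hω i) (sq_nonneg ‖z i‖), norm_nonneg (y i), norm_nonneg (z i)]

theorem norm_expand (y z α : ℂ) (w : ℝ) :
    w * ‖y + α * z‖ ^ 2
      = w * ‖y‖ ^ 2 + ‖α‖ ^ 2 * (w * ‖z‖ ^ 2) + 2 * (α * (conj y * ((w : ℂ) * z))).re := by
  have h1 : ∀ x : ℂ, ‖x‖ ^ 2 = x.re * x.re + x.im * x.im := by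
    intro x
    rw [← Complex.normSq_eq_norm_sq, Complex.normSq_apply]
  simp only [h1, Complex.add_re, Complex.add_im, Complex.mul_re, Complex.mul_im, Complex.conj_re,
    Complex.conj_im, Complex.ofReal_re, Complex.ofReal_im]
  ring

theorem summable_add_smul (hω : ∀ i, 0 ≤ ω i) (hy : Summable fun i => ω i * ‖y i‖ ^ 2)
    (hz : Summable fun i => ω i * ‖z i‖ ^ 2) (α : ℂ) :
    Summable fun i => ω i * ‖y i + α * z i‖ ^ 2 := by
  have h := (summable_ip hω hy hz).mul_left α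
  have h2 : Summable fun i => (α * (conj (y i) * ((ω i : ℂ) * z i))).re :=
    Complex.reCLM.summable h
  refine ((hy.add (hz.mul_left (‖α‖ ^ 2))).add (h2.mul_left 2)).congr ?_
  intro i
  rw [norm_expand]

theorem tsum_add_smul (hω : ∀ i, 0 ≤ ω i) (hy : Summable fun i => ω i * ‖y i‖ ^ 2)
    (hz : Summable fun i => ω i * ‖z i‖ ^ 2) (α : ℂ) :
    ∑' i, ω i * ‖y i + α * z i‖ ^ 2
      = ∑' i, ω i * ‖y i‖ ^ 2 + ‖α‖ ^ 2 * ∑' i, ω i * ‖z i‖ ^ 2
        + 2 * (α * ∑' i, conj (y i) * ((ω i : ℂ) * z i)).re := by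
  have h := (summable_ip hω hy hz).mul_left α
  have h2 : Summable fun i => (α * (conj (y i) * ((ω i : ℂ) * z i))).re :=
    Complex.reCLM.summable h
  have e : (fun i => ω i * ‖y i + α * z i‖ ^ 2) = fun i =>
      (ω i * ‖y i‖ ^ 2 + ‖α‖ ^ 2 * (ω i * ‖z i‖ ^ 2))
        + 2 * (α * (conj (y i) * ((ω i : ℂ) * z i))).re := by
    funext i; rw [norm_expand]
  rw [e, Summable.tsum_add (hy.add (hz.mul_left _)) (h2.mul_left 2),
    Summable.tsum_add hy (hz.mul_left _), tsum_mul_left, tsum_mul_left]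
  congr 2
  rw [← tsum_mul_left, ← Complex.reCLM_apply, ContinuousLinearMap.map_tsum _ h]
  rfl

/-- elementary: an affine real function of `α ∈ ℂ` that is nonnegative is constant. -/
theorem eq_zero_of_affine_nonneg {a : ℝ} {w : ℂ} (h : ∀ α : ℂ, 0 ≤ a + 2 * (α * w).re) :
    w = 0 := by
  by_contra hw
  have hpos : 0 < ‖w‖ ^ 2 := by positivity
  have h1 := h (-(((|a| + 1) / ‖w‖ ^ 2 : ℝ) : ℂ) * conj w)
  have e : (-(((|a| + 1) / ‖w‖ ^ 2 : ℝ) : ℂ) * conj w * w) = ((-(|a| + 1) : ℝ) : ℂ) := by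
    rw [mul_assoc, mul_comm (conj w) w, Complex.mul_conj, Complex.normSq_eq_norm_sq]
    rw [← Complex.ofReal_neg, ← Complex.ofReal_mul]
    congr 1
    field_simp
  rw [e, Complex.ofReal_re] at h1
  have := le_abs_self a
  have := abs_nonneg a
  linarith

end weighted

/-! ### truncations in `ℓ²` -/

section trunc

variable {σ : Type*} [DecidableEq σ]

/-- restriction of `y` to a finite set. -/
def trunc (y : lp (fun _ : σ => ℂ) 2) (F : Finset σ) : lp (fun _ : σ => ℂ) 2 :=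
  ∑ s ∈ F, lp.single 2 s (y s)

theorem trunc_apply (y : lp (fun _ : σ => ℂ) 2) (F : Finset σ) (s : σ) :
    trunc y F s = if s ∈ F then y s else 0 := by
  classical
  rw [trunc, lp.coeFn_sum, Finset.sum_apply]
  have h : ∀ x ∈ F, (lp.single (E := fun _ : σ => ℂ) 2 x (y x) : σ → ℂ) s
      = if s = x then y s else 0 := by
    intro x _
    by_cases hs : s = x
    · subst hs; simp
    · rw [if_neg hs]
      exact Pi.single_eq_of_ne hs _
  rw [Finset.sum_congr rfl h, Finset.sum_ite_eq]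

theorem tendsto_trunc (y : lp (fun _ : σ => ℂ) 2) :
    Filter.Tendsto (fun F => trunc y F) Filter.atTop (nhds y) :=
  lp.hasSum_single (by norm_num) y

theorem trunc_support_finite (y : lp (fun _ : σ => ℂ) 2) (F : Finset σ) :
    (Function.support (trunc y F : σ → ℂ)).Finite := by
  refine F.finite_toSet.subset ?_
  intro s hs
  by_contra h
  exact hs (by rw [trunc_apply]; exact if_neg h)

end trunc

/-! ### extension of the contraction (A) from finitely supported vectors -/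

section ext

variable {σC : Type*} {J : Type*} [Fintype J] {σ : J → Type*}

/-- hypothesis (A) (one sign): contraction of the weighted forms on finitely supported vectors. -/
def ContrFin (ω : σC → ℝ) (ωx : ∀ j, σ j → ℝ)
    (T : ∀ j, lp (fun _ : σC => ℂ) 2 →L[ℂ] lp (fun _ : σ j => ℂ) 2) : Prop :=
  ∀ z : lp (fun _ : σC => ℂ) 2, (Function.support (z : σC → ℂ)).Finite →
    ∑ j, ∑' s, ENNReal.ofReal (ωx j s * ‖T j z s‖ ^ 2)
      ≤ ∑' s, ENNReal.ofReal (ω s * ‖z s‖ ^ 2)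

theorem contr_ext {ω : σC → ℝ} {ωx : ∀ j, σ j → ℝ} (hω : ∀ s, 0 ≤ ω s)
    {T : ∀ j, lp (fun _ : σC => ℂ) 2 →L[ℂ] lp (fun _ : σ j => ℂ) 2}
    (hA : ContrFin ω ωx T) (y : lp (fun _ : σC => ℂ) 2) :
    ∑ j, ∑' s, ENNReal.ofReal (ωx j s * ‖T j y s‖ ^ 2)
      ≤ ∑' s, ENNReal.ofReal (ω s * ‖y s‖ ^ 2) := by
  classical
  -- finite subsums
  have key : ∀ G : ∀ j, Finset (σ j),
      ∑ j, ∑ s ∈ G j, ENNReal.ofReal (ωx j s * ‖T j y s‖ ^ 2)
        ≤ ∑' s, ENNReal.ofReal (ω s * ‖y s‖ ^ 2) := by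
    intro G
    have hlim : Filter.Tendsto
        (fun F => ∑ j, ∑ s ∈ G j, ENNReal.ofReal (ωx j s * ‖T j (trunc y F) s‖ ^ 2))
        Filter.atTop (nhds (∑ j, ∑ s ∈ G j, ENNReal.ofReal (ωx j s * ‖T j y s‖ ^ 2))) := by
      refine tendsto_finsetSum _ fun j _ => tendsto_finsetSum _ fun s _ => ?_
      refine ENNReal.tendsto_ofReal (Filter.Tendsto.const_mul _ (Filter.Tendsto.pow ?_ 2))
      refine Filter.Tendsto.norm ?_
      have h1 : Filter.Tendsto (fun F => T j (trunc y F)) Filter.atTop (nhds (T j y)) :=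
        ((T j).continuous.tendsto y).comp (tendsto_trunc y)
      have h2 : Continuous fun v : lp (fun _ : σ j => ℂ) 2 => (v : ∀ _, ℂ) s :=
        (lp.evalCLM ℂ (fun _ : σ j => ℂ) 2 s).continuous
      exact (h2.tendsto _).comp h1
    refine le_of_tendsto hlim (Filter.Eventually.of_forall fun F => ?_)
    calc ∑ j, ∑ s ∈ G j, ENNReal.ofReal (ωx j s * ‖T j (trunc y F) s‖ ^ 2)
        ≤ ∑ j, ∑' s, ENNReal.ofReal (ωx j s * ‖T j (trunc y F) s‖ ^ 2) :=
          Finset.sum_le_sum fun j _ => ENNReal.sum_le_tsum _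
      _ ≤ ∑' s, ENNReal.ofReal (ω s * ‖trunc y F s‖ ^ 2) := hA _ (trunc_support_finite y F)
      _ ≤ ∑' s, ENNReal.ofReal (ω s * ‖y s‖ ^ 2) := by
          refine ENNReal.tsum_le_tsum fun s => ?_
          refine ENNReal.ofReal_le_ofReal (mul_le_mul_of_nonneg_left ?_ (hω s))
          rw [trunc_apply]
          split_ifs
          · exact le_rfl
          · rw [norm_zero]; exact pow_le_pow_left₀ le_rfl (norm_nonneg _) 2
  -- pass to the limit in `G`
  have hT : Filter.Tendsto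
      (fun G : ∀ j, Finset (σ j) => ∑ j, ∑ s ∈ G j, ENNReal.ofReal (ωx j s * ‖T j y s‖ ^ 2))
      Filter.atTop (nhds (∑ j, ∑' s, ENNReal.ofReal (ωx j s * ‖T j y s‖ ^ 2))) := by
    refine tendsto_finsetSum _ fun j _ => ?_
    have h1 : Filter.Tendsto (fun G : ∀ j, Finset (σ j) => G j) Filter.atTop Filter.atTop := by
      refine Filter.tendsto_atTop.2 fun F => ?_
      refine (Filter.eventually_ge_atTop (Function.update (fun _ => ∅) j F)).mono fun G hG => ?_
      have := hG j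
      simpa using this
    exact (ENNReal.summable.hasSum (f := fun s => ENNReal.ofReal (ωx j s * ‖T j y s‖ ^ 2))).comp h1
  exact le_of_tendsto hT (Filter.Eventually.of_forall key)

/-- real form of `contr_ext`. -/
theorem contr_real {ω : σC → ℝ} {ωx : ∀ j, σ j → ℝ} (hω : ∀ s, 0 ≤ ω s)
    (hωx : ∀ j s, 0 ≤ ωx j s)
    {T : ∀ j, lp (fun _ : σC => ℂ) 2 →L[ℂ] lp (fun _ : σ j => ℂ) 2}
    (hA : ContrFin ω ωx T) (y : lp (fun _ : σC => ℂ) 2)
    (hy : Summable fun s => ω s * ‖y s‖ ^ 2) :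
    (∀ j, Summable fun s => ωx j s * ‖T j y s‖ ^ 2) ∧
      ∑ j, ∑' s, ωx j s * ‖T j y s‖ ^ 2 ≤ ∑' s, ω s * ‖y s‖ ^ 2 := by
  have h := contr_ext hω hA y
  have hnn : ∀ s, 0 ≤ ω s * ‖y s‖ ^ 2 := fun s => mul_nonneg (hω s) (sq_nonneg _)
  have hnnx : ∀ j s, 0 ≤ ωx j s * ‖T j y s‖ ^ 2 := fun j s => mul_nonneg (hωx j s) (sq_nonneg _)
  rw [← ENNReal.ofReal_tsum_of_nonneg hnn hy] at h
  have hfin : ∀ j, ∑' s, ENNReal.ofReal (ωx j s * ‖T j y s‖ ^ 2) ≠ ⊤ := by
    intro j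
    refine ne_top_of_le_ne_top ENNReal.ofReal_ne_top (le_trans ?_ h)
    exact Finset.single_le_sum (f := fun j => ∑' s, ENNReal.ofReal (ωx j s * ‖T j y s‖ ^ 2))
      (fun _ _ => zero_le) (Finset.mem_univ j)
  have hsum : ∀ j, Summable fun s => ωx j s * ‖T j y s‖ ^ 2 := by
    intro j
    have h1 := ENNReal.summable_toReal (hfin j)
    refine h1.congr fun s => ?_
    rw [ENNReal.toReal_ofReal (hnnx j s)]
  refine ⟨hsum, ?_⟩
  have h2 : ∑ j, ∑' s, ENNReal.ofReal (ωx j s * ‖T j y s‖ ^ 2)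
      = ENNReal.ofReal (∑ j, ∑' s, ωx j s * ‖T j y s‖ ^ 2) := by
    rw [ENNReal.ofReal_sum_of_nonneg fun j _ => tsum_nonneg (hnnx j)]
    refine Finset.sum_congr rfl fun j _ => ?_
    rw [ENNReal.ofReal_tsum_of_nonneg (hnnx j) (hsum j)]
  rw [h2] at h
  exact (ENNReal.ofReal_le_ofReal_iff (tsum_nonneg hnn)).1 h

/-- **polarisation**: equality in the contraction at `c` gives the bilinear identity against `c`. -/
theorem polar {ω : σC → ℝ} {ωx : ∀ j, σ j → ℝ} (hω : ∀ s, 0 ≤ ω s)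
    (hωx : ∀ j s, 0 ≤ ωx j s)
    {T : ∀ j, lp (fun _ : σC => ℂ) 2 →L[ℂ] lp (fun _ : σ j => ℂ) 2}
    (hA : ContrFin ω ωx T) (c y : lp (fun _ : σC => ℂ) 2)
    (hc : Summable fun s => ω s * ‖c s‖ ^ 2)
    (hy : Summable fun s => ω s * ‖y s‖ ^ 2)
    (hEQ : ∑ j, ∑' s, ωx j s * ‖T j c s‖ ^ 2 = ∑' s, ω s * ‖c s‖ ^ 2) :
    ∑ j, ∑' s, conj (T j y s) * ((ωx j s : ℂ) * T j c s)
      = ∑' s, conj (y s) * ((ω s : ℂ) * c s) := by
  obtain ⟨hcx, -⟩ := contr_real hω hωx hA c hc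
  obtain ⟨hyx, -⟩ := contr_real hω hωx hA y hy
  have hmain : ∀ α : ℂ, 0 ≤ (∑' s, ω s * ‖y s‖ ^ 2 - ∑ j, ∑' s, ωx j s * ‖T j y s‖ ^ 2)
      + 2 * (α * (∑' s, conj (y s) * ((ω s : ℂ) * c s)
        - ∑ j, ∑' s, conj (T j y s) * ((ωx j s : ℂ) * T j c s))).re := by
    intro α
    have hs : Summable fun s => ω s * ‖(y + α • c : lp (fun _ : σC => ℂ) 2) s‖ ^ 2 := by
      exact summable_add_smul hω hy hc α
    obtain ⟨-, h⟩ := contr_real hω hωx hA (y + α • c) hs
    have e1 : ∑' s, ω s * ‖(y + α • c : lp (fun _ : σC => ℂ) 2) s‖ ^ 2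
        = ∑' s, ω s * ‖y s + α * c s‖ ^ 2 := by
      exact tsum_congr fun s => rfl
    have e2 : ∀ j, ∑' s, ωx j s * ‖T j (y + α • c) s‖ ^ 2
        = ∑' s, ωx j s * ‖T j y s + α * T j c s‖ ^ 2 := by
      intro j
      refine tsum_congr fun s => ?_
      rw [map_add, map_smul]
      rfl
    rw [e1, tsum_add_smul hω hy hc, Finset.sum_congr rfl fun j _ => (e2 j).trans
      (tsum_add_smul (hωx j) (hyx j) (hcx j) α), Finset.sum_add_distrib, Finset.sum_add_distrib,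
      ← Finset.mul_sum, ← Finset.mul_sum, ← Complex.re_sum, ← Finset.mul_sum, hEQ] at h
    rw [mul_sub, Complex.sub_re]
    linarith
  have := eq_zero_of_affine_nonneg hmain
  exact (sub_eq_zero.1 this).symm

/-- the commutator identity `(h5)`, assumed for finitely supported vectors, extends to `ℓ²`. -/
theorem comm_ext {k : σC → ℝ} {σx : Type*} {kx : σx → ℝ}
    {T : lp (fun _ : σC => ℂ) 2 →L[ℂ] lp (fun _ : σx => ℂ) 2}
    {c kc : lp (fun _ : σC => ℂ) 2} {kw : lp (fun _ : σx => ℂ) 2} {η : ℝ}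
    (hkc : ∀ s, kc s = (k s : ℂ) * c s) (hkw : ∀ s, kw s = (kx s : ℂ) * T c s)
    (h5 : ∀ y : lp (fun _ : σC => ℂ) 2, (Function.support (y : σC → ℂ)).Finite →
      ∑' s, conj (T y s) * ((kx s : ℂ) * T c s) = (η : ℂ) * ∑' s, conj (y s) * ((k s : ℂ) * c s))
    (y : lp (fun _ : σC => ℂ) 2) :
    ∑' s, conj (T y s) * ((kx s : ℂ) * T c s) = (η : ℂ) * ∑' s, conj (y s) * ((k s : ℂ) * c s) := by
  classical
  have e1 : ∀ y : lp (fun _ : σC => ℂ) 2,
      ∑' s, conj (T y s) * ((kx s : ℂ) * T c s) = inner ℂ (T y) kw := by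
    intro y
    rw [lp.inner_eq_tsum]
    refine tsum_congr fun s => ?_
    rw [← hkw s, RCLike.inner_apply, mul_comm]
  have e2 : ∀ y : lp (fun _ : σC => ℂ) 2,
      ∑' s, conj (y s) * ((k s : ℂ) * c s) = inner ℂ y kc := by
    intro y
    rw [lp.inner_eq_tsum]
    refine tsum_congr fun s => ?_
    rw [← hkc s, RCLike.inner_apply, mul_comm]
  rw [e1, e2]
  have hl : Filter.Tendsto (fun F => inner ℂ (T (trunc y F)) kw) Filter.atTop
      (nhds (inner ℂ (T y) kw)) :=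
    (((continuous_id.inner continuous_const).comp T.continuous).tendsto y).comp (tendsto_trunc y)
  have hr : Filter.Tendsto (fun F => (η : ℂ) * inner ℂ (trunc y F) kc) Filter.atTop
      (nhds ((η : ℂ) * inner ℂ y kc)) :=
    ((continuous_const.mul (continuous_id.inner continuous_const)).tendsto y).comp
      (tendsto_trunc y)
  refine tendsto_nhds_unique hl (hr.congr fun F => ?_)
  rw [← e1, ← e2, h5 _ (trunc_support_finite y F)]

/-- **[RIG]**: stationary data + strict OPI imply `(k - β) c = 0`.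

`S` is the set of the variable inputs (`A`, `B`), the other inputs are fixed thermal ancillas. -/
theorem rig
    {u : ℝ → ℝ} {q : ℝ → ℝ → ℝ}
    (hu0 : ∀ t, 0 ≤ u t)
    (hq : ∀ b t, (b - t) * q b t = b * u t - t * u b)
    (k : σC → ℝ) (kx : ∀ j, σ j → ℝ)
    (T : ∀ j, lp (fun _ : σC => ℂ) 2 →L[ℂ] lp (fun _ : σ j => ℂ) 2)
    (S : Finset J) (b η : J → ℝ) (hb : ∀ j, b j ≠ 0)
    {β ε : ℝ} (hβ : β ≠ 0) (hβε : β + ε ≠ 0)
    (hN : ∑ j, η j * (u (b j) / b j) = u β / β)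
    (hA : ContrFin (fun s => u (k s)) (fun j s => u (kx j s)) T)
    (c kc : lp (fun _ : σC => ℂ) 2) (hkc : ∀ s, kc s = (k s : ℂ) * c s)
    (hcR : Summable fun s => u (k s) * ‖c s‖ ^ 2)
    (hkcR : Summable fun s => u (k s) * ‖kc s‖ ^ 2)
    (hEQ : ∑ j, ∑' s, u (kx j s) * ‖T j c s‖ ^ 2 = ∑' s, u (k s) * ‖c s‖ ^ 2)
    (h5 : ∀ j, ∀ y : lp (fun _ : σC => ℂ) 2, (Function.support (y : σC → ℂ)).Finite →
      ∑' s, conj (T j y s) * ((kx j s : ℂ) * T j c s)
        = (η j : ℂ) * ∑' s, conj (y s) * ((k s : ℂ) * c s))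
    (h4 : ∀ j ∈ S, ∀ s, T j (kc + (ε : ℂ) • c) s
      = (((β + ε) / b j : ℝ) : ℂ) * ((kx j s : ℂ) * T j c s))
    (hth : ∀ j, j ∉ S → ∀ s, (kx j s : ℂ) * T j c s = (b j : ℂ) * T j c s)
    (hOPI : ∀ y : lp (fun _ : σC => ℂ) 2,
      ∑ j ∈ S, ∑' s, q (b j) (kx j s) * ‖T j y s‖ ^ 2
        = (β + ε) / β * ∑' s, q β (k s) * ‖y s‖ ^ 2 → y = 0) :
    ∀ s, ((k s : ℂ) - β) * c s = 0 := by
  classical
  -- the vector `ψ`
  set ψ : lp (fun _ : σC => ℂ) 2 := kc - (β : ℂ) • c with hψ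
  have hψs : ∀ s, ψ s = ((k s : ℂ) - β) * c s := by
    intro s
    have : ψ s = kc s - (β : ℂ) * c s := rfl
    rw [this, hkc]; ring
  have hψR : Summable fun s => u (k s) * ‖ψ s‖ ^ 2 := by
    refine (summable_add_smul (fun s => hu0 (k s)) hkcR hcR (-(β : ℂ))).congr fun s => ?_
    have : ψ s = kc s + -(β : ℂ) * c s := by
      have : ψ s = kc s - (β : ℂ) * c s := rfl
      rw [this]; ring
    rw [this]
  -- `k_j w_j` as `ℓ²` vectors
  have hkw : ∀ j, ∃ kw : lp (fun _ : σ j => ℂ) 2, ∀ s, kw s = (kx j s : ℂ) * T j c s := by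
    intro j
    by_cases hj : j ∈ S
    · refine ⟨((b j / (β + ε) : ℝ) : ℂ) • T j (kc + (ε : ℂ) • c), fun s => ?_⟩
      have : (((b j / (β + ε) : ℝ) : ℂ) • T j (kc + (ε : ℂ) • c) : lp (fun _ : σ j => ℂ) 2) s
        = ((b j / (β + ε) : ℝ) : ℂ) * T j (kc + (ε : ℂ) • c) s := rfl
      rw [this, h4 j hj, ← mul_assoc, ← Complex.ofReal_mul]
      have : b j / (β + ε) * ((β + ε) / b j) = 1 := by
        have := hb j
        field_simp
      rw [this, Complex.ofReal_one, one_mul]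
    · refine ⟨(b j : ℂ) • T j c, fun s => ?_⟩
      rw [hth j hj]; rfl
  choose kw hkw using hkw
  -- the two bilinear identities at `ψ`
  have hP := polar (fun s => hu0 (k s)) (fun j s => hu0 (kx j s)) hA c ψ hcR hψR hEQ
  have h5ψ : ∀ j, ∑' s, conj (T j ψ s) * ((kx j s : ℂ) * T j c s)
      = (η j : ℂ) * ∑' s, conj (ψ s) * ((k s : ℂ) * c s) := fun j =>
    comm_ext hkc (hkw j) (h5 j) ψ
  obtain ⟨hcx, -⟩ := contr_real (fun s => hu0 (k s)) (fun j s => hu0 (kx j s)) hA c hcR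
  obtain ⟨hψx, -⟩ := contr_real (fun s => hu0 (k s)) (fun j s => hu0 (kx j s)) hA ψ hψR
  -- summability
  have hs1 : ∀ j, Summable fun s => conj (T j ψ s) * ((u (kx j s) : ℂ) * T j c s) := fun j =>
    summable_ip (fun s => hu0 (kx j s)) (hψx j) (hcx j)
  have hs2 : ∀ j, Summable fun s => conj (T j ψ s) * ((kx j s : ℂ) * T j c s) := by
    intro j
    refine (lp.summable_inner (𝕜 := ℂ) (T j ψ) (kw j)).congr fun s => ?_
    rw [← hkw j s, RCLike.inner_apply, mul_comm]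
  have hs3 : Summable fun s => conj (ψ s) * ((u (k s) : ℂ) * c s) :=
    summable_ip (fun s => hu0 (k s)) hψR hcR
  have hs4 : Summable fun s => conj (ψ s) * ((k s : ℂ) * c s) := by
    refine (lp.summable_inner (𝕜 := ℂ) ψ kc).congr fun s => ?_
    rw [← hkc s, RCLike.inner_apply, mul_comm]
  -- left-hand side, each active input
  have hL : ∀ j ∈ S, ((∑' s, q (b j) (kx j s) * ‖T j ψ s‖ ^ 2 : ℝ) : ℂ)
      = -((β + ε : ℝ) : ℂ) * (∑' s, conj (T j ψ s) * ((u (kx j s) : ℂ) * T j c s)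
        - ((u (b j) / b j : ℝ) : ℂ) * ∑' s, conj (T j ψ s) * ((kx j s : ℂ) * T j c s)) := by
    intro j hj
    rw [← tsum_mul_left, ← Summable.tsum_sub (hs1 j) ((hs2 j).mul_left _), ← tsum_mul_left,
      Complex.ofReal_tsum]
    refine tsum_congr fun s => ?_
    have hTψ : T j ψ s = (((β + ε) * (kx j s / b j - 1) : ℝ) : ℂ) * T j c s := by
      have e : ψ = (kc + (ε : ℂ) • c) - ((β + ε : ℝ) : ℂ) • c := by
        rw [hψ]; push_cast; module
      have e' : T j ψ s = T j (kc + (ε : ℂ) • c) s - ((β + ε : ℝ) : ℂ) * T j c s := by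
        rw [e, map_sub, map_smul]; rfl
      rw [e', h4 j hj]
      have := hb j
      push_cast
      have hbc : (b j : ℂ) ≠ 0 := by exact_mod_cast this
      field_simp
      try ring
    have hnorm : (((‖T j ψ s‖ ^ 2 : ℝ)) : ℂ) = conj (T j ψ s) * T j ψ s := by
      rw [mul_comm, Complex.mul_conj, Complex.normSq_eq_norm_sq]
    have hqq : q (b j) (kx j s) * ((β + ε) * (kx j s / b j - 1))
        = -(β + ε) * (u (kx j s) - u (b j) / b j * kx j s) := by
      have h := hq (b j) (kx j s)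
      have hb' := hb j
      have : kx j s / b j - 1 = -(b j - kx j s) / b j := by field_simp; ring
      rw [this]
      have : q (b j) (kx j s) * ((β + ε) * (-(b j - kx j s) / b j))
        = -(β + ε) * ((b j - kx j s) * q (b j) (kx j s)) / b j := by ring
      rw [this, h]
      field_simp
    rw [Complex.ofReal_mul, hnorm]
    calc (q (b j) (kx j s) : ℂ) * (conj (T j ψ s) * T j ψ s)
        = conj (T j ψ s) * ((((q (b j) (kx j s) * ((β + ε) * (kx j s / b j - 1)) : ℝ)) : ℂ)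
            * T j c s) := by
          conv_lhs => rw [hTψ]
          rw [hTψ]
          push_cast
          ring
      _ = _ := by
          rw [hqq]
          push_cast
          ring
  -- the inactive inputs contribute zero
  have hL0 : ∀ j, j ∉ S → ∑' s, conj (T j ψ s) * ((u (kx j s) : ℂ) * T j c s)
        - ((u (b j) / b j : ℝ) : ℂ) * ∑' s, conj (T j ψ s) * ((kx j s : ℂ) * T j c s) = 0 := by
    intro j hj
    rw [← tsum_mul_left, ← Summable.tsum_sub (hs1 j) ((hs2 j).mul_left _)]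
    rw [← tsum_zero (α := ℂ) (β := σ j)]
    refine tsum_congr fun s => ?_
    by_cases hw : T j c s = 0
    · rw [hw]; simp
    · have h1 := hth j hj s
      have h2 : (kx j s : ℂ) = (b j : ℂ) := mul_right_cancel₀ hw h1
      have h3 : kx j s = b j := by exact_mod_cast h2
      rw [h3]
      have hbc : (b j : ℂ) ≠ 0 := by exact_mod_cast hb j
      push_cast
      field_simp
      ring
  -- right-hand side
  have hR : ((∑' s, q β (k s) * ‖ψ s‖ ^ 2 : ℝ) : ℂ)
      = -((β : ℝ) : ℂ) * (∑' s, conj (ψ s) * ((u (k s) : ℂ) * c s)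
        - ((u β / β : ℝ) : ℂ) * ∑' s, conj (ψ s) * ((k s : ℂ) * c s)) := by
    rw [← tsum_mul_left, ← Summable.tsum_sub hs3 (hs4.mul_left _), ← tsum_mul_left,
      Complex.ofReal_tsum]
    refine tsum_congr fun s => ?_
    have hnorm : (((‖ψ s‖ ^ 2 : ℝ)) : ℂ) = conj (ψ s) * ψ s := by
      rw [mul_comm, Complex.mul_conj, Complex.normSq_eq_norm_sq]
    have hqq : q β (k s) * (k s - β) = -β * (u (k s) - u β / β * k s) := by
      have h := hq β (k s)
      have : q β (k s) * (k s - β) = -((β - k s) * q β (k s)) := by ring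
      rw [this, h]
      field_simp
    rw [Complex.ofReal_mul, hnorm]
    calc (q β (k s) : ℂ) * (conj (ψ s) * ψ s)
        = conj (ψ s) * (((q β (k s) * (k s - β) : ℝ) : ℂ) * c s) := by
          conv_lhs => rw [hψs]
          rw [hψs]
          push_cast
          ring
      _ = _ := by
          rw [hqq]
          push_cast
          ring
  -- conclusion
  have hfinal : ∑ j ∈ S, ∑' s, q (b j) (kx j s) * ‖T j ψ s‖ ^ 2
        = (β + ε) / β * ∑' s, q β (k s) * ‖ψ s‖ ^ 2 := by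
    have hc1 : ((∑ j ∈ S, ∑' s, q (b j) (kx j s) * ‖T j ψ s‖ ^ 2 : ℝ) : ℂ)
        = (((β + ε) / β * ∑' s, q β (k s) * ‖ψ s‖ ^ 2 : ℝ) : ℂ) := by
      rw [Complex.ofReal_sum, Finset.sum_congr rfl hL, ← Finset.mul_sum]
      have hall : ∑ j ∈ S, (∑' s, conj (T j ψ s) * ((u (kx j s) : ℂ) * T j c s)
            - ((u (b j) / b j : ℝ) : ℂ) * ∑' s, conj (T j ψ s) * ((kx j s : ℂ) * T j c s))
          = ∑ j, (∑' s, conj (T j ψ s) * ((u (kx j s) : ℂ) * T j c s)
            - ((u (b j) / b j : ℝ) : ℂ) * ∑' s, conj (T j ψ s) * ((kx j s : ℂ) * T j c s)) :=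
        Finset.sum_subset (Finset.subset_univ S) fun j _ hj => hL0 j hj
      rw [hall, Finset.sum_sub_distrib, hP]
      have h5' : ∑ j, ((u (b j) / b j : ℝ) : ℂ)
            * ∑' s, conj (T j ψ s) * ((kx j s : ℂ) * T j c s)
          = ((u β / β : ℝ) : ℂ) * ∑' s, conj (ψ s) * ((k s : ℂ) * c s) := by
        rw [← hN, Complex.ofReal_sum, Finset.sum_mul]
        refine Finset.sum_congr rfl fun j _ => ?_
        rw [h5ψ j]
        push_cast
        ring
      rw [h5', Complex.ofReal_mul, hR]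
      have hβc : (β : ℂ) ≠ 0 := by exact_mod_cast hβ
      push_cast
      field_simp
    exact_mod_cast hc1
  have hψ0 := hOPI ψ hfinal
  intro s
  rw [← hψs s, hψ0]
  rfl

end ext

end Crest.Agent.R331.Rig884
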