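import Crest.Agent.R331.SP_892

/-!
Row 331, base leaf [SP], part 2: trace and entropy of positive operators on a Hilbert space
(values in `ℝ≥0∞`), Peierls' inequality, Gibbs' inequality.
-/

set_option autoImplicit false
set_option linter.unusedSectionVars false
set_option linter.style.haveILetI false

open scoped InnerProductSpace ENNReal Topology
open Module.End Filter

noncomputable section

namespace Crest.Agent.R331.SP892

universe u

variable {H : Type u} [NormedAddCommGroup H] [InnerProductSpace ℂ H] [CompleteSpace H]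
variable {ι κ : Type*}

/-! ### General facts on sums -/

lemma tsum_ofReal_eq {f : ι → ℝ} {s : ℝ} (h0 : ∀ i, 0 ≤ f i) (h : HasSum f s) :
    ∑' i, ENNReal.ofReal (f i) = ENNReal.ofReal s := by
  rw [← h.tsum_eq, ENNReal.ofReal_tsum_of_nonneg h0 h.summable]

lemma summable_of_tsum_ofReal {f : ι → ℝ} (h0 : ∀ i, 0 ≤ f i)
    (h : ∑' i, ENNReal.ofReal (f i) ≠ ∞) : Summable f := by
  have h4 := ENNReal.summable_toReal h
  refine h4.congr fun j => ?_
  rw [ENNReal.toReal_ofReal (h0 _)]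

lemma hasSum_of_tsum_ofReal {f : ι → ℝ} (h0 : ∀ i, 0 ≤ f i)
    (h : ∑' i, ENNReal.ofReal (f i) ≠ ∞) :
    HasSum f (∑' i, ENNReal.ofReal (f i)).toReal := by
  have hs := summable_of_tsum_ofReal h0 h
  rw [tsum_ofReal_eq h0 hs.hasSum, ENNReal.toReal_ofReal (tsum_nonneg h0)]
  exact hs.hasSum

lemma hasSum_iff_tsum_ofReal {f : ι → ℝ} {s : ℝ} (h0 : ∀ i, 0 ≤ f i) :
    HasSum f s ↔ 0 ≤ s ∧ ∑' i, ENNReal.ofReal (f i) = ENNReal.ofReal s := by
  constructor
  · intro h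
    exact ⟨h.nonneg h0, tsum_ofReal_eq h0 h⟩
  · rintro ⟨hs, h⟩
    have h1 := hasSum_of_tsum_ofReal h0 (by rw [h]; exact ENNReal.ofReal_ne_top)
    rwa [h, ENNReal.toReal_ofReal hs] at h1

/-- Comparison: a pointwise bound by a series with a known sum. -/
lemma tsum_ofReal_le_of_le {f g : ι → ℝ} {s : ℝ} (h0 : ∀ i, 0 ≤ f i) (h : ∀ i, f i ≤ g i)
    (hg : HasSum g s) : ∑' i, ENNReal.ofReal (f i) ≤ ENNReal.ofReal s := by
  rw [← tsum_ofReal_eq (fun i => (h0 i).trans (h i)) hg]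
  exact ENNReal.tsum_le_tsum fun i => ENNReal.ofReal_le_ofReal (h i)

/-! ### The scalar inequality -/

lemma negMulLog_le {x q : ℝ} (hx : 0 ≤ x) (hq : 0 < q) :
    Real.negMulLog x ≤ -(x * Real.log q) + (q - x) := by
  rcases hx.eq_or_lt with rfl | hx
  · simp [hq.le]
  · have h1 := Real.log_le_sub_one_of_pos (div_pos hq hx)
    rw [Real.log_div hq.ne' hx.ne'] at h1
    have h2 := mul_le_mul_of_nonneg_left h1 hx.le
    have h3 : x * (q / x - 1) = q - x := by field_simp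
    rw [h3] at h2
    rw [Real.negMulLog]
    linarith

lemma negMulLog_le' {x q : ℝ} (hx : 0 ≤ x) (hq : 0 ≤ q) (h : q = 0 → x = 0) :
    Real.negMulLog x ≤ -(x * Real.log q) + (q - x) := by
  rcases hq.eq_or_lt with hq | hq
  · rw [h hq.symm, ← hq]; simp
  · exact negMulLog_le hx hq

/-- Jensen's inequality for `-x log x` and countable averages. -/
lemma jensen_negMulLog {w p : ι → ℝ} {q : ℝ} (hw : ∀ i, 0 ≤ w i) (hw1 : HasSum w 1)
    (hp : ∀ i, 0 ≤ p i) (hp1 : ∀ i, p i ≤ 1) (hq : HasSum (fun i => w i * p i) q) :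
    ∑' i, ENNReal.ofReal (w i * Real.negMulLog (p i)) ≤ ENNReal.ofReal (Real.negMulLog q) := by
  have hq0 : 0 ≤ q := hq.nonneg fun i => mul_nonneg (hw i) (hp i)
  have hn : ∀ i, 0 ≤ w i * Real.negMulLog (p i) := fun i =>
    mul_nonneg (hw i) (Real.negMulLog_nonneg (hp i) (hp1 i))
  rcases hq0.eq_or_lt with hq0 | hq0
  · rw [← hq0] at hq
    have h1 := (hasSum_zero_iff_of_nonneg fun i => mul_nonneg (hw i) (hp i)).1 hq
    have h2 : ∀ i, w i * Real.negMulLog (p i) = 0 := by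
      intro i
      have h3 : w i * p i = 0 := congrFun h1 i
      rcases mul_eq_zero.1 h3 with h | h
      · rw [h, zero_mul]
      · rw [h]; simp
    simp [h2]
  · have h1 : HasSum (fun i => -(w i * p i) * Real.log q + (q * w i - w i * p i))
        (-q * Real.log q + (q * 1 - q)) :=
      (hq.neg.mul_right _).add ((hw1.mul_left q).sub hq)
    have h2 : (-q * Real.log q + (q * 1 - q)) = Real.negMulLog q := by
      rw [Real.negMulLog]; ring
    rw [h2] at h1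
    refine tsum_ofReal_le_of_le hn (fun i => ?_) h1
    have h3 := mul_le_mul_of_nonneg_left (negMulLog_le (hp i) hq0) (hw i)
    linarith [h3]

/-- Gibbs' inequality, classical form. -/
lemma gibbs_classical {d q : ι → ℝ} {D Q : ℝ} (hd : ∀ i, 0 ≤ d i) (hD : HasSum d D)
    (hq : ∀ i, 0 ≤ q i) (hq1 : ∀ i, q i ≤ 1) (hQ : HasSum q Q) (hQD : Q ≤ D)
    (h0 : ∀ i, q i = 0 → d i = 0) (hd1 : ∀ i, d i ≤ 1) :
    ∑' i, ENNReal.ofReal (Real.negMulLog (d i)) ≤
      ∑' i, ENNReal.ofReal (-(d i * Real.log (q i))) := by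
  have hn : ∀ i, 0 ≤ -(d i * Real.log (q i)) := fun i => by
    have := Real.log_nonpos (hq i) (hq1 i)
    have := mul_nonneg (hd i) (neg_nonneg.2 this)
    linarith
  by_cases htop : ∑' i, ENNReal.ofReal (-(d i * Real.log (q i))) = ∞
  · rw [htop]; exact le_top
  have h1 := hasSum_of_tsum_ofReal hn htop
  set R := (∑' i, ENNReal.ofReal (-(d i * Real.log (q i)))).toReal
  have h2 := h1.add (hQ.sub hD)
  have h3 := tsum_ofReal_le_of_le (f := fun i => Real.negMulLog (d i))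
    (fun i => Real.negMulLog_nonneg (hd i) (hd1 i))
    (fun i => negMulLog_le' (hd i) (hq i) (h0 i)) h2
  refine h3.trans ?_
  rw [tsum_ofReal_eq hn h1]
  exact ENNReal.ofReal_le_ofReal (by linarith)

/-! ### Spectral decompositions -/

/-- `T` is diagonal in the basis `e` with nonnegative eigenvalues `p`. -/
structure IsSpec (T : H →L[ℂ] H) (e : HilbertBasis ι ℂ H) (p : ι → ℝ) : Prop where
  nonneg : ∀ i, 0 ≤ p i
  eig : ∀ i, T (e i) = (p i : ℂ) • e i

namespace IsSpec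

variable {T : H →L[ℂ] H} {e : HilbertBasis ι ℂ H} {p : ι → ℝ}

lemma isPositive (h : IsSpec T e p) : T.IsPositive := isPositive_of_diag e h.eig h.nonneg

lemma diag (h : IsSpec T e p) (i : ι) : (⟪e i, T (e i)⟫_ℂ).re = p i := diag_self e h.eig i

lemma hasSum_quad (h : IsSpec T e p) (x : H) :
    HasSum (fun i => p i * ‖⟪e i, x⟫_ℂ‖ ^ 2) (⟪x, T x⟫_ℂ).re :=
  SP892.hasSum_quad e h.eig x

lemma hasSum_iff (h : IsSpec T e p) (b : HilbertBasis κ ℂ H) {s : ℝ} :
    HasSum (fun k => (⟪b k, T (b k)⟫_ℂ).re) s ↔ HasSum p s :=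
  hasSum_diag_iff e b h.eig h.nonneg

lemma reindex (h : IsSpec T e p) (σ : κ ≃ ι) :
    IsSpec T (SP892.reindex e σ) (fun k => p (σ k)) :=
  ⟨fun k => h.nonneg _, fun k => by rw [reindex_apply, h.eig]⟩

end IsSpec

/-! ### The trace with values in `ℝ≥0∞` -/

/-- The trace of a positive operator, in `ℝ≥0∞`. -/
def trE (T : H →L[ℂ] H) : ℝ≥0∞ :=
  ∑' i, ENNReal.ofReal
    ((⟪(exists_hilbertBasis ℂ H).choose_spec.choose i,
      T ((exists_hilbertBasis ℂ H).choose_spec.choose i)⟫_ℂ).re)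

theorem trE_eq {T : H →L[ℂ] H} (hT : T.IsPositive) (b : HilbertBasis ι ℂ H) :
    trE T = ∑' i, ENNReal.ofReal ((⟪b i, T (b i)⟫_ℂ).re) :=
  trace_indep hT _ b

theorem trE_eq_spec {T : H →L[ℂ] H} {e : HilbertBasis ι ℂ H} {p : ι → ℝ} (h : IsSpec T e p) :
    trE T = ∑' i, ENNReal.ofReal (p i) := by
  rw [trE_eq h.isPositive e]
  simp only [h.diag]

theorem hasSum_iff_trE {T : H →L[ℂ] H} (hT : T.IsPositive) (b : HilbertBasis ι ℂ H) {s : ℝ} :
    HasSum (fun i => (⟪b i, T (b i)⟫_ℂ).re) s ↔ 0 ≤ s ∧ trE T = ENNReal.ofReal s := by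
  rw [trE_eq hT b]
  exact hasSum_iff_tsum_ofReal fun i => re_inner_nonneg hT _

theorem trE_add {S T : H →L[ℂ] H} (hS : S.IsPositive) (hT : T.IsPositive) :
    trE (S + T) = trE S + trE T := by
  obtain ⟨w, b, -⟩ := exists_hilbertBasis ℂ H
  rw [trE_eq hS b, trE_eq hT b, trE_eq (hS.add hT) b, ← ENNReal.tsum_add]
  refine tsum_congr fun i => ?_
  rw [← ENNReal.ofReal_add (re_inner_nonneg hS _) (re_inner_nonneg hT _)]
  rw [add_apply, inner_add_right, Complex.add_re]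

theorem trE_smul {T : H →L[ℂ] H} (hT : T.IsPositive) {c : ℝ} (hc : 0 ≤ c) :
    trE ((c : ℂ) • T) = ENNReal.ofReal c * trE T := by
  obtain ⟨w, b, -⟩ := exists_hilbertBasis ℂ H
  have hcT : ((c : ℂ) • T).IsPositive := hT.smul_of_nonneg (by exact_mod_cast hc)
  rw [trE_eq hT b, trE_eq hcT b, ← ENNReal.tsum_mul_left]
  refine tsum_congr fun i => ?_
  rw [← ENNReal.ofReal_mul hc, smul_apply, inner_smul_right]
  simp

@[simp] theorem trE_zero : trE (0 : H →L[ℂ] H) = 0 := by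
  simp [trE]

/-- A positive operator of trace `s < ∞` has a spectral decomposition indexed by the index type
of any countable Hilbert basis. -/
theorem exists_isSpec [Countable κ] {T : H →L[ℂ] H} (hT : T.IsPositive)
    (b : HilbertBasis κ ℂ H) (h : trE T ≠ ∞) :
    ∃ (e : HilbertBasis κ ℂ H) (p : κ → ℝ), IsSpec T e p ∧ HasSum p (trE T).toReal := by
  have h1 : HasSum (fun i => (⟪b i, T (b i)⟫_ℂ).re) (trE T).toReal := by
    rw [hasSum_iff_trE hT b]
    exact ⟨ENNReal.toReal_nonneg, (ENNReal.ofReal_toReal h).symm⟩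
  obtain ⟨e, p, hp, he, hs⟩ := exists_eigenbasis_of_trace hT b h1
  exact ⟨e, p, ⟨hp, he⟩, hs⟩

/-! ### Entropy -/

/-- The entropy function `z ↦ -z log z` on the real axis, in the exact form used by `HasEntropy`. -/
def eF : ℂ → ℂ := fun z : ℂ => (-(z.re * Real.log z.re) : ℂ)

lemma eF_ofReal (x : ℝ) : eF (x : ℂ) = ((Real.negMulLog x : ℝ) : ℂ) := by
  simp [eF, Real.negMulLog]

lemma continuous_eF : Continuous eF := by
  have h : eF = fun z : ℂ => ((-(z.re * Real.log z.re) : ℝ) : ℂ) := by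
    funext z; simp [eF]
  rw [h]
  exact Complex.continuous_ofReal.comp ((Real.continuous_mul_log.comp Complex.continuous_re).neg)

/-- Functional calculus in a spectral decomposition. -/
lemma cfc_isSpec {T : H →L[ℂ] H} {e : HilbertBasis ι ℂ H} {p : ι → ℝ} (h : IsSpec T e p)
    {f : ℂ → ℂ} (hf : Continuous f) (i : ι) : cfc f T (e i) = f (p i) • e i :=
  cfc_apply_eigen h.isPositive.isSelfAdjoint (h.eig i) hf

lemma cfc_eF_isSpec {T : H →L[ℂ] H} {e : HilbertBasis ι ℂ H} {p : ι → ℝ} (h : IsSpec T e p)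
    (h1 : ∀ i, p i ≤ 1) : IsSpec (cfc eF T) e (fun i => Real.negMulLog (p i)) :=
  ⟨fun i => Real.negMulLog_nonneg (h.nonneg i) (h1 i), fun i => by
    rw [cfc_isSpec h continuous_eF, eF_ofReal]⟩

/-- Von Neumann entropy in `ℝ≥0∞`. -/
def vnE (T : H →L[ℂ] H) : ℝ≥0∞ := trE (cfc eF T)

theorem vnE_eq_spec {T : H →L[ℂ] H} {e : HilbertBasis ι ℂ H} {p : ι → ℝ} (h : IsSpec T e p)
    (h1 : ∀ i, p i ≤ 1) : vnE T = ∑' i, ENNReal.ofReal (Real.negMulLog (p i)) :=
  trE_eq_spec (cfc_eF_isSpec h h1)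

lemma le_one_of_hasSum {p : ι → ℝ} {s : ℝ} (hp : ∀ i, 0 ≤ p i) (h : HasSum p s) (hs : s ≤ 1)
    (i : ι) : p i ≤ 1 :=
  (le_hasSum h i fun j _ => hp j).trans hs

/-- Peierls' inequality: the entropy of the diagonal in any basis dominates the entropy. -/
theorem vnE_le_diag {T : H →L[ℂ] H} {e : HilbertBasis ι ℂ H} {p : ι → ℝ} (h : IsSpec T e p)
    (h1 : ∀ i, p i ≤ 1) (b : HilbertBasis κ ℂ H) :
    vnE T ≤ ∑' k, ENNReal.ofReal (Real.negMulLog ((⟪b k, T (b k)⟫_ℂ).re)) := by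
  rw [vnE_eq_spec h h1]
  have h2 : ∀ k, ∑' i, ENNReal.ofReal (‖⟪e i, b k⟫_ℂ‖ ^ 2 * Real.negMulLog (p i)) ≤
      ENNReal.ofReal (Real.negMulLog ((⟪b k, T (b k)⟫_ℂ).re)) := by
    intro k
    refine jensen_negMulLog (fun i => by positivity) ?_ h.nonneg h1 ?_
    · have := hasSum_norm_sq e (b k)
      rwa [b.orthonormal.1 k, one_pow] at this
    · have := h.hasSum_quad (b k)
      simpa only [mul_comm] using this
  have h3 : ∑' i, ENNReal.ofReal (Real.negMulLog (p i)) =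
      ∑' k, ∑' i, ENNReal.ofReal (‖⟪e i, b k⟫_ℂ‖ ^ 2 * Real.negMulLog (p i)) := by
    rw [ENNReal.tsum_comm]
    refine tsum_congr fun i => ?_
    have h4 : ∀ k, ENNReal.ofReal (‖⟪e i, b k⟫_ℂ‖ ^ 2 * Real.negMulLog (p i)) =
        ENNReal.ofReal (‖⟪e i, b k⟫_ℂ‖ ^ 2) * ENNReal.ofReal (Real.negMulLog (p i)) := fun k =>
      ENNReal.ofReal_mul (by positivity)
    simp only [h4]
    rw [ENNReal.tsum_mul_right, tsum_ofReal_norm_sq', e.orthonormal.1 i]
    simp
  rw [h3]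
  exact ENNReal.tsum_le_tsum h2

/-- Gibbs' inequality: `S(T) ≤ -∑ ⟨b_k, T b_k⟩ log q_k` for every Hilbert basis `b` and every
nonnegative `q` with `∑ q ≤ Tr T ≤ 1` (with `0 log 0 = 0` where the diagonal vanishes). -/
theorem gibbs {T : H →L[ℂ] H} {e : HilbertBasis ι ℂ H} {p : ι → ℝ} (h : IsSpec T e p)
    {D : ℝ} (hD : HasSum p D) (hD1 : D ≤ 1) (b : HilbertBasis κ ℂ H) {q : κ → ℝ} {Q : ℝ}
    (hq : ∀ k, 0 ≤ q k) (hQ : HasSum q Q) (hQD : Q ≤ D)
    (h0 : ∀ k, q k = 0 → (⟪b k, T (b k)⟫_ℂ).re = 0) :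
    vnE T ≤ ∑' k, ENNReal.ofReal (-((⟪b k, T (b k)⟫_ℂ).re * Real.log (q k))) := by
  have hp1 := le_one_of_hasSum h.nonneg hD hD1
  refine (vnE_le_diag h hp1 b).trans ?_
  have hd := (h.hasSum_iff b).2 hD
  have hd0 : ∀ k, 0 ≤ (⟪b k, T (b k)⟫_ℂ).re := fun k => re_inner_nonneg h.isPositive _
  exact gibbs_classical hd0 hd hq (le_one_of_hasSum hq hQ (hQD.trans hD1)) hQ hQD h0
    (le_one_of_hasSum hd0 hd hD1)

end Crest.Agent.R331.SP892
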