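import Mathlib
import Crest.Prelude.Def_FockState
import Crest.Agent.R069.HSCpt

/-!
Row 331, base leaf [SP]: spectral layer for states.
Part 1: Hilbert bases, positive operators of finite trace, eigenbases, functional calculus on
eigenvectors.
-/

set_option autoImplicit false
set_option linter.unusedSectionVars false
set_option linter.style.haveILetI false

open scoped InnerProductSpace ENNReal Topology
open Module.End Filter

noncomputable section

namespace Crest.Agent.R331.SP892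

universe u

variable {H : Type u} [NormedAddCommGroup H] [InnerProductSpace ℂ H] [CompleteSpace H]
variable {ι κ : Type*}

/-! ### Parseval -/

/-- Parseval for a Hilbert basis. -/
lemma hasSum_norm_sq (b : HilbertBasis ι ℂ H) (x : H) :
    HasSum (fun i => ‖⟪b i, x⟫_ℂ‖ ^ 2) (‖x‖ ^ 2) := by
  have h := b.hasSum_inner_mul_inner x x
  have h2 := (Complex.hasSum_re h)
  have e1 : (⟪x, x⟫_ℂ).re = ‖x‖ ^ 2 := by
    have := inner_self_eq_norm_sq (𝕜 := ℂ) x
    simpa using this
  rw [e1] at h2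
  convert h2 using 2 with i
  rw [← inner_conj_symm x (b i), Complex.conj_mul']
  norm_cast

lemma norm_inner_comm' (x y : H) : ‖⟪x, y⟫_ℂ‖ = ‖⟪y, x⟫_ℂ‖ := by
  rw [← inner_conj_symm, RCLike.norm_conj]

lemma hasSum_norm_sq' (b : HilbertBasis ι ℂ H) (x : H) :
    HasSum (fun i => ‖⟪x, b i⟫_ℂ‖ ^ 2) (‖x‖ ^ 2) := by
  have := hasSum_norm_sq b x
  simpa only [norm_inner_comm' x] using this

lemma tsum_ofReal_norm_sq (b : HilbertBasis ι ℂ H) (x : H) :
    ∑' i, ENNReal.ofReal (‖⟪b i, x⟫_ℂ‖ ^ 2) = ENNReal.ofReal (‖x‖ ^ 2) := by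
  rw [← (hasSum_norm_sq b x).tsum_eq,
    ENNReal.ofReal_tsum_of_nonneg (fun i => by positivity) (hasSum_norm_sq b x).summable]

lemma tsum_ofReal_norm_sq' (b : HilbertBasis ι ℂ H) (x : H) :
    ∑' i, ENNReal.ofReal (‖⟪x, b i⟫_ℂ‖ ^ 2) = ENNReal.ofReal (‖x‖ ^ 2) := by
  simp only [norm_inner_comm' x]
  exact tsum_ofReal_norm_sq b x

/-- The Hilbert--Schmidt sum is independent of the basis (adjoint on the other side). -/
lemma hs_swap (b : HilbertBasis ι ℂ H) (c : HilbertBasis κ ℂ H) (S : H →L[ℂ] H) :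
    ∑' i, ENNReal.ofReal (‖S (b i)‖ ^ 2) =
      ∑' j, ENNReal.ofReal (‖ContinuousLinearMap.adjoint S (c j)‖ ^ 2) := by
  have h1 : ∀ i, ENNReal.ofReal (‖S (b i)‖ ^ 2) =
      ∑' j, ENNReal.ofReal (‖⟪c j, S (b i)⟫_ℂ‖ ^ 2) := fun i => (tsum_ofReal_norm_sq c _).symm
  have h2 : ∀ j, ENNReal.ofReal (‖ContinuousLinearMap.adjoint S (c j)‖ ^ 2) =
      ∑' i, ENNReal.ofReal (‖⟪ContinuousLinearMap.adjoint S (c j), b i⟫_ℂ‖ ^ 2) :=
    fun j => (tsum_ofReal_norm_sq' b _).symm
  simp only [h1, h2]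
  rw [ENNReal.tsum_comm]
  refine tsum_congr fun j => tsum_congr fun i => ?_
  rw [ContinuousLinearMap.adjoint_inner_left]

/-- The square root of a positive operator. -/
lemma exists_sqrt {T : H →L[ℂ] H} (hT : T.IsPositive) :
    ∃ S : H →L[ℂ] H, S.IsPositive ∧ S * S = T ∧ ∀ x, ‖S x‖ ^ 2 = (⟪x, T x⟫_ℂ).re := by
  have h0 : (0 : H →L[ℂ] H) ≤ T := (ContinuousLinearMap.nonneg_iff_isPositive T).2 hT
  have hS : (CFC.sqrt T).IsPositive :=
    (ContinuousLinearMap.nonneg_iff_isPositive _).1 (CFC.sqrt_nonneg T)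
  have hSS : CFC.sqrt T * CFC.sqrt T = T := CFC.sqrt_mul_sqrt_self T h0
  refine ⟨CFC.sqrt T, hS, hSS, fun x => ?_⟩
  have h1 : ⟪x, T x⟫_ℂ = ⟪CFC.sqrt T x, CFC.sqrt T x⟫_ℂ := by
    rw [hS.inner_left_eq_inner_right]
    conv_lhs => rw [← hSS]
    rfl
  rw [h1]
  have := inner_self_eq_norm_sq (𝕜 := ℂ) (CFC.sqrt T x)
  simpa using this.symm

lemma re_inner_nonneg {T : H →L[ℂ] H} (hT : T.IsPositive) (x : H) : 0 ≤ (⟪x, T x⟫_ℂ).re :=
  hT.re_inner_nonneg_right x

lemma im_inner_zero {T : H →L[ℂ] H} (hT : T.IsPositive) (x : H) : (⟪x, T x⟫_ℂ).im = 0 := by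
  have h := hT.inner_left_eq_inner_right x x
  have h2 : (starRingEnd ℂ) ⟪x, T x⟫_ℂ = ⟪x, T x⟫_ℂ := by rw [inner_conj_symm, h]
  exact Complex.conj_eq_iff_im.1 h2

lemma ofReal_re_inner {T : H →L[ℂ] H} (hT : T.IsPositive) (x : H) :
    (((⟪x, T x⟫_ℂ).re : ℝ) : ℂ) = ⟪x, T x⟫_ℂ := by
  apply Complex.ext
  · simp
  · simp [im_inner_zero hT x]

/-- The trace of a positive operator does not depend on the basis. -/
theorem trace_indep {T : H →L[ℂ] H} (hT : T.IsPositive) (b : HilbertBasis ι ℂ H)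
    (c : HilbertBasis κ ℂ H) :
    ∑' i, ENNReal.ofReal ((⟪b i, T (b i)⟫_ℂ).re) = ∑' j, ENNReal.ofReal ((⟪c j, T (c j)⟫_ℂ).re) := by
  obtain ⟨S, hS, -, hn⟩ := exists_sqrt hT
  simp only [← hn]
  rw [hs_swap b c S]
  have : ContinuousLinearMap.adjoint S = S := hS.isSelfAdjoint.adjoint_eq
  rw [this]

/-- The trace of a positive operator does not depend on the basis, `HasSum` form. -/
theorem hasSum_trace_indep {T : H →L[ℂ] H} (hT : T.IsPositive) (b : HilbertBasis ι ℂ H)
    (c : HilbertBasis κ ℂ H) {s : ℝ} (h : HasSum (fun i => (⟪b i, T (b i)⟫_ℂ).re) s) :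
    HasSum (fun j => (⟪c j, T (c j)⟫_ℂ).re) s := by
  have hs : 0 ≤ s := h.nonneg fun i => re_inner_nonneg hT _
  have h1 : ∑' i, ENNReal.ofReal ((⟪b i, T (b i)⟫_ℂ).re) = ENNReal.ofReal s := by
    rw [← h.tsum_eq, ENNReal.ofReal_tsum_of_nonneg (fun i => re_inner_nonneg hT _) h.summable]
  rw [trace_indep hT b c] at h1
  have h2 : Summable (fun j => (⟪c j, T (c j)⟫_ℂ).re) := by
    have h3 : ∑' j, ENNReal.ofReal ((⟪c j, T (c j)⟫_ℂ).re) ≠ ∞ := by
      rw [h1]; exact ENNReal.ofReal_ne_top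
    have h4 := ENNReal.summable_toReal h3
    refine h4.congr fun j => ?_
    rw [ENNReal.toReal_ofReal (re_inner_nonneg hT _)]
  rw [← ENNReal.ofReal_tsum_of_nonneg (fun i => re_inner_nonneg hT _) h2] at h1
  have h5 : ∑' j, (⟪c j, T (c j)⟫_ℂ).re = s := by
    have h6 : 0 ≤ ∑' j, (⟪c j, T (c j)⟫_ℂ).re := tsum_nonneg fun j => re_inner_nonneg hT _
    exact (ENNReal.ofReal_eq_ofReal_iff h6 hs).1 h1
  rw [← h5]
  exact h2.hasSum

theorem hasSum_trace_iff {T : H →L[ℂ] H} (hT : T.IsPositive) (b : HilbertBasis ι ℂ H)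
    (c : HilbertBasis κ ℂ H) {s : ℝ} :
    HasSum (fun i => (⟪b i, T (b i)⟫_ℂ).re) s ↔ HasSum (fun j => (⟪c j, T (c j)⟫_ℂ).re) s :=
  ⟨hasSum_trace_indep hT b c, hasSum_trace_indep hT c b⟩

/-- A positive operator of finite trace is compact. -/
theorem isCompact_of_trace {T : H →L[ℂ] H} (hT : T.IsPositive) (b : HilbertBasis ι ℂ H)
    (h : Summable fun i => (⟪b i, T (b i)⟫_ℂ).re) : IsCompactOperator T := by
  obtain ⟨S, hS, hSS, hn⟩ := exists_sqrt hT
  have hSadj : ContinuousLinearMap.adjoint S = S := hS.isSelfAdjoint.adjoint_eq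
  have hcS : IsCompactOperator S := by
    refine R069.HS.isCompactOperator_of_hs S (∑' i, (⟪b i, T (b i)⟫_ℂ).re) ?_
    intro m v hv
    have h1 : ∀ k, HasSum (fun i => ‖⟪b i, S (v k)⟫_ℂ‖ ^ 2) (‖S (v k)‖ ^ 2) :=
      fun k => hasSum_norm_sq b _
    have h2 : HasSum (fun i => ∑ k, ‖⟪b i, S (v k)⟫_ℂ‖ ^ 2) (∑ k, ‖S (v k)‖ ^ 2) :=
      hasSum_sum fun k _ => h1 k
    refine hasSum_le (fun i => ?_) h2 h.hasSum
    rw [← hn]
    have h3 : ∀ k, ⟪b i, S (v k)⟫_ℂ = ⟪S (b i), v k⟫_ℂ := fun k =>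
      (hS.inner_left_eq_inner_right _ _).symm
    simp only [h3]
    have h4 := hv.sum_inner_products_le (x := S (b i)) (s := Finset.univ)
    simpa only [norm_inner_comm' (S (b i))] using h4
  rw [← hSS]
  exact hcS.comp_clm S

/-- Spectral theorem for compact positive operators: a Hilbert basis of eigenvectors. -/
theorem exists_eigenbasis {T : H →L[ℂ] H} (hT : T.IsPositive) (hc : IsCompactOperator T) :
    ∃ (ι : Type u) (e : HilbertBasis ι ℂ H) (p : ι → ℝ),
      (∀ i, 0 ≤ p i) ∧ ∀ i, T (e i) = (p i : ℂ) • e i := by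
  classical
  have hsym : T.IsSymmetric := hT.isSymmetric
  let E : ℂ → Submodule ℂ H := fun μ => eigenspace (T : Module.End ℂ H) μ
  have hclosed : ∀ μ, IsClosed (E μ : Set H) := by
    intro μ
    have : (E μ : Set H) = {x | T x = μ • x} := by
      ext x
      simp only [E, SetLike.mem_coe, mem_eigenspace_iff, Set.mem_ofPred_eq]
      rfl
    rw [this]
    exact isClosed_eq T.continuous (continuous_const_smul μ)
  haveI : ∀ μ, CompleteSpace (E μ) := fun μ => (hclosed μ).completeSpace_coe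
  choose w bb hbb using fun μ => exists_hilbertBasis ℂ (E μ)
  have hfam : OrthogonalFamily ℂ (fun μ => E μ) fun μ => (E μ).subtypeₗᵢ :=
    hsym.orthogonalFamily_eigenspaces
  let v : (Σ μ : ℂ, w μ) → H := fun a => ((bb a.1 a.2 : E a.1) : H)
  have hv : Orthonormal ℂ v :=
    hfam.orthonormal_sigma_orthonormal (v_family := fun μ => (bb μ : w μ → E μ))
      fun μ => (bb μ).orthonormal
  have hbot : (Submodule.span ℂ (Set.range v))ᗮ = ⊥ := by
    rw [eq_bot_iff]
    intro x hx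
    have h1 : x ∈ (⨆ μ, E μ)ᗮ := by
      rw [← Submodule.iInf_orthogonal, Submodule.mem_iInf]
      intro μ
      rw [Submodule.mem_orthogonal]
      intro y hy
      have h2 := (bb μ).hasSum_repr ⟨y, hy⟩
      have h3 : HasSum (fun i => ⟪x, (((bb μ).repr ⟨y, hy⟩ i • (bb μ i) : E μ) : H)⟫_ℂ) ⟪x, y⟫_ℂ := by
        have h4 := h2.mapL ((innerSL ℂ x).comp (E μ).subtypeL)
        exact h4
      have h5 : ∀ i, ⟪x, (((bb μ).repr ⟨y, hy⟩ i • (bb μ i) : E μ) : H)⟫_ℂ = 0 := by
        intro i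
        have h6 : ⟪v ⟨μ, i⟩, x⟫_ℂ = 0 :=
          (Submodule.mem_orthogonal _ _).1 hx _ (Submodule.subset_span ⟨⟨μ, i⟩, rfl⟩)
        have h7 : ⟪x, v ⟨μ, i⟩⟫_ℂ = 0 := by rw [← inner_conj_symm, h6, map_zero]
        rw [Submodule.coe_smul, inner_smul_right]
        rw [show ((bb μ i : E μ) : H) = v ⟨μ, i⟩ from rfl, h7, mul_zero]
      simp only [h5] at h3
      have h8 : ⟪x, y⟫_ℂ = 0 := h3.unique hasSum_zero
      rw [← inner_conj_symm, h8, map_zero]
    have h9 := ContinuousLinearMap.orthogonalComplement_iSup_eigenspaces_eq_bot hc hsym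
    rw [h9] at h1
    exact h1
  let e : HilbertBasis (Σ μ : ℂ, w μ) ℂ H := HilbertBasis.mkOfOrthogonalEqBot hv hbot
  have he : ∀ a, e a = v a := fun a => by
    simp only [e, HilbertBasis.coe_mkOfOrthogonalEqBot]
  have heig : ∀ a, T (e a) = a.1 • e a := by
    intro a
    rw [he a]
    have h1 : v a ∈ E a.1 := (bb a.1 a.2).2
    exact mem_eigenspace_iff.1 h1
  have hre : ∀ a : (Σ μ : ℂ, w μ), ((⟪e a, T (e a)⟫_ℂ).re : ℂ) = a.1 := by
    intro a
    have h1 := ofReal_re_inner hT (e a)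
    rw [h1, heig a, inner_smul_right, inner_self_eq_norm_sq_to_K, e.orthonormal.1 a]
    simp
  refine ⟨(Σ μ : ℂ, w μ), e, fun a => (⟪e a, T (e a)⟫_ℂ).re, fun a => re_inner_nonneg hT _, fun a => ?_⟩
  rw [hre a, heig a]

/-- Reindexing a Hilbert basis. -/
def reindex (e : HilbertBasis ι ℂ H) (σ : κ ≃ ι) : HilbertBasis κ ℂ H :=
  HilbertBasis.mkOfOrthogonalEqBot (v := fun k => e (σ k)) (e.orthonormal.comp σ σ.injective) (by
    have h1 : Set.range (fun k => e (σ k)) = Set.range e := σ.surjective.range_comp e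
    rw [h1, ← Submodule.orthogonal_closure, e.dense_span, Submodule.top_orthogonal_eq_bot])

@[simp] lemma reindex_apply (e : HilbertBasis ι ℂ H) (σ : κ ≃ ι) (k : κ) :
    reindex e σ k = e (σ k) := by
  simp only [reindex, HilbertBasis.coe_mkOfOrthogonalEqBot]

/-- Two Hilbert bases, one of them countable, have equipotent index sets. -/
theorem exists_index_equiv (e : HilbertBasis ι ℂ H) (b : HilbertBasis κ ℂ H) [Countable κ] :
    Nonempty (κ ≃ ι) := by
  classical
  have hcount : Countable ι := by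
    have h1 : ∀ k : κ, (Function.support fun i => ‖⟪b k, e i⟫_ℂ‖ ^ 2).Countable := fun k =>
      (hasSum_norm_sq' e (b k)).summable.countable_support
    have h2 : (⋃ k : κ, Function.support fun i => ‖⟪b k, e i⟫_ℂ‖ ^ 2) = Set.univ := by
      rw [Set.eq_univ_iff_forall]
      intro i
      by_contra h
      simp only [Set.mem_iUnion, Function.mem_support, not_exists, not_not] at h
      have h3 := hasSum_norm_sq b (e i)
      simp only [h] at h3
      have h4 := h3.unique hasSum_zero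
      rw [e.orthonormal.1 i] at h4
      norm_num at h4
    have h5 : (Set.univ : Set ι).Countable := h2 ▸ Set.countable_iUnion h1
    exact Set.countable_univ_iff.1 h5
  rcases finite_or_infinite κ with hf | hinf
  · haveI := Fintype.ofFinite κ
    haveI : FiniteDimensional ℂ H := Module.Finite.of_basis b.toOrthonormalBasis.toBasis
    have hli : LinearIndependent ℂ e := e.orthonormal.linearIndependent
    haveI : Finite ι := hli.finite
    haveI := Fintype.ofFinite ι
    exact ⟨b.toOrthonormalBasis.toBasis.indexEquiv e.toOrthonormalBasis.toBasis⟩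
  · haveI : Infinite ι := by
      by_contra h
      rw [not_infinite_iff_finite] at h
      haveI := Fintype.ofFinite ι
      haveI : FiniteDimensional ℂ H := Module.Finite.of_basis e.toOrthonormalBasis.toBasis
      have hli : LinearIndependent ℂ b := b.orthonormal.linearIndependent
      haveI : Finite κ := hli.finite
      exact not_finite κ
    haveI := Encodable.ofCountable ι
    haveI := Encodable.ofCountable κ
    haveI := Denumerable.ofEncodableOfInfinite ι
    haveI := Denumerable.ofEncodableOfInfinite κ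
    exact ⟨(Denumerable.eqv κ).trans (Denumerable.eqv ι).symm⟩

/-- A positive operator of finite trace has an eigenbasis indexed by any given countable
Hilbert-basis index type, with summable eigenvalues. -/
theorem exists_eigenbasis_of_trace [Countable κ] {T : H →L[ℂ] H} (hT : T.IsPositive)
    (b : HilbertBasis κ ℂ H) {s : ℝ} (h : HasSum (fun i => (⟪b i, T (b i)⟫_ℂ).re) s) :
    ∃ (e : HilbertBasis κ ℂ H) (p : κ → ℝ),
      (∀ i, 0 ≤ p i) ∧ (∀ i, T (e i) = (p i : ℂ) • e i) ∧ HasSum p s := by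
  obtain ⟨ι, e, p, hp, he⟩ := exists_eigenbasis hT (isCompact_of_trace hT b h.summable)
  obtain ⟨σ⟩ := exists_index_equiv e b
  refine ⟨reindex e σ, fun k => p (σ k), fun k => hp _, fun k => ?_, ?_⟩
  · rw [reindex_apply, he]
  · have h1 := hasSum_trace_indep hT b (reindex e σ) h
    have h2 : (fun k => (⟪reindex e σ k, T (reindex e σ k)⟫_ℂ).re) = fun k => p (σ k) := by
      funext k
      rw [reindex_apply, he, inner_smul_right, inner_self_eq_norm_sq_to_K, e.orthonormal.1]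
      simp
    rwa [h2] at h1

/-! ### Diagonal operators -/

section Diag

variable {T : H →L[ℂ] H} (e : HilbertBasis ι ℂ H)

/-- Matrix coefficients of an operator diagonal in a basis. -/
lemma hasSum_inner_diag {c : ι → ℂ} (hT : ∀ i, T (e i) = c i • e i) (x y : H) :
    HasSum (fun i => c i * (⟪x, e i⟫_ℂ * ⟪e i, y⟫_ℂ)) ⟪x, T y⟫_ℂ := by
  have h1 := ((e.hasSum_repr y).mapL T).mapL (innerSL ℂ x)
  have e1 : (innerSL ℂ x) (T y) = ⟪x, T y⟫_ℂ := rfl
  rw [e1] at h1
  have h2 : (fun i => c i * (⟪x, e i⟫_ℂ * ⟪e i, y⟫_ℂ)) =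
      fun i => (innerSL ℂ x) (T (e.repr y i • e i)) := by
    funext i
    rw [map_smul, hT, e.repr_apply_apply, innerSL_apply_apply, inner_smul_right, inner_smul_right]
    ring
  rw [h2]
  exact h1

/-- Quadratic form of an operator diagonal in a basis with real eigenvalues. -/
lemma hasSum_quad {p : ι → ℝ} (hT : ∀ i, T (e i) = (p i : ℂ) • e i) (x : H) :
    HasSum (fun i => p i * ‖⟪e i, x⟫_ℂ‖ ^ 2) (⟪x, T x⟫_ℂ).re := by
  have h := Complex.hasSum_re (hasSum_inner_diag e hT x x)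
  convert h using 2 with i
  rw [← inner_conj_symm x (e i), Complex.conj_mul']
  norm_cast

lemma isPositive_of_diag {p : ι → ℝ} (hT : ∀ i, T (e i) = (p i : ℂ) • e i) (hp : ∀ i, 0 ≤ p i) :
    T.IsPositive := by
  rw [ContinuousLinearMap.isPositive_iff_complex]
  intro x
  have h1 := hasSum_inner_diag e hT x x
  have h2 := hasSum_quad e hT x
  have h3 : HasSum (fun i => ((p i * ‖⟪e i, x⟫_ℂ‖ ^ 2 : ℝ) : ℂ)) ⟪x, T x⟫_ℂ := by
    convert h1 using 2 with i
    rw [← inner_conj_symm x (e i), Complex.conj_mul']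
    push_cast; ring
  have h4 : HasSum (fun i => ((p i * ‖⟪e i, x⟫_ℂ‖ ^ 2 : ℝ) : ℂ)) (((⟪x, T x⟫_ℂ).re : ℝ) : ℂ) :=
    Complex.hasSum_ofReal.2 h2
  have h5 : (((⟪x, T x⟫_ℂ).re : ℝ) : ℂ) = ⟪x, T x⟫_ℂ := h4.unique h3
  have h6 : 0 ≤ (⟪x, T x⟫_ℂ).re := h2.nonneg fun i => mul_nonneg (hp i) (by positivity)
  have h7 : ⟪T x, x⟫_ℂ = ⟪x, T x⟫_ℂ := by
    rw [← inner_conj_symm, ← h5, Complex.conj_ofReal]
  rw [h7]
  exact ⟨h5, h6⟩

/-- The trace of an operator diagonal in a basis. -/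
lemma tsum_diag (b : HilbertBasis κ ℂ H) {p : ι → ℝ} (hT : ∀ i, T (e i) = (p i : ℂ) • e i)
    (hp : ∀ i, 0 ≤ p i) :
    ∑' k, ENNReal.ofReal ((⟪b k, T (b k)⟫_ℂ).re) = ∑' i, ENNReal.ofReal (p i) := by
  rw [trace_indep (isPositive_of_diag e hT hp) b e]
  refine tsum_congr fun i => ?_
  rw [hT, inner_smul_right, inner_self_eq_norm_sq_to_K, e.orthonormal.1]
  simp

/-- The diagonal of an operator diagonal in a basis. -/
lemma diag_self {p : ι → ℝ} (hT : ∀ i, T (e i) = (p i : ℂ) • e i) (i : ι) :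
    (⟪e i, T (e i)⟫_ℂ).re = p i := by
  rw [hT, inner_smul_right, inner_self_eq_norm_sq_to_K, e.orthonormal.1]
  simp

lemma hasSum_diag_iff (b : HilbertBasis κ ℂ H) {p : ι → ℝ}
    (hT : ∀ i, T (e i) = (p i : ℂ) • e i) (hp : ∀ i, 0 ≤ p i) {s : ℝ} :
    HasSum (fun k => (⟪b k, T (b k)⟫_ℂ).re) s ↔ HasSum p s := by
  rw [hasSum_trace_iff (isPositive_of_diag e hT hp) b e]
  have : (fun j => (⟪e j, T (e j)⟫_ℂ).re) = p := by
    funext i
    rw [hT, inner_smul_right, inner_self_eq_norm_sq_to_K, e.orthonormal.1]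
    simp
  rw [this]

/-- Two bounded operators which agree on a Hilbert basis agree. -/
lemma clm_ext_basis {A B : H →L[ℂ] H} (h : ∀ i, A (e i) = B (e i)) : A = B := by
  ext x
  have h1 := (e.hasSum_repr x).mapL A
  have h2 := (e.hasSum_repr x).mapL B
  simp only [map_smul, h] at h1
  simp only [map_smul] at h2
  exact h1.unique h2

end Diag

/-! ### Functional calculus on eigenvectors -/

/-- The continuous functional calculus of a self-adjoint operator acts on an eigenvector by the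
value of the function. -/
theorem cfc_apply_eigen {T : H →L[ℂ] H} (hT : IsSelfAdjoint T) {v : H} {p : ℝ}
    (hv : T v = (p : ℂ) • v) {f : ℂ → ℂ} (hf : Continuous f) : cfc f T v = f p • v := by
  rcases eq_or_ne v 0 with rfl | hv0
  · simp
  have hn : IsStarNormal T := hT.isStarNormal
  have hmem : (p : ℂ) ∈ spectrum ℂ T := by
    rw [spectrum.mem_iff]
    intro hu
    have h1 : (algebraMap ℂ (H →L[ℂ] H) p - T) v = 0 := by
      simp [Algebra.algebraMap_eq_smul_one, hv]
    obtain ⟨U, hU⟩ := hu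
    have h2 : ((U⁻¹ : (H →L[ℂ] H)ˣ) : H →L[ℂ] H) ((U : H →L[ℂ] H) v) = v := by
      have h3 : ((U⁻¹ : (H →L[ℂ] H)ˣ) : H →L[ℂ] H) * (U : H →L[ℂ] H) = 1 := U.inv_mul
      have h4 := congrArg (fun A : H →L[ℂ] H => A v) h3
      exact h4
    rw [hU, h1, map_zero] at h2
    exact hv0 h2.symm
  haveI : CompactSpace (spectrum ℂ T) := isCompact_iff_compactSpace.1 (spectrum.isCompact T)
  have key : ∀ g : C(spectrum ℂ T, ℂ), cfcHom hn g v = g ⟨p, hmem⟩ • v := by
    intro g
    induction g using ContinuousMap.induction_on_of_compact with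
    | const r =>
      have h1 : (ContinuousMap.const (spectrum ℂ T) r) = algebraMap ℂ C(spectrum ℂ T, ℂ) r := rfl
      rw [h1, AlgHomClass.commutes]
      simp [Algebra.algebraMap_eq_smul_one]
    | id =>
      rw [cfcHom_id hn]
      exact hv
    | star_id =>
      rw [map_star, cfcHom_id hn, hT.star_eq]
      rw [hv]
      simp
    | add f g hf hg =>
      rw [map_add, add_apply, hf, hg, ContinuousMap.add_apply, add_smul]
    | mul f g hf hg =>
      rw [map_mul, mul_apply_eq_comp, hg, map_smul, hf, ContinuousMap.mul_apply,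
        smul_smul, mul_comm]
    | frequently f hf =>
      refine hf.mem_of_closed (isClosed_eq ?_ ?_)
      · have h1 : Continuous (cfcHom hn : C(spectrum ℂ T, ℂ) → (H →L[ℂ] H)) :=
          cfcHom_continuous hn
        exact (ContinuousLinearMap.apply ℂ H v).continuous.comp h1
      · have h2 : Continuous fun g : C(spectrum ℂ T, ℂ) => g ⟨p, hmem⟩ :=
          continuous_eval_const _
        exact h2.smul continuous_const
  rw [cfc_apply f T hn hf.continuousOn, key]
  rfl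

end Crest.Agent.R331.SP892
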