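import Mathlib

/-!
[LIM] leaf of row 331, part 0: operator tangent inequalities for `η(t) = -t log t` on a general
complex Hilbert space (stated with quadratic forms only, so that they specialise to `Fock n`).
-/

noncomputable section

open scoped InnerProductSpace ComplexOrder

namespace Crest.Agent.R331.Usc414

variable {H : Type*} [NormedAddCommGroup H] [InnerProductSpace ℂ H] [CompleteSpace H]

/-- the operator `η(T) = -T log T`, complex functional calculus exactly as in the frozen text. -/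
def etaOp (T : H →L[ℂ] H) : H →L[ℂ] H := cfc (fun z : ℂ => (-(z.re * Real.log z.re) : ℂ)) T

theorem etaOp_eq {T : H →L[ℂ] H} (hT : IsSelfAdjoint T) :
    etaOp T = cfc Real.negMulLog T := by
  unfold etaOp
  rw [cfc_real_eq_complex _ hT]
  congr 1
  funext z
  simp [Real.negMulLog]

theorem spec_nonneg {T : H →L[ℂ] H} (hT : 0 ≤ T) {t : ℝ} (ht : t ∈ spectrum ℝ T) :
    0 ≤ t := spectrum_nonneg_of_nonneg hT ht

theorem tan_lower {t q : ℝ} (ht : 0 ≤ t) (hq : 0 < q) :
    (1 - Real.log q) * t - q⁻¹ * t ^ 2 ≤ Real.negMulLog t := by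
  rcases ht.eq_or_lt with rfl | ht
  · simp
  · unfold Real.negMulLog
    have h1 : Real.log (t / q) ≤ t / q - 1 := Real.log_le_sub_one_of_pos (by positivity)
    rw [Real.log_div ht.ne' hq.ne'] at h1
    have h2 := mul_le_mul_of_nonneg_left h1 ht.le
    have h3 : t * (t / q - 1) = q⁻¹ * t ^ 2 - t := by field_simp
    nlinarith

theorem tan_upper {t q : ℝ} (ht : 0 ≤ t) (hq : 0 < q) :
    Real.negMulLog t ≤ -(t * Real.log q) + q - t := by
  rcases ht.eq_or_lt with rfl | ht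
  · simp; exact hq.le
  · unfold Real.negMulLog
    have h1 : Real.log (q / t) ≤ q / t - 1 := Real.log_le_sub_one_of_pos (by positivity)
    rw [Real.log_div hq.ne' ht.ne'] at h1
    have h2 := mul_le_mul_of_nonneg_left h1 ht.le
    have h3 : t * (q / t - 1) = q - t := by field_simp
    nlinarith

theorem etaOp_lower {T : H →L[ℂ] H} (hT : 0 ≤ T) {q : ℝ} (hq : 0 < q) :
    (1 - Real.log q) • T - q⁻¹ • T ^ 2 ≤ etaOp T := by
  have hsa : IsSelfAdjoint T := hT.isSelfAdjoint
  rw [etaOp_eq hsa]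
  have h := cfc_mono (R := ℝ) (a := T) (f := fun t => (1 - Real.log q) * t - q⁻¹ * t ^ 2)
    (g := Real.negMulLog) (fun x hx => tan_lower (spec_nonneg hT hx) hq)
    (by fun_prop) (Real.continuous_negMulLog.continuousOn)
  have e : cfc (fun t : ℝ => (1 - Real.log q) * t - q⁻¹ * t ^ 2) T
      = (1 - Real.log q) • T - q⁻¹ • T ^ 2 := by
    rw [cfc_sub (R := ℝ) (a := T) (fun t => (1 - Real.log q) * t) (fun t => q⁻¹ * t ^ 2)
      (by fun_prop) (by fun_prop), cfc_const_mul (R := ℝ) _ (fun t => t) T (by fun_prop),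
      cfc_const_mul (R := ℝ) _ (fun t => t ^ 2) T (by fun_prop), cfc_id' ℝ T,
      cfc_pow_id (R := ℝ) T 2]
  rw [e] at h
  exact h

theorem etaOp_upper {T : H →L[ℂ] H} (hT : 0 ≤ T) {q : ℝ} (hq : 0 < q) :
    etaOp T ≤ (-(Real.log q) - 1) • T + q • (1 : H →L[ℂ] H) := by
  have hsa : IsSelfAdjoint T := hT.isSelfAdjoint
  rw [etaOp_eq hsa]
  have h := cfc_mono (R := ℝ) (a := T) (f := Real.negMulLog)
    (g := fun t => (-(Real.log q) - 1) * t + q * 1)
    (fun x hx => by
      have := tan_upper (spec_nonneg hT hx) hq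
      nlinarith)
    (Real.continuous_negMulLog.continuousOn) (by fun_prop)
  have e : cfc (fun t : ℝ => (-(Real.log q) - 1) * t + q * 1) T
      = (-(Real.log q) - 1) • T + q • (1 : H →L[ℂ] H) := by
    rw [cfc_add (R := ℝ) (a := T) (fun t => (-(Real.log q) - 1) * t) (fun _ => q * 1)
      (by fun_prop) (by fun_prop), cfc_const_mul (R := ℝ) _ (fun t => t) T (by fun_prop),
      cfc_const_mul (R := ℝ) _ (fun _ => 1) T (by fun_prop), cfc_id' ℝ T,
      cfc_const_one ℝ T]
  rw [e] at h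
  exact h

/-- real quadratic form -/
def qf (A : H →L[ℂ] H) (x : H) : ℝ := (⟪x, A x⟫_ℂ).re

theorem qf_mono {A B : H →L[ℂ] H} (h : A ≤ B) (x : H) : qf A x ≤ qf B x := by
  have := (ContinuousLinearMap.le_def A B).1 h
  have h2 := this.re_inner_nonneg_right x
  unfold qf
  simp only [ContinuousLinearMap.sub_apply, inner_sub_right, map_sub, RCLike.re_to_complex] at h2
  linarith

theorem qf_smul (c : ℝ) (A : H →L[ℂ] H) (x : H) : qf (c • A) x = c * qf A x := by
  unfold qf
  rw [ContinuousLinearMap.smul_apply, ← Complex.coe_smul, inner_smul_right]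
  simp

theorem qf_one (x : H) : qf (1 : H →L[ℂ] H) x = ‖x‖ ^ 2 := by
  unfold qf
  simp [← Complex.ofReal_pow]

theorem qf_add (A B : H →L[ℂ] H) (x : H) : qf (A + B) x = qf A x + qf B x := by
  unfold qf
  rw [ContinuousLinearMap.add_apply, inner_add_right, Complex.add_re]

theorem qf_sub (A B : H →L[ℂ] H) (x : H) : qf (A - B) x = qf A x - qf B x := by
  unfold qf
  rw [ContinuousLinearMap.sub_apply, inner_sub_right, Complex.sub_re]

theorem qf_sq {T : H →L[ℂ] H} (hT : IsSelfAdjoint T) (x : H) :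
    qf (T ^ 2) x = ‖T x‖ ^ 2 := by
  unfold qf
  rw [pow_two, ContinuousLinearMap.mul_apply]
  have : ⟪x, T (T x)⟫_ℂ = ⟪T x, T x⟫_ℂ := by
    rw [← ContinuousLinearMap.adjoint_inner_left, (ContinuousLinearMap.isSelfAdjoint_iff'.1 hT)]
  rw [this]
  simp [← Complex.ofReal_pow]

/-- lower tangent bound at a vector -/
theorem qf_eta_lower {T : H →L[ℂ] H} (hT : 0 ≤ T) {q : ℝ} (hq : 0 < q) (x : H) :
    (1 - Real.log q) * qf T x - q⁻¹ * ‖T x‖ ^ 2 ≤ qf (etaOp T) x := by
  have h := qf_mono (etaOp_lower hT hq) x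
  rwa [qf_sub, qf_smul, qf_smul, qf_sq hT.isSelfAdjoint] at h

theorem qf_eta_upper {T : H →L[ℂ] H} (hT : 0 ≤ T) {q : ℝ} (hq : 0 < q) (x : H) :
    qf (etaOp T) x ≤ (-(Real.log q) - 1) * qf T x + q * ‖x‖ ^ 2 := by
  have h := qf_mono (etaOp_upper hT hq) x
  rwa [qf_add, qf_smul, qf_smul, qf_one] at h

/-- a positive square root: a self-adjoint `S` with `S * S = T`. -/
theorem exists_sqrt {T : H →L[ℂ] H} (hT : 0 ≤ T) :
    ∃ S : H →L[ℂ] H, IsSelfAdjoint S ∧ ∀ x y : H, ⟪x, T y⟫_ℂ = ⟪S x, S y⟫_ℂ := by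
  refine ⟨CFC.sqrt T, (CFC.sqrt_nonneg T).isSelfAdjoint, fun x y => ?_⟩
  have hS : IsSelfAdjoint (CFC.sqrt T) := (CFC.sqrt_nonneg T).isSelfAdjoint
  have h : CFC.sqrt T * CFC.sqrt T = T := CFC.sqrt_mul_sqrt_self T hT
  conv_lhs => rw [← h]
  rw [ContinuousLinearMap.mul_apply]
  rw [← ContinuousLinearMap.adjoint_inner_left, (ContinuousLinearMap.isSelfAdjoint_iff'.1 hS)]

end Crest.Agent.R331.Usc414
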