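import Mathlib
import Crest.Agent.R331.UscA_414

/-!
[LIM] leaf of row 331, part 0b: diagonalisation of a compression to a finite orthonormal family, and the
block lemma (BL).
-/

noncomputable section

open scoped InnerProductSpace ComplexOrder Matrix

namespace Crest.Agent.R331.Usc414

variable {H : Type*} [NormedAddCommGroup H] [InnerProductSpace ℂ H] [CompleteSpace H]

section Block

variable {ι : Type*} [Fintype ι] [DecidableEq ι]

omit [CompleteSpace H] [DecidableEq ι] in
theorem inner_block (A : H →L[ℂ] H) (v : ι → H) (a b : ι → ℂ) :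
    ⟪∑ k, a k • v k, A (∑ k, b k • v k)⟫_ℂ
      = ∑ k, ∑ l, (starRingEnd ℂ) (a k) * b l * ⟪v k, A (v l)⟫_ℂ := by
  rw [sum_inner]
  refine Finset.sum_congr rfl fun k _ => ?_
  rw [map_sum, inner_sum]
  refine Finset.sum_congr rfl fun l _ => ?_
  rw [inner_smul_left, map_smul, inner_smul_right]
  ring

theorem block_diag (T : H →L[ℂ] H) (hT : 0 ≤ T) (v : ι → H) (hv : Orthonormal ℂ v) :
    ∃ (p : ι → ℝ) (c : ι → ι → ℂ),
      (∀ j, 0 ≤ p j) ∧
      Orthonormal ℂ (fun j => ∑ k, c j k • v k) ∧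
      (∀ i j, ⟪∑ k, c i k • v k, T (∑ k, c j k • v k)⟫_ℂ = if i = j then (p j : ℂ) else 0) ∧
      (∀ A : H →L[ℂ] H, ∑ j, qf A (∑ k, c j k • v k) = ∑ k, qf A (v k)) := by
  classical
  have hsa : IsSelfAdjoint T := hT.isSelfAdjoint
  set mat : (H →L[ℂ] H) → Matrix ι ι ℂ := fun A => Matrix.of fun k l => ⟪v k, A (v l)⟫_ℂ with hmat
  have hM : (mat T).IsHermitian := by
    ext k l
    simp only [hmat, Matrix.conjTranspose_apply, Matrix.of_apply]
    rw [← starRingEnd_apply, inner_conj_symm]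
    rw [← ContinuousLinearMap.adjoint_inner_right, (ContinuousLinearMap.isSelfAdjoint_iff'.1 hsa)]
  set U : Matrix ι ι ℂ := (hM.eigenvectorUnitary : Matrix ι ι ℂ) with hU
  have hUU : star U * U = 1 := Unitary.coe_star_mul_self hM.eigenvectorUnitary
  have hUU' : U * star U = 1 := Unitary.coe_mul_star_self hM.eigenvectorUnitary
  have hdiag : star U * mat T * U = Matrix.diagonal (fun j => (hM.eigenvalues j : ℂ)) := by
    have h := hM.conjStarAlgAut_star_eigenvectorUnitary
    rw [Unitary.conjStarAlgAut_star_apply] at h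
    exact h
  have key : ∀ (A : H →L[ℂ] H) (i j : ι),
      ⟪∑ k, U k i • v k, A (∑ k, U k j • v k)⟫_ℂ = (star U * mat A * U) i j := by
    intro A i j
    rw [inner_block A v (fun k => U k i) (fun k => U k j)]
    rw [Matrix.mul_assoc, Matrix.mul_apply]
    refine Finset.sum_congr rfl fun k _ => ?_
    rw [Matrix.mul_apply, Finset.mul_sum]
    refine Finset.sum_congr rfl fun l _ => ?_
    simp only [hmat, Matrix.star_apply, Matrix.of_apply, starRingEnd_apply]
    ring
  have hone : mat 1 = 1 := by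
    ext k l
    simp only [hmat, Matrix.of_apply, ContinuousLinearMap.one_apply]
    rw [Matrix.one_apply]
    exact (orthonormal_iff_ite.1 hv) k l
  have ho : Orthonormal ℂ (fun j => ∑ k, U k j • v k) := by
    rw [orthonormal_iff_ite]
    intro i j
    have := key 1 i j
    rw [hone, Matrix.mul_one, hUU, Matrix.one_apply] at this
    exact this
  have hTd : ∀ i j, ⟪∑ k, U k i • v k, T (∑ k, U k j • v k)⟫_ℂ
      = if i = j then ((hM.eigenvalues j : ℝ) : ℂ) else 0 := by
    intro i j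
    rw [key T i j, hdiag, Matrix.diagonal_apply]
    split_ifs with h
    · rw [h]
    · rfl
  refine ⟨hM.eigenvalues, fun j k => U k j, fun j => ?_, ho, hTd, fun A => ?_⟩
  · have h1 := hTd j j
    rw [if_pos rfl] at h1
    have h2 := ((ContinuousLinearMap.nonneg_iff_isPositive T).1 hT).re_inner_nonneg_right
      (∑ k, U k j • v k)
    rw [h1] at h2
    simpa using h2
  · have h1 : ∑ j, ⟪∑ k, U k j • v k, A (∑ k, U k j • v k)⟫_ℂ = ∑ k, ⟪v k, A (v k)⟫_ℂ := by
      calc ∑ j, ⟪∑ k, U k j • v k, A (∑ k, U k j • v k)⟫_ℂ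
          = Matrix.trace (star U * mat A * U) := by
            rw [Matrix.trace]
            exact Finset.sum_congr rfl fun j _ => by rw [key A j j, Matrix.diag_apply]
        _ = Matrix.trace (mat A) := by
            rw [Matrix.trace_mul_comm, ← Matrix.mul_assoc, hUU', Matrix.one_mul]
        _ = _ := by simp [Matrix.trace, hmat]
    have h2 := congrArg Complex.re h1
    simpa [qf, Complex.re_sum] using h2

/-- The block lemma (BL), abstract form: `w` is a Hilbert basis in which `T` has trace `τ`. -/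
theorem block_entropy_le {κ : Type*} (w : HilbertBasis κ ℂ H) (T : H →L[ℂ] H) (hT : 0 ≤ T)
    {τ : ℝ} (hτ : HasSum (fun k => qf T (w k)) τ)
    (e : ι → H) (p : ι → ℝ) (hp : ∀ j, 0 ≤ p j)
    (hd : ∀ i j, ⟪e i, T (e j)⟫_ℂ = if i = j then (p j : ℂ) else 0) :
    ∑ j, Real.negMulLog (p j) ≤ ∑ j, qf (etaOp T) (e j) + τ - ∑ j, p j := by
  classical
  obtain ⟨S, hS, hST⟩ := exists_sqrt hT
  have hqT : ∀ j, qf T (e j) = p j := fun j => by
    have := hd j j
    rw [if_pos rfl] at this
    unfold qf; rw [this]; simp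
  have hSe : ∀ j, ‖S (e j)‖ ^ 2 = p j := fun j => by
    have h1 := hST (e j) (e j)
    rw [hd j j, if_pos rfl] at h1
    have h2 := congrArg Complex.re h1
    rw [Complex.ofReal_re] at h2
    rw [h2]
    simp [← Complex.ofReal_pow]
  have hSadj : ∀ x y : H, ⟪S x, y⟫_ℂ = ⟪x, S y⟫_ℂ := fun x y => by
    rw [← ContinuousLinearMap.adjoint_inner_left, (ContinuousLinearMap.isSelfAdjoint_iff'.1 hS)]
  have hTS : ∀ x, T x = S (S x) := fun x => by
    refine ext_inner_left ℂ fun y => ?_
    rw [hST, hSadj]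
  -- the pointwise inequality
  have hpt : ∀ j, Real.negMulLog (p j) ≤ qf (etaOp T) (e j) - p j + (p j)⁻¹ * ‖T (e j)‖ ^ 2 := by
    intro j
    rcases (hp j).eq_or_lt with h0 | h0
    · have hSz : S (e j) = 0 := by
        have := hSe j
        rw [← h0] at this
        simpa using this
      have hTz : T (e j) = 0 := by rw [hTS, hSz, map_zero]
      have h := qf_eta_lower hT one_pos (e j)
      rw [hqT, hTz] at h
      rw [← h0] at h ⊢
      simp at h ⊢
      exact h
    · have h := qf_eta_lower hT h0 (e j)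
      rw [hqT] at h
      unfold Real.negMulLog
      nlinarith
  -- the second moment sum
  set J : Finset ι := Finset.univ.filter fun j => 0 < p j with hJ
  have hg : Orthonormal ℂ (fun j : {j // j ∈ J} => ((Real.sqrt (p j))⁻¹ : ℂ) • S (e j)) := by
    rw [orthonormal_iff_ite]
    rintro ⟨i, hi⟩ ⟨j, hj⟩
    have hi' : 0 < p i := (Finset.mem_filter.1 hi).2
    have hj' : 0 < p j := (Finset.mem_filter.1 hj).2
    rw [inner_smul_left, inner_smul_right, ← hST, hd i j]
    simp only [Subtype.mk.injEq]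
    split_ifs with h
    · subst h
      have : (Real.sqrt (p i) : ℂ) * (Real.sqrt (p i) : ℂ) = (p i : ℂ) := by
        rw [← Complex.ofReal_mul, Real.mul_self_sqrt hi'.le]
      have hne : (Real.sqrt (p i) : ℂ) ≠ 0 := by
        rw [Ne, Complex.ofReal_eq_zero]; exact (Real.sqrt_pos.2 hi').ne'
      simp only [map_inv₀, Complex.conj_ofReal]
      rw [← this]
      field_simp
    · simp
  have hsum : ∑ j ∈ J, (p j)⁻¹ * ‖T (e j)‖ ^ 2 ≤ τ := by
    have hw : ∀ x : H, HasSum (fun k => ‖⟪w k, x⟫_ℂ‖ ^ 2) (‖x‖ ^ 2) := fun x => by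
      have h := w.hasSum_inner_mul_inner x x
      have h2 := Complex.hasSum_re h
      have e1 : (⟪x, x⟫_ℂ).re = ‖x‖ ^ 2 := by simp [← Complex.ofReal_pow]
      rw [e1] at h2
      refine h2.congr_fun ?_ |> fun h => h
      intro k
      rw [← inner_conj_symm x (w k), ← Complex.normSq_eq_conj_mul_self, Complex.ofReal_re,
        Complex.normSq_eq_norm_sq]
    have h1 : HasSum (fun k => ∑ j ∈ J, (p j)⁻¹ * ‖⟪w k, T (e j)⟫_ℂ‖ ^ 2)
        (∑ j ∈ J, (p j)⁻¹ * ‖T (e j)‖ ^ 2) :=
      hasSum_sum fun j _ => (hw (T (e j))).mul_left _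
    refine hasSum_le (fun k => ?_) h1 hτ
    -- Bessel at `S (w k)`
    have hb := hg.sum_inner_products_le (x := S (w k)) (s := Finset.univ)
    have e2 : qf T (w k) = ‖S (w k)‖ ^ 2 := by
      unfold qf
      rw [hST]
      simp [← Complex.ofReal_pow]
    rw [e2]
    refine le_trans (le_of_eq ?_) hb
    rw [← Finset.sum_coe_sort J]
    refine Finset.sum_congr rfl ?_
    rintro ⟨j, hj⟩ -
    have hj' : 0 < p j := (Finset.mem_filter.1 hj).2
    have e3 : ⟪w k, T (e j)⟫_ℂ = ⟪S (w k), S (e j)⟫_ℂ := hST _ _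
    rw [e3, inner_smul_left, norm_mul, mul_pow]
    congr 1
    · simp only [map_inv₀, Complex.conj_ofReal, norm_inv, Complex.norm_real, Real.norm_eq_abs,
        abs_of_pos (Real.sqrt_pos.2 hj'), inv_pow, Real.sq_sqrt hj'.le]
    · rw [← inner_conj_symm, RCLike.norm_conj]
  have htot : ∑ j, (p j)⁻¹ * ‖T (e j)‖ ^ 2 ≤ τ := by
    refine le_trans (le_of_eq ?_) hsum
    rw [hJ, Finset.sum_filter]
    refine Finset.sum_congr rfl fun j _ => ?_
    split_ifs with h
    · rfl
    · have : p j = 0 := le_antisymm (not_lt.1 h) (hp j)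
      rw [this]; simp
  calc ∑ j, Real.negMulLog (p j)
      ≤ ∑ j, (qf (etaOp T) (e j) - p j + (p j)⁻¹ * ‖T (e j)‖ ^ 2) :=
        Finset.sum_le_sum fun j _ => hpt j
    _ = ∑ j, qf (etaOp T) (e j) - ∑ j, p j + ∑ j, (p j)⁻¹ * ‖T (e j)‖ ^ 2 := by
        rw [Finset.sum_add_distrib, Finset.sum_sub_distrib]
    _ ≤ _ := by linarith

end Block

end Crest.Agent.R331.Usc414
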