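import Mathlib
import Crest.Prelude.Def_FockState
import Crest.Agent.R331.UscB_414

/-!
[LIM] leaf of row 331, part 1: upper semicontinuity of the entropy (and lower semicontinuity of the
free energy `β E - S`) on `FockState n`.

* `lsc_free`: if the entries of `ρs m` converge to those of `ρ` along a filter, then for every `ε > 0`
  eventually `s_m - β E_m ≤ s - β E + ε`;
* `usc`: if moreover the energies are bounded, eventually `s_m ≤ s + ε`.
-/

noncomputable section

open scoped InnerProductSpace ComplexOrder Topology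
open Crest.MathPhysics.Bosonic Filter

namespace Crest.Agent.R331.Usc414

variable {n : ℕ}

/-- total photon number of an occupation tuple -/
def num (k : Occ n) : ℝ := ((∑ j, k j : ℕ) : ℝ)

theorem num_nonneg (k : Occ n) : 0 ≤ num k := by unfold num; positivity

/-- The energy of a state, as a `HasSum`. -/
def HasEnergy (ρ : FockState n) (E : ℝ) : Prop :=
  HasSum (fun k : Occ n => num k * (entry ρ.op k k).re) E

theorem finiteEnergy_iff (ρ : FockState n) : FiniteEnergy ρ ↔ ∃ E, HasEnergy ρ E := Iff.rfl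

/-- the number basis as a Hilbert basis -/
def kb (n : ℕ) : HilbertBasis (Occ n) ℂ (Fock n) :=
  HilbertBasis.ofRepr (LinearIsometryEquiv.refl ℂ _)

theorem kb_apply (k : Occ n) : kb n k = ket k := by
  classical
  have h := (kb n).repr_symm_single k
  rw [← h]
  unfold ket
  have h2 : ∀ x : Fock n, (kb n).repr.symm x = x := fun x => rfl
  rw [h2]

theorem orthonormal_ket : Orthonormal ℂ (fun k : Occ n => ket k) := by
  have := (kb n).orthonormal
  have h : (fun k : Occ n => ket k) = (kb n) := by funext k; exact (kb_apply k).symm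
  rw [h]; exact this

theorem norm_ket (k : Occ n) : ‖ket k‖ = 1 := orthonormal_ket.1 k

theorem op_nonneg (ρ : FockState n) : 0 ≤ ρ.op :=
  (ContinuousLinearMap.nonneg_iff_isPositive ρ.op).2 ρ.pos

theorem hasEntropy_iff (ρ : FockState n) (s : ℝ) :
    HasEntropy ρ s ↔ HasSum (fun k : Occ n => qf (etaOp ρ.op) (ket k)) s := Iff.rfl

theorem diag_nonneg (ρ : FockState n) (k : Occ n) : 0 ≤ (entry ρ.op k k).re := by
  have := ρ.pos.re_inner_nonneg_right (ket k)
  simpa [entry] using this

/-! ### geometric weights -/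

theorem summable_exp_num {β : ℝ} (hβ : 0 < β) :
    Summable (fun k : Occ n => Real.exp (-β * num k)) := by
  classical
  have hx1 : Real.exp (-β) < 1 := by rw [Real.exp_lt_one_iff]; linarith
  have hx0 : 0 ≤ Real.exp (-β) := (Real.exp_pos _).le
  have hterm : ∀ k : Occ n, Real.exp (-β * num k) = ∏ j, Real.exp (-β) ^ (k j) := by
    intro k
    rw [Finset.prod_pow_eq_pow_sum, ← Real.exp_nat_mul]
    unfold num
    congr 1; ring
  refine summable_of_sum_le (c := ∏ _j : Fin n, (1 - Real.exp (-β))⁻¹)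
    (fun k => (Real.exp_pos _).le) fun u => ?_
  set N : ℕ := u.sup (fun k => ∑ j, k j) with hN
  have hsub : u ⊆ Fintype.piFinset fun _ : Fin n => Finset.range (N + 1) := by
    intro k hk
    rw [Fintype.mem_piFinset]
    intro j
    rw [Finset.mem_range]
    have h1 : k j ≤ ∑ j, k j := Finset.single_le_sum (fun _ _ => Nat.zero_le _) (Finset.mem_univ j)
    have h2 : ∑ j, k j ≤ N := Finset.le_sup (f := fun k : Occ n => ∑ j, k j) hk
    omega
  calc ∑ k ∈ u, Real.exp (-β * num k)
      ≤ ∑ k ∈ Fintype.piFinset (fun _ : Fin n => Finset.range (N + 1)), Real.exp (-β * num k) :=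
        Finset.sum_le_sum_of_subset_of_nonneg hsub fun _ _ _ => (Real.exp_pos _).le
    _ = ∑ k ∈ Fintype.piFinset (fun _ : Fin n => Finset.range (N + 1)),
          ∏ j, Real.exp (-β) ^ (k j) := Finset.sum_congr rfl fun k _ => hterm k
    _ = ∏ _j : Fin n, ∑ i ∈ Finset.range (N + 1), Real.exp (-β) ^ i :=
        (Finset.prod_univ_sum (fun _ : Fin n => Finset.range (N + 1))
          (fun _ i => Real.exp (-β) ^ i)).symm
    _ ≤ ∏ _j : Fin n, (1 - Real.exp (-β))⁻¹ := by
        refine Finset.prod_le_prod (fun _ _ => Finset.sum_nonneg fun _ _ => by positivity)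
          fun _ _ => ?_
        rw [← tsum_geometric_of_lt_one hx0 hx1]
        exact (summable_geometric_of_lt_one hx0 hx1).sum_le_tsum _ (fun _ _ => by positivity)

/-- weights `r k = exp (-β N k - c)` of arbitrarily small total mass -/
theorem exists_weights {β ε : ℝ} (hβ : 0 < β) (hε : 0 < ε) :
    ∃ c R : ℝ, 0 ≤ c ∧ 0 ≤ R ∧ R ≤ ε ∧
      HasSum (fun k : Occ n => Real.exp (-(β * num k + c))) R := by
  obtain ⟨Z, hZ⟩ := summable_exp_num (n := n) hβ
  have hZ0 : 0 ≤ Z := hZ.nonneg fun _ => (Real.exp_pos _).le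
  set c : ℝ := max 0 (Real.log ((Z + 1) / ε)) with hc
  have hmul : HasSum (fun k : Occ n => Real.exp (-(β * num k + c))) (Real.exp (-c) * Z) := by
    have h := hZ.mul_left (Real.exp (-c))
    refine h.congr_fun ?_ |> fun h => h
    intro k
    rw [← Real.exp_add]
    congr 1; ring
  refine ⟨c, Real.exp (-c) * Z, le_max_left _ _, by positivity, ?_, hmul⟩
  have h1 : Real.exp (-c) ≤ ε / (Z + 1) := by
    have h2 : Real.log ((Z + 1) / ε) ≤ c := le_max_right _ _
    have h3 : Real.exp (-c) ≤ Real.exp (-(Real.log ((Z + 1) / ε))) :=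
      Real.exp_le_exp.2 (by linarith)
    rw [Real.exp_neg (Real.log _), Real.exp_log (by positivity)] at h3
    rwa [inv_div] at h3
  calc Real.exp (-c) * Z ≤ ε / (Z + 1) * Z := mul_le_mul_of_nonneg_right h1 hZ0
    _ ≤ ε := by
      rw [div_mul_eq_mul_div, div_le_iff₀ (by positivity)]
      nlinarith

/-! ### the upper bound (UP) -/

theorem upper_bound (ρ : FockState n) {s E β c R : ℝ} (hs : HasEntropy ρ s) (hE : HasEnergy ρ E)
    (hR : HasSum (fun k : Occ n => Real.exp (-(β * num k + c))) R)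
    (F : Finset (Occ n)) (e : F → Fock n) (he : Orthonormal ℂ e)
    (htr : ∀ A : Fock n →L[ℂ] Fock n, ∑ j, qf A (e j) = ∑ k : F, qf A (ket (k : Occ n)))
    (q : F → ℝ) (hq : ∀ j, 0 < q j) :
    s - β * E ≤ ∑ j, -(qf ρ.op (e j) * Real.log (q j)) + ∑ j, q j
      - β * ∑ k ∈ F, num k * (entry ρ.op k k).re
      + c * (1 - ∑ k ∈ F, (entry ρ.op k k).re) - 1 + R := by
  classical
  set f : Occ n → ℝ := fun k => qf (etaOp ρ.op) (ket k) - β * (num k * (entry ρ.op k k).re) with hf
  set h : Occ n → ℝ := fun k => (c - 1) * (entry ρ.op k k).re + Real.exp (-(β * num k + c)) with hh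
  have hfs : HasSum f (s - β * E) := ((hasEntropy_iff ρ s).1 hs).sub (hE.mul_left β)
  have hhs : HasSum h ((c - 1) * 1 + R) := (ρ.traceOne.mul_left (c - 1)).add hR
  have hcorr : HasSum (fun k => if k ∈ F then f k - h k else 0) (∑ k ∈ F, (f k - h k)) := by
    have : HasSum (fun k => if k ∈ F then f k - h k else 0)
        (∑ k ∈ F, (if k ∈ F then f k - h k else 0)) :=
      hasSum_sum_of_ne_finset_zero (fun k hk => by simp [hk])
    have e1 : ∑ k ∈ F, (if k ∈ F then f k - h k else 0) = ∑ k ∈ F, (f k - h k) :=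
      Finset.sum_congr rfl fun k hk => by simp [hk]
    rwa [e1] at this
  have hpt : ∀ k, f k - (if k ∈ F then f k - h k else 0) ≤ h k := by
    intro k
    by_cases hk : k ∈ F
    · simp [hk]
    · simp only [hk, if_false, sub_zero, hf, hh]
      have h1 := qf_eta_upper (op_nonneg ρ) (Real.exp_pos (-(β * num k + c))) (ket k)
      rw [Real.log_exp, norm_ket] at h1
      have h2 : qf ρ.op (ket k) = (entry ρ.op k k).re := rfl
      rw [h2] at h1
      nlinarith
  have hle := hasSum_le hpt (hfs.sub hcorr) hhs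
  rw [Finset.sum_sub_distrib] at hle
  have hFf : ∑ k ∈ F, f k = ∑ j, qf (etaOp ρ.op) (e j)
      - β * ∑ k ∈ F, num k * (entry ρ.op k k).re := by
    rw [hf, Finset.sum_sub_distrib, ← Finset.mul_sum, htr, Finset.sum_coe_sort F
      (fun k => qf (etaOp ρ.op) (ket k))]
  have hFh : ∑ k ∈ F, h k = (c - 1) * ∑ k ∈ F, (entry ρ.op k k).re
      + ∑ k ∈ F, Real.exp (-(β * num k + c)) := by
    rw [hh, Finset.sum_add_distrib, ← Finset.mul_sum]
  have hr0 : 0 ≤ ∑ k ∈ F, Real.exp (-(β * num k + c)) :=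
    Finset.sum_nonneg fun _ _ => (Real.exp_pos _).le
  have heta : ∑ j, qf (etaOp ρ.op) (e j)
      ≤ ∑ j, -(qf ρ.op (e j) * Real.log (q j)) + ∑ j, q j - ∑ k ∈ F, (entry ρ.op k k).re := by
    have h1 : ∑ k ∈ F, (entry ρ.op k k).re = ∑ j, qf ρ.op (e j) := by
      rw [htr, Finset.sum_coe_sort F (fun k => qf ρ.op (ket k))]; rfl
    rw [h1, ← Finset.sum_add_distrib, ← Finset.sum_sub_distrib]
    refine Finset.sum_le_sum fun j _ => ?_
    have h2 := qf_eta_upper (op_nonneg ρ) (hq j) (e j)
    rw [he.1 j] at h2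
    nlinarith
  nlinarith

/-! ### convergence of the finite data -/

theorem tendsto_qf {α : Type*} {l : Filter α} {ρs : α → FockState n} {ρ : FockState n}
    (hconv : ∀ a b, Tendsto (fun m => entry (ρs m).op a b) l (𝓝 (entry ρ.op a b)))
    {F : Finset (Occ n)} (c : F → ℂ) :
    Tendsto (fun m => qf (ρs m).op (∑ k : F, c k • ket (k : Occ n))) l
      (𝓝 (qf ρ.op (∑ k : F, c k • ket (k : Occ n)))) := by
  unfold qf
  refine (Complex.continuous_re.tendsto _).comp ?_
  simp only [inner_block]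
  exact tendsto_finset_sum _ fun k _ => tendsto_finset_sum _ fun l' _ =>
    (hconv (k : Occ n) (l' : Occ n)).const_mul _

theorem lsc_free {α : Type*} {l : Filter α} {ρs : α → FockState n} {ρ : FockState n}
    (hconv : ∀ a b, Tendsto (fun m => entry (ρs m).op a b) l (𝓝 (entry ρ.op a b)))
    {β : ℝ} (hβ : 0 < β) {s E : ℝ} (hs : HasEntropy ρ s) (hE : HasEnergy ρ E)
    {ε : ℝ} (hε : 0 < ε) :
    ∀ᶠ m in l, ∀ s' E' : ℝ, HasEntropy (ρs m) s' → HasEnergy (ρs m) E' →
      s' - β * E' ≤ s - β * E + ε := by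
  classical
  obtain ⟨c, R, hc0, hR0, hRε, hR⟩ := exists_weights (n := n) hβ (show 0 < ε / 8 by positivity)
  -- choose the finite set
  have hF1 : ∀ᶠ F : Finset (Occ n) in atTop,
      ∑ k ∈ F, qf (etaOp ρ.op) (ket k) < s + ε / 8 :=
    ((hasEntropy_iff ρ s).1 hs).eventually_lt_const (by linarith)
  have hF2 : ∀ᶠ F : Finset (Occ n) in atTop,
      β * E - ε / 8 < β * ∑ k ∈ F, num k * (entry ρ.op k k).re :=
    (hE.const_mul β).eventually_const_lt (by linarith)
  have hF3 : ∀ᶠ F : Finset (Occ n) in atTop,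
      c * (1 - ∑ k ∈ F, (entry ρ.op k k).re) < ε / 8 := by
    have h : Tendsto (fun F : Finset (Occ n) => c * (1 - ∑ k ∈ F, (entry ρ.op k k).re)) atTop
        (𝓝 (c * (1 - 1))) := (tendsto_const_nhds.sub ρ.traceOne).const_mul c
    exact h.eventually_lt_const (by simp; positivity)
  obtain ⟨F, h1, h2, h3⟩ := (hF1.and (hF2.and hF3)).exists
  -- diagonalise
  have hort : Orthonormal ℂ (fun k : F => ket (k : Occ n)) :=
    orthonormal_ket.comp _ Subtype.val_injective
  obtain ⟨p, co, hp, ho, hd, htr⟩ := block_diag ρ.op (op_nonneg ρ)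
    (fun k : F => ket (k : Occ n)) hort
  set e : F → Fock n := fun j => ∑ k : F, co j k • ket (k : Occ n) with he
  have hqp : ∀ j, qf ρ.op (e j) = p j := fun j => by
    have := hd j j
    rw [if_pos rfl] at this
    simp only [qf, he]; rw [this]; simp
  have hsump : ∑ j, p j = ∑ k ∈ F, (entry ρ.op k k).re := by
    have := htr ρ.op
    rw [Finset.sum_coe_sort F (fun k => qf ρ.op (ket k))] at this
    rw [← Finset.sum_congr rfl fun j _ => hqp j]
    exact this
  have hBL : ∑ j, Real.negMulLog (p j)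
      ≤ ∑ k ∈ F, qf (etaOp ρ.op) (ket k) + 1 - ∑ k ∈ F, (entry ρ.op k k).re := by
    have hτ : HasSum (fun k => qf ρ.op (kb n k)) 1 := by
      have := ρ.traceOne
      refine this.congr_fun ?_ |> fun h => h
      intro k
      rw [kb_apply]; rfl
    have h := block_entropy_le (kb n) ρ.op (op_nonneg ρ) hτ e p hp hd
    rw [hsump] at h
    have h' := htr (etaOp ρ.op)
    rw [Finset.sum_coe_sort F (fun k => qf (etaOp ρ.op) (ket k))] at h'
    rw [h'] at h
    exact h
  -- the regularised weights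
  obtain ⟨δ, hδ0, hδ⟩ : ∃ δ : ℝ, 0 < δ ∧ (F.card : ℝ) * δ ≤ ε / 8 := by
    refine ⟨ε / 8 / (F.card + 1), by positivity, ?_⟩
    rw [mul_div_assoc', div_le_iff₀ (by positivity)]
    nlinarith [show (0 : ℝ) ≤ F.card from Nat.cast_nonneg _]
  set q : F → ℝ := fun j => max (p j) δ with hq
  have hq0 : ∀ j, 0 < q j := fun j => lt_max_of_lt_right hδ0
  have hsumq : ∑ j, q j ≤ ∑ j, p j + ε / 8 := by
    have h5 : ∀ j, q j ≤ p j + δ := fun j => max_le (by linarith) (by linarith [hp j])
    calc ∑ j, q j ≤ ∑ j, (p j + δ) := Finset.sum_le_sum fun j _ => h5 j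
      _ = ∑ j, p j + F.card * δ := by
        rw [Finset.sum_add_distrib, Finset.sum_const, Finset.card_univ, Fintype.card_coe,
          nsmul_eq_mul]
      _ ≤ _ := by linarith
  have hlogq : ∀ j, -(p j * Real.log (q j)) ≤ Real.negMulLog (p j) := by
    intro j
    unfold Real.negMulLog
    rcases (hp j).eq_or_lt with h0 | h0
    · rw [← h0]; simp
    · have : Real.log (p j) ≤ Real.log (q j) := Real.log_le_log h0 (le_max_left _ _)
      nlinarith
  -- the finite functional and its limit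
  have hlim : Tendsto (fun m => ∑ j, -(qf (ρs m).op (e j) * Real.log (q j)) + ∑ j, q j
      - β * ∑ k ∈ F, num k * (entry (ρs m).op k k).re
      + c * (1 - ∑ k ∈ F, (entry (ρs m).op k k).re) - 1 + R) l
      (𝓝 (∑ j, -(qf ρ.op (e j) * Real.log (q j)) + ∑ j, q j
      - β * ∑ k ∈ F, num k * (entry ρ.op k k).re
      + c * (1 - ∑ k ∈ F, (entry ρ.op k k).re) - 1 + R)) := by
    have hre : ∀ k, Tendsto (fun m => (entry (ρs m).op k k).re) l (𝓝 (entry ρ.op k k).re) :=
      fun k => (Complex.continuous_re.tendsto _).comp (hconv k k)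
    refine Tendsto.add_const _ (Tendsto.sub_const (Tendsto.add (Tendsto.sub (Tendsto.add_const _ ?_)
      ?_) ?_) _)
    · exact tendsto_finset_sum _ fun j _ => ((tendsto_qf hconv (co j)).mul_const _).neg
    · exact (tendsto_finset_sum _ fun k _ => (hre k).const_mul _).const_mul _
    · exact (tendsto_const_nhds.sub (tendsto_finset_sum _ fun k _ => hre k)).const_mul _
  have hval : ∑ j, -(qf ρ.op (e j) * Real.log (q j)) + ∑ j, q j
      - β * ∑ k ∈ F, num k * (entry ρ.op k k).re
      + c * (1 - ∑ k ∈ F, (entry ρ.op k k).re) - 1 + R < s - β * E + ε := by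
    have h6 : ∑ j, -(qf ρ.op (e j) * Real.log (q j)) ≤ ∑ j, Real.negMulLog (p j) :=
      Finset.sum_le_sum fun j _ => by rw [hqp]; exact hlogq j
    linarith
  filter_upwards [hlim.eventually_lt_const hval] with m hm s' E' hs' hE'
  have hub := upper_bound (ρs m) hs' hE' hR F e ho htr q hq0
  linarith

/-- Upper semicontinuity of the entropy on energy-bounded sets. -/
theorem usc {α : Type*} {l : Filter α} {ρs : α → FockState n} {ρ : FockState n}
    (hconv : ∀ a b, Tendsto (fun m => entry (ρs m).op a b) l (𝓝 (entry ρ.op a b)))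
    {s : ℝ} (hs : HasEntropy ρ s) (hEρ : FiniteEnergy ρ) {E₀ : ℝ}
    {ε : ℝ} (hε : 0 < ε) :
    ∀ᶠ m in l, ∀ s' E' : ℝ, HasEntropy (ρs m) s' → HasEnergy (ρs m) E' → E' ≤ E₀ →
      s' ≤ s + ε := by
  obtain ⟨E, hE⟩ := hEρ
  have hE' : HasEnergy ρ E := hE
  have hE0 : 0 ≤ E := hE'.nonneg fun k => mul_nonneg (num_nonneg k) (diag_nonneg ρ k)
  set β : ℝ := ε / 2 / (|E₀| + 1) with hβ
  have hβ0 : 0 < β := by positivity
  filter_upwards [lsc_free hconv hβ0 hs hE' (show 0 < ε / 2 by positivity)] with m hm s' E' h1 h2 h3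
  have h4 := hm s' E' h1 h2
  have h5 : β * E' ≤ ε / 2 := by
    calc β * E' ≤ β * (|E₀| + 1) := by
          refine mul_le_mul_of_nonneg_left ?_ hβ0.le
          linarith [le_abs_self E₀]
      _ = ε / 2 := by rw [hβ]; field_simp
  nlinarith [mul_nonneg hβ0.le hE0]

end Crest.Agent.R331.Usc414
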