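import Mathlib
import Crest.Prelude.Def_FockState

/-!
# Row 331, leaf [VALUE] (helper312)

From "every annihilation operator connects eigenvectors of `ρ` of log-ratio exactly `b`" to
"`ρ` is the thermal product state".
-/

set_option autoImplicit false

open Crest.MathPhysics.Bosonic
open scoped InnerProductSpace ComplexConjugate

namespace Crest.Agent.R331.Value312

variable {n : ℕ}

lemma inner_ket (k : Occ n) (x : Fock n) : ⟪ket k, x⟫_ℂ = x k := by
  simp [ket, lp.inner_single_left]

lemma inner_ket_right (k : Occ n) (x : Fock n) : ⟪x, ket k⟫_ℂ = conj (x k) := by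
  rw [← inner_ket k x, inner_conj_symm]

lemma norm_ket (k : Occ n) : ‖(ket k : Fock n)‖ = 1 := by
  simp [ket, lp.norm_single]

lemma entry_eq (T : Fock n →L[ℂ] Fock n) (k l : Occ n) : entry T k l = (T (ket l)) k :=
  inner_ket _ _

/-- Cauchy-Schwarz for the form of a positive operator. -/
lemma pos_cauchy_schwarz {E : Type*} [NormedAddCommGroup E] [InnerProductSpace ℂ E]
    (T : E →L[ℂ] E) (hT : T.IsPositive) (x y : E) :
    ‖⟪x, T y⟫_ℂ‖ ^ 2 ≤ (⟪x, T x⟫_ℂ).re * (⟪y, T y⟫_ℂ).re := by
  let core : PreInnerProductSpace.Core ℂ E :=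
    { inner := fun x y => ⟪x, T y⟫_ℂ
      conj_inner_symm := fun x y => by
        show conj ⟪y, T x⟫_ℂ = ⟪x, T y⟫_ℂ
        rw [inner_conj_symm, hT.inner_left_eq_inner_right]
      re_inner_nonneg := fun x => by
        show 0 ≤ (⟪x, T x⟫_ℂ).re
        exact hT.re_inner_nonneg_right x
      add_left := fun x y z => by
        show ⟪x + y, T z⟫_ℂ = _
        rw [inner_add_left]
      smul_left := fun x y r => by
        show ⟪r • x, T y⟫_ℂ = _
        rw [inner_smul_left] }
  have h := @InnerProductSpace.Core.inner_mul_inner_self_le ℂ E _ _ _ core x y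
  have h1 : ‖⟪x, T y⟫_ℂ‖ * ‖⟪y, T x⟫_ℂ‖ ≤ (⟪x, T x⟫_ℂ).re * (⟪y, T y⟫_ℂ).re := h
  have h2 : ‖⟪y, T x⟫_ℂ‖ = ‖⟪x, T y⟫_ℂ‖ := by
    rw [← hT.inner_left_eq_inner_right, ← inner_conj_symm, RCLike.norm_conj]
  rw [h2] at h1
  rw [sq]; exact h1

lemma entry_conj (ρ : FockState n) (k l : Occ n) : conj (entry ρ.op l k) = entry ρ.op k l := by
  unfold entry
  rw [inner_conj_symm, ρ.pos.inner_left_eq_inner_right]

lemma entry_self_re_nonneg (ρ : FockState n) (k : Occ n) : 0 ≤ (entry ρ.op k k).re :=
  ρ.pos.re_inner_nonneg_right _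

lemma entry_self_im (ρ : FockState n) (k : Occ n) : (entry ρ.op k k).im = 0 := by
  have h := entry_conj ρ k k
  have := congrArg Complex.im h
  simp only [Complex.conj_im] at this
  linarith

lemma norm_entry_sq_le (ρ : FockState n) (k l : Occ n) :
    ‖entry ρ.op k l‖ ^ 2 ≤ (entry ρ.op k k).re * (entry ρ.op l l).re :=
  pos_cauchy_schwarz ρ.op ρ.pos _ _

/-- The occupation tuple with one more photon in mode `j`. -/
def up (j : Fin n) (k : Occ n) : Occ n := k + Pi.single j 1

/-- The occupation tuple with one photon less in mode `j` (truncated at `0`). -/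
def dn (j : Fin n) (k : Occ n) : Occ n := k - Pi.single j 1

lemma up_apply_self (j : Fin n) (k : Occ n) : up j k j = k j + 1 := by simp [up]

lemma up_apply_ne {i j : Fin n} (h : i ≠ j) (k : Occ n) : up j k i = k i := by
  simp [up, Pi.single_eq_of_ne h]

lemma up_injective (j : Fin n) : Function.Injective (up j : Occ n → Occ n) := by
  intro a b h
  exact add_right_cancel h

lemma dn_up (j : Fin n) (k : Occ n) : dn j (up j k) = k := by
  funext i; simp [up, dn]

lemma up_dn {j : Fin n} {k : Occ n} (h : k j ≠ 0) : up j (dn j k) = k := by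
  funext i
  by_cases hi : i = j
  · subst hi; simp [up, dn]; omega
  · simp [up, dn, Pi.single_eq_of_ne hi]

lemma mem_range_up_iff {j : Fin n} {k : Occ n} : k ∈ Set.range (up j) ↔ k j ≠ 0 := by
  constructor
  · rintro ⟨a, rfl⟩; simp [up]
  · intro h; exact ⟨dn j k, up_dn h⟩

/-- Matrix element `⟨x, c_j y⟩` of the annihilation operator of mode `j`. -/
noncomputable def lowEntry (j : Fin n) (x y : Fock n) : ℂ :=
  ∑' k : Occ n, conj (x k) * ((Real.sqrt (k j + 1) : ℝ) : ℂ) * y (up j k)

/-- the vector `c_j y` exists in the Fock space -/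
def LowDom (j : Fin n) (y : Fock n) : Prop :=
  Summable fun k : Occ n => ((k j : ℝ) + 1) * ‖y (up j k)‖ ^ 2

lemma memℓp_low {j : Fin n} {y : Fock n} (h : LowDom j y) :
    Memℓp (fun k : Occ n => ((Real.sqrt (k j + 1) : ℝ) : ℂ) * y (up j k)) 2 := by
  refine memℓp_gen ?_
  refine h.congr ?_
  intro k
  have h0 : (0:ℝ) ≤ (k j : ℝ) + 1 := by positivity
  rw [norm_mul, Complex.norm_real, Real.norm_of_nonneg (Real.sqrt_nonneg _)]
  norm_num
  rw [mul_pow, Real.sq_sqrt h0]

/-- the vector `c_j y` -/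
noncomputable def low {j : Fin n} {y : Fock n} (h : LowDom j y) : Fock n :=
  ⟨fun k : Occ n => ((Real.sqrt (k j + 1) : ℝ) : ℂ) * y (up j k), memℓp_low h⟩

@[simp] lemma low_apply {j : Fin n} {y : Fock n} (h : LowDom j y) (k : Occ n) :
    low h k = ((Real.sqrt (k j + 1) : ℝ) : ℂ) * y (up j k) := rfl

lemma lowEntry_eq_inner {j : Fin n} {x y : Fock n} (h : LowDom j y) :
    lowEntry j x y = ⟪x, low h⟫_ℂ := by
  rw [lp.inner_eq_tsum]
  unfold lowEntry
  refine tsum_congr fun k => ?_
  rw [low_apply, RCLike.inner_apply]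
  ring

/-- The relation `ρ c_j = e^b c_j ρ` in the number basis. -/
def Ladder (b : ℝ) (ρ : FockState n) : Prop :=
  ∀ (j : Fin n) (k l : Occ n),
    ((Real.sqrt (l j) : ℝ) : ℂ) * entry ρ.op k (dn j l) =
      ((Real.exp b * Real.sqrt (k j + 1) : ℝ) : ℂ) * entry ρ.op (up j k) l

/-- **Thermal from ladder.** -/
theorem thermal_of_ladder {b : ℝ} {ρ : FockState n} (hL : Ladder b ρ) :
    (∀ k l : Occ n, k ≠ l → entry ρ.op k l = 0) ∧
      ∀ k : Occ n, entry ρ.op k k = ((Real.exp (-b * (∑ j, k j : ℕ)) : ℝ) : ℂ) * entry ρ.op 0 0 := by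
  have hup : ∀ (j : Fin n) (k l : Occ n), l j = 0 → entry ρ.op (up j k) l = 0 := by
    intro j k l hl
    have h := hL j k l
    rw [hl] at h
    have hne : ((Real.exp b * Real.sqrt (k j + 1) : ℝ) : ℂ) ≠ 0 := by
      have : 0 < Real.exp b * Real.sqrt (k j + 1) := by positivity
      exact_mod_cast this.ne'
    simp only [Nat.cast_zero, Real.sqrt_zero, Complex.ofReal_zero, zero_mul] at h
    exact (mul_eq_zero.mp h.symm).resolve_left hne
  -- off-diagonal entries with k j > l j vanish
  have hgt : ∀ (j : Fin n) (m : ℕ) (k l : Occ n), l j = m → m < k j → entry ρ.op k l = 0 := by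
    intro j m
    induction m with
    | zero =>
      intro k l hl hk
      have hk0 : k j ≠ 0 := by omega
      rw [← up_dn hk0]
      exact hup j _ l hl
    | succ m ih =>
      intro k l hl hk
      have hk0 : k j ≠ 0 := by omega
      have hl0 : l j ≠ 0 := by omega
      have h := hL j (dn j k) l
      rw [up_dn hk0] at h
      have hz : entry ρ.op (dn j k) (dn j l) = 0 := by
        apply ih
        · simp [dn, hl]
        · simp only [dn, Pi.sub_apply, Pi.single_eq_same]; omega
      rw [hz, mul_zero] at h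
      have hne : ((Real.exp b * Real.sqrt ((dn j k) j + 1) : ℝ) : ℂ) ≠ 0 := by
        have : 0 < Real.exp b * Real.sqrt ((dn j k) j + 1) := by positivity
        exact_mod_cast this.ne'
      exact (mul_eq_zero.mp h.symm).resolve_left hne
  refine ⟨?_, ?_⟩
  · intro k l hkl
    obtain ⟨j, hj⟩ := Function.ne_iff.mp hkl
    rcases lt_or_gt_of_ne hj with h | h
    · have := hgt j (k j) l k rfl h
      rw [← entry_conj, this, map_zero]
    · exact hgt j (l j) k l rfl h
  · -- diagonal
    have hstep : ∀ (j : Fin n) (k : Occ n),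
        entry ρ.op (up j k) (up j k) = ((Real.exp (-b) : ℝ) : ℂ) * entry ρ.op k k := by
      intro j k
      have h := hL j k (up j k)
      rw [dn_up, up_apply_self] at h
      have hs : ((Real.sqrt ((k j : ℝ) + 1) : ℝ) : ℂ) ≠ 0 := by
        have : 0 < Real.sqrt ((k j : ℝ) + 1) := by positivity
        exact_mod_cast this.ne'
      have he : ((Real.exp b : ℝ) : ℂ) ≠ 0 := by exact_mod_cast (Real.exp_pos b).ne'
      rw [Real.exp_neg]
      push_cast at h ⊢
      have h' : ((Real.sqrt ((k j : ℝ) + 1) : ℝ) : ℂ) * entry ρ.op k k =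
          ((Real.sqrt ((k j : ℝ) + 1) : ℝ) : ℂ) *
            (Complex.exp b * entry ρ.op (up j k) (up j k)) := by
        rw [h]; ring
      have h'' := mul_left_cancel₀ hs h'
      rw [h'']
      have he' : Complex.exp (b : ℂ) ≠ 0 := Complex.exp_ne_zero _
      field_simp
    have key : ∀ (m : ℕ) (k : Occ n), (∑ j, k j) = m →
        entry ρ.op k k = ((Real.exp (-b * (m : ℕ)) : ℝ) : ℂ) * entry ρ.op 0 0 := by
      intro m
      induction m with
      | zero =>
        intro k hk
        have hk0 : k = 0 := by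
          funext j
          have := Finset.sum_eq_zero_iff.mp hk j (Finset.mem_univ j)
          simpa using this
        subst hk0
        simp
      | succ m ih =>
        intro k hk
        have : ∃ j, k j ≠ 0 := by
          by_contra hcon
          push Not at hcon
          rw [Finset.sum_eq_zero (fun j _ => hcon j)] at hk
          omega
        obtain ⟨j, hj⟩ := this
        have hk' : (∑ i, (dn j k) i) = m := by
          have h1 : (∑ i, (up j (dn j k)) i) = (∑ i, (dn j k) i) + 1 := by
            simp [up, Finset.sum_add_distrib]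
          rw [up_dn hj, hk] at h1
          omega
        rw [← up_dn hj, hstep, ih _ hk', ← mul_assoc, ← Complex.ofReal_mul, ← Real.exp_add]
        congr 3
        push_cast
        ring
    intro k
    exact key _ k rfl

/-! ### From an eigenbasis to the ladder relation -/

section Spectral

variable {ι : Type*} (e : HilbertBasis ι ℂ (Fock n)) (p : ι → ℝ) {ρ : FockState n}

/-- spectral expansion of the matrix entries -/
theorem hasSum_entry (hp : ∀ m, ρ.op (e m) = (p m : ℂ) • e m) (k l : Occ n) :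
    HasSum (fun m => (p m : ℂ) * (e m k * conj (e m l))) (entry ρ.op k l) := by
  have h := e.hasSum_inner_mul_inner (ket k) (ρ.op (ket l))
  have hfun : (fun m => (p m : ℂ) * (e m k * conj (e m l))) =
      fun m => ⟪ket k, e m⟫_ℂ * ⟪e m, ρ.op (ket l)⟫_ℂ := by
    funext m
    rw [inner_ket, ← ρ.pos.inner_left_eq_inner_right, hp, inner_smul_left, inner_ket_right]
    simp only [Complex.conj_ofReal]
    ring
  rw [hfun]
  exact h

/-- each eigenvector is dominated by the diagonal -/
theorem eigen_norm_sq_le (hp : ∀ m, ρ.op (e m) = (p m : ℂ) • e m) (hpos : ∀ m, 0 < p m)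
    (m : ι) (k : Occ n) : p m * ‖e m k‖ ^ 2 ≤ (entry ρ.op k k).re := by
  have h := hasSum_entry e p hp k k
  have h' : HasSum (fun m => p m * ‖e m k‖ ^ 2) (entry ρ.op k k).re := by
    have h2 := Complex.hasSum_re h
    refine h2.congr_fun ?_ |>.trans_eq' rfl
    intro m
    rw [Complex.mul_conj, ← Complex.ofReal_mul, Complex.ofReal_re, Complex.normSq_eq_norm_sq]
  exact le_hasSum h' m fun i _ => mul_nonneg (hpos i).le (sq_nonneg _)

/-- energy bound in one mode -/
theorem summable_mode (hE : FiniteEnergy ρ) (j : Fin n) :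
    Summable fun k : Occ n => ((k j : ℝ) + 1) * (entry ρ.op (up j k) (up j k)).re := by
  have h1 : Summable fun k : Occ n =>
      ((∑ i, (up j k) i : ℕ) : ℝ) * (entry ρ.op (up j k) (up j k)).re :=
    hE.comp_injective (up_injective j)
  refine Summable.of_nonneg_of_le (fun k => ?_) (fun k => ?_) h1
  · exact mul_nonneg (by positivity) (entry_self_re_nonneg ρ _)
  · refine mul_le_mul_of_nonneg_right ?_ (entry_self_re_nonneg ρ _)
    have : (up j k) j ≤ ∑ i, (up j k) i :=
      Finset.single_le_sum (f := fun i => (up j k) i) (fun i _ => Nat.zero_le _) (Finset.mem_univ j)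
    rw [up_apply_self] at this
    exact_mod_cast this

theorem summable_mode' (hE : FiniteEnergy ρ) (j : Fin n) :
    Summable fun k : Occ n => ((k j : ℝ) + 1) * (entry ρ.op k k).re := by
  have h1 : Summable fun k : Occ n => ((∑ i, k i : ℕ) : ℝ) * (entry ρ.op k k).re := hE
  have h2 := h1.add ρ.traceOne.summable
  refine Summable.of_nonneg_of_le (fun k => ?_) (fun k => ?_) h2
  · exact mul_nonneg (by positivity) (entry_self_re_nonneg ρ _)
  · have h3 : ((k j : ℝ)) ≤ ((∑ i, k i : ℕ) : ℝ) := by
      exact_mod_cast Finset.single_le_sum (f := fun i => k i) (fun i _ => Nat.zero_le _)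
        (Finset.mem_univ j)
    have h4 := mul_le_mul_of_nonneg_right h3 (entry_self_re_nonneg ρ k)
    linarith

theorem lowDom_eigen (hp : ∀ m, ρ.op (e m) = (p m : ℂ) • e m) (hpos : ∀ m, 0 < p m)
    (hE : FiniteEnergy ρ) (j : Fin n) (m : ι) : LowDom j (e m) := by
  have h1 := (summable_mode hE j).mul_left (p m)⁻¹
  refine Summable.of_nonneg_of_le (fun k => ?_) (fun k => ?_) h1
  · positivity
  · have h2 := eigen_norm_sq_le e p hp hpos m (up j k)
    have h3 : ‖e m (up j k)‖ ^ 2 ≤ (p m)⁻¹ * (entry ρ.op (up j k) (up j k)).re := by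
      rw [← div_eq_inv_mul, le_div_iff₀ (hpos m)]
      linarith [mul_comm (p m) (‖e m (up j k)‖ ^ 2)]
    calc ((k j : ℝ) + 1) * ‖e m (up j k)‖ ^ 2
        ≤ ((k j : ℝ) + 1) * ((p m)⁻¹ * (entry ρ.op (up j k) (up j k)).re) :=
          mul_le_mul_of_nonneg_left h3 (by positivity)
      _ = _ := by ring

/-- `c_j` shifts eigenvectors -/
theorem op_low (hp : ∀ m, ρ.op (e m) = (p m : ℂ) • e m) (hpos : ∀ m, 0 < p m) {b : ℝ}
    {j : Fin n} {m : ι} (hm : LowDom j (e m))
    (hc : ∀ m', ((Real.log (p m') - Real.log (p m) - b : ℝ) : ℂ) * lowEntry j (e m') (e m) = 0) :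
    ρ.op (low hm) = ((Real.exp b * p m : ℝ) : ℂ) • low hm := by
  apply e.repr.injective
  ext m'
  rw [e.repr_apply_apply, e.repr_apply_apply, inner_smul_right,
    ← ρ.pos.inner_left_eq_inner_right, hp, inner_smul_left, Complex.conj_ofReal,
    ← lowEntry_eq_inner]
  rcases mul_eq_zero.mp (hc m') with h | h
  · have h' : Real.log (p m') - Real.log (p m) - b = 0 := by exact_mod_cast h
    have h2 : p m' = Real.exp b * p m := by
      have : Real.log (p m') = b + Real.log (p m) := by linarith
      rw [← Real.exp_log (hpos m'), this, Real.exp_add, Real.exp_log (hpos m)]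
    rw [h2]
  · rw [h]; simp

/-- the vector `c_j^* ρ |k⟩` -/
theorem memℓp_w (hE : FiniteEnergy ρ) (j : Fin n) (k : Occ n) :
    Memℓp (fun a : Occ n => ((Real.sqrt (a j) : ℝ) : ℂ) * entry ρ.op (dn j a) k) 2 := by
  refine memℓp_gen ?_
  have h1 : Summable fun a : Occ n =>
      ((a j : ℝ) + 1) * ‖entry ρ.op a k‖ ^ 2 := by
    have h2 := (summable_mode' hE j).mul_right ((entry ρ.op k k).re)
    refine Summable.of_nonneg_of_le (fun a => by positivity) (fun a => ?_) h2
    calc ((a j : ℝ) + 1) * ‖entry ρ.op a k‖ ^ 2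
        ≤ ((a j : ℝ) + 1) * ((entry ρ.op a a).re * (entry ρ.op k k).re) :=
          mul_le_mul_of_nonneg_left (norm_entry_sq_le ρ a k) (by positivity)
      _ = _ := by ring
  have h3 : Summable fun a : Occ n => (a j : ℝ) * ‖entry ρ.op (dn j a) k‖ ^ 2 := by
    rw [← (up_injective j).summable_iff (f := fun a : Occ n =>
      (a j : ℝ) * ‖entry ρ.op (dn j a) k‖ ^ 2)]
    · refine h1.congr fun a => ?_
      simp only [Function.comp_apply, up_apply_self, dn_up]
      push_cast
      rfl
    · intro a ha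
      have : a j = 0 := by
        by_contra hne
        exact ha (mem_range_up_iff.mpr hne)
      simp [this]
  refine h3.congr fun a => ?_
  rw [norm_mul, Complex.norm_real, Real.norm_of_nonneg (Real.sqrt_nonneg _)]
  norm_num
  rw [mul_pow, Real.sq_sqrt (Nat.cast_nonneg _)]

/-- the vector `c_j^* ρ |k⟩` -/
noncomputable def wvec (hE : FiniteEnergy ρ) (j : Fin n) (k : Occ n) : Fock n :=
  ⟨fun a : Occ n => ((Real.sqrt (a j) : ℝ) : ℂ) * entry ρ.op (dn j a) k, memℓp_w hE j k⟩

@[simp] lemma wvec_apply (hE : FiniteEnergy ρ) (j : Fin n) (k a : Occ n) :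
    wvec hE j k a = ((Real.sqrt (a j) : ℝ) : ℂ) * entry ρ.op (dn j a) k := rfl

theorem inner_wvec (hE : FiniteEnergy ρ) (j : Fin n) (k : Occ n) {y : Fock n} (hy : LowDom j y) :
    ⟪wvec hE j k, y⟫_ℂ = ⟪ρ.op (ket k), low hy⟫_ℂ := by
  have h1 : HasSum (fun a : Occ n => y a * conj (wvec hE j k a)) ⟪wvec hE j k, y⟫_ℂ :=
    lp.hasSum_inner (wvec hE j k) y
  have h2 : HasSum (fun a : Occ n => low hy a * conj ((ρ.op (ket k)) a))
      ⟪ρ.op (ket k), low hy⟫_ℂ := lp.hasSum_inner (ρ.op (ket k)) (low hy)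
  have h3 : HasSum (fun a : Occ n => y (up j a) * conj (wvec hE j k (up j a)))
      ⟪wvec hE j k, y⟫_ℂ := by
    refine ((up_injective j).hasSum_iff ?_).mpr h1
    intro a ha
    have : a j = 0 := by
      by_contra hne
      exact ha (mem_range_up_iff.mpr hne)
    simp [this]
  refine h3.unique ?_
  have h4 : (fun a : Occ n => y (up j a) * conj (wvec hE j k (up j a))) =
      fun a : Occ n => low hy a * conj ((ρ.op (ket k)) a) := by
    funext a
    rw [wvec_apply, low_apply, up_apply_self, dn_up, ← entry_eq]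
    simp only [map_mul, Complex.conj_ofReal, Nat.cast_add, Nat.cast_one]
    ring
  rw [h4]
  exact h2

/-- **Ladder from the eigenbasis condition.** -/
theorem ladder_of_eigen (hp : ∀ m, ρ.op (e m) = (p m : ℂ) • e m) (hpos : ∀ m, 0 < p m)
    (hE : FiniteEnergy ρ) {b : ℝ}
    (hc : ∀ (j : Fin n) (m m' : ι),
      ((Real.log (p m') - Real.log (p m) - b : ℝ) : ℂ) * lowEntry j (e m') (e m) = 0) :
    Ladder b ρ := by
  intro j k l
  have hdom := fun m => lowDom_eigen e p hp hpos hE j m
  have h1 := e.hasSum_inner_mul_inner (wvec hE j k) (ket l)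
  have h2 : ⟪wvec hE j k, ket l⟫_ℂ = ((Real.sqrt (l j) : ℝ) : ℂ) * entry ρ.op k (dn j l) := by
    rw [inner_ket_right, wvec_apply, map_mul, Complex.conj_ofReal, entry_conj]
  have h3 : HasSum (fun m => ((Real.exp b * Real.sqrt (k j + 1) : ℝ) : ℂ) *
      ((p m : ℂ) * (e m (up j k) * conj (e m l))))
      (((Real.exp b * Real.sqrt (k j + 1) : ℝ) : ℂ) * entry ρ.op (up j k) l) :=
    (hasSum_entry e p hp (up j k) l).mul_left _
  rw [← h2]
  refine h1.unique ?_
  have h4 : (fun m => ⟪wvec hE j k, e m⟫_ℂ * ⟪e m, ket l⟫_ℂ) =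
      fun m => ((Real.exp b * Real.sqrt (k j + 1) : ℝ) : ℂ) *
        ((p m : ℂ) * (e m (up j k) * conj (e m l))) := by
    funext m
    rw [inner_wvec hE j k (hdom m), ρ.pos.inner_left_eq_inner_right,
      op_low e p hp hpos (hdom m) (fun m' => hc j m m'), inner_smul_right, inner_ket, low_apply,
      inner_ket_right]
    push_cast
    ring
  rw [h4]
  exact h3

/-- **[VALUE] (1)**: thermal state from the eigenbasis condition. -/
theorem thermal_of_eigen (hp : ∀ m, ρ.op (e m) = (p m : ℂ) • e m) (hpos : ∀ m, 0 < p m)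
    (hE : FiniteEnergy ρ) {b : ℝ}
    (hc : ∀ (j : Fin n) (m m' : ι),
      ((Real.log (p m') - Real.log (p m) - b : ℝ) : ℂ) * lowEntry j (e m') (e m) = 0) :
    (∀ k l : Occ n, k ≠ l → entry ρ.op k l = 0) ∧
      ∀ k : Occ n, entry ρ.op k k = ((Real.exp (-b * (∑ j, k j : ℕ)) : ℝ) : ℂ) * entry ρ.op 0 0 :=
  thermal_of_ladder (ladder_of_eigen e p hp hpos hE hc)

end Spectral

/-! ### Uniqueness of the thermal state -/

/-- operators with the same entries are equal -/
theorem op_ext {T S : Fock n →L[ℂ] Fock n} (h : ∀ k l, entry T k l = entry S k l) : T = S := by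
  refine lp.ext_continuousLinearMap (by norm_num) fun l => ?_
  ext k
  have := h k l
  rw [entry_eq, entry_eq] at this
  exact this

/-- `ρ` is thermal with inverse temperature `b` (up to normalisation, which is forced). -/
def IsThermal (b : ℝ) (ρ : FockState n) : Prop :=
  (∀ k l : Occ n, k ≠ l → entry ρ.op k l = 0) ∧
    ∀ k : Occ n, entry ρ.op k k = ((Real.exp (-b * (∑ j, k j : ℕ)) : ℝ) : ℂ) * entry ρ.op 0 0

theorem IsThermal.vac_pos {b : ℝ} {ρ : FockState n} (h : IsThermal b ρ) :
    0 < (entry ρ.op 0 0).re := by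
  rcases (entry_self_re_nonneg ρ 0).lt_or_eq with h0 | h0
  · exact h0
  · exfalso
    have h1 : (fun k : Occ n => (entry ρ.op k k).re) = fun _ => 0 := by
      funext k
      rw [h.2 k, Complex.re_ofReal_mul, ← h0, mul_zero]
    have h2 := ρ.traceOne
    rw [h1] at h2
    have := h2.unique hasSum_zero
    norm_num at this

theorem IsThermal.hasSum {b : ℝ} {ρ : FockState n} (h : IsThermal b ρ) :
    HasSum (fun k : Occ n => Real.exp (-b * (∑ j, k j : ℕ))) ((entry ρ.op 0 0).re)⁻¹ := by
  have h1 : (fun k : Occ n => (entry ρ.op k k).re) =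
      fun k : Occ n => Real.exp (-b * (∑ j, k j : ℕ)) * (entry ρ.op 0 0).re := by
    funext k
    rw [h.2 k, Complex.re_ofReal_mul]
  have h2 := ρ.traceOne
  rw [h1] at h2
  have h3 := h2.mul_right ((entry ρ.op 0 0).re)⁻¹
  simp only [mul_assoc, mul_inv_cancel₀ h.vac_pos.ne', mul_one, one_mul] at h3
  exact h3

/-- two thermal states of the same temperature are equal -/
theorem IsThermal.unique {b : ℝ} {ρ τ : FockState n} (h : IsThermal b ρ) (h' : IsThermal b τ) :
    ρ.op = τ.op := by
  have h0 : entry ρ.op 0 0 = entry τ.op 0 0 := by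
    apply Complex.ext
    · exact inv_injective (h.hasSum.unique h'.hasSum)
    · rw [entry_self_im, entry_self_im]
  refine op_ext fun k l => ?_
  by_cases hkl : k = l
  · subst hkl
    rw [h.2 k, h'.2 k, h0]
  · rw [h.1 k l hkl, h'.1 k l hkl]

/-- for `n ≥ 1` the temperature is positive -/
theorem IsThermal.b_pos [NeZero n] {b : ℝ} {ρ : FockState n} (h : IsThermal b ρ) : 0 < b := by
  by_contra hb
  push Not at hb
  have h1 := h.hasSum.summable
  have h2 : Summable fun m : ℕ => Real.exp (-b * (m : ℝ)) := by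
    have hinj : Function.Injective (fun m : ℕ => (Pi.single (0 : Fin n) m : Occ n)) := by
      intro a c hac
      have := congrFun hac (0 : Fin n)
      simpa using this
    refine (h1.comp_injective hinj).congr fun m => ?_
    have hs : (∑ j, (Pi.single (0 : Fin n) m : Occ n) j) = m := by
      rw [Finset.sum_eq_single (0 : Fin n)]
      · simp
      · intro i _ hi; simp [Pi.single_eq_of_ne hi]
      · intro h; exact absurd (Finset.mem_univ _) h
    simp only [Function.comp_apply, hs]
  have h3 := h2.tendsto_atTop_zero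
  have h4 : ∀ m : ℕ, (1 : ℝ) ≤ Real.exp (-b * (m : ℝ)) := fun m =>
    Real.one_le_exp (mul_nonneg (by linarith) (Nat.cast_nonneg _))
  have := ge_of_tendsto' h3 h4
  norm_num at this

end Crest.Agent.R331.Value312
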