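import Mathlib
import Crest.Agent.R331.Duh2_839

set_option autoImplicit false

/-!
Finite-matrix core of the first and second variation (row 331).

From ONE scalar inequality (nonnegativity of the explicit upper bound of `F(A_t) - F(A)`) we get
* `(EL)`: the linear functional is a multiple of the trace on the block;
* `(S)` : `KM_A[P Y] ≤ lam * KM_C[Y]` for centred Hermitian `Y`.
-/

open Matrix NormedSpace Filter Topology

namespace Crest.Agent.R331.Var839

open Crest.Agent.R331.Duh839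

section calculus

theorem taylor2 {ψ φ : ℝ → ℝ} {v : ℝ} (h0 : ψ 0 = 0)
    (hψ : ∀ᶠ t in 𝓝 (0:ℝ), HasDerivAt ψ (φ t) t) (hφ : HasDerivAt φ v 0) :
    Tendsto (fun t => (ψ t - t * φ 0) / t ^ 2) (𝓝[≠] 0) (𝓝 (v / 2)) := by
  have hcont : ContinuousAt ψ 0 := hψ.self_of_nhds.continuousAt
  refine HasDerivAt.lhopital_zero_nhdsNE (f' := fun t => φ t - φ 0) (g' := fun t => 2 * t)
    ?_ ?_ ?_ ?_ ?_ ?_
  · filter_upwards [hψ.filter_mono nhdsWithin_le_nhds] with t ht
    have h1 : HasDerivAt (fun t : ℝ => t * φ 0) (φ 0) t := by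
      simpa using (hasDerivAt_id t).mul_const (φ 0)
    exact ht.sub h1
  · refine Eventually.of_forall fun t => ?_
    simpa using hasDerivAt_pow 2 t
  · filter_upwards [self_mem_nhdsWithin] with t ht
    have : t ≠ 0 := ht
    simpa using this
  · have h1 : Tendsto (fun t => ψ t - t * φ 0) (𝓝 0) (𝓝 (ψ 0 - 0 * φ 0)) :=
      hcont.sub (tendsto_id.mul_const _)
    rw [h0] at h1
    simp only [zero_mul, sub_zero] at h1
    exact h1.mono_left nhdsWithin_le_nhds
  · have h1 : Tendsto (fun t : ℝ => t ^ 2) (𝓝 0) (𝓝 (0 ^ 2)) := (continuous_pow 2).tendsto 0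
    simp only [ne_eq, OfNat.ofNat_ne_zero, not_false_eq_true, zero_pow] at h1
    exact h1.mono_left nhdsWithin_le_nhds
  · have h1 := (hasDerivAt_iff_tendsto_slope.1 hφ).div_const 2
    refine h1.congr' ?_
    filter_upwards [self_mem_nhdsWithin] with t ht
    have : t ≠ 0 := ht
    rw [slope_def_field]
    field_simp
    simp

theorem taylor2' {ψ φ : ℝ → ℝ} {v : ℝ} (h0 : ψ 0 = 0)
    (hψ : ∀ᶠ t in 𝓝 (0:ℝ), HasDerivAt ψ (φ t) t) (hφ : HasDerivAt φ v 0) :
    Tendsto (fun t => (t * φ t - ψ t) / t ^ 2) (𝓝[≠] 0) (𝓝 (v / 2)) := by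
  have h1 := taylor2 h0 hψ hφ
  have h2 := (hasDerivAt_iff_tendsto_slope.1 hφ)
  have h3 := h2.sub h1
  have h4 : v - v / 2 = v / 2 := by ring
  rw [h4] at h3
  refine h3.congr' ?_
  filter_upwards [self_mem_nhdsWithin] with t ht
  have : t ≠ 0 := ht
  rw [slope_def_field]
  field_simp
  ring

end calculus

section objects

variable {F : Type*} [Fintype F] [DecidableEq F]

/-- the perturbed exponential -/
noncomputable def X (h : F → ℝ) (Z : Matrix F F ℂ) (t : ℝ) : Matrix F F ℂ := exp (dg h + (t:ℂ) • Z)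

/-- the difference to the unperturbed block -/
noncomputable def Dl (h : F → ℝ) (Z : Matrix F F ℂ) (t : ℝ) : Matrix F F ℂ :=
  X h Z t - dg (fun i => Real.exp (h i))

/-- the normalisation -/
noncomputable def Nf (h : F → ℝ) (Z : Matrix F F ℂ) (t : ℝ) : ℝ := 1 + (Dl h Z t).trace.re

/-- relative entropy `D(A_t ‖ A)` -/
noncomputable def Rf (h : F → ℝ) (Z : Matrix F F ℂ) (t : ℝ) : ℝ :=
  t * ((X h Z t * Z).trace.re / Nf h Z t) - Real.log (Nf h Z t)

/-- the Kubo-Mori form (log-mean weights) -/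
noncomputable def KMe (h : F → ℝ) (Z : Matrix F F ℂ) : ℝ :=
  ∑ i, ∑ j, LMe (h i) (h j) * Complex.normSq (Z i j)

theorem X_zero (h : F → ℝ) (Z : Matrix F F ℂ) : X h Z 0 = dg (fun i => Real.exp (h i)) := by
  unfold X
  simp [exp_dg]

theorem Dl_zero (h : F → ℝ) (Z : Matrix F F ℂ) : Dl h Z 0 = 0 := by
  unfold Dl; rw [X_zero, sub_self]

theorem Nf_zero (h : F → ℝ) (Z : Matrix F F ℂ) : Nf h Z 0 = 1 := by
  unfold Nf; rw [Dl_zero]; simp

theorem Rf_zero (h : F → ℝ) (Z : Matrix F F ℂ) : Rf h Z 0 = 0 := by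
  unfold Rf; rw [Nf_zero]; simp

omit [DecidableEq F] in
theorem trace_mul_sum (A B : Matrix F F ℂ) : (A * B).trace = ∑ i, ∑ j, A i j * B j i := by
  simp [Matrix.trace, Matrix.mul_apply]

/-- derivative of `Re tr (X_t W)` at `0` -/
theorem hasDerivAt_XW (h : F → ℝ) (Z W : Matrix F F ℂ) :
    HasDerivAt (fun t : ℝ => (X h Z t * W).trace.re)
      (∑ i, ∑ j, LMe (h i) (h j) * (Z i j * W j i).re) 0 := by
  have h1 : HasDerivAt (fun t : ℝ => ∑ i, ∑ j, X h Z t i j * W j i)
      (∑ i, ∑ j, (Z i j * (LMe (h i) (h j) : ℂ)) * W j i) 0 := by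
    refine HasDerivAt.fun_sum fun i _ => HasDerivAt.fun_sum fun j _ => ?_
    exact (hasDerivAt_exp_entry h Z i j).mul_const (W j i)
  have h2 := (Complex.reCLM.hasFDerivAt (x := ∑ i, ∑ j, X h Z 0 i j * W j i)).comp_hasDerivAt (0:ℝ) h1
  have e1 : (fun t : ℝ => (X h Z t * W).trace.re) =
      (Complex.reCLM ∘ fun t : ℝ => ∑ i, ∑ j, X h Z t i j * W j i) := by
    funext t
    simp only [Function.comp, trace_mul_sum, Complex.reCLM_apply]
  rw [e1]
  refine h2.congr_deriv ?_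
  simp only [Complex.reCLM_apply, Complex.re_sum]
  refine Finset.sum_congr rfl fun i _ => Finset.sum_congr rfl fun j _ => ?_
  have : Z i j * (LMe (h i) (h j) : ℂ) * W j i = (LMe (h i) (h j) : ℂ) * (Z i j * W j i) := by ring
  rw [this, Complex.re_ofReal_mul]

/-- derivative of `Re tr (Δ_t W)` at `0` -/
theorem hasDerivAt_DlW (h : F → ℝ) (Z W : Matrix F F ℂ) :
    HasDerivAt (fun t : ℝ => (Dl h Z t * W).trace.re)
      (∑ i, ∑ j, LMe (h i) (h j) * (Z i j * W j i).re) 0 := by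
  have h1 := (hasDerivAt_XW h Z W).sub_const ((dg (fun i => Real.exp (h i)) * W).trace.re)
  refine h1.congr_of_eventuallyEq (Eventually.of_forall fun t => ?_)
  simp only [Dl, Matrix.sub_mul, Matrix.trace_sub, Complex.sub_re]

theorem hasDerivAt_Nf (h : F → ℝ) {Z : Matrix F F ℂ} (hZ : Z.IsHermitian) (t : ℝ) :
    HasDerivAt (Nf h Z) ((X h Z t * Z).trace.re) t := by
  have hH : (dg h : Matrix F F ℂ).IsHermitian := by
    unfold dg Matrix.IsHermitian
    rw [Matrix.diagonal_conjTranspose]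
    congr 1
    funext i
    simp
  have h1 := hasDerivAt_trace_exp hH hZ t
  have h2 := (Complex.reCLM.hasFDerivAt
    (x := (exp (dg h + (t:ℂ) • Z)).trace)).comp_hasDerivAt t h1
  have h3 := (h2.const_add (1:ℝ)).sub_const ((dg (fun i => Real.exp (h i)) : Matrix F F ℂ).trace.re)
  refine h3.congr_of_eventuallyEq (Eventually.of_forall fun s => ?_)
  simp only [Nf, Dl, X, Matrix.trace_sub, Complex.sub_re, Function.comp, Complex.reCLM_apply]
  ring

theorem Nf_pos_eventually (h : F → ℝ) {Z : Matrix F F ℂ} (hZ : Z.IsHermitian) :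
    ∀ᶠ t in 𝓝 (0:ℝ), 0 < Nf h Z t := by
  have h1 := (hasDerivAt_Nf h hZ 0).continuousAt
  have h2 : 0 < Nf h Z 0 := by rw [Nf_zero]; exact one_pos
  exact h1.eventually (lt_mem_nhds h2)

omit [Fintype F] [DecidableEq F] in
theorem herm_mul_re {Z : Matrix F F ℂ} (hZ : Z.IsHermitian) (i j : F) :
    (Z i j * Z j i).re = Complex.normSq (Z i j) := by
  have : Z j i = star (Z i j) := by
    have := hZ.apply i j
    rw [← this]; simp
  rw [this]
  rw [Complex.star_def, Complex.mul_conj]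
  simp

/-- derivative of `φ(t) = Re tr (X_t Z) / N_t` at `0` -/
theorem hasDerivAt_phi (h : F → ℝ) {Z : Matrix F F ℂ} (hZ : Z.IsHermitian) :
    HasDerivAt (fun t : ℝ => (X h Z t * Z).trace.re / Nf h Z t)
      (KMe h Z - ((X h Z 0 * Z).trace.re) ^ 2) 0 := by
  have h1 := hasDerivAt_XW h Z Z
  have h2 := hasDerivAt_Nf h hZ 0
  have h3 : Nf h Z 0 ≠ 0 := by rw [Nf_zero]; exact one_ne_zero
  refine (h1.div h2 h3).congr_deriv ?_
  rw [Nf_zero]
  have e1 : (∑ i, ∑ j, LMe (h i) (h j) * (Z i j * Z j i).re) = KMe h Z := by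
    unfold KMe
    refine Finset.sum_congr rfl fun i _ => Finset.sum_congr rfl fun j _ => ?_
    rw [herm_mul_re hZ]
  rw [e1]
  ring

theorem hasDerivAt_logNf (h : F → ℝ) {Z : Matrix F F ℂ} (hZ : Z.IsHermitian) :
    ∀ᶠ t in 𝓝 (0:ℝ), HasDerivAt (fun t => Real.log (Nf h Z t))
      ((X h Z t * Z).trace.re / Nf h Z t) t := by
  filter_upwards [Nf_pos_eventually h hZ] with t ht
  exact (hasDerivAt_Nf h hZ t).log ht.ne'

theorem logNf_zero (h : F → ℝ) (Z : Matrix F F ℂ) : Real.log (Nf h Z 0) = 0 := by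
  rw [Nf_zero, Real.log_one]

/-- second order expansion of the relative entropy -/
theorem Rf_tendsto (h : F → ℝ) {Z : Matrix F F ℂ} (hZ : Z.IsHermitian) :
    Tendsto (fun t => Rf h Z t / t ^ 2) (𝓝[≠] 0)
      (𝓝 ((KMe h Z - ((X h Z 0 * Z).trace.re) ^ 2) / 2)) :=
  taylor2' (ψ := fun t => Real.log (Nf h Z t)) (φ := fun t : ℝ => (X h Z t * Z).trace.re / Nf h Z t)
    (logNf_zero h Z) (hasDerivAt_logNf h hZ) (hasDerivAt_phi h hZ)

/-- second order expansion of the log partition function -/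
theorem logNf_tendsto (h : F → ℝ) {Z : Matrix F F ℂ} (hZ : Z.IsHermitian) :
    Tendsto (fun t => (Real.log (Nf h Z t) - t * (X h Z 0 * Z).trace.re) / t ^ 2) (𝓝[≠] 0)
      (𝓝 ((KMe h Z - ((X h Z 0 * Z).trace.re) ^ 2) / 2)) := by
  have h1 := taylor2 (ψ := fun t => Real.log (Nf h Z t))
    (φ := fun t : ℝ => (X h Z t * Z).trace.re / Nf h Z t)
    (logNf_zero h Z) (hasDerivAt_logNf h hZ) (hasDerivAt_phi h hZ)
  refine h1.congr fun t => ?_
  rw [Nf_zero, div_one]

/-- derivative of `D(A_t ‖ A)` at `0` vanishes -/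
theorem hasDerivAt_Rf (h : F → ℝ) {Z : Matrix F F ℂ} (hZ : Z.IsHermitian) :
    HasDerivAt (Rf h Z) 0 0 := by
  have h1 := (hasDerivAt_id (0:ℝ)).mul (hasDerivAt_phi h hZ)
  have h2 := (hasDerivAt_logNf h hZ).self_of_nhds
  refine (h1.sub h2).congr_deriv ?_
  simp

end objects

section core

variable {F G : Type*} [Fintype F] [DecidableEq F] [Fintype G] [DecidableEq G]

/-- **First variation.** -/
theorem EL (h : F → ℝ) (lam l0 : ℝ) (Λ : Matrix F F ℂ) (hΛ : Λ.IsHermitian)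
    (H : ∀ Z : Matrix F F ℂ, Z.IsHermitian → ∀ t : ℝ,
      0 ≤ ((Dl h Z t * Λ).trace.re - l0 * (Dl h Z t).trace.re) / Nf h Z t + lam * Rf h Z t) :
    Λ = (l0 : ℂ) • (1 : Matrix F F ℂ) := by
  set M : Matrix F F ℂ := Λ - (l0 : ℂ) • (1 : Matrix F F ℂ) with hM
  have hMh : M.IsHermitian := by
    rw [hM]
    refine hΛ.sub ?_
    unfold Matrix.IsHermitian
    rw [Matrix.conjTranspose_smul, Matrix.conjTranspose_one]
    simp
  -- the perturbation direction
  set Z : Matrix F F ℂ := Matrix.of fun i j => M i j * ((LMe (h i) (h j))⁻¹ : ℝ) with hZdef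
  have hZ : Z.IsHermitian := by
    ext i j
    rw [Matrix.conjTranspose_apply, hZdef]
    simp only [Matrix.of_apply]
    rw [star_mul', LMe_symm (h j) (h i), hMh.apply i j]
    simp
  have e1 : ∀ t, (Dl h Z t * Λ).trace.re - l0 * (Dl h Z t).trace.re = (Dl h Z t * M).trace.re := by
    intro t
    rw [hM, Matrix.mul_sub, Matrix.trace_sub, Complex.sub_re, Matrix.mul_smul, Matrix.mul_one,
      Matrix.trace_smul, smul_eq_mul, Complex.re_ofReal_mul]
  have hd1 := hasDerivAt_DlW h Z M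
  have hd2 := hasDerivAt_Nf h hZ 0
  have hd3 : Nf h Z 0 ≠ 0 := by rw [Nf_zero]; exact one_ne_zero
  have hd4 := (hd1.div hd2 hd3).add ((hasDerivAt_Rf h hZ).const_mul lam)
  have hmin : IsLocalMin (((fun t : ℝ => (Dl h Z t * M).trace.re) / Nf h Z) +
      fun t => lam * Rf h Z t) 0 := by
    refine Eventually.of_forall fun t => ?_
    have h0 : (((fun t : ℝ => (Dl h Z t * M).trace.re) / Nf h Z) + fun t => lam * Rf h Z t) 0 = 0 := by
      simp [Dl_zero, Rf_zero]
    rw [h0]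
    have := H Z hZ t
    rw [e1] at this
    exact this
  have hz := hmin.hasDerivAt_eq_zero hd4
  rw [Nf_zero, Dl_zero] at hz
  simp only [Matrix.trace_zero, Complex.zero_re, zero_mul, sub_zero, mul_one,
    one_pow, div_one, mul_zero, add_zero] at hz
  -- the derivative is `∑ |M i j|²`
  have e2 : ∀ i j, LMe (h i) (h j) * (Z i j * M j i).re = Complex.normSq (M i j) := by
    intro i j
    have hp := (LMe_pos (h i) (h j)).ne'
    have : Z i j * M j i = (((LMe (h i) (h j))⁻¹ : ℝ) : ℂ) * (M i j * M j i) := by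
      rw [hZdef]; simp only [Matrix.of_apply]; ring
    rw [this, Complex.re_ofReal_mul, herm_mul_re hMh, ← mul_assoc, mul_inv_cancel₀ hp, one_mul]
  simp_rw [e2] at hz
  have hM0 : M = 0 := by
    ext i j
    have h1 : ∀ i, 0 ≤ ∑ j, Complex.normSq (M i j) := fun i =>
      Finset.sum_nonneg fun j _ => Complex.normSq_nonneg _
    have h2 := (Finset.sum_eq_zero_iff_of_nonneg (fun i _ => h1 i)).1 hz i (Finset.mem_univ i)
    have h3 := (Finset.sum_eq_zero_iff_of_nonneg
      (fun j _ => Complex.normSq_nonneg (M i j))).1 h2 j (Finset.mem_univ j)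
    simpa using Complex.normSq_eq_zero.1 h3
  rw [hM, sub_eq_zero] at hM0
  exact hM0

/-- **Second variation.** -/
theorem SV (h : F → ℝ) (k : G → ℝ) (lam : ℝ) (hlam : 0 < lam)
    (Q : Matrix F F ℂ) (hQ : Q.IsHermitian) (Y : Matrix G G ℂ) (hY : Y.IsHermitian)
    (hY0 : (dg (fun i => Real.exp (k i)) * Y).trace.re = 0)
    (H : ∀ t s : ℝ, 0 ≤ - s * (Dl h Q t * Q).trace.re / Nf h Q t + Real.log (Nf k Y s) +
      lam * Rf h Q t) :
    KMe h Q ≤ lam * KMe k Y := by
  have hX0 : (X k Y 0 * Y).trace.re = 0 := by rw [X_zero, hY0]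
  -- limits after division by t^2, with s = lam * t
  have L1 : Tendsto (fun t => (Dl h Q t * Q).trace.re / Nf h Q t / t) (𝓝[≠] 0) (𝓝 (KMe h Q)) := by
    have hd1 := hasDerivAt_DlW h Q Q
    have hd2 := hasDerivAt_Nf h hQ 0
    have hd3 : Nf h Q 0 ≠ 0 := by rw [Nf_zero]; exact one_ne_zero
    have hd4 := hd1.div hd2 hd3
    rw [hasDerivAt_iff_tendsto_slope] at hd4
    rw [Nf_zero, Dl_zero] at hd4
    simp only [Matrix.trace_zero, Complex.zero_re, zero_mul, sub_zero, mul_one,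
      one_pow, div_one] at hd4
    have e1 : (∑ i, ∑ j, LMe (h i) (h j) * (Q i j * Q j i).re) = KMe h Q := by
      unfold KMe
      refine Finset.sum_congr rfl fun i _ => Finset.sum_congr rfl fun j _ => ?_
      rw [herm_mul_re hQ]
    rw [e1] at hd4
    refine hd4.congr' ?_
    filter_upwards [self_mem_nhdsWithin] with t ht
    rw [slope_def_field]
    simp [Dl_zero]
  have L2 : Tendsto (fun t => Real.log (Nf k Y (lam * t)) / t ^ 2) (𝓝[≠] 0)
      (𝓝 (lam ^ 2 * (KMe k Y / 2))) := by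
    have h1 := logNf_tendsto k hY
    rw [hX0] at h1
    simp only [mul_zero, sub_zero, ne_eq, OfNat.ofNat_ne_zero, not_false_eq_true, zero_pow] at h1
    have h2 : Tendsto (fun t : ℝ => lam * t) (𝓝[≠] 0) (𝓝[≠] 0) := by
      refine tendsto_nhdsWithin_iff.2 ⟨?_, ?_⟩
      · have : Tendsto (fun t : ℝ => lam * t) (𝓝 0) (𝓝 (lam * 0)) := (continuous_const_mul lam).tendsto 0
        rw [mul_zero] at this
        exact this.mono_left nhdsWithin_le_nhds
      · filter_upwards [self_mem_nhdsWithin] with t ht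
        exact mul_ne_zero hlam.ne' ht
    have h3 := (h1.comp h2).const_mul (lam ^ 2)
    refine h3.congr' ?_
    filter_upwards [self_mem_nhdsWithin] with t ht
    have ht' : t ≠ 0 := ht
    simp only [Function.comp]
    have := hlam.ne'
    field_simp
  have L3 := Rf_tendsto h hQ
  -- the combined limit
  have L4 : Tendsto (fun t => -lam * ((Dl h Q t * Q).trace.re / Nf h Q t / t) +
      Real.log (Nf k Y (lam * t)) / t ^ 2 + lam * (Rf h Q t / t ^ 2)) (𝓝[≠] 0)
      (𝓝 (-lam * KMe h Q + lam ^ 2 * (KMe k Y / 2) +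
        lam * ((KMe h Q - ((X h Q 0 * Q).trace.re) ^ 2) / 2))) :=
    ((L1.const_mul (-lam)).add L2).add (L3.const_mul lam)
  have hnn : ∀ᶠ t in 𝓝[≠] (0:ℝ), 0 ≤ -lam * ((Dl h Q t * Q).trace.re / Nf h Q t / t) +
      Real.log (Nf k Y (lam * t)) / t ^ 2 + lam * (Rf h Q t / t ^ 2) := by
    filter_upwards [self_mem_nhdsWithin] with t ht
    have ht' : t ≠ 0 := ht
    have h1 := H t (lam * t)
    have h2 : -lam * ((Dl h Q t * Q).trace.re / Nf h Q t / t) +
      Real.log (Nf k Y (lam * t)) / t ^ 2 + lam * (Rf h Q t / t ^ 2) =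
      (- (lam * t) * (Dl h Q t * Q).trace.re / Nf h Q t + Real.log (Nf k Y (lam * t)) +
      lam * Rf h Q t) / t ^ 2 := by
      by_cases hN : Nf h Q t = 0
      · rw [hN]; simp; field_simp
      · field_simp
    rw [h2]
    exact div_nonneg h1 (sq_nonneg t)
  have hfin := ge_of_tendsto L4 hnn
  have hsq := sq_nonneg ((X h Q 0 * Q).trace.re)
  have h5 : 0 ≤ lam * (lam * KMe k Y - KMe h Q) := by nlinarith
  have h6 := nonneg_of_mul_nonneg_right h5 hlam
  linarith

/-- **Core theorem.** Both variations from the one inequality. -/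
theorem core (h : F → ℝ) (k : G → ℝ) (lam : ℝ) (hlam : 0 < lam) (l0 : ℝ)
    (Λ : Matrix F F ℂ) (hΛ : Λ.IsHermitian)
    (P : Matrix G G ℂ → Matrix F F ℂ) (hP : ∀ Y, Y.IsHermitian → (P Y).IsHermitian)
    (H : ∀ Z : Matrix F F ℂ, Z.IsHermitian → ∀ Y : Matrix G G ℂ, Y.IsHermitian → ∀ t s : ℝ,
      0 ≤ ((Dl h Z t * Λ).trace.re - l0 * (Dl h Z t).trace.re) / Nf h Z t
        - s * ((dg (fun i => Real.exp (k i)) * Y).trace.re + (Dl h Z t * P Y).trace.re) / Nf h Z t
        + Real.log (Nf k Y s) + lam * Rf h Z t) :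
    Λ = (l0 : ℂ) • (1 : Matrix F F ℂ) ∧
    ∀ Y : Matrix G G ℂ, Y.IsHermitian → (dg (fun i => Real.exp (k i)) * Y).trace.re = 0 →
      KMe h (P Y) ≤ lam * KMe k Y := by
  have hEL : Λ = (l0 : ℂ) • (1 : Matrix F F ℂ) := by
    refine EL h lam l0 Λ hΛ fun Z hZ t => ?_
    have h1 := H Z hZ 0 (by simp [Matrix.IsHermitian]) t 0
    rw [logNf_zero] at h1
    simpa using h1
  refine ⟨hEL, fun Y hY hY0 => ?_⟩
  refine SV h k lam hlam (P Y) (hP Y hY) Y hY hY0 fun t s => ?_
  have h1 := H (P Y) (hP Y hY) Y hY t s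
  have e1 : (Dl h (P Y) t * Λ).trace.re - l0 * (Dl h (P Y) t).trace.re = 0 := by
    rw [hEL, Matrix.mul_smul, Matrix.mul_one, Matrix.trace_smul, smul_eq_mul, Complex.re_ofReal_mul,
      sub_self]
  rw [e1, hY0, zero_div, zero_add, zero_sub] at h1
  have e2 : -(s * (Dl h (P Y) t * P Y).trace.re / Nf h (P Y) t) =
      - s * (Dl h (P Y) t * P Y).trace.re / Nf h (P Y) t := by ring
  rw [e2] at h1
  exact h1

end core

end Crest.Agent.R331.Var839
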