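import Mathlib

/-!
# Row 331, leaf [VAR], part 1: trace-exponential calculus (helper376)

Duhamel formula in a Banach algebra and the second order expansion of
`t ↦ Tr exp (K + t Z)` and first order expansion of `t ↦ Tr (exp (K + t Z) W)`.
-/

set_option autoImplicit false

open MeasureTheory intervalIntegral

namespace Crest.Agent.R331.Var376

section Banach

variable {𝔸 : Type*} [NormedRing 𝔸] [NormedAlgebra ℝ 𝔸] [CompleteSpace 𝔸]

theorem exp_cont : Continuous (NormedSpace.exp : 𝔸 → 𝔸) := by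
  let _ : NormedAlgebra ℚ 𝔸 := NormedAlgebra.restrictScalars ℚ ℝ 𝔸
  exact NormedSpace.exp_continuous

/-- Duhamel. -/
theorem duhamel (x y : 𝔸) :
    NormedSpace.exp (x + y) - NormedSpace.exp x =
      ∫ u in (0:ℝ)..1, NormedSpace.exp ((1 - u) • x) * y * NormedSpace.exp (u • (x + y)) := by
  have hd : ∀ u ∈ Set.uIcc (0:ℝ) 1,
      HasDerivAt (fun u : ℝ => NormedSpace.exp ((1 - u) • x) * NormedSpace.exp (u • (x + y)))
        (NormedSpace.exp ((1 - u) • x) * y * NormedSpace.exp (u • (x + y))) u := by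
    intro u _
    have h1 : HasDerivAt (fun u : ℝ => NormedSpace.exp ((1 - u) • x))
        (-(NormedSpace.exp ((1 - u) • x) * x)) u := by
      have := (hasDerivAt_exp_smul_const (𝕂 := ℝ) x (1 - u)).scomp u
        ((hasDerivAt_const u (1:ℝ)).sub (hasDerivAt_id u))
      simpa [Function.comp_def] using this
    have h2 : HasDerivAt (fun u : ℝ => NormedSpace.exp (u • (x + y)))
        ((x + y) * NormedSpace.exp (u • (x + y))) u :=
      hasDerivAt_exp_smul_const' (𝕂 := ℝ) (x + y) u
    have h3 := h1.mul h2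
    refine HasDerivAt.congr_deriv h3 ?_
    generalize NormedSpace.exp ((1 - u) • x) = a
    generalize NormedSpace.exp (u • (x + y)) = b
    rw [add_mul, mul_add, neg_mul, mul_assoc, mul_assoc]
    abel
  have hc : Continuous fun u : ℝ =>
      NormedSpace.exp ((1 - u) • x) * y * NormedSpace.exp (u • (x + y)) := by
    have he : Continuous (NormedSpace.exp : 𝔸 → 𝔸) := exp_cont
    fun_prop
  have := integral_eq_sub_of_hasDerivAt hd (hc.intervalIntegrable _ _)
  rw [this]
  simp

/-- First order expansion of the exponential at an arbitrary point. -/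
theorem exp_first (K Z : 𝔸) : ∃ C : ℝ, 0 ≤ C ∧ ∀ t : ℝ, |t| ≤ 1 →
    ‖NormedSpace.exp (K + t • Z) - NormedSpace.exp K -
      t • ∫ u in (0:ℝ)..1, NormedSpace.exp ((1 - u) • K) * Z * NormedSpace.exp (u • K)‖
      ≤ C * t ^ 2 := by
  have he : Continuous (NormedSpace.exp : 𝔸 → 𝔸) := exp_cont
  -- bounds on compact sets
  obtain ⟨C0, hC0⟩ := (((isCompact_Icc (a := (-1:ℝ)) (b := 1)).prod
    ((isCompact_Icc (a := (0:ℝ)) (b := 1)).prod (isCompact_Icc (a := (0:ℝ)) (b := 1))))
      ).exists_bound_of_continuousOn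
    (f := fun p : ℝ × ℝ × ℝ => NormedSpace.exp ((1 - p.2.2) • (p.2.1 • K)) * Z *
      NormedSpace.exp (p.2.2 • (p.2.1 • (K + p.1 • Z)))) (by fun_prop)
  obtain ⟨C1, hC1⟩ := (isCompact_Icc (a := (0:ℝ)) (b := 1)).exists_bound_of_continuousOn
    (f := fun u : ℝ => NormedSpace.exp ((1 - u) • K) * Z) (by fun_prop)
  have hC0' : 0 ≤ C0 := le_trans (norm_nonneg _) (hC0 (0, 0, 0) (by simp))
  have hC1' : 0 ≤ C1 := le_trans (norm_nonneg _) (hC1 0 (by simp))
  refine ⟨C1 * C0, by positivity, fun t ht => ?_⟩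
  have ht' := abs_le.mp ht
  have key : ∀ u ∈ Set.Icc (0:ℝ) 1,
      ‖NormedSpace.exp (u • (K + t • Z)) - NormedSpace.exp (u • K)‖ ≤ C0 * |t| := by
    intro u hu
    have h := duhamel (u • K) ((u * t) • Z)
    have hs : u • K + (u * t) • Z = u • (K + t • Z) := by rw [smul_add, smul_smul]
    rw [hs] at h
    rw [h]
    have : ∀ v ∈ Set.uIoc (0:ℝ) 1,
        ‖NormedSpace.exp ((1 - v) • u • K) * (u * t) • Z *
          NormedSpace.exp (v • u • (K + t • Z))‖ ≤ C0 * |t| := by
      intro v hv
      rw [Set.uIoc_of_le zero_le_one] at hv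
      have := hC0 (t, u, v) ⟨⟨ht'.1, ht'.2⟩, hu, hv.1.le, hv.2⟩
      simp only at this
      rw [mul_smul_comm, smul_mul_assoc, norm_smul, Real.norm_eq_abs, abs_mul, abs_of_nonneg hu.1]
      calc u * |t| * ‖NormedSpace.exp ((1 - v) • u • K) * Z *
              NormedSpace.exp (v • u • (K + t • Z))‖
          ≤ 1 * |t| * C0 := by
            gcongr
            exact hu.2
        _ = C0 * |t| := by ring
    have h2 := norm_integral_le_of_norm_le_const this
    simpa using h2
  have hD := duhamel K (t • Z)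
  have e1 : NormedSpace.exp (K + t • Z) - NormedSpace.exp K -
      t • ∫ u in (0:ℝ)..1, NormedSpace.exp ((1 - u) • K) * Z * NormedSpace.exp (u • K)
      = ∫ u in (0:ℝ)..1, t • (NormedSpace.exp ((1 - u) • K) * Z *
          (NormedSpace.exp (u • (K + t • Z)) - NormedSpace.exp (u • K))) := by
    rw [hD, ← intervalIntegral.integral_smul, ← intervalIntegral.integral_sub]
    · congr 1
      ext u
      rw [mul_smul_comm, smul_mul_assoc, mul_sub, smul_sub]
    · apply Continuous.intervalIntegrable; fun_prop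
    · apply Continuous.intervalIntegrable; fun_prop
  rw [e1]
  have : ∀ u ∈ Set.uIoc (0:ℝ) 1,
      ‖t • (NormedSpace.exp ((1 - u) • K) * Z *
          (NormedSpace.exp (u • (K + t • Z)) - NormedSpace.exp (u • K)))‖ ≤ C1 * C0 * t ^ 2 := by
    intro u hu
    rw [Set.uIoc_of_le zero_le_one] at hu
    have hu' : u ∈ Set.Icc (0:ℝ) 1 := ⟨hu.1.le, hu.2⟩
    rw [norm_smul, Real.norm_eq_abs]
    calc |t| * ‖NormedSpace.exp ((1 - u) • K) * Z *
          (NormedSpace.exp (u • (K + t • Z)) - NormedSpace.exp (u • K))‖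
        ≤ |t| * (C1 * (C0 * |t|)) := by
          gcongr
          refine (norm_mul_le _ _).trans ?_
          gcongr
          · exact hC1 u hu'
          · exact key u hu'
      _ = C1 * C0 * t ^ 2 := by rw [← sq_abs t]; ring
  have h2 := norm_integral_le_of_norm_le_const this
  simpa using h2

/-- derivative of `t ↦ L (exp (K + t Z))` for a continuous linear functional. -/
theorem hasDerivAt_exp_line (K Z : 𝔸) (τ : ℝ) :
    HasDerivAt (fun t : ℝ => NormedSpace.exp (K + t • Z))
      (∫ u in (0:ℝ)..1, NormedSpace.exp ((1 - u) • (K + τ • Z)) * Z *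
        NormedSpace.exp (u • (K + τ • Z))) τ := by
  obtain ⟨C, hC, h⟩ := exp_first (K + τ • Z) Z
  rw [hasDerivAt_iff_isLittleO]
  have : (fun x' : ℝ => NormedSpace.exp (K + x' • Z) - NormedSpace.exp (K + τ • Z) -
      (x' - τ) • ∫ u in (0:ℝ)..1, NormedSpace.exp ((1 - u) • (K + τ • Z)) * Z *
        NormedSpace.exp (u • (K + τ • Z))) =O[nhds τ] fun x' => (x' - τ) ^ 2 := by
    apply Asymptotics.IsBigO.of_bound C
    have : ∀ᶠ x' in nhds τ, |x' - τ| ≤ 1 := by
      have := Metric.closedBall_mem_nhds τ (zero_lt_one' ℝ)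
      filter_upwards [this] with x hx
      simpa [Real.dist_eq] using hx
    filter_upwards [this] with x hx
    have := h (x - τ) hx
    have e : K + τ • Z + (x - τ) • Z = K + x • Z := by
      rw [add_assoc, ← add_smul]; congr 2; ring
    rw [e] at this
    simpa using this
  refine this.trans_isLittleO ?_
  have h3 : (fun x : ℝ => (x - τ) ^ 2) = fun x => (x - τ) * (x - τ) := by ext; ring
  rw [h3]
  have : (fun x : ℝ => (x - τ) * (x - τ)) =o[nhds τ] fun x => 1 * (x - τ) := by
    apply Asymptotics.IsLittleO.mul_isBigO _ (Asymptotics.isBigO_refl _ _)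
    rw [Asymptotics.isLittleO_one_iff]
    have : Filter.Tendsto (fun x : ℝ => x - τ) (nhds τ) (nhds (τ - τ)) :=
      (continuous_id.sub continuous_const).tendsto τ
    simpa using this
  simpa using this

theorem exp_first_L (L : 𝔸 →L[ℝ] ℂ) (K Z : 𝔸) : ∃ C : ℝ, 0 ≤ C ∧ ∀ t : ℝ, |t| ≤ 1 →
    ‖L (NormedSpace.exp (K + t • Z)) - L (NormedSpace.exp K) -
      t • ∫ u in (0:ℝ)..1, L (NormedSpace.exp ((1 - u) • K) * Z * NormedSpace.exp (u • K))‖
      ≤ C * t ^ 2 := by
  have he : Continuous (NormedSpace.exp : 𝔸 → 𝔸) := exp_cont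
  obtain ⟨C, hC, H⟩ := exp_first K Z
  refine ⟨‖L‖ * C, by positivity, fun t ht => ?_⟩
  have h1 := L.le_of_opNorm_le_of_le le_rfl (H t ht)
  rw [map_sub, map_sub, map_smul, ← ContinuousLinearMap.intervalIntegral_comp_comm] at h1
  · linarith
  · apply Continuous.intervalIntegrable
    fun_prop

theorem hasDerivAt_L (L : 𝔸 →L[ℝ] ℂ) (K Z : 𝔸) (τ : ℝ) :
    HasDerivAt (fun t : ℝ => L (NormedSpace.exp (K + t • Z)))
      (∫ u in (0:ℝ)..1, L (NormedSpace.exp ((1 - u) • (K + τ • Z)) * Z *
        NormedSpace.exp (u • (K + τ • Z)))) τ := by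
  have he : Continuous (NormedSpace.exp : 𝔸 → 𝔸) := exp_cont
  have h1 := L.hasFDerivAt.comp_hasDerivAt τ (hasDerivAt_exp_line K Z τ)
  rw [← ContinuousLinearMap.intervalIntegral_comp_comm] at h1
  · exact h1
  · apply Continuous.intervalIntegrable
    fun_prop

end Banach

section Mat

open scoped Matrix.Norms.Operator
open Matrix

variable {F : Type*} [Fintype F] [DecidableEq F]

/-- logarithmic mean of `exp x` and `exp y`. -/
noncomputable def lme (x y : ℝ) : ℝ := ∫ u in (0:ℝ)..1, Real.exp ((1 - u) * x + u * y)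

/-- real diagonal matrix -/
noncomputable def dg (h : F → ℝ) : Matrix F F ℂ := Matrix.diagonal (fun i => (h i : ℂ))

/-- the Kubo-Mori form (bilinear, in the eigenbasis of `exp (dg h)`). -/
noncomputable def MF (h : F → ℝ) (Z W : Matrix F F ℂ) : ℂ :=
  ∑ i, ∑ j, Z i j * W j i * (lme (h i) (h j) : ℂ)

theorem exp_smul_dg (h : F → ℝ) (u : ℝ) :
    NormedSpace.exp (u • dg h) = Matrix.diagonal (fun i => (Real.exp (u * h i) : ℂ)) := by
  have : u • dg h = Matrix.diagonal (fun i => ((u * h i : ℝ) : ℂ)) := by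
    ext i j
    simp only [dg, Matrix.smul_apply, Matrix.diagonal_apply]
    split_ifs <;> simp
  rw [this, Matrix.exp_diagonal]
  congr 1
  ext i
  rw [Pi.coe_exp]
  simp only [Complex.ofReal_exp]
  rw [← Complex.exp_eq_exp_ℂ]

theorem exp_dg (h : F → ℝ) :
    NormedSpace.exp (dg h) = Matrix.diagonal (fun i => (Real.exp (h i) : ℂ)) := by
  have := exp_smul_dg h 1
  simpa using this

theorem cont_exp_smul (X : Matrix F F ℂ) :
    Continuous fun u : ℝ => NormedSpace.exp (u • X) := by
  have he : Continuous (NormedSpace.exp : Matrix F F ℂ → Matrix F F ℂ) := exp_cont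
  fun_prop

theorem trace_exp_first (h : F → ℝ) (Z W : Matrix F F ℂ) :
    ∃ C : ℝ, 0 ≤ C ∧ ∀ t : ℝ, |t| ≤ 1 →
      ‖(NormedSpace.exp (dg h + t • Z) * W).trace - (NormedSpace.exp (dg h) * W).trace
        - t * MF h Z W‖ ≤ C * t ^ 2 := by
  obtain ⟨C, hC, H⟩ := exp_first_L (𝔸 := Matrix F F ℂ) (LinearMap.toContinuousLinearMap
    { toFun := fun X => (X * W).trace
      map_add' := fun X Y => by rw [add_mul, Matrix.trace_add]
      map_smul' := fun c X => by simp [Matrix.trace_smul] }) (dg h) Z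
  refine ⟨C, by positivity, fun t ht => ?_⟩
  have h1 : ‖(NormedSpace.exp (dg h + t • Z) * W).trace - (NormedSpace.exp (dg h) * W).trace -
        t • ∫ (u : ℝ) in (0:ℝ)..1, (NormedSpace.exp ((1 - u) • dg h) * Z *
          NormedSpace.exp (u • dg h) * W).trace‖ ≤ C * t ^ 2 := H t ht
  have e : ∫ u in (0:ℝ)..1, (NormedSpace.exp ((1 - u) • dg h) * Z *
      NormedSpace.exp (u • dg h) * W).trace = MF h Z W := by
    have : ∀ u : ℝ, (NormedSpace.exp ((1 - u) • dg h) * Z * NormedSpace.exp (u • dg h)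
        * W).trace = ∑ i, ∑ j, Z i j * W j i * (Real.exp ((1 - u) * h i + u * h j) : ℂ) := by
      intro u
      rw [exp_smul_dg, exp_smul_dg, Matrix.trace]
      apply Finset.sum_congr rfl
      intro i _
      rw [Matrix.diag_apply, Matrix.mul_apply]
      apply Finset.sum_congr rfl
      intro j _
      rw [Matrix.mul_diagonal, Matrix.diagonal_mul, Real.exp_add]
      push_cast
      ring
    simp_rw [this]
    rw [intervalIntegral.integral_finsetSum]
    · unfold MF
      apply Finset.sum_congr rfl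
      intro i _
      rw [intervalIntegral.integral_finsetSum]
      · apply Finset.sum_congr rfl
        intro j _
        rw [intervalIntegral.integral_const_mul]
        congr 1
        unfold lme
        rw [← intervalIntegral.integral_ofReal]
      · intro j _
        apply Continuous.intervalIntegrable
        fun_prop
    · intro i _
      apply Continuous.intervalIntegrable
      fun_prop
  rw [e] at h1
  simpa using h1

theorem hasDerivAt_trace_exp (K Z : Matrix F F ℂ) (τ : ℝ) :
    HasDerivAt (fun t : ℝ => (NormedSpace.exp (K + t • Z)).trace)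
      ((NormedSpace.exp (K + τ • Z) * Z).trace) τ := by
  have h1 := hasDerivAt_L (𝔸 := Matrix F F ℂ) (LinearMap.toContinuousLinearMap
    { toFun := fun X => X.trace
      map_add' := fun X Y => by rw [Matrix.trace_add]
      map_smul' := fun c X => by simp [Matrix.trace_smul] }) K Z τ
  replace h1 : HasDerivAt (fun t : ℝ => (NormedSpace.exp (K + t • Z)).trace)
      (∫ u in (0:ℝ)..1, (NormedSpace.exp ((1 - u) • (K + τ • Z)) * Z *
        NormedSpace.exp (u • (K + τ • Z))).trace) τ := h1
  have e : ∀ u : ℝ, (NormedSpace.exp ((1 - u) • (K + τ • Z)) * Z *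
      NormedSpace.exp (u • (K + τ • Z))).trace = (NormedSpace.exp (K + τ • Z) * Z).trace := by
    intro u
    rw [Matrix.trace_mul_comm, ← mul_assoc]
    congr 2
    have hcomm : Commute (u • (K + τ • Z)) ((1 - u) • (K + τ • Z)) :=
      ((Commute.refl (K + τ • Z)).smul_left u).smul_right (1 - u)
    rw [← Matrix.exp_add_of_commute _ _ hcomm, ← add_smul]
    simp
  simp_rw [e] at h1
  simpa only [intervalIntegral.integral_const, sub_zero, one_smul] using h1

theorem trace_exp_second (h : F → ℝ) (Z : Matrix F F ℂ) :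
    ∃ C : ℝ, 0 ≤ C ∧ ∀ t : ℝ, |t| ≤ 1 →
      ‖(NormedSpace.exp (dg h + t • Z)).trace - (NormedSpace.exp (dg h)).trace
        - t * (NormedSpace.exp (dg h) * Z).trace - t ^ 2 / 2 * MF h Z Z‖ ≤ C * |t| ^ 3 := by
  obtain ⟨C, hC, H⟩ := trace_exp_first h Z Z
  refine ⟨C, hC, fun t ht => ?_⟩
  set f : ℝ → ℂ := fun t => (NormedSpace.exp (dg h + t • Z)).trace
    - t * (NormedSpace.exp (dg h) * Z).trace - t ^ 2 / 2 * MF h Z Z with hf
  have hd : ∀ s : ℝ, HasDerivAt f ((NormedSpace.exp (dg h + s • Z) * Z).trace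
      - (NormedSpace.exp (dg h) * Z).trace - s * MF h Z Z) s := by
    intro s
    have h1 := hasDerivAt_trace_exp (dg h) Z s
    have h2 : HasDerivAt (fun t : ℝ => (t:ℂ)) 1 s := Complex.ofRealCLM.hasDerivAt
    have h3 := (h1.sub (h2.mul_const ((NormedSpace.exp (dg h) * Z).trace))).sub
      (((h2.pow 2).div_const 2).mul_const (MF h Z Z))
    refine HasDerivAt.congr_deriv h3 ?_
    simp
  have h0 : f 0 = (NormedSpace.exp (dg h)).trace := by simp [hf]
  have hb : ∀ s ∈ Set.uIcc 0 t, ‖(NormedSpace.exp (dg h + s • Z) * Z).trace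
      - (NormedSpace.exp (dg h) * Z).trace - s * MF h Z Z‖ ≤ C * t ^ 2 := by
    intro s hs
    have hst : |s| ≤ |t| := by
      rcases le_total 0 t with h | h
      · rw [Set.uIcc_of_le h] at hs
        rw [abs_of_nonneg hs.1, abs_of_nonneg h]; exact hs.2
      · rw [Set.uIcc_of_ge h] at hs
        rw [abs_of_nonpos hs.2, abs_of_nonpos h]; linarith [hs.1]
    refine (H s (hst.trans ht)).trans ?_
    have : s ^ 2 ≤ t ^ 2 := sq_le_sq.mpr hst
    gcongr
  have h5 := (convex_uIcc 0 t).norm_image_sub_le_of_norm_hasDerivWithin_le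
    (f := f) (fun s hs => (hd s).hasDerivWithinAt) hb (Set.left_mem_uIcc) (Set.right_mem_uIcc)
  rw [h0] at h5
  have e5 : f t - (NormedSpace.exp (dg h)).trace = (NormedSpace.exp (dg h + t • Z)).trace
      - (NormedSpace.exp (dg h)).trace - t * (NormedSpace.exp (dg h) * Z).trace
      - t ^ 2 / 2 * MF h Z Z := by
    simp only [hf]; ring
  rw [e5, sub_zero, Real.norm_eq_abs] at h5
  refine h5.trans (le_of_eq ?_)
  rw [← sq_abs t]; ring

end Mat

end Crest.Agent.R331.Var376
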